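import Crest.Agent.R241.KDefs

/-! Row 241, block M (helper76): derivatives within a measurable set, the Jacobian determinant is a
null Lagrangian, weak continuity of the Jacobian determinant. -/

set_option autoImplicit false
open MeasureTheory Filter Topology Set
open Crest.GeometryTopology.Submanifold (Euc)

namespace Crest.Agent.R241

variable {k : ℕ}

/-- Jacobian determinant within `E` of a tuple of scalar functions. -/
noncomputable def jdW (E : Set (Euc k)) (u : Fin k → Euc k → ℝ) (z : Euc k) : ℝ :=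
  (Matrix.of fun i => cv (fderivWithin ℝ (u i) E z)).det

/-- Jacobian determinant of a tuple of scalar functions. -/
noncomputable def jd (u : Fin k → Euc k → ℝ) (z : Euc k) : ℝ :=
  (Matrix.of fun i => cv (fderiv ℝ (u i) z)).det

theorem jdW_dv {X : Type*} (E : Set (Euc k)) (φ : Euc k → X) (π : Fin k → X → ℝ) (z : Euc k) :
    (Matrix.of fun i => dv E φ (π i) z).det = jdW E (fun i w => π i (φ w)) z := rfl

/-- Almost every point of `E` is a point of unique differentiability. -/
theorem ae_uniqueDiffWithinAt (E : Set (Euc k)) :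
    ∀ᵐ z ∂(volume.restrict E), UniqueDiffWithinAt ℝ E z := by
  filter_upwards [Besicovitch.ae_tendsto_measure_inter_div volume E] with z hz
  have key : ∀ v : Euc k, ∀ n : ℕ, ∃ r : ℝ, 0 < r ∧ r < 1 / ((n : ℝ) + 1) ∧
      ∃ w : Euc k, dist w v < 1 / ((n : ℝ) + 1) ∧ z + r • w ∈ E := by
    intro v n
    have hp : (0 : ℝ) < 1 / ((n : ℝ) + 1) := by positivity
    have h1 := Measure.eventually_nonempty_inter_smul_of_density_one volume E z hz
      (Metric.ball v (1 / ((n : ℝ) + 1))) measurableSet_ball (Metric.measure_ball_pos _ _ hp).ne'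
    obtain ⟨r, ⟨y, hyE, hy⟩, hr⟩ := (h1.and (Ioo_mem_nhdsGT hp)).exists
    obtain ⟨a, ha, b, ⟨w, hw, rfl⟩, rfl⟩ := hy
    rw [mem_singleton_iff] at ha
    subst ha
    exact ⟨r, hr.1, hr.2, w, hw, hyE⟩
  have lim : ∀ v : Euc k, ∃ (r : ℕ → ℝ) (w : ℕ → Euc k), (∀ n, 0 < r n) ∧
      Tendsto w atTop (𝓝 v) ∧ Tendsto (fun n => r n • w n) atTop (𝓝 0) ∧
      ∀ n, z + r n • w n ∈ E := by
    intro v
    choose r hr0 hr1 w hw hE using key v
    have hw' : Tendsto w atTop (𝓝 v) := by
      rw [tendsto_iff_dist_tendsto_zero]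
      exact squeeze_zero (fun _ => dist_nonneg) (fun n => (hw n).le)
        tendsto_one_div_add_atTop_nhds_zero_nat
    have hr' : Tendsto r atTop (𝓝 0) :=
      squeeze_zero (fun n => (hr0 n).le) (fun n => (hr1 n).le)
        tendsto_one_div_add_atTop_nhds_zero_nat
    exact ⟨r, w, hr0, hw', by simpa using hr'.smul hw', hE⟩
  refine ⟨?_, ?_⟩
  · have : tangentConeAt ℝ E z = univ := by
      refine eq_univ_of_forall fun v => ?_
      obtain ⟨r, w, hr0, hw, hd, hE⟩ := lim v
      refine mem_tangentConeAt_of_seq atTop (fun n => (r n)⁻¹) (fun n => r n • w n) hd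
        (.of_forall hE) ?_
      refine hw.congr fun n => ?_
      rw [smul_smul, inv_mul_cancel₀ (hr0 n).ne', one_smul]
    rw [this]
    simp
  · obtain ⟨r, w, -, -, hd, hE⟩ := lim 0
    exact mem_closure_of_tendsto (by simpa using hd.const_add z) (.of_forall hE)

/-- The derivative within `E` is the derivative of any Lipschitz extension. -/
theorem ae_fderivWithin_eq {F : Type*} [NormedAddCommGroup F] [NormedSpace ℝ F]
    [FiniteDimensional ℝ F] {E : Set (Euc k)} (hE : MeasurableSet E) {u v : Euc k → F}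
    {C : NNReal} (hv : LipschitzWith C v) (huv : EqOn u v E) :
    ∀ᵐ z ∂(volume.restrict E), HasFDerivWithinAt u (fderiv ℝ v z) E z ∧
      fderivWithin ℝ u E z = fderiv ℝ v z := by
  filter_upwards [ae_uniqueDiffWithinAt E, ae_restrict_of_ae (hv.ae_differentiableAt (μ := volume)),
    ae_restrict_mem hE] with z h1 h2 h3
  have h := (h2.hasFDerivAt.hasFDerivWithinAt (s := E)).congr huv (huv h3)
  exact ⟨h, h.fderivWithin h1⟩

theorem ae_norm_fderivWithin_le_real {E : Set (Euc k)} (hE : MeasurableSet E) {u : Euc k → ℝ}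
    {C : NNReal} (hu : LipschitzOnWith C u E) :
    ∀ᵐ z ∂(volume.restrict E), ‖fderivWithin ℝ u E z‖ ≤ C := by
  obtain ⟨v, hv, huv⟩ := hu.extend_real
  filter_upwards [ae_fderivWithin_eq hE hv huv] with z hz
  rw [hz.2]
  exact norm_fderiv_le_of_lipschitz ℝ hv

theorem aestronglyMeasurable_fderivWithin {E : Set (Euc k)} (hE : MeasurableSet E)
    {u : Euc k → ℝ} {C : NNReal} (hu : LipschitzOnWith C u E) :
    AEStronglyMeasurable (fderivWithin ℝ u E) (volume.restrict E) := by
  obtain ⟨v, hv, huv⟩ := hu.extend_real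
  refine (measurable_fderiv ℝ v).aestronglyMeasurable.congr ?_
  filter_upwards [ae_fderivWithin_eq hE hv huv] with z hz
  exact hz.2.symm

theorem abs_cv_le (a : Euc k →L[ℝ] ℝ) (j : Fin k) : |cv a j| ≤ ‖a‖ := by
  have := a.le_opNorm (EuclideanSpace.single j (1 : ℝ))
  simpa [cv] using this

theorem abs_det_le_prod (M : Matrix (Fin k) (Fin k) ℝ) (C : Fin k → ℝ)
    (h : ∀ i j, |M i j| ≤ C i) : |M.det| ≤ (k.factorial : ℝ) * ∏ i, C i := by
  rw [← Matrix.det_transpose, Matrix.det_apply']
  refine (Finset.abs_sum_le_sum_abs _ _).trans ?_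
  have : ∀ σ : Equiv.Perm (Fin k),
      |((Equiv.Perm.sign σ : ℤ) : ℝ) * ∏ i, M.transpose (σ i) i| ≤ ∏ i, C i := by
    intro σ
    have h1 : |((Equiv.Perm.sign σ : ℤ) : ℝ)| = 1 := by
      rcases Int.units_eq_one_or (Equiv.Perm.sign σ) with h | h <;> simp [h]
    rw [abs_mul, h1, one_mul, Finset.abs_prod]
    exact Finset.prod_le_prod (fun i _ => abs_nonneg _) fun i _ => h i _
  refine (Finset.sum_le_sum fun σ _ => this σ).trans ?_
  simp [Fintype.card_perm]

theorem measurable_jd (u : Fin k → Euc k → ℝ) : Measurable (jd u) :=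
  measurable_det fun i _ => measurable_fderiv_apply_const ℝ (u i) _

theorem abs_jd_le {u : Fin k → Euc k → ℝ} {C : Fin k → NNReal}
    (hu : ∀ i, LipschitzWith (C i) (u i)) (z : Euc k) :
    |jd u z| ≤ (k.factorial : ℝ) * ∏ i, (C i : ℝ) :=
  abs_det_le_prod _ _ fun i j => (abs_cv_le _ j).trans (norm_fderiv_le_of_lipschitz ℝ (hu i))

theorem ae_jdW_eq {E : Set (Euc k)} (hE : MeasurableSet E) {u v : Fin k → Euc k → ℝ}
    (hv : ∀ i, ∃ C, LipschitzWith C (v i)) (huv : ∀ i, EqOn (u i) (v i) E) :
    ∀ᵐ z ∂(volume.restrict E), jdW E u z = jd v z := by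
  have : ∀ i, ∀ᵐ z ∂(volume.restrict E), fderivWithin ℝ (u i) E z = fderiv ℝ (v i) z := by
    intro i
    obtain ⟨C, hC⟩ := hv i
    filter_upwards [ae_fderivWithin_eq hE hC (huv i)] with z hz using hz.2
  filter_upwards [ae_all_iff.2 this] with z hz
  simp only [jdW, jd, hz]

theorem aestronglyMeasurable_jdW {E : Set (Euc k)} (hE : MeasurableSet E)
    {u : Fin k → Euc k → ℝ} (hu : ∀ i, ∃ C, LipschitzOnWith C (u i) E) :
    AEStronglyMeasurable (jdW E u) (volume.restrict E) := by
  choose C hC using hu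
  choose v hv huv using fun i => (hC i).extend_real
  exact (measurable_jd v).aestronglyMeasurable.congr
    ((ae_jdW_eq hE (fun i => ⟨_, hv i⟩) huv).mono fun z hz => hz.symm)

theorem ae_abs_jdW_le {E : Set (Euc k)} (hE : MeasurableSet E) {u : Fin k → Euc k → ℝ}
    {C : Fin k → NNReal} (hu : ∀ i, LipschitzOnWith (C i) (u i) E) :
    ∀ᵐ z ∂(volume.restrict E), |jdW E u z| ≤ (k.factorial : ℝ) * ∏ i, (C i : ℝ) := by
  choose v hv huv using fun i => (hu i).extend_real
  filter_upwards [ae_jdW_eq hE (fun i => ⟨_, hv i⟩) huv] with z hz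
  rw [hz]
  exact abs_jd_le hv z

theorem integrableOn_mul_jdW {E : Set (Euc k)} (hE : MeasurableSet E) {g : Euc k → ℝ}
    (hg : IntegrableOn g E) {u : Fin k → Euc k → ℝ} (hu : ∀ i, ∃ C, LipschitzOnWith C (u i) E) :
    IntegrableOn (fun z => g z * jdW E u z) E := by
  have hm := aestronglyMeasurable_jdW hE hu
  choose C hC using hu
  exact Integrable.mul_bdd hg hm (ae_abs_jdW_le hE hC)

theorem md_int_dir {F : Euc k → ℝ} (hF : ContDiff ℝ 1 F) (hc : HasCompactSupport F) (v : Euc k) :
    ∫ z, fderiv ℝ F z v = 0 := by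
  have hi : Integrable fun z => fderiv ℝ F z v :=
    ((hF.continuous_fderiv one_ne_zero).clm_apply continuous_const).integrable_of_hasCompactSupport
      (hc.fderiv_apply ℝ v)
  have := integral_mul_fderiv_eq_neg_fderiv_mul_of_integrable (μ := (volume : Measure (Euc k)))
    (f := fun _ => (1 : ℝ)) (g := F) (v := v) (by simp) (by simpa using hi)
    (by simpa using hF.continuous.integrable_of_hasCompactSupport hc)
    (fun _ _ => differentiableAt_const _) (fun x _ => hF.differentiable one_ne_zero x)
  simpa using this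

theorem md_jd_eq (u : Fin k → Euc k → ℝ) (i₀ : Fin k) (z : Euc k) :
    jd u z = ∑ σ : Equiv.Perm (Fin k), ((Equiv.Perm.sign σ : ℤ) : ℝ) *
      (fderiv ℝ (u i₀) z (EuclideanSpace.single (σ i₀) 1) *
        ∏ i ∈ Finset.univ.erase i₀, fderiv ℝ (u i) z (EuclideanSpace.single (σ i) 1)) := by
  rw [jd, ← Matrix.det_transpose, Matrix.det_apply']
  refine Finset.sum_congr rfl fun σ _ => ?_
  rw [Finset.mul_prod_erase Finset.univ
    (fun i => fderiv ℝ (u i) z (EuclideanSpace.single (σ i) 1)) (Finset.mem_univ i₀)]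
  rfl

theorem md_piola {u : Fin k → Euc k → ℝ} (hu : ∀ i, ContDiff ℝ 2 (u i)) (i₀ : Fin k) (z : Euc k) :
    ∑ σ : Equiv.Perm (Fin k), ((Equiv.Perm.sign σ : ℤ) : ℝ) *
      fderiv ℝ (fun y => ∏ i ∈ Finset.univ.erase i₀,
        fderiv ℝ (u i) y (EuclideanSpace.single (σ i) 1)) z (EuclideanSpace.single (σ i₀) 1) = 0 := by
  have hd : ∀ i, DifferentiableAt ℝ (fderiv ℝ (u i)) z := fun i =>
    (((hu i).fderiv_right (m := 1) (by norm_num)).differentiable one_ne_zero) z
  have h1 : ∀ i (v w : Euc k), fderiv ℝ (fun y => fderiv ℝ (u i) y v) z w =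
      fderiv ℝ (fderiv ℝ (u i)) z w v := by
    intro i v w
    rw [fderiv_clm_apply (hd i) (differentiableAt_const _)]
    simp
  have h2 : ∀ σ : Equiv.Perm (Fin k), fderiv ℝ (fun y => ∏ i ∈ Finset.univ.erase i₀,
        fderiv ℝ (u i) y (EuclideanSpace.single (σ i) 1)) z (EuclideanSpace.single (σ i₀) 1) =
      ∑ l ∈ Finset.univ.erase i₀, (∏ i ∈ (Finset.univ.erase i₀).erase l,
        fderiv ℝ (u i) z (EuclideanSpace.single (σ i) 1)) *
        fderiv ℝ (fderiv ℝ (u l)) z (EuclideanSpace.single (σ i₀) 1)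
          (EuclideanSpace.single (σ l) 1) := by
    intro σ
    rw [fderiv_finsetProd fun i _ => (hd i).clm_apply (differentiableAt_const _)]
    simp only [sum_apply, smul_apply, smul_eq_mul, h1]
  simp only [h2, Finset.mul_sum]
  rw [Finset.sum_comm]
  refine Finset.sum_eq_zero fun l hl => ?_
  have hl' : i₀ ≠ l := (Finset.ne_of_mem_erase hl).symm
  have hs := ((hu l).contDiffAt (x := z)).isSymmSndFDerivAt (by simp)
  set T : Equiv.Perm (Fin k) → ℝ := fun σ => ((Equiv.Perm.sign σ : ℤ) : ℝ) *
    ((∏ i ∈ (Finset.univ.erase i₀).erase l, fderiv ℝ (u i) z (EuclideanSpace.single (σ i) 1)) *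
      fderiv ℝ (fderiv ℝ (u l)) z (EuclideanSpace.single (σ i₀) 1)
        (EuclideanSpace.single (σ l) 1)) with hT
  have h3 : ∀ σ, T (σ * Equiv.swap i₀ l) = -T σ := by
    intro σ
    have h4 : ∏ i ∈ (Finset.univ.erase i₀).erase l,
        fderiv ℝ (u i) z (EuclideanSpace.single ((σ * Equiv.swap i₀ l) i) 1) =
        ∏ i ∈ (Finset.univ.erase i₀).erase l,
          fderiv ℝ (u i) z (EuclideanSpace.single (σ i) 1) := by
      refine Finset.prod_congr rfl fun i hi => ?_
      rw [Equiv.Perm.mul_apply, Equiv.swap_apply_of_ne_of_ne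
        (Finset.ne_of_mem_erase (Finset.mem_of_mem_erase hi)) (Finset.ne_of_mem_erase hi)]
    simp only [hT]
    rw [h4, Equiv.Perm.sign_mul, Equiv.Perm.sign_swap hl', Equiv.Perm.mul_apply,
      Equiv.Perm.mul_apply, Equiv.swap_apply_left, Equiv.swap_apply_right,
      hs.eq (EuclideanSpace.single (σ l) 1)]
    simp
  have h5 := Equiv.sum_comp (Equiv.mulRight (Equiv.swap i₀ l)) T
  simp only [Equiv.coe_mulRight, h3, Finset.sum_neg_distrib] at h5
  linarith

theorem md_nl_smooth {u : Fin k → Euc k → ℝ} (hu : ∀ i, ContDiff ℝ 2 (u i)) {i₀ : Fin k}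
    (hc : HasCompactSupport (u i₀)) : ∫ z, jd u z = 0 := by
  set P : Equiv.Perm (Fin k) → Euc k → ℝ := fun σ y => ∏ i ∈ Finset.univ.erase i₀,
    fderiv ℝ (u i) y (EuclideanSpace.single (σ i) 1) with hP
  have hP1 : ∀ σ, ContDiff ℝ 1 (P σ) := fun σ => contDiff_prod fun i _ =>
    ((hu i).fderiv_right (m := 1) (by norm_num)).clm_apply contDiff_const
  have hu1 : ContDiff ℝ 1 (u i₀) := (hu i₀).of_le (by norm_num)
  have hF : ∀ σ, ContDiff ℝ 1 fun y => u i₀ y * P σ y := fun σ => hu1.mul (hP1 σ)
  have hFc : ∀ σ, HasCompactSupport fun y => u i₀ y * P σ y := fun σ => hc.mul_right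
  have h1 : ∀ z, jd u z = ∑ σ : Equiv.Perm (Fin k), ((Equiv.Perm.sign σ : ℤ) : ℝ) *
      fderiv ℝ (fun y => u i₀ y * P σ y) z (EuclideanSpace.single (σ i₀) 1) := by
    intro z
    have h2 : ∀ σ : Equiv.Perm (Fin k),
        fderiv ℝ (fun y => u i₀ y * P σ y) z (EuclideanSpace.single (σ i₀) 1) =
        u i₀ z * fderiv ℝ (P σ) z (EuclideanSpace.single (σ i₀) 1) +
          fderiv ℝ (u i₀) z (EuclideanSpace.single (σ i₀) 1) * P σ z := by
      intro σ
      rw [fderiv_fun_mul (hu1.differentiable one_ne_zero z) ((hP1 σ).differentiable one_ne_zero z)]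
      simp [mul_comm]
    simp only [h2, mul_add, Finset.sum_add_distrib]
    have h3 := md_piola hu i₀ z
    rw [md_jd_eq u i₀ z]
    have h4 : ∑ σ : Equiv.Perm (Fin k), ((Equiv.Perm.sign σ : ℤ) : ℝ) *
        (u i₀ z * fderiv ℝ (P σ) z (EuclideanSpace.single (σ i₀) 1)) = 0 := by
      rw [← mul_zero (u i₀ z), ← h3, Finset.mul_sum]
      exact Finset.sum_congr rfl fun σ _ => by ring
    rw [h4, zero_add]
  simp only [h1]
  rw [integral_finsetSum]
  · refine Finset.sum_eq_zero fun σ _ => ?_
    rw [integral_const_mul, md_int_dir (hF σ) (hFc σ), mul_zero]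
  · intro σ _
    exact ((((hF σ).continuous_fderiv one_ne_zero).clm_apply
      continuous_const).integrable_of_hasCompactSupport ((hFc σ).fderiv_apply ℝ _)).const_mul _

open scoped Convolution in
theorem md_moll_fderiv {K : NNReal} {W : Euc k → ℝ} (hW : LipschitzWith K W)
    (φ : ContDiffBump (0 : Euc k)) (x : Euc k) :
    fderiv ℝ (φ.normed volume ⋆[ContinuousLinearMap.lsmul ℝ ℝ, volume] W) x =
      (φ.normed volume ⋆[ContinuousLinearMap.lsmul ℝ ℝ, volume] fderiv ℝ W) x := by
  have hc : ∀ y : Euc k, Continuous fun a => φ.normed volume a • W (y - a) := fun y =>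
    φ.continuous_normed.smul (hW.continuous.comp (continuous_const.sub continuous_id))
  have hd : ∀ᵐ a : Euc k, DifferentiableAt ℝ W (x - a) :=
    (Measure.measurePreserving_sub_left volume x).quasiMeasurePreserving.ae
      hW.ae_differentiableAt
  refine (hasFDerivAt_integral_of_dominated_loc_of_lip' (μ := volume) (s := univ)
    (F := fun y a => φ.normed volume a • W (y - a))
    (F' := fun a => φ.normed volume a • fderiv ℝ W (x - a))
    (bound := fun a => φ.normed volume a * K) univ_mem
    (fun y _ => (hc y).aestronglyMeasurable)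
    ((hc x).integrable_of_hasCompactSupport φ.hasCompactSupport_normed.smul_right) ?_
    (.of_forall fun a y _ => ?_) (φ.integrable_normed.mul_const _) ?_).2.fderiv
  · exact φ.continuous_normed.aestronglyMeasurable.smul
      ((measurable_fderiv ℝ W).comp (measurable_const.sub measurable_id)).aestronglyMeasurable
  · rw [← smul_sub, norm_smul, Real.norm_of_nonneg (φ.nonneg_normed a), mul_assoc]
    refine mul_le_mul_of_nonneg_left ?_ (φ.nonneg_normed a)
    simpa using hW.norm_sub_le (y - a) (x - a)
  · filter_upwards [hd] with a ha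
    have := (ha.hasFDerivAt.comp x ((hasFDerivAt_id x).sub_const a)).const_smul (φ.normed volume a)
    rw [ContinuousLinearMap.comp_id] at this
    exact this

open scoped Convolution in
/-- Mollification of a Lipschitz function. -/
theorem md_moll {K : NNReal} {W : Euc k → ℝ} (hW : LipschitzWith K W) :
    ∃ V : ℕ → Euc k → ℝ, (∀ n, ContDiff ℝ 2 (V n)) ∧ (∀ n x, ‖fderiv ℝ (V n) x‖ ≤ K) ∧
      (∀ᵐ x : Euc k, Tendsto (fun n => fderiv ℝ (V n) x) atTop (𝓝 (fderiv ℝ W x))) ∧
      ∀ (n : ℕ) (x : Euc k), (∀ y, dist y x ≤ 1 → W y = 0) → V n x = 0 := by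
  let φ : ℕ → ContDiffBump (0 : Euc k) := fun n =>
    ⟨1 / ((n : ℝ) + 1) / 2, 1 / ((n : ℝ) + 1), by positivity, half_lt_self (by positivity)⟩
  have hb : ∀ y, ‖fderiv ℝ W y‖ ≤ K := fun y => norm_fderiv_le_of_lipschitz ℝ hW
  refine ⟨fun n => (φ n).normed volume ⋆[ContinuousLinearMap.lsmul ℝ ℝ, volume] W, fun n => ?_,
    fun n x => ?_, ?_, fun n x h => ?_⟩
  · exact (φ n).hasCompactSupport_normed.contDiff_convolution_left _
      ((φ n).contDiff_normed (n := 2)) hW.continuous.locallyIntegrable
  · rw [md_moll_fderiv hW, convolution_def]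
    refine (norm_integral_le_of_norm_le (((φ n).integrable_normed (μ := volume)).mul_const (K : ℝ))
      (.of_forall fun a => ?_)).trans ?_
    · rw [ContinuousLinearMap.lsmul_apply, norm_smul, Real.norm_of_nonneg ((φ n).nonneg_normed a)]
      exact mul_le_mul_of_nonneg_left (hb _) ((φ n).nonneg_normed a)
    · rw [integral_mul_const, (φ n).integral_normed, one_mul]
  · have hl : LocallyIntegrable (fderiv ℝ W) volume :=
      ((memLp_top_of_bound (measurable_fderiv ℝ W).aestronglyMeasurable K
        (.of_forall hb)).locallyIntegrable le_top)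
    filter_upwards [ContDiffBump.ae_convolution_tendsto_right_of_locallyIntegrable (φ := φ)
      (l := atTop) (K := 2) tendsto_one_div_add_atTop_nhds_zero_nat
      (.of_forall fun n => by simp only [φ]; linarith) hl] with x hx
    simp only [md_moll_fderiv hW]
    exact hx
  · have h0 : W x = 0 := h x (by rw [dist_self]; positivity)
    refine ((φ n).normed_convolution_eq_right fun y hy => ?_).trans h0
    have h1 : 1 / ((n : ℝ) + 1) ≤ 1 := by
      rw [div_le_one (by positivity)]
      linarith [n.cast_nonneg (α := ℝ)]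
    rw [h y ((le_of_lt hy).trans h1), h0]

theorem md_jd_zero {u : Fin k → Euc k → ℝ} {i₀ : Fin k} {z : Euc k}
    (h : fderiv ℝ (u i₀) z = 0) : jd u z = 0 :=
  Matrix.det_eq_zero_of_row_eq_zero i₀ fun j => by simp [cv, h]

theorem md_continuous_det :
    Continuous fun a : Fin k → Euc k →L[ℝ] ℝ => (Matrix.of fun i => cv (a i)).det := by
  refine Continuous.matrix_det (continuous_matrix fun i j => ?_)
  exact (continuous_apply i).clm_apply continuous_const

/-- The Jacobian determinant is a null Lagrangian. -/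
theorem null_lagrangian {u : Fin k → Euc k → ℝ} (hu : ∀ i, ∃ C, LipschitzWith C (u i))
    {i₀ : Fin k} (hc : HasCompactSupport (u i₀)) : ∫ z, jd u z = 0 := by
  choose C hC using hu
  choose V hV2 hVb hVl hV0 using fun i => md_moll (hC i)
  set K := Metric.cthickening 1 (tsupport (u i₀)) with hK
  have hKc : IsCompact K := hc.isCompact.cthickening
  have hz : ∀ n, ∀ z ∉ K, V i₀ n z = 0 := by
    intro n z hz
    refine hV0 i₀ n z fun y hy => ?_
    by_contra h
    exact hz (Metric.mem_cthickening_of_dist_le z y 1 _ (subset_tsupport _ h)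
      (by rwa [dist_comm]))
  have h0 : ∀ n, ∫ z, jd (fun i => V i n) z = 0 := fun n =>
    md_nl_smooth (fun i => hV2 i n) (i₀ := i₀) (HasCompactSupport.intro hKc (hz n))
  have hl : Tendsto (fun n => ∫ z, jd (fun i => V i n) z) atTop (𝓝 (∫ z, jd u z)) := by
    refine tendsto_integral_of_dominated_convergence
      (K.indicator fun _ => (k.factorial : ℝ) * ∏ i, (C i : ℝ))
      (fun n => (measurable_jd _).aestronglyMeasurable) ?_ (fun n => .of_forall fun z => ?_) ?_
    · exact (integrable_indicator_iff hKc.measurableSet).2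
        (integrableOn_const hKc.measure_lt_top.ne)
    · by_cases hzK : z ∈ K
      · rw [indicator_of_mem hzK]
        exact abs_det_le_prod _ _ fun i j => (abs_cv_le _ j).trans (hVb i n z)
      · rw [indicator_of_notMem hzK, md_jd_zero (i₀ := i₀), norm_zero]
        have : V i₀ n =ᶠ[𝓝 z] fun _ => 0 := by
          filter_upwards [hKc.isClosed.isOpen_compl.mem_nhds hzK] with y hy using hz n y hy
        rw [this.fderiv_eq]
        simp
    · filter_upwards [ae_all_iff.2 hVl] with z hz
      exact (md_continuous_det.tendsto fun i => fderiv ℝ (u i) z).comp (tendsto_pi_nhds.2 hz)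
  simp only [h0] at hl
  exact tendsto_nhds_unique hl tendsto_const_nhds

theorem jd_update (u : Fin k → Euc k → ℝ) (i : Fin k) (w : Euc k → ℝ) (z : Euc k) :
    jd (Function.update u i w) z =
      ((Matrix.of fun i => cv (fderiv ℝ (u i) z)).updateRow i (cv (fderiv ℝ w z))).det := by
  unfold jd
  congr 1
  ext a b
  by_cases h : a = i
  · subst h; simp
  · simp [Matrix.updateRow_ne h, Function.update_of_ne h]

theorem md_lip_update {u : Fin k → Euc k → ℝ} {C : NNReal} (hu : ∀ i, LipschitzWith C (u i))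
    (i : Fin k) {w : Euc k → ℝ} (hw : LipschitzWith C w) (j : Fin k) :
    LipschitzWith C (Function.update u i w j) := by
  by_cases h : j = i
  · subst h; simpa using hw
  · simpa [Function.update_of_ne h] using hu j

theorem md_lip_mul {α : Type*} [PseudoMetricSpace α] {f g : α → ℝ} {C D : NNReal} {A B : ℝ}
    (hf : LipschitzWith C f) (hg : LipschitzWith D g) (hA : ∀ z, |f z| ≤ A) (hB : ∀ z, |g z| ≤ B) :
    ∃ L, LipschitzWith L fun z => f z * g z := by
  refine ⟨(|A| * D + |B| * C).toNNReal, LipschitzWith.of_dist_le_mul fun x y => ?_⟩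
  rw [Real.coe_toNNReal _ (by positivity), Real.dist_eq]
  have h1 := hf.dist_le_mul x y
  have h2 := hg.dist_le_mul x y
  rw [Real.dist_eq] at h1 h2
  have h3 : f x * g x - f y * g y = f x * (g x - g y) + g y * (f x - f y) := by ring
  rw [h3]
  refine (abs_add_le _ _).trans ?_
  rw [abs_mul, abs_mul, add_mul, mul_assoc, mul_assoc]
  exact add_le_add (mul_le_mul ((hA x).trans (le_abs_self _)) h2 (abs_nonneg _) (abs_nonneg _))
    (mul_le_mul ((hB y).trans (le_abs_self _)) h1 (abs_nonneg _) (abs_nonneg _))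

theorem md_integrable {g : Euc k → ℝ} (hg : Integrable g) {u : Fin k → Euc k → ℝ}
    (hu : ∀ i, ∃ C, LipschitzWith C (u i)) : Integrable fun z => g z * jd u z := by
  choose C hC using hu
  exact hg.mul_bdd (measurable_jd u).aestronglyMeasurable (.of_forall (abs_jd_le hC))

theorem md_key {u : Fin k → Euc k → ℝ} {C D : NNReal} (hu : ∀ i, LipschitzWith C (u i))
    {g w : Euc k → ℝ} (hg : LipschitzWith C g) (hc : HasCompactSupport g)
    (hw : LipschitzWith D w) {δ : ℝ} (hδ : ∀ z, |w z| ≤ δ) (i : Fin k) :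
    |∫ z, g z * jd (Function.update u i w) z| ≤
      δ * ((k.factorial : ℝ) * (C : ℝ) ^ k * volume.real (tsupport g)) := by
  obtain ⟨A, hA⟩ := hg.continuous.bounded_above_of_compact_support hc
  obtain ⟨L, hL⟩ := md_lip_mul hg hw hA hδ
  have hup : ∀ {v : Euc k → ℝ} {L : NNReal}, LipschitzWith L v → ∀ j,
      ∃ C, LipschitzWith C (Function.update u i v j) := by
    intro v L hv j
    by_cases h : j = i
    · subst h; exact ⟨L, by simpa using hv⟩
    · exact ⟨C, by simpa [Function.update_of_ne h] using hu j⟩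
  have h0 := null_lagrangian (hup hL) (i₀ := i) (by
    rw [Function.update_self]; exact hc.mul_right)
  have hb : ∀ z, ‖w z * jd (Function.update u i g) z‖ ≤
      (tsupport g).indicator (fun _ => δ * ((k.factorial : ℝ) * (C : ℝ) ^ k)) z := by
    intro z
    by_cases hz : z ∈ tsupport g
    · rw [indicator_of_mem hz, norm_mul]
      refine mul_le_mul (hδ z) ?_ (norm_nonneg _) ((abs_nonneg _).trans (hδ z))
      simpa using abs_jd_le (C := fun _ => C) (md_lip_update hu i hg) z
    · rw [indicator_of_notMem hz, md_jd_zero (i₀ := i), mul_zero, norm_zero]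
      rw [Function.update_self]
      by_contra h
      exact hz (support_fderiv_subset ℝ h)
  have hbi : Integrable ((tsupport g).indicator
      fun _ : Euc k => δ * ((k.factorial : ℝ) * (C : ℝ) ^ k)) :=
    (integrable_indicator_iff hc.isCompact.measurableSet).2
      (integrableOn_const hc.isCompact.measure_lt_top.ne)
  have i1 : Integrable fun z => g z * jd (Function.update u i w) z :=
    md_integrable (hg.continuous.integrable_of_hasCompactSupport hc) (hup hw)
  have i2 : Integrable fun z => w z * jd (Function.update u i g) z :=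
    hbi.mono' (hw.continuous.measurable.mul (measurable_jd _)).aestronglyMeasurable (.of_forall hb)
  have h1 : ∫ z, jd (Function.update u i fun z => g z * w z) z =
      (∫ z, g z * jd (Function.update u i w) z) + ∫ z, w z * jd (Function.update u i g) z := by
    rw [← integral_add i1 i2]
    refine integral_congr_ae ?_
    filter_upwards [hg.ae_differentiableAt (μ := volume), hw.ae_differentiableAt (μ := volume)]
      with z h1 h2
    have h3 : cv (fderiv ℝ (fun z => g z * w z) z) =
        g z • cv (fderiv ℝ w z) + w z • cv (fderiv ℝ g z) := by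
      rw [fderiv_fun_mul h1 h2]
      ext j
      simp [cv]
    rw [jd_update, jd_update, jd_update, h3, Matrix.det_updateRow_add, Matrix.det_updateRow_smul,
      Matrix.det_updateRow_smul]
  have h2 : ∫ z, g z * jd (Function.update u i w) z =
      -∫ z, w z * jd (Function.update u i g) z := by linarith
  rw [h2, abs_neg]
  refine (norm_integral_le_of_norm_le hbi (.of_forall hb)).trans ?_
  rw [integral_indicator hc.isCompact.measurableSet, setIntegral_const, smul_eq_mul]
  exact le_of_eq (by ring)

theorem md_tele {u v : Fin k → Euc k → ℝ} {C : NNReal} (hu : ∀ i, LipschitzWith C (u i))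
    (hv : ∀ i, LipschitzWith C (v i)) {g : Euc k → ℝ} (hg : LipschitzWith C g)
    (hc : HasCompactSupport g) {δ : ℝ} (hδ : ∀ i z, |v i z - u i z| ≤ δ) :
    |(∫ z, g z * jd v z) - ∫ z, g z * jd u z| ≤
      k * (δ * ((k.factorial : ℝ) * (C : ℝ) ^ k * volume.real (tsupport g))) := by
  have hgi := hg.continuous.integrable_of_hasCompactSupport (μ := volume) hc
  have key : ∀ s : Finset (Fin k),
      |(∫ z, g z * jd (fun i => if i ∈ s then v i else u i) z) - ∫ z, g z * jd u z| ≤
        s.card * (δ * ((k.factorial : ℝ) * (C : ℝ) ^ k * volume.real (tsupport g))) := by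
    intro s
    induction s using Finset.induction_on with
    | empty => simp
    | insert i s hi ih =>
      set m : Fin k → Euc k → ℝ := fun i => if i ∈ s then v i else u i with hm
      have hml : ∀ j, LipschitzWith C (m j) := fun j => by
        simp only [hm]; split_ifs; exacts [hv j, hu j]
      have e1 : (fun j => if j ∈ insert i s then v j else u j) = Function.update m i (v i) := by
        funext j
        by_cases h : j = i
        · subst h; simp
        · simp [Function.update_of_ne h, hm, h]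
      have e2 : m = Function.update m i (u i) := by
        have : m i = u i := by simp [hm, hi]
        rw [← this, Function.update_eq_self]
      have e3 : (∫ z, g z * jd (Function.update m i (v i)) z) - ∫ z, g z * jd m z =
          ∫ z, g z * jd (Function.update m i (v i - u i)) z := by
        rw [← integral_sub (md_integrable hgi fun j => ⟨C, md_lip_update hml i (hv i) j⟩)
          (md_integrable hgi fun j => ⟨C, hml j⟩)]
        refine integral_congr_ae ?_
        filter_upwards [(hv i).ae_differentiableAt (μ := volume),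
          (hu i).ae_differentiableAt (μ := volume)] with z h1 h2
        have h3 : cv (fderiv ℝ (v i) z) = cv (fderiv ℝ (v i - u i) z) + cv (fderiv ℝ (u i) z) := by
          rw [fderiv_sub h1 h2]
          ext j
          simp [cv]
        have h4 : jd m z = jd (Function.update m i (u i)) z := by rw [← e2]
        rw [h4, jd_update, jd_update, jd_update, h3, Matrix.det_updateRow_add]
        ring
      have e4 := md_key hml hg hc ((hv i).sub (hu i)) (hδ i) i
      rw [e1, Finset.card_insert_of_notMem hi]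
      push_cast
      rw [add_mul, one_mul]
      have e5 := abs_add_le ((∫ z, g z * jd (Function.update m i (v i)) z) - ∫ z, g z * jd m z)
        ((∫ z, g z * jd m z) - ∫ z, g z * jd u z)
      rw [sub_add_sub_cancel, e3] at e5
      exact e5.trans (by rw [add_comm]; exact add_le_add ih e4)
  simpa using key Finset.univ

/-- Equi-Lipschitz pointwise convergence is uniform on totally bounded sets. -/
theorem md_unif {α : Type*} [PseudoMetricSpace α] {E : Set α} (hb : TotallyBounded E) {u : α → ℝ}
    {us : ℕ → α → ℝ} {C : NNReal} (hus : ∀ n, LipschitzOnWith C (us n) E)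
    (hu : LipschitzOnWith C u E) (hlim : ∀ z ∈ E, Tendsto (fun n => us n z) atTop (𝓝 (u z)))
    {δ : ℝ} (hδ : 0 < δ) : ∀ᶠ n in atTop, ∀ z ∈ E, |us n z - u z| ≤ δ := by
  have hε : 0 < δ / (2 * C + 1) := by positivity
  obtain ⟨t, htE, htf, hcov⟩ := Metric.finite_approx_of_totallyBounded hb _ hε
  have h1 : ∀ᶠ n in atTop, ∀ y ∈ t, dist (us n y) (u y) < δ / (2 * C + 1) :=
    (eventually_all_finite htf).2 fun y hy => Metric.tendsto_nhds.1 (hlim y (htE hy)) _ hε
  filter_upwards [h1] with n hn z hz
  obtain ⟨y, hy, hzy⟩ := mem_iUnion₂.1 (hcov hz)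
  have h2 := (hus n).dist_le_mul z hz y (htE hy)
  have h3 := hu.dist_le_mul y (htE hy) z hz
  have h4 := dist_triangle4 (us n z) (us n y) (u y) (u z)
  have h5 : dist z y ≤ δ / (2 * C + 1) := le_of_lt hzy
  rw [dist_comm y z] at h3
  have h6 : (C : ℝ) * dist z y ≤ C * (δ / (2 * C + 1)) := by gcongr
  have h7 : δ = (2 * C + 1) * (δ / (2 * C + 1)) := by field_simp
  rw [← Real.dist_eq]
  nlinarith [hn y hy]

theorem lipschitzOnWith_of_tendsto {α : Type*} [PseudoMetricSpace α] {E : Set α} {u : α → ℝ}
    {us : ℕ → α → ℝ} {C : NNReal} (hus : ∀ n, LipschitzOnWith C (us n) E)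
    (hlim : ∀ z ∈ E, Tendsto (fun n => us n z) atTop (𝓝 (u z))) : LipschitzOnWith C u E :=
  LipschitzOnWith.of_dist_le_mul fun x hx y hy =>
    le_of_tendsto' ((hlim x hx).dist (hlim y hy)) fun n => (hus n).dist_le_mul x hx y hy

/-- Weak continuity of the Jacobian determinant. -/
theorem tendsto_integral_jdW {E : Set (Euc k)} (hE : MeasurableSet E)
    (hb : Bornology.IsBounded E) {g : Euc k → ℝ} (hg : IntegrableOn g E)
    {u : Fin k → Euc k → ℝ} {us : ℕ → Fin k → Euc k → ℝ} {C : NNReal}
    (hus : ∀ n i, LipschitzOnWith C (us n i) E)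
    (hlim : ∀ i, ∀ z ∈ E, Tendsto (fun n => us n i z) atTop (𝓝 (u i z))) :
    Tendsto (fun n => ∫ z in E, g z * jdW E (us n) z) atTop (𝓝 (∫ z in E, g z * jdW E u z)) := by
  have hu : ∀ i, LipschitzOnWith C (u i) E := fun i =>
    lipschitzOnWith_of_tendsto (fun n => hus n i) (hlim i)
  choose v hv huv using fun i => (hu i).extend_real
  have hgi : Integrable (E.indicator g) := (integrable_indicator_iff hE).2 hg
  have conv : ∀ {a b : Fin k → Euc k → ℝ}, (∀ i, ∃ C, LipschitzWith C (b i)) →
      (∀ i, EqOn (a i) (b i) E) →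
      ∫ z in E, g z * jdW E a z = ∫ z, E.indicator g z * jd b z := by
    intro a b hb hab
    rw [integral_congr_ae ((ae_jdW_eq hE hb hab).mono fun z hz => by
      show g z * jdW E a z = g z * jd b z
      rw [hz]), ← integral_indicator hE]
    refine integral_congr_ae (.of_forall fun z => ?_)
    by_cases hz : z ∈ E <;> simp [hz]
  rw [Metric.tendsto_nhds]
  intro ε hε
  set B : ℝ := (k.factorial : ℝ) * ((C + (C + C) : NNReal) : ℝ) ^ k with hB
  have hB0 : 0 ≤ B := by positivity
  have hε' : 0 < ε / (4 * B + 1) := by positivity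
  have hex := MemLp.exist_eLpNorm_sub_le (F := ℝ) (μ := volume) (f := E.indicator g)
    ENNReal.one_ne_top le_rfl (memLp_one_iff_integrable.2 hgi) hε'
  obtain ⟨g', hc, hs, hg'⟩ := hex
  obtain ⟨D, hD⟩ : ∃ D, LipschitzWith D g' :=
    ContDiff.lipschitzWith_of_hasCompactSupport hc hs (by simp)
  have hg'i := hD.continuous.integrable_of_hasCompactSupport (μ := volume) hc
  have hd : ∫ z, ‖E.indicator g z - g' z‖ ≤ ε / (4 * B + 1) := by
    rw [eLpNorm_one_eq_lintegral_enorm, ← ofReal_integral_norm_eq_lintegral_enorm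
      (hgi.sub hg'i)] at hg'
    exact (ENNReal.ofReal_le_ofReal_iff hε'.le).1 hg'
  have happ : ∀ {b : Fin k → Euc k → ℝ}, (∀ i, LipschitzWith (C + (C + C)) (b i)) →
      |(∫ z, E.indicator g z * jd b z) - ∫ z, g' z * jd b z| ≤ ε / 4 := by
    intro b hb
    rw [← integral_sub (md_integrable hgi fun i => ⟨_, hb i⟩)
      (md_integrable hg'i fun i => ⟨_, hb i⟩)]
    rw [← Real.norm_eq_abs]
    refine (norm_integral_le_of_norm_le ((hgi.sub hg'i).norm.mul_const B)
      (.of_forall fun z => ?_)).trans ?_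
    · rw [← sub_mul, norm_mul]
      refine mul_le_mul_of_nonneg_left ?_ (norm_nonneg _)
      simpa [hB] using abs_jd_le (C := fun _ => C + (C + C)) hb z
    · rw [integral_mul_const]
      refine (mul_le_mul_of_nonneg_right hd hB0).trans ?_
      rw [div_mul_eq_mul_div, div_le_div_iff₀ (by positivity) (by positivity)]
      nlinarith
  set L : NNReal := max (C + (C + C)) D with hL
  set A : ℝ := (k.factorial : ℝ) * (L : ℝ) ^ k * volume.real (tsupport g') with hA
  have hA0 : 0 ≤ A := by positivity
  have hδ : 0 < ε / (4 * (k * A + 1)) := by positivity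
  have hE' : TotallyBounded E := (hb.isCompact_closure.totallyBounded).subset subset_closure
  filter_upwards [eventually_all.2 fun i => md_unif hE' (fun n => hus n i) (hu i) (hlim i) hδ]
    with n hn
  set δ := ε / (4 * (k * A + 1)) with hδ'
  have hw : ∀ i, LipschitzOnWith (C + C) (fun z => us n i z - u i z) E := fun i =>
    LipschitzOnWith.of_dist_le_mul fun x hx y hy => by
      have h1 := (hus n i).dist_le_mul x hx y hy
      have h2 := (hu i).dist_le_mul x hx y hy
      refine (dist_sub_sub_le _ _ _ _).trans ?_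
      push_cast
      linarith
  choose w hwl hwe using fun i => (hw i).extend_real
  set b : Fin k → Euc k → ℝ := fun i z => v i z + max (-δ) (min δ (w i z)) with hb'
  have hbl : ∀ i, LipschitzWith (C + (C + C)) (b i) := fun i =>
    (hv i).add (((hwl i).const_min δ).const_max (-δ))
  have hbe : ∀ i, EqOn (us n i) (b i) E := by
    intro i z hz
    have h1 := abs_le.1 (hn i z hz)
    have h2 : w i z = us n i z - u i z := (hwe i hz).symm
    simp only [hb', h2, ← huv i hz]
    rw [min_eq_right h1.2, max_eq_right h1.1]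
    ring
  have hbd : ∀ i z, |b i z - v i z| ≤ δ := by
    intro i z
    simp only [hb', add_sub_cancel_left]
    exact abs_le.2 ⟨le_max_left _ _, max_le (by linarith) (min_le_left _ _)⟩
  have hv' : ∀ i, LipschitzWith (C + (C + C)) (v i) := fun i => (hv i).weaken le_self_add
  have h1 := md_tele (C := L) (fun i => (hv' i).weaken (le_max_left _ _))
    (fun i => (hbl i).weaken (le_max_left _ _)) (hD.weaken (le_max_right _ _)) hc hbd
  have h2 : (k : ℝ) * (δ * A) ≤ ε / 4 := by
    rw [hδ', div_mul_eq_mul_div, mul_div_assoc', div_le_div_iff₀ (by positivity) (by positivity)]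
    nlinarith
  rw [conv (fun i => ⟨_, hbl i⟩) hbe, conv (fun i => ⟨_, hv i⟩) huv, Real.dist_eq]
  have h3 := abs_le.1 (happ hbl)
  have h4 := abs_le.1 (happ hv')
  have h5 := abs_le.1 (h1.trans h2)
  rw [abs_lt]
  constructor <;> linarith

end Crest.Agent.R241
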