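import Crest.Agent.R241.KMaj
import Crest.Agent.R241.MDet

/-! Row 241, block M (helper76): basic theory of Lipschitz chains.  The pieces of a chain are glued
to one measure space `(C.ι × Euc k, C.ν)`; `act`, `mass`, `μ`, `I` are integrals against `C.ν`. -/

set_option autoImplicit false
set_option linter.unusedSectionVars false
open MeasureTheory Filter Topology Set
open scoped NNReal ENNReal
open Crest.GeometryTopology.Submanifold (Euc)

namespace Crest.Agent.R241

universe u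
variable {X : Type u} [MetricSpace X] {k : ℕ}

theorem Lip.continuous {f : X → ℝ} (h : Lip f) : Continuous f := h.choose_spec.continuous

theorem Lip.const (c : ℝ) : Lip fun _ : X => c := ⟨0, LipschitzWith.const c⟩

theorem Lip.add {f g : X → ℝ} (hf : Lip f) (hg : Lip g) : Lip fun x => f x + g x :=
  ⟨_, hf.choose_spec.add hg.choose_spec⟩

theorem Lip.sub {f g : X → ℝ} (hf : Lip f) (hg : Lip g) : Lip fun x => f x - g x :=
  ⟨_, hf.choose_spec.sub hg.choose_spec⟩

theorem Lip.const_mul {f : X → ℝ} (hf : Lip f) (c : ℝ) : Lip fun x => c * f x := by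
  obtain ⟨K, hK⟩ := hf
  exact ⟨_, (lipschitzWith_smul c).comp hK⟩

theorem Lip.neg {f : X → ℝ} (hf : Lip f) : Lip fun x => -f x := ⟨_, hf.choose_spec.neg⟩

theorem Lip.bdd [CompactSpace X] {f : X → ℝ} (hf : Lip f) : ∃ C : ℝ, ∀ x, |f x| ≤ C := by
  obtain ⟨C, hC⟩ := (isCompact_univ.image hf.continuous).isBounded.exists_norm_le
  exact ⟨C, fun x => hC _ ⟨x, mem_univ _, rfl⟩⟩

theorem Lip.mul [CompactSpace X] {f g : X → ℝ} (hf : Lip f) (hg : Lip g) :
    Lip fun x => f x * g x := by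
  obtain ⟨A, hA⟩ := hf.bdd
  obtain ⟨B, hB⟩ := hg.bdd
  exact md_lip_mul hf.choose_spec hg.choose_spec hA hB

theorem Lip.update {π : Fin k → X → ℝ} (hπ : ∀ a, Lip (π a)) (a : Fin k) {g : X → ℝ}
    (hg : Lip g) (b : Fin k) : Lip (Function.update π a g b) := by
  by_cases h : b = a
  · subst h; simpa using hg
  · simpa [Function.update_of_ne h] using hπ b

theorem Lip.cons {π : Fin k → X → ℝ} {g : X → ℝ} (hg : Lip g) (hπ : ∀ a, Lip (π a))
    (b : Fin (k + 1)) : Lip ((Fin.cons g π : Fin (k + 1) → X → ℝ) b) := by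
  refine Fin.cases ?_ (fun a => ?_) b
  · simpa using hg
  · simpa using hπ a

section BM
variable [MeasurableSpace X]

theorem BM.const (c : ℝ) : BM fun _ : X => c := ⟨measurable_const, |c|, fun _ => le_rfl⟩

theorem BM.add {f g : X → ℝ} (hf : BM f) (hg : BM g) : BM fun x => f x + g x := by
  obtain ⟨A, hA⟩ := hf.2
  obtain ⟨B, hB⟩ := hg.2
  exact ⟨hf.1.add hg.1, A + B, fun x => (abs_add_le _ _).trans (add_le_add (hA x) (hB x))⟩

theorem BM.mul {f g : X → ℝ} (hf : BM f) (hg : BM g) : BM fun x => f x * g x := by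
  obtain ⟨A, hA⟩ := hf.2
  obtain ⟨B, hB⟩ := hg.2
  refine ⟨hf.1.mul hg.1, A * B, fun x => ?_⟩
  rw [abs_mul]
  exact mul_le_mul (hA x) (hB x) (abs_nonneg _) ((abs_nonneg _).trans (hA x))

theorem BM.neg {f : X → ℝ} (hf : BM f) : BM fun x => -f x :=
  ⟨hf.1.neg, hf.2.imp fun _ h x => by rw [abs_neg]; exact h x⟩

theorem BM.sub {f g : X → ℝ} (hf : BM f) (hg : BM g) : BM fun x => f x - g x := by
  simpa [sub_eq_add_neg] using hf.add hg.neg

theorem BM.indicator {f : X → ℝ} (hf : BM f) {A : Set X} (hA : MeasurableSet A) :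
    BM (A.indicator f) := by
  obtain ⟨B, hB⟩ := hf.2
  refine ⟨hf.1.indicator hA, B, fun x => ?_⟩
  by_cases hx : x ∈ A
  · simpa [hx] using hB x
  · simpa [hx] using (abs_nonneg _).trans (hB x)

theorem BM.integrable {f : X → ℝ} (hf : BM f) (μ : Measure X) [IsFiniteMeasure μ] :
    Integrable f μ := by
  obtain ⟨B, hB⟩ := hf.2
  exact Integrable.of_bound hf.1.aestronglyMeasurable B (.of_forall hB)

theorem Lip.bm [BorelSpace X] [CompactSpace X] {f : X → ℝ} (hf : Lip f) : BM f :=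
  ⟨hf.continuous.measurable, hf.bdd⟩

end BM

namespace Chain

instance (C : Chain X k) : Countable C.ι := C.cnt
instance (C : Chain X k) : MeasurableSpace C.ι := ⊤
instance (C : Chain X k) : DiscreteMeasurableSpace C.ι := ⟨fun _ => trivial⟩

variable (C : Chain X k)

/-- Lebesgue measure on the disjoint union of the parameter domains. -/
noncomputable def ν : Measure (C.ι × Euc k) :=
  Measure.sum fun i => (volume.restrict (C.E i)).map (Prod.mk i)

theorem ae_ν {P : C.ι × Euc k → Prop} :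
    (∀ᵐ p ∂C.ν, P p) ↔ ∀ i, ∀ᵐ z ∂(volume.restrict (C.E i)), P (i, z) := by
  rw [ν, Measure.ae_sum_iff]
  exact forall_congr' fun i => (measurableEmbedding_prodMk_left i).ae_map_iff

theorem ae_mem : ∀ᵐ p ∂C.ν, p.2 ∈ C.E p.1 := C.ae_ν.2 fun i => ae_restrict_mem (C.mE i)

theorem aem_ν {Y : Type*} [MeasurableSpace Y] {F : C.ι × Euc k → Y} :
    AEMeasurable F C.ν ↔ ∀ i, AEMeasurable (fun z => F (i, z)) (volume.restrict (C.E i)) := by
  rw [ν, aemeasurable_sum_measure_iff]
  exact forall_congr' fun i => (measurableEmbedding_prodMk_left i).aemeasurable_map_iff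

theorem lintegral_ν (F : C.ι × Euc k → ℝ≥0∞) :
    ∫⁻ p, F p ∂C.ν = ∑' i, ∫⁻ z in C.E i, F (i, z) := by
  rw [ν, lintegral_sum_measure]
  exact tsum_congr fun i => (measurableEmbedding_prodMk_left i).lintegral_map _

theorem hasSum_ν {F : C.ι × Euc k → ℝ} (hF : Integrable F C.ν) :
    HasSum (fun i => ∫ z in C.E i, F (i, z)) (∫ p, F p ∂C.ν) := by
  have := hasSum_integral_measure (μ := fun i => (volume.restrict (C.E i)).map (Prod.mk i)) hF
  simp only [(measurableEmbedding_prodMk_left _).integral_map] at this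
  exact this

theorem integral_ν {F : C.ι × Euc k → ℝ} (hF : Integrable F C.ν) :
    ∫ p, F p ∂C.ν = ∑' i, ∫ z in C.E i, F (i, z) := (C.hasSum_ν hF).tsum_eq.symm

theorem integrableOn_of_ν {F : C.ι × Euc k → ℝ} (hF : Integrable F C.ν) (i : C.ι) :
    IntegrableOn (fun z => F (i, z)) (C.E i) :=
  (measurableEmbedding_prodMk_left i).integrable_map_iff.1
    (hF.mono_measure (Measure.le_sum (fun i => (volume.restrict (C.E i)).map (Prod.mk i)) i))

theorem measurable_wt' : Measurable fun p : C.ι × Euc k => C.wt p.1 p.2 :=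
  measurable_from_prod_countable_right fun i => C.measurable_wt i

theorem measurable_θ' : Measurable fun p : C.ι × Euc k => (C.θ p.1 p.2 : ℝ) :=
  measurable_from_prod_countable_right fun i => (measurable_of_countable _).comp (C.mθ i)

theorem lintegral_wt_ne_top : ∫⁻ p, ENNReal.ofReal (C.wt p.1 p.2) ∂C.ν ≠ ⊤ := by
  rw [lintegral_ν]; exact C.fin

theorem integrable_wt : Integrable (fun p : C.ι × Euc k => C.wt p.1 p.2) C.ν :=
  (lintegral_ofReal_ne_top_iff_integrable C.measurable_wt'.aestronglyMeasurable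
    (.of_forall fun p => C.wt_nonneg p.1 p.2)).1 C.lintegral_wt_ne_top

theorem mass_eq : C.mass = ∫ p, C.wt p.1 p.2 ∂C.ν := by
  rw [integral_eq_lintegral_of_nonneg_ae (f := fun p : C.ι × Euc k => C.wt p.1 p.2)
    (.of_forall fun p => C.wt_nonneg p.1 p.2) C.measurable_wt'.aestronglyMeasurable, lintegral_ν]
  rfl

theorem mass_nonneg : 0 ≤ C.mass := ENNReal.toReal_nonneg

theorem ofReal_mass : ENNReal.ofReal C.mass = ∑' i, ∫⁻ z in C.E i, ENNReal.ofReal (C.wt i z) :=
  ENNReal.ofReal_toReal C.fin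

/-- a measurable function dominated by the weight is integrable. -/
theorem integrable_of_le {F : C.ι × Euc k → ℝ} (hF : AEMeasurable F C.ν) (B : ℝ)
    (h : ∀ᵐ p ∂C.ν, |F p| ≤ B * C.wt p.1 p.2) : Integrable F C.ν :=
  (C.integrable_wt.const_mul B).mono' hF.aestronglyMeasurable h

theorem aem_jdet {π : Fin k → X → ℝ} (hπ : ∀ a, Lip (π a)) :
    AEMeasurable (fun p : C.ι × Euc k => jdet (C.E p.1) (C.φ p.1) π p.2) C.ν := by
  refine C.aem_ν.2 fun i => ?_
  obtain ⟨L, hL⟩ := C.lip i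
  exact (aestronglyMeasurable_jdW (C.mE i) (u := fun a w => π a (C.φ i w)) fun a =>
    ⟨_, lipOn_comp hL (hπ a).choose_spec.lipschitzOnWith⟩).aemeasurable

theorem aem_G {u v : X → ℝ} (hu : Lip u) (hv : Lip v) :
    AEMeasurable (fun p : C.ι × Euc k => C.G u v p.1 p.2) C.ν :=
  C.aem_ν.2 fun i => C.aemeasurable_G i hu hv

theorem ae_abs_θ_jdet_le {π : Fin k → X → ℝ} {K : Fin k → ℝ≥0}
    (hπ : ∀ a, LipschitzWith (K a) (π a)) : ∀ᵐ p ∂C.ν,
      |(C.θ p.1 p.2 : ℝ) * jdet (C.E p.1) (C.φ p.1) π p.2| ≤ (∏ a, (K a : ℝ)) * C.wt p.1 p.2 := by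
  refine C.ae_ν.2 fun i => ?_
  filter_upwards [C.ae_abs_jdet_le i hπ] with z hz
  rw [abs_mul, wt, mul_left_comm]
  exact mul_le_mul_of_nonneg_left hz (abs_nonneg _)

/-- the integrand of `act`. -/
noncomputable def tm (f : X → ℝ) (π : Fin k → X → ℝ) (p : C.ι × Euc k) : ℝ :=
  (C.θ p.1 p.2 : ℝ) * f (C.φ p.1 p.2) * jdet (C.E p.1) (C.φ p.1) π p.2

theorem ae_abs_tm_le (f : X → ℝ) {π : Fin k → X → ℝ} {K : Fin k → ℝ≥0}
    (hπ : ∀ a, LipschitzWith (K a) (π a)) : ∀ᵐ p ∂C.ν,
      |C.tm f π p| ≤ (∏ a, (K a : ℝ)) * (C.wt p.1 p.2 * |f (C.φ p.1 p.2)|) := by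
  filter_upwards [C.ae_abs_θ_jdet_le hπ] with p hp
  rw [tm, mul_right_comm, abs_mul, ← mul_assoc]
  exact mul_le_mul_of_nonneg_right hp (abs_nonneg _)

/-- congruence through the integrands. -/
theorem act_congr_tm {f g : X → ℝ} {π σ : Fin k → X → ℝ}
    (h : ∀ᵐ p ∂C.ν, C.tm f π p = C.tm g σ p) : C.act f π = C.act g σ :=
  tsum_congr fun i => integral_congr_ae (C.ae_ν.1 h i)

theorem act_const_mul (c : ℝ) (f : X → ℝ) (π : Fin k → X → ℝ) :
    C.act (fun x => c * f x) π = c * C.act f π := by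
  unfold act
  rw [← tsum_mul_left]
  refine tsum_congr fun i => ?_
  rw [← integral_const_mul]
  exact integral_congr_ae (.of_forall fun z => by ring)

theorem act_neg (f : X → ℝ) (π : Fin k → X → ℝ) :
    C.act (fun x => -f x) π = -C.act f π := by
  simpa using C.act_const_mul (-1) f π

theorem act_zero (π : Fin k → X → ℝ) : C.act (fun _ => 0) π = 0 := by simp [act]

/-- `act` only sees the values on a set carrying the chain. -/
theorem act_congr_of_In {A : Set X} (hA : C.In A) {f g : X → ℝ} {π σ : Fin k → X → ℝ}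
    (hf : EqOn f g A) (hπ : ∀ a, EqOn (π a) (σ a) A) : C.act f π = C.act g σ := by
  refine C.act_congr_tm ?_
  filter_upwards [C.ae_mem] with p hp
  have : ∀ a, dv (C.E p.1) (C.φ p.1) (π a) p.2 = dv (C.E p.1) (C.φ p.1) (σ a) p.2 := fun a => by
    unfold dv
    rw [dW_congr (fun w hw => hπ a (hA p.1 w hw)) hp]
  simp only [tm, jdet, this, hf (hA p.1 p.2 hp)]

theorem jdet_update (E : Set (Euc k)) (φ : Euc k → X) (π : Fin k → X → ℝ) (a : Fin k)
    (g : X → ℝ) (z : Euc k) : jdet E φ (Function.update π a g) z =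
      ((Matrix.of fun b => dv E φ (π b) z).updateRow a (dv E φ g z)).det := by
  unfold jdet
  congr 1
  ext b c
  by_cases h : b = a
  · subst h; simp
  · simp [Function.update_of_ne h, Matrix.updateRow_ne h]

/-- `act` is alternating. -/
theorem act_perm (f : X → ℝ) (π : Fin k → X → ℝ) (σ : Equiv.Perm (Fin k)) :
    C.act f (fun a => π (σ a)) = ((Equiv.Perm.sign σ : ℤ) : ℝ) * C.act f π := by
  rw [← act_const_mul]
  refine C.act_congr_tm (.of_forall fun p => ?_)
  have := Matrix.det_permute σ (Matrix.of fun b => dv (C.E p.1) (C.φ p.1) (π b) p.2)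
  have e : jdet (C.E p.1) (C.φ p.1) (fun a => π (σ a)) p.2 =
      ((Equiv.Perm.sign σ : ℤ) : ℝ) * jdet (C.E p.1) (C.φ p.1) π p.2 := this
  simp only [tm, e]
  ring

theorem act_eq_zero_of_eq (f : X → ℝ) {π : Fin k → X → ℝ} {a b : Fin k} (hab : a ≠ b)
    (h : π a = π b) : C.act f π = 0 := by
  rw [← C.act_zero π]
  refine C.act_congr_tm (.of_forall fun p => ?_)
  have : jdet (C.E p.1) (C.φ p.1) π p.2 = 0 :=
    Matrix.det_zero_of_row_eq hab (by ext j; simp [h])
  simp [tm, this]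

/-- strong locality. -/
theorem act_eq_zero_of_const {f : X → ℝ} {π : Fin k → X → ℝ} {a : Fin k} (ha : Lip (π a))
    {c : ℝ} (h : ∀ x, f x ≠ 0 → π a x = c) : C.act f π = 0 := by
  rw [← C.act_zero π]
  refine C.act_congr_tm (C.ae_ν.2 fun i => ?_)
  obtain ⟨L, hL⟩ := C.lip i
  filter_upwards [ae_dW_eq_zero_of_eq (C.mE i) hL ha.choose_spec.lipschitzOnWith c] with z hz
  by_cases hf : f (C.φ i z) = 0
  · simp [tm, hf]
  · have : jdet (C.E i) (C.φ i) π z = 0 :=
      Matrix.det_eq_zero_of_row_eq_zero a fun j => by simp [dv, hz (h _ hf), cv]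
    simp [tm, this]

theorem act_update_const_mul (f : X → ℝ) (π : Fin k → X → ℝ) (a : Fin k) {u : X → ℝ}
    (hu : Lip u) (c : ℝ) : C.act f (Function.update π a fun x => c * u x) =
      c * C.act f (Function.update π a u) := by
  rw [← act_const_mul]
  refine C.act_congr_tm (C.ae_ν.2 fun i => ?_)
  obtain ⟨L, hL⟩ := C.lip i
  filter_upwards [ae_dW_const_mul (C.mE i) hL hu.choose_spec.lipschitzOnWith c] with z hz
  simp only [tm, jdet_update, dv, hz, cv_smul, Matrix.det_updateRow_smul]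
  ring

/-- chain rule. -/
theorem act_update_comp (f : X → ℝ) (π : Fin k → X → ℝ) (a : Fin k) {u : X → ℝ}
    (hu : Lip u) {F F' : ℝ → ℝ} (hF : ∀ x, HasDerivAt F (F' (u x)) (u x)) :
    C.act f (Function.update π a fun x => F (u x)) =
      C.act (fun x => f x * F' (u x)) (Function.update π a u) := by
  refine C.act_congr_tm (C.ae_ν.2 fun i => ?_)
  obtain ⟨L, hL⟩ := C.lip i
  filter_upwards [ae_dW_comp (C.mE i) hL hu.choose_spec.lipschitzOnWith
    (F := F) (F' := F') fun w _ => hF _] with z hz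
  simp only [tm, jdet_update, dv, hz, cv_smul, Matrix.det_updateRow_smul]
  ring

section Meas
variable [MeasurableSpace X] [BorelSpace X]

theorem aem_φ : AEMeasurable (fun p : C.ι × Euc k => C.φ p.1 p.2) C.ν :=
  C.aem_ν.2 fun i => C.aemeasurable_φ i

theorem μ_eq : C.μ = (C.ν.withDensity fun p => ENNReal.ofReal (C.wt p.1 p.2)).map
    fun p => C.φ p.1 p.2 := by
  ext A hA
  rw [Measure.map_apply_of_aemeasurable (C.aem_φ.mono_ac (withDensity_absolutelyContinuous _ _)) hA,
    withDensity_apply₀ _ (C.aem_φ.nullMeasurableSet_preimage hA),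
    ← lintegral_indicator₀ (C.aem_φ.nullMeasurableSet_preimage hA), lintegral_ν, μ,
    Measure.sum_apply _ hA]
  refine tsum_congr fun i => ?_
  rw [Measure.map_apply_of_aemeasurable
      ((C.aemeasurable_φ i).mono_ac (withDensity_absolutelyContinuous _ _)) hA,
    withDensity_apply₀ _ ((C.aemeasurable_φ i).nullMeasurableSet_preimage hA),
    ← lintegral_indicator₀ ((C.aemeasurable_φ i).nullMeasurableSet_preimage hA)]
  rfl

theorem lintegral_μ' {F : X → ℝ≥0∞} (hF : Measurable F) :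
    ∫⁻ x, F x ∂C.μ = ∫⁻ p, ENNReal.ofReal (C.wt p.1 p.2) * F (C.φ p.1 p.2) ∂C.ν := by
  rw [μ_eq, lintegral_map' hF.aemeasurable
      (C.aem_φ.mono_ac (withDensity_absolutelyContinuous _ _)),
    lintegral_withDensity_eq_lintegral_mul₀ C.measurable_wt'.ennreal_ofReal.aemeasurable
      (g := fun p => F (C.φ p.1 p.2)) (hF.comp_aemeasurable C.aem_φ)]
  rfl

theorem lintegral_μ {F : X → ℝ≥0∞} (hF : Measurable F) :
    ∫⁻ x, F x ∂C.μ = ∑' i, ∫⁻ z in C.E i, ENNReal.ofReal (C.wt i z) * F (C.φ i z) := by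
  rw [C.lintegral_μ' hF, lintegral_ν]

theorem μ_univ : C.μ univ = ENNReal.ofReal C.mass := by
  rw [← lintegral_one, C.lintegral_μ measurable_const, ofReal_mass]
  simp

instance : IsFiniteMeasure C.μ := ⟨by rw [μ_univ]; exact ENNReal.ofReal_lt_top⟩

theorem μ_real_univ : C.μ.real univ = C.mass := by
  rw [Measure.real, μ_univ, ENNReal.toReal_ofReal C.mass_nonneg]

theorem integral_μ {F : X → ℝ} (hF : Measurable F) :
    ∫ x, F x ∂C.μ = ∫ p, C.wt p.1 p.2 * F (C.φ p.1 p.2) ∂C.ν := by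
  rw [μ_eq, integral_map (C.aem_φ.mono_ac (withDensity_absolutelyContinuous _ _))
      hF.aestronglyMeasurable,
    integral_withDensity_eq_integral_toReal_smul C.measurable_wt'.ennreal_ofReal
      (.of_forall fun _ => ENNReal.ofReal_lt_top)]
  refine integral_congr_ae (.of_forall fun p => ?_)
  simp [ENNReal.toReal_ofReal (C.wt_nonneg p.1 p.2)]

theorem integrable_μ_iff {F : X → ℝ} (hF : Measurable F) :
    Integrable F C.μ ↔ Integrable (fun p => C.wt p.1 p.2 * F (C.φ p.1 p.2)) C.ν := by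
  rw [μ_eq, integrable_map_measure hF.aestronglyMeasurable
      (C.aem_φ.mono_ac (withDensity_absolutelyContinuous _ _)),
    integrable_withDensity_iff_integrable_smul' C.measurable_wt'.ennreal_ofReal
      (.of_forall fun _ => ENNReal.ofReal_lt_top)]
  refine integrable_congr (.of_forall fun p => ?_)
  simp [ENNReal.toReal_ofReal (C.wt_nonneg p.1 p.2)]

theorem ae_of_ae_μ {P : X → Prop} (h : ∀ᵐ x ∂C.μ, P x) :
    ∀ᵐ p ∂C.ν, C.wt p.1 p.2 ≠ 0 → P (C.φ p.1 p.2) := by
  rw [μ_eq] at h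
  have h1 := ae_of_ae_map (C.aem_φ.mono_ac (withDensity_absolutelyContinuous _ _)) h
  rw [ae_withDensity_iff C.measurable_wt'.ennreal_ofReal] at h1
  filter_upwards [h1] with p hp hw
  refine hp fun h0 => hw ?_
  exact le_antisymm (ENNReal.ofReal_eq_zero.1 h0) (C.wt_nonneg _ _)

theorem ae_μ_of_ae {A : Set X} (hA : MeasurableSet A)
    (h : ∀ᵐ p ∂C.ν, C.wt p.1 p.2 ≠ 0 → C.φ p.1 p.2 ∈ A) : ∀ᵐ x ∂C.μ, x ∈ A := by
  rw [μ_eq, ae_map_iff (p := fun x => x ∈ A)
      (C.aem_φ.mono_ac (withDensity_absolutelyContinuous _ _)) hA,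
    ae_withDensity_iff C.measurable_wt'.ennreal_ofReal]
  filter_upwards [h] with p hp hw
  exact hp fun h0 => hw (by simp [h0])

theorem In.ae_μ {C : Chain X k} {A : Set X} (h : C.In A) (hA : MeasurableSet A) :
    ∀ᵐ x ∂C.μ, x ∈ A :=
  C.ae_μ_of_ae hA (C.ae_mem.mono fun p hp _ => h p.1 p.2 hp)

theorem aem_tm {f : X → ℝ} (hf : Measurable f) {π : Fin k → X → ℝ} (hπ : ∀ a, Lip (π a)) :
    AEMeasurable (C.tm f π) C.ν :=
  (C.measurable_θ'.aemeasurable.mul (hf.comp_aemeasurable C.aem_φ)).mul (C.aem_jdet hπ)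

theorem integrable_tm' {f : X → ℝ} (hf : Measurable f) (hi : Integrable f C.μ)
    {π : Fin k → X → ℝ} (hπ : ∀ a, Lip (π a)) : Integrable (C.tm f π) C.ν := by
  choose K hK using id hπ
  exact (((C.integrable_μ_iff hf.abs).1 hi.abs).const_mul _).mono'
    (C.aem_tm hf hπ).aestronglyMeasurable (C.ae_abs_tm_le f hK)

theorem integrable_tm {f : X → ℝ} (hf : BM f) {π : Fin k → X → ℝ} (hπ : ∀ a, Lip (π a)) :
    Integrable (C.tm f π) C.ν := C.integrable_tm' hf.1 (hf.integrable _) hπ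

theorem act_eq' {f : X → ℝ} (hf : Measurable f) (hi : Integrable f C.μ) {π : Fin k → X → ℝ}
    (hπ : ∀ a, Lip (π a)) : C.act f π = ∫ p, C.tm f π p ∂C.ν :=
  (C.integral_ν (C.integrable_tm' hf hi hπ)).symm

theorem act_eq {f : X → ℝ} (hf : BM f) {π : Fin k → X → ℝ} (hπ : ∀ a, Lip (π a)) :
    C.act f π = ∫ p, C.tm f π p ∂C.ν := C.act_eq' hf.1 (hf.integrable _) hπ

theorem hasSum_act {f : X → ℝ} (hf : BM f) {π : Fin k → X → ℝ} (hπ : ∀ a, Lip (π a)) :
    HasSum (fun i => ∫ z in C.E i, (C.θ i z : ℝ) * f (C.φ i z) * jdet (C.E i) (C.φ i) π z)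
      (C.act f π) := by
  rw [C.act_eq hf hπ]
  exact C.hasSum_ν (C.integrable_tm hf hπ)

theorem integrableOn_tm {f : X → ℝ} (hf : BM f) {π : Fin k → X → ℝ} (hπ : ∀ a, Lip (π a))
    (i : C.ι) :
    IntegrableOn (fun z => (C.θ i z : ℝ) * f (C.φ i z) * jdet (C.E i) (C.φ i) π z) (C.E i) :=
  C.integrableOn_of_ν (C.integrable_tm hf hπ) i

/-- the mass measure controls the action. -/
theorem abs_act_le' {f : X → ℝ} (hf : Measurable f) (hi : Integrable f C.μ) {π : Fin k → X → ℝ}
    {K : Fin k → ℝ≥0} (hπ : ∀ a, LipschitzWith (K a) (π a)) :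
    |C.act f π| ≤ (∏ a, (K a : ℝ)) * ∫ x, |f x| ∂C.μ := by
  rw [C.act_eq' hf hi fun a => ⟨_, hπ a⟩, C.integral_μ hf.abs, ← integral_const_mul,
    ← Real.norm_eq_abs]
  exact norm_integral_le_of_norm_le (((C.integrable_μ_iff hf.abs).1 hi.abs).const_mul _)
    (C.ae_abs_tm_le f hπ)

theorem abs_act_le {f : X → ℝ} (hf : BM f) {π : Fin k → X → ℝ} {K : Fin k → ℝ≥0}
    (hπ : ∀ a, LipschitzWith (K a) (π a)) :
    |C.act f π| ≤ (∏ a, (K a : ℝ)) * ∫ x, |f x| ∂C.μ := C.abs_act_le' hf.1 (hf.integrable _) hπ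

theorem abs_act_le_mass {f : X → ℝ} (hf : Measurable f) {B : ℝ} (hB : ∀ x, |f x| ≤ B)
    {π : Fin k → X → ℝ} {K : Fin k → ℝ≥0} (hπ : ∀ a, LipschitzWith (K a) (π a)) :
    |C.act f π| ≤ (∏ a, (K a : ℝ)) * (B * C.mass) := by
  refine (C.abs_act_le ⟨hf, B, hB⟩ hπ).trans (mul_le_mul_of_nonneg_left ?_ (by positivity))
  refine (integral_mono (BM.integrable ⟨hf, B, hB⟩ _).abs (integrable_const B) hB).trans ?_
  rw [integral_const, μ_real_univ, smul_eq_mul, mul_comm]

theorem act_add {f g : X → ℝ} (hf : BM f) (hg : BM g) {π : Fin k → X → ℝ}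
    (hπ : ∀ a, Lip (π a)) : C.act (fun x => f x + g x) π = C.act f π + C.act g π := by
  rw [C.act_eq (hf.add hg) hπ, C.act_eq hf hπ, C.act_eq hg hπ,
    ← integral_add (C.integrable_tm hf hπ) (C.integrable_tm hg hπ)]
  exact integral_congr_ae (.of_forall fun p => by simp only [tm]; ring)

theorem act_sub {f g : X → ℝ} (hf : BM f) (hg : BM g) {π : Fin k → X → ℝ}
    (hπ : ∀ a, Lip (π a)) : C.act (fun x => f x - g x) π = C.act f π - C.act g π := by
  simp only [sub_eq_add_neg]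
  rw [C.act_add hf hg.neg hπ, act_neg]

theorem act_finsetSum {T : Type*} (s : Finset T) {f : T → X → ℝ} (hf : ∀ t ∈ s, BM (f t))
    {π : Fin k → X → ℝ} (hπ : ∀ a, Lip (π a)) :
    C.act (fun x => ∑ t ∈ s, f t x) π = ∑ t ∈ s, C.act (f t) π := by
  rw [Finset.sum_congr rfl fun t ht => C.act_eq (hf t ht) hπ,
    ← integral_finsetSum _ fun t ht => C.integrable_tm (hf t ht) hπ,
    C.integral_ν (integrable_finsetSum _ fun t ht => C.integrable_tm (hf t ht) hπ)]
  refine tsum_congr fun i => integral_congr_ae (.of_forall fun z => ?_)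
  simp only [tm, Finset.mul_sum, Finset.sum_mul]

theorem act_congr_ae {f g : X → ℝ} (h : f =ᵐ[C.μ] g) {π : Fin k → X → ℝ}
    (hπ : ∀ a, Lip (π a)) : C.act f π = C.act g π := by
  choose K hK using hπ
  refine C.act_congr_tm ?_
  filter_upwards [C.ae_of_ae_μ h, C.ae_abs_θ_jdet_le hK] with p h1 h2
  by_cases hw : C.wt p.1 p.2 = 0
  · rw [hw, mul_zero] at h2
    have h3 := abs_nonpos_iff.1 h2
    simp only [tm]
    rw [mul_right_comm, h3, mul_right_comm, h3, zero_mul, zero_mul]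
  · simp only [tm, h1 hw]

/-- bounded convergence in the first slot. -/
theorem tendsto_act_left {fs : ℕ → X → ℝ} {f : X → ℝ} (hm : ∀ n, Measurable (fs n))
    (hf : Measurable f) {B : ℝ} (hB : ∀ n x, |fs n x| ≤ B)
    (hl : ∀ x, Tendsto (fun n => fs n x) atTop (𝓝 (f x))) {π : Fin k → X → ℝ}
    (hπ : ∀ a, Lip (π a)) : Tendsto (fun n => C.act (fs n) π) atTop (𝓝 (C.act f π)) := by
  have hfB : ∀ x, |f x| ≤ B := fun x => le_of_tendsto' (hl x).abs fun n => hB n x
  simp only [fun n => C.act_eq ⟨hm n, B, hB n⟩ hπ, C.act_eq ⟨hf, B, hfB⟩ hπ]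
  choose K hK using id hπ
  refine tendsto_integral_of_dominated_convergence
    (fun p => (∏ a, (K a : ℝ)) * (C.wt p.1 p.2 * B))
    (fun n => (C.aem_tm (hm n) hπ).aestronglyMeasurable)
    ((C.integrable_wt.mul_const B).const_mul _) (fun n => ?_) (.of_forall fun p => ?_)
  · filter_upwards [C.ae_abs_tm_le (fs n) hK] with p hp
    refine hp.trans (mul_le_mul_of_nonneg_left ?_ (by positivity))
    exact mul_le_mul_of_nonneg_left (hB n _) (C.wt_nonneg _ _)
  · exact ((hl _).const_mul _).mul_const _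

theorem act_update_add {f : X → ℝ} (hf : BM f) {π : Fin k → X → ℝ} (hπ : ∀ a, Lip (π a))
    (a : Fin k) {u v : X → ℝ} (hu : Lip u) (hv : Lip v) :
    C.act f (Function.update π a fun x => u x + v x) =
      C.act f (Function.update π a u) + C.act f (Function.update π a v) := by
  rw [C.act_eq hf (Lip.update hπ a (hu.add hv)), C.act_eq hf (Lip.update hπ a hu),
    C.act_eq hf (Lip.update hπ a hv), ← integral_add (C.integrable_tm hf (Lip.update hπ a hu))
      (C.integrable_tm hf (Lip.update hπ a hv))]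
  refine integral_congr_ae (C.ae_ν.2 fun i => ?_)
  obtain ⟨L, hL⟩ := C.lip i
  filter_upwards [ae_dW_add (C.mE i) hL hu.choose_spec.lipschitzOnWith
    hv.choose_spec.lipschitzOnWith] with z hz
  simp only [tm, jdet_update, dv, hz, cv_add, Matrix.det_updateRow_add]
  ring

theorem act_update_sub {f : X → ℝ} (hf : BM f) {π : Fin k → X → ℝ} (hπ : ∀ a, Lip (π a))
    (a : Fin k) {u v : X → ℝ} (hu : Lip u) (hv : Lip v) :
    C.act f (Function.update π a fun x => u x - v x) =
      C.act f (Function.update π a u) - C.act f (Function.update π a v) := by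
  have h1 := C.act_update_add hf hπ a hu (hv.const_mul (-1))
  rw [C.act_update_const_mul f π a hv] at h1
  simpa [sub_eq_add_neg] using h1

/-- Leibniz rule. -/
theorem act_update_mul {f : X → ℝ} {π : Fin k → X → ℝ} (hπ : ∀ a, Lip (π a)) (a : Fin k)
    {u v : X → ℝ} (hu : Lip u) (hv : Lip v) (hfu : BM fun x => f x * u x)
    (hfv : BM fun x => f x * v x) :
    C.act f (Function.update π a fun x => u x * v x) =
      C.act (fun x => f x * u x) (Function.update π a v) +
        C.act (fun x => f x * v x) (Function.update π a u) := by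
  have i1 := C.integrable_tm hfu (Lip.update hπ a hv)
  have i2 := C.integrable_tm hfv (Lip.update hπ a hu)
  rw [C.act_eq hfu (Lip.update hπ a hv), C.act_eq hfv (Lip.update hπ a hu),
    ← integral_add i1 i2, C.integral_ν (F := fun p => C.tm (fun x => f x * u x)
      (Function.update π a v) p + C.tm (fun x => f x * v x) (Function.update π a u) p) (i1.add i2)]
  refine tsum_congr fun i => integral_congr_ae ?_
  obtain ⟨L, hL⟩ := C.lip i
  filter_upwards [ae_dW_mul (C.mE i) hL hu.choose_spec.lipschitzOnWith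
    hv.choose_spec.lipschitzOnWith] with z hz
  simp only [tm, jdet_update, dv, hz, cv_add, cv_smul, Matrix.det_updateRow_add,
    Matrix.det_updateRow_smul]
  ring

/-- continuity along equi-Lipschitz pointwise convergent coordinates. -/
theorem tendsto_act {f : X → ℝ} (hf : BM f) {πs : ℕ → Fin k → X → ℝ} {π : Fin k → X → ℝ}
    {K : ℝ≥0} (hK : ∀ n a, LipschitzWith K (πs n a))
    (hl : ∀ a x, Tendsto (fun n => πs n a x) atTop (𝓝 (π a x))) :
    Tendsto (fun n => C.act f (πs n)) atTop (𝓝 (C.act f π)) := by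
  obtain ⟨B, hB⟩ := hf.2
  have hs := (C.hasSum_ν ((C.integrable_wt.mul_const B).const_mul (∏ _a : Fin k, (K : ℝ)))).summable
  refine tendsto_tsum_of_dominated_convergence hs (fun i => ?_) (.of_forall fun n i => ?_)
  · obtain ⟨L, hL⟩ := C.lip i
    have hg : IntegrableOn (fun z => (C.θ i z : ℝ) * f (C.φ i z)) (C.E i) :=
      Integrable.mul_bdd (C.iθ i)
        (hf.1.comp_aemeasurable (C.aemeasurable_φ i)).aestronglyMeasurable
        (.of_forall fun z => hB _)
    exact tendsto_integral_jdW (C.mE i) (C.bE i) hg (u := fun a w => π a (C.φ i w))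
      (us := fun n a w => πs n a (C.φ i w))
      (fun n a => lipOn_comp hL (hK n a).lipschitzOnWith) fun a z _ => hl a _
  · refine norm_integral_le_of_norm_le (C.integrableOn_of_ν
      ((C.integrable_wt.mul_const B).const_mul (∏ _a : Fin k, (K : ℝ))) i) ?_
    filter_upwards [C.ae_ν.1 (C.ae_abs_tm_le f (K := fun _ => K) (hK n)) i] with z hz
    refine hz.trans (mul_le_mul_of_nonneg_left ?_ (by positivity))
    exact mul_le_mul_of_nonneg_left (hB _) (C.wt_nonneg _ _)

end Meas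

end Chain

end Crest.Agent.R241
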