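import Crest.Agent.R241.KChainDV
import Crest.Agent.R241.MBas

/-! Row 241 (Cartan-Hadamard): block A: calculus of chains. -/

set_option autoImplicit false

open MeasureTheory Set Filter Topology
open scoped ENNReal NNReal Matrix ContDiff

namespace Crest.Agent.R241

open Crest.GeometryTopology.Submanifold

universe u v

variable {X : Type u} [MetricSpace X] {k : ℕ}

theorem Lip.comp_contDiff [CompactSpace X] {f : X → ℝ} (hf : Lip f) {F : ℝ → ℝ}
    (hF : ContDiff ℝ 1 F) : Lip fun x => F (f x) := KU.lip_comp hF hf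
theorem BM.of_continuous [CompactSpace X] [MeasurableSpace X] [BorelSpace X] {f : X → ℝ}
    (hf : Continuous f) : BM f := Chain.bm_of_continuous hf

namespace Chain

/-! ### the carré du champ on the pieces -/

theorem G_symm (C : Chain X k) (f h : X → ℝ) (i : C.ι) (z : Euc k) :
    C.G f h i z = C.G h f i z := C.G_comm i f h z
theorem G_le (C : Chain X k) {f : X → ℝ} {L : ℝ≥0} (hf : LipschitzWith L f) (i : C.ι) :
    ∀ᵐ z ∂(volume.restrict (C.E i)), C.G f f i z ≤ (L : ℝ) ^ 2 := C.ae_G_self_le i hf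
theorem abs_G_le (C : Chain X k) {f h : X → ℝ} {L L' : ℝ≥0} (hf : LipschitzWith L f)
    (hh : LipschitzWith L' h) (i : C.ι) :
    ∀ᵐ z ∂(volume.restrict (C.E i)), |C.G f h i z| ≤ (L : ℝ) * L' := C.ae_abs_G_le i hf hh
/-- Hadamard's inequality for the majorant metric. -/
theorem abs_jdet_le (C : Chain X k) {π : Fin k → X → ℝ} {L : Fin k → ℝ≥0}
    (hπ : ∀ a, LipschitzWith (L a) (π a)) (i : C.ι) :
    ∀ᵐ z ∂(volume.restrict (C.E i)),
      |jdet (C.E i) (C.φ i) π z| ≤ (∏ a, (L a : ℝ)) * √(C.g i z).det := C.ae_abs_jdet_le i hπ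

variable [MeasurableSpace X] [BorelSpace X]

/-! ### measures -/

theorem ae_mem_of_In (C : Chain X k) {A : Set X} (hA : MeasurableSet A) (h : C.In A) :
    ∀ᵐ p ∂C.μ, p ∈ A := h.ae_μ hA

/-- joint law of the point and of `⟨∇f, ∇h⟩`. -/
noncomputable def law (C : Chain X k) (f h : X → ℝ) : Measure (X × ℝ) :=
  Measure.sum fun i =>
    ((volume.restrict (C.E i)).withDensity fun z => ENNReal.ofReal (C.wt i z)).map
      fun z => (C.φ i z, C.G f h i z)

theorem aem_law (C : Chain X k) {f h : X → ℝ} (hf : Lip f) (hh : Lip h) :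
    AEMeasurable (fun p : C.ι × Euc k => (C.φ p.1 p.2, C.G f h p.1 p.2)) C.ν :=
  C.aem_φ.prodMk (C.aem_G hf hh)

theorem law_eq (C : Chain X k) {f h : X → ℝ} (hf : Lip f) (hh : Lip h) :
    C.law f h = (C.ν.withDensity fun p => ENNReal.ofReal (C.wt p.1 p.2)).map
      fun p => (C.φ p.1 p.2, C.G f h p.1 p.2) := by
  have hm := C.aem_law hf hh
  ext A hA
  rw [Measure.map_apply_of_aemeasurable (hm.mono_ac (withDensity_absolutelyContinuous _ _)) hA,
    withDensity_apply₀ _ (hm.nullMeasurableSet_preimage hA),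
    ← lintegral_indicator₀ (hm.nullMeasurableSet_preimage hA), lintegral_ν, law,
    Measure.sum_apply _ hA]
  refine tsum_congr fun i => ?_
  have hi : AEMeasurable (fun z => (C.φ i z, C.G f h i z)) (volume.restrict (C.E i)) :=
    C.aem_ν.1 hm i
  rw [Measure.map_apply_of_aemeasurable (hi.mono_ac (withDensity_absolutelyContinuous _ _)) hA,
    withDensity_apply₀ _ (hi.nullMeasurableSet_preimage hA),
    ← lintegral_indicator₀ (hi.nullMeasurableSet_preimage hA)]
  rfl

theorem law_ae (C : Chain X k) {f h : X → ℝ} (hf : Lip f) (hh : Lip h) {S : Set (X × ℝ)}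
    (hS : MeasurableSet S)
    (H : ∀ i, ∀ᵐ z ∂(volume.restrict (C.E i)), (C.φ i z, C.G f h i z) ∈ S) :
    ∀ᵐ q ∂(C.law f h), q ∈ S := by
  rw [C.law_eq hf hh]
  refine (ae_map_iff (p := fun q => q ∈ S)
    ((C.aem_law hf hh).mono_ac (withDensity_absolutelyContinuous _ _)) hS).2 ?_
  exact (withDensity_absolutelyContinuous _ _).ae_le
    ((C.ae_ν (P := fun p => (C.φ p.1 p.2, C.G f h p.1 p.2) ∈ S)).2 H)

theorem law_fst (C : Chain X k) {f h : X → ℝ} (hf : Lip f) (hh : Lip h) :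
    (C.law f h).map Prod.fst = C.μ := by
  rw [C.law_eq hf hh, AEMeasurable.map_map_of_aemeasurable measurable_fst.aemeasurable
    ((C.aem_law hf hh).mono_ac (withDensity_absolutelyContinuous _ _)), μ_eq]
  rfl
theorem law_fin (C : Chain X k) {f h : X → ℝ} (hf : Lip f) (hh : Lip h) :
    IsFiniteMeasure (C.law f h) := by
  refine ⟨?_⟩
  have : C.law f h univ = C.μ univ := by
    rw [← C.law_fst hf hh, Measure.map_apply measurable_fst MeasurableSet.univ, preimage_univ]
  rw [this]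
  exact measure_lt_top _ _
theorem law_ae_abs (C : Chain X k) {f h : X → ℝ} {L L' : ℝ≥0} (hf : LipschitzWith L f)
    (hh : LipschitzWith L' h) : ∀ᵐ q ∂(C.law f h), |q.2| ≤ (L : ℝ) * L' := by
  exact C.law_ae ⟨L, hf⟩ ⟨L', hh⟩ (S := {q | |q.2| ≤ (L : ℝ) * L'})
    (measurableSet_le measurable_snd.abs measurable_const) fun i => C.abs_G_le hf hh i
theorem law_ae_mem (C : Chain X k) {f : X → ℝ} {L : ℝ≥0} (hf : LipschitzWith L f) :
    ∀ᵐ q ∂(C.law f f), q.2 ∈ Icc (0 : ℝ) ((L : ℝ) ^ 2) := by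
  refine C.law_ae ⟨L, hf⟩ ⟨L, hf⟩ (S := Prod.snd ⁻¹' Icc (0 : ℝ) ((L : ℝ) ^ 2))
    (measurable_snd measurableSet_Icc) fun i => ?_
  filter_upwards [C.G_le hf i] with z hz
  exact ⟨C.G_nonneg i f z, hz⟩
theorem I_eq (C : Chain X k) {f h : X → ℝ} (hf : Lip f) (hh : Lip h) {F : X → ℝ → ℝ}
    (hF : Measurable fun q : X × ℝ => F q.1 q.2)
    (hb : ∀ M : ℝ, ∃ B : ℝ, ∀ p t, |t| ≤ M → |F p t| ≤ B) :
    Integrable (fun q : X × ℝ => F q.1 q.2) (C.law f h) ∧
      C.I F f h = ∫ q, F q.1 q.2 ∂(C.law f h) := by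
  obtain ⟨L, hL⟩ := id hf
  obtain ⟨L', hL'⟩ := id hh
  obtain ⟨B, hB⟩ := hb ((L : ℝ) * L')
  have := C.law_fin hf hh
  have hm := (C.aem_law hf hh).mono_ac
    (withDensity_absolutelyContinuous C.ν fun p => ENNReal.ofReal (C.wt p.1 p.2))
  refine ⟨Integrable.of_bound hF.aestronglyMeasurable B ?_, ?_⟩
  · filter_upwards [C.law_ae_abs hL hL'] with q hq
    exact hB _ _ hq
  · have hi : Integrable (fun p : C.ι × Euc k =>
        C.wt p.1 p.2 * F (C.φ p.1 p.2) (C.G f h p.1 p.2)) C.ν := by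
      refine C.integrable_of_le (C.measurable_wt'.aemeasurable.mul
        (hF.comp_aemeasurable (C.aem_law hf hh))) B ?_
      filter_upwards [(C.ae_ν (P := fun p => |C.G f h p.1 p.2| ≤ (L : ℝ) * L')).2
        fun i => C.abs_G_le hL hL' i] with p hp
      rw [abs_mul, abs_of_nonneg (C.wt_nonneg _ _), mul_comm]
      exact mul_le_mul_of_nonneg_right (hB _ _ hp) (C.wt_nonneg _ _)
    rw [C.law_eq hf hh, integral_map hm hF.aestronglyMeasurable,
      integral_withDensity_eq_integral_toReal_smul C.measurable_wt'.ennreal_ofReal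
        (.of_forall fun _ => ENNReal.ofReal_lt_top)]
    refine (C.integral_ν hi).symm.trans (integral_congr_ae (.of_forall fun p => ?_))
    simp [ENNReal.toReal_ofReal (C.wt_nonneg p.1 p.2)]
theorem I_fst (C : Chain X k) {F : X → ℝ} (hF : BM F) (f h : X → ℝ) :
    C.I (fun p _ => F p) f h = ∫ p, F p ∂C.μ := by
  rw [C.integral_μ hF.1, C.integral_ν ((C.integrable_μ_iff hF.1).1 (hF.integrable _))]
  rfl

/-! ### the trilinear functional `B η f h = ∫ η ⟨∇f, ∇h⟩ dμ` -/

/-- `∫ η ⟨∇f, ∇h⟩ dμ`. -/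
noncomputable def B (C : Chain X k) (η f h : X → ℝ) : ℝ := C.I (fun p t => η p * t) f h

omit [MeasurableSpace X] [BorelSpace X] in
theorem h69_B (C : Chain X k) (η f h : X → ℝ) :
    C.B η f h = C.SI fun i z => η (C.φ i z) * C.G f h i z := rfl

theorem h69_bb (C : Chain X k) {η f h : X → ℝ} (hη : BM η) (hf : Lip f) (hh : Lip h) :
    C.BFam fun i z => η (C.φ i z) * C.G f h i z := (bFam_φ hη).mul (bFam_G hf hh)

theorem B_symm (C : Chain X k) (η f h : X → ℝ) : C.B η f h = C.B η h f := by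
  rw [h69_B, h69_B]
  exact SI_congr fun i => ae_of_all _ fun z => by rw [C.G_comm i f h z]
theorem B_add_left (C : Chain X k) {η η' f h : X → ℝ} (hη : BM η) (hη' : BM η') (hf : Lip f)
    (hh : Lip h) : C.B (fun p => η p + η' p) f h = C.B η f h + C.B η' f h := by
  rw [h69_B, h69_B, h69_B, ← SI_add (C.h69_bb hη hf hh) (C.h69_bb hη' hf hh)]
  exact SI_congr fun i => ae_of_all _ fun z => by ring
theorem B_smul_left (C : Chain X k) (c : ℝ) (η f h : X → ℝ) :
    C.B (fun p => c * η p) f h = c * C.B η f h := by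
  rw [h69_B, h69_B, ← SI_const_mul]
  exact SI_congr fun i => ae_of_all _ fun z => by ring
theorem abs_B_le (C : Chain X k) {η f h : X → ℝ} {L L' : ℝ≥0} (hη : BM η)
    (hf : LipschitzWith L f) (hh : LipschitzWith L' h) :
    |C.B η f h| ≤ (L : ℝ) * L' * ∫ p, |η p| ∂C.μ := by
  have hab : BM fun p => |η p| := ⟨hη.1.abs, hη.2.imp fun _ h x => by rw [abs_abs]; exact h x⟩
  rw [h69_B, C.kintegral_μ hab, abs_le, ← neg_mul, ← SI_const_mul, ← SI_const_mul]
  have key : ∀ i, ∀ᵐ z ∂(volume.restrict (C.E i)),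
      |η (C.φ i z) * C.G f h i z| ≤ (L : ℝ) * L' * |η (C.φ i z)| := fun i => by
    filter_upwards [C.ae_abs_G_le i hf hh] with z hz
    rw [abs_mul, mul_comm]
    exact mul_le_mul_of_nonneg_right hz (abs_nonneg _)
  constructor
  · refine SI_mono ((bFam_const _).mul (bFam_φ hab)) (C.h69_bb hη ⟨L, hf⟩ ⟨L', hh⟩) fun i => ?_
    filter_upwards [key i] with z hz
    rw [neg_mul]
    exact (abs_le.1 hz).1
  · refine SI_mono (C.h69_bb hη ⟨L, hf⟩ ⟨L', hh⟩) ((bFam_const _).mul (bFam_φ hab)) fun i => ?_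
    filter_upwards [key i] with z hz
    exact (abs_le.1 hz).2
theorem B_nonneg (C : Chain X k) {η : X → ℝ} (h0 : ∀ p, 0 ≤ η p) (f : X → ℝ) :
    0 ≤ C.B η f f := by
  rw [h69_B]
  exact tsum_nonneg fun i => integral_nonneg fun z =>
    mul_nonneg (C.wt_nonneg i z) (mul_nonneg (h0 _) (C.G_nonneg i f z))
theorem B_add (C : Chain X k) {η f₁ f₂ h : X → ℝ} (hη : BM η) (h₁ : Lip f₁) (h₂ : Lip f₂)
    (hh : Lip h) : C.B η (fun p => f₁ p + f₂ p) h = C.B η f₁ h + C.B η f₂ h := by
  rw [h69_B, h69_B, h69_B, ← SI_add (C.h69_bb hη h₁ hh) (C.h69_bb hη h₂ hh)]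
  refine SI_congr fun i => ?_
  filter_upwards [C.ae_G_add i h₁ h₂ h] with z hz
  rw [hz]; ring
theorem B_mul [CompactSpace X] (C : Chain X k) {η f₁ f₂ h : X → ℝ} (hη : BM η) (h₁ : Lip f₁)
    (h₂ : Lip f₂) (hh : Lip h) :
    C.B η (fun p => f₁ p * f₂ p) h =
      C.B (fun p => η p * f₁ p) f₂ h + C.B (fun p => η p * f₂ p) f₁ h := by
  rw [h69_B, h69_B, h69_B, ← SI_add (C.h69_bb (hη.mul h₁.bm) h₂ hh) (C.h69_bb (hη.mul h₂.bm) h₁ hh)]
  refine SI_congr fun i => ?_
  filter_upwards [C.ae_G_mul i h₁ h₂ h] with z hz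
  rw [hz]; ring
theorem B_chain [CompactSpace X] (C : Chain X k) {η f h : X → ℝ} {F : ℝ → ℝ} (hη : BM η)
    (hF : ContDiff ℝ 1 F) (hf : Lip f) (hh : Lip h) :
    C.B η (fun p => F (f p)) h = C.B (fun p => η p * deriv F (f p)) f h := by
  rw [h69_B, h69_B]
  refine SI_congr fun i => ?_
  filter_upwards [C.ae_G_comp i hf (hF.differentiable one_ne_zero) h] with z hz
  rw [hz]; ring

/-! ### the action -/

theorem summable_act (C : Chain X k) {f : X → ℝ} {π : Fin k → X → ℝ} (hf : BM f)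
    (hπ : ∀ a, Lip (π a)) :
    (∀ i, IntegrableOn (fun z => (C.θ i z : ℝ) * f (C.φ i z) * jdet (C.E i) (C.φ i) π z) (C.E i)) ∧
      Summable fun i =>
        ∫ z in C.E i, |(C.θ i z : ℝ) * f (C.φ i z) * jdet (C.E i) (C.φ i) π z| := by
  exact ⟨C.integrableOn_tm hf hπ, (C.hasSum_ν (C.integrable_tm hf hπ).abs).summable⟩
theorem act_add_left (C : Chain X k) {f f' : X → ℝ} {π : Fin k → X → ℝ} (hf : BM f) (hf' : BM f')
    (hπ : ∀ a, Lip (π a)) : C.act (fun p => f p + f' p) π = C.act f π + C.act f' π := C.act_add hf hf' hπ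
omit [MeasurableSpace X] [BorelSpace X] in
theorem act_smul_left (C : Chain X k) (c : ℝ) (f : X → ℝ) (π : Fin k → X → ℝ) :
    C.act (fun p => c * f p) π = c * C.act f π := C.act_const_mul c f π
theorem act_add_coord (C : Chain X k) {f h h' : X → ℝ} {π : Fin k → X → ℝ} (a : Fin k)
    (hf : BM f) (hπ : ∀ a, Lip (π a)) (hh : Lip h) (hh' : Lip h') :
    C.act f (Function.update π a fun p => h p + h' p) =
      C.act f (Function.update π a h) + C.act f (Function.update π a h') := C.act_update_add hf hπ a hh hh'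
theorem act_smul_coord (C : Chain X k) {f h : X → ℝ} {π : Fin k → X → ℝ} (a : Fin k) (c : ℝ)
    (hf : BM f) (hπ : ∀ a, Lip (π a)) (hh : Lip h) :
    C.act f (Function.update π a fun p => c * h p) = c * C.act f (Function.update π a h) := C.act_update_const_mul f π a hh c
theorem act_mul_coord [CompactSpace X] (C : Chain X k) {f h h' : X → ℝ} {π : Fin k → X → ℝ}
    (a : Fin k) (hf : BM f) (hπ : ∀ a, Lip (π a)) (hh : Lip h) (hh' : Lip h') :
    C.act f (Function.update π a fun p => h p * h' p) =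
      C.act (fun p => f p * h p) (Function.update π a h') +
        C.act (fun p => f p * h' p) (Function.update π a h) :=
  C.act_update_mul hπ a hh hh' (hf.mul hh.bm) (hf.mul hh'.bm)
theorem act_chain_coord [CompactSpace X] (C : Chain X k) {f h : X → ℝ} {F : ℝ → ℝ}
    {π : Fin k → X → ℝ} (a : Fin k) (hf : BM f) (hπ : ∀ a, Lip (π a)) (hF : ContDiff ℝ 1 F)
    (hh : Lip h) :
    C.act f (Function.update π a fun p => F (h p)) =
      C.act (fun p => f p * deriv F (h p)) (Function.update π a h) :=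
  C.act_update_comp f π a hh fun x => (hF.differentiable one_ne_zero (h x)).hasDerivAt
/-- strong locality. -/
theorem act_local (C : Chain X k) {f : X → ℝ} {π : Fin k → X → ℝ} (hf : BM f)
    (hπ : ∀ a, Lip (π a)) (a : Fin k) (c : ℝ) (h : ∀ p, f p ≠ 0 → π a p = c) :
    C.act f π = 0 := C.act_eq_zero_of_const (hπ a) h
omit [MeasurableSpace X] [BorelSpace X] in
theorem act_congr (C : Chain X k) {A : Set X} (hA : C.In A) {f f' : X → ℝ}
    {π π' : Fin k → X → ℝ} (hf : EqOn f f' A) (hπ : ∀ a, EqOn (π a) (π' a) A) :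
    C.act f π = C.act f' π' := C.act_congr_of_In hA hf hπ
/-- weak continuity of the Jacobian. -/
theorem act_tendsto (C : Chain X k) {f : X → ℝ} {π : Fin k → X → ℝ} {πs : ℕ → Fin k → X → ℝ}
    {L : ℝ≥0} (hf : BM f) (hL : ∀ j a, LipschitzWith L (πs j a))
    (hlim : ∀ a p, Tendsto (fun j => πs j a p) atTop (𝓝 (π a p))) :
    Tendsto (fun j => C.act f (πs j)) atTop (𝓝 (C.act f π)) := C.tendsto_act hf hL hlim

omit [MeasurableSpace X] [BorelSpace X] in
theorem h69_act_one (S : Chain X (k + 1)) (π : Fin k → X → ℝ) :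
    S.act (fun _ => 1) (Fin.cons (fun _ => 1) π) = 0 :=
  S.act_eq_zero_of_const (a := 0) (c := 1) (by simpa using Lip.const 1) fun _ _ => by simp

theorem Bd.cyc {S : Chain X (k + 1)} {T : Chain X k} (h : S.Bd T) : T.Cyc := by
  intro π hπ
  rw [← h _ π (Lip.const 1) hπ, h69_act_one]
theorem Hom.cyc {T T' : Chain X k} {S : Chain X (k + 1)} (h : T.Hom T' S) (hT : T.Cyc) :
    T'.Cyc := by
  intro π hπ
  have e := h _ π (Lip.const 1) hπ
  rw [h69_act_one, hT π hπ] at e
  linarith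

open Classical in
theorem h69_int_zero (E : Set (Euc 0)) (F : Euc 0 → ℝ) :
    ∫ z in E, F z = if (0 : Euc 0) ∈ E then F 0 else 0 := by
  have hs : ∀ z : Euc 0, z = 0 := fun z => Subsingleton.elim _ _
  split_ifs with h
  · have hE : E = univ := eq_univ_of_forall fun z => hs z ▸ h
    have hF : F = fun _ => F 0 := funext fun z => by rw [hs z]
    have hv : (volume : Measure (Euc 0)) univ = 1 := by
      have := (PiLp.volume_preserving_ofLp (Fin 0)).measure_preimage
        (s := univ) MeasurableSet.univ.nullMeasurableSet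
      rw [preimage_univ] at this
      rw [this, volume_pi, Measure.pi_univ]
      simp
    rw [hE, Measure.restrict_univ, hF, integral_const]
    simp [Measure.real, hv]
  · have hE : E = ∅ := eq_empty_of_forall_notMem fun z hz => h (hs z ▸ hz)
    rw [hE]; simp

/-- an integral `0`-cycle has mass `0` or at least `2`. -/
theorem zero_cycle (σ : Chain X 0) (h : σ.Cyc) : σ.mass = 0 ∨ 2 ≤ σ.mass := by
  classical
  let n : σ.ι → ℤ := fun i => if (0 : Euc 0) ∈ σ.E i then σ.θ i 0 else 0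
  have hw : ∀ i, ∫ z in σ.E i, σ.wt i z = |(n i : ℝ)| := fun i => by
    rw [h69_int_zero]
    simp only [n]
    split_ifs <;> simp [wt]
  have h0 := h (fun a => a.elim0) fun a => a.elim0
  have ha : ∀ i, ∫ z in σ.E i, (σ.θ i z : ℝ) * (fun _ : X => (1 : ℝ)) (σ.φ i z) *
      jdet (σ.E i) (σ.φ i) (fun a => a.elim0) z = (n i : ℝ) := fun i => by
    rw [h69_int_zero]
    simp only [n]
    split_ifs <;> simp [jdet]
  unfold act at h0
  simp only [ha] at h0
  have hs := σ.ksummable_wt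
  rw [σ.kmass_eq]
  simp only [hw] at hs ⊢
  by_cases hz : ∀ i, n i = 0
  · left; simp [hz]
  right
  push Not at hz
  obtain ⟨i, hi⟩ := hz
  have hj : ∃ j, j ≠ i ∧ n j ≠ 0 := by
    by_contra hne
    push Not at hne
    rw [tsum_eq_single i fun j hj => by simp [hne j hj]] at h0
    exact hi (by exact_mod_cast h0)
  obtain ⟨j, hji, hj⟩ := hj
  have h1 : (1 : ℝ) ≤ |(n i : ℝ)| := by exact_mod_cast Int.one_le_abs hi
  have h2 : (1 : ℝ) ≤ |(n j : ℝ)| := by exact_mod_cast Int.one_le_abs hj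
  have h3 := hs.sum_le_tsum {j, i} fun _ _ => abs_nonneg _
  rw [Finset.sum_pair hji] at h3
  linarith

end Chain

end Crest.Agent.R241
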