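import Crest.Agent.R241.AlmF

/-! Row 241, block ALM: real-variable lemmas and the radial retraction onto a ball. -/

set_option autoImplicit false

open MeasureTheory Set Filter Topology
open scoped ENNReal NNReal

namespace Crest.Agent.R241.Alm

open Crest.GeometryTopology.Submanifold

universe u

/-- comparison with the solution of `y' = κ y^((n-1)/n)`. -/
theorem ode_lower {y : ℝ → ℝ} {r₀ κ : ℝ} {m : ℕ} (hκ : 0 < κ)
    (hmono : ∀ a b, 0 < a → a ≤ b → b ≤ r₀ → y a ≤ y b) (hpos : ∀ a, 0 < a → a ≤ r₀ → 0 < y a)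
    (hstep : ∀ a b, 0 < a → a < b → b ≤ r₀ →
      y a + (b - a) * (κ * y a ^ ((m : ℝ) / (m + 1))) ≤ y b) {r : ℝ} (hr : 0 < r) (hr₀ : r ≤ r₀) :
    (κ * r / (m + 1)) ^ (m + 1) ≤ y r := by
  have hm : (0 : ℝ) < m + 1 := by positivity
  have key : ∀ κ' s : ℝ, 0 < κ' → κ' < κ → 0 < s → s ≤ r →
      (κ' * (r - s) / (m + 1)) ^ (m + 1) ≤ y r := by
    intro κ' s hκ' hκκ hs hsr
    set z : ℝ → ℝ := fun t => (κ' * (t - s) / (m + 1)) ^ (m + 1) with hz
    have hzc : Continuous z := by rw [hz]; fun_prop
    have hzd : ∀ t, HasDerivAt z (κ' * (κ' * (t - s) / (m + 1)) ^ m) t := fun t => by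
      have h := ((((hasDerivAt_id t).sub_const s).const_mul κ').div_const ((m : ℝ) + 1)).pow (m + 1)
      refine h.congr_deriv ?_
      simp only [id, Nat.add_sub_cancel, Nat.cast_add, Nat.cast_one]
      field_simp
    let S : Set ℝ := {t | ∀ t' ∈ Icc s t, t' ≤ r → z t' ≤ y t'}
    have hS : IsClosed (S ∩ Icc s r) := by
      refine isClosed_of_closure_subset fun t ht => ?_
      have htI : t ∈ Icc s r := closure_minimal inter_subset_right isClosed_Icc ht
      refine ⟨fun t' ht' ht'r => ?_, htI⟩
      by_contra hlt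
      push Not at hlt
      have hev : ∀ᶠ u in 𝓝 t', y t' < z u := hzc.continuousAt.eventually (lt_mem_nhds hlt)
      obtain ⟨δ, hδ, hδ'⟩ := Metric.eventually_nhds_iff.1 hev
      obtain ⟨u, hu, hut⟩ := Metric.mem_closure_iff.1 ht δ hδ
      rcases le_total t' u with h | h
      · exact absurd (hu.1 t' ⟨ht'.1, h⟩ ht'r) (not_le.2 hlt)
      · have h1 : z u ≤ y u := hu.1 u ⟨hu.2.1, le_rfl⟩ hu.2.2
        have h2 : y u ≤ y t' := hmono u t' (hs.trans_le hu.2.1) h (ht'r.trans hr₀)
        have h3 : dist u t' < δ := by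
          rw [Real.dist_eq] at hut ⊢
          have := ht'.2
          rw [abs_lt] at hut ⊢
          constructor <;> linarith [hut.1, hut.2]
        linarith [hδ' h3]
    have hs0 : s ∈ S := fun t' ht' _ => by
      have : t' = s := le_antisymm ht'.2 ht'.1
      subst this
      simp only [hz, sub_self, mul_zero, zero_div, ne_eq, Nat.add_eq_zero_iff, one_ne_zero,
        and_false, not_false_eq_true, zero_pow]
      exact (hpos _ hs (hsr.trans hr₀)).le
    have hall : Icc s r ⊆ S := by
      refine hS.Icc_subset_of_forall_exists_gt hs0 fun x hx w hw => ?_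
      have hx0 : 0 < x := hs.trans_le hx.2.1
      have hxr : x ≤ r₀ := hx.2.2.le.trans hr₀
      have hzx : z x ≤ y x := hx.1 x ⟨hx.2.1, le_rfl⟩ hx.2.2.le
      have hev : ∀ᶠ u in 𝓝[>] x, u ≤ r → z u ≤ y u := by
        rcases hzx.eq_or_lt with h | h
        · have hb : 0 ≤ κ' * (x - s) / (m + 1) := by
            have := hx.2.1
            have : 0 ≤ x - s := by linarith
            positivity
          have hyx := hpos x hx0 hxr
          have hpow : y x ^ ((m : ℝ) / (m + 1)) = (κ' * (x - s) / (m + 1)) ^ m := by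
            rw [← h, hz]
            simp only
            rw [← Real.rpow_natCast, ← Real.rpow_mul hb, ← Real.rpow_natCast]
            congr 1
            push_cast
            field_simp
          have hP : 0 < (κ' * (x - s) / (m + 1)) ^ m := hpow ▸ Real.rpow_pos_of_pos hyx _
          have hlt : κ' * (κ' * (x - s) / (m + 1)) ^ m < κ * (κ' * (x - s) / (m + 1)) ^ m :=
            mul_lt_mul_of_pos_right hκκ hP
          have hsl := (hasDerivAt_iff_tendsto_slope.1 (hzd x)).mono_left
            (nhdsWithin_mono x (fun u (hu : u ∈ Ioi x) => (ne_of_gt hu : u ≠ x)))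
          filter_upwards [hsl.eventually (gt_mem_nhds hlt), self_mem_nhdsWithin] with u hu hux hur
          have hux' : 0 < u - x := sub_pos.2 hux
          rw [slope_def_field, div_lt_iff₀ hux'] at hu
          have := hstep x u hx0 hux (hur.trans hr₀)
          rw [hpow] at this
          nlinarith
        · have h1 : ∀ᶠ u in 𝓝 x, z u < y x := hzc.continuousAt.eventually (gt_mem_nhds h)
          filter_upwards [nhdsWithin_le_nhds h1, self_mem_nhdsWithin] with u hu hux hur
          exact hu.le.trans (hmono x u hx0 (le_of_lt hux) (hur.trans hr₀))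
      obtain ⟨b, hb, hb'⟩ := mem_nhdsGT_iff_exists_Ioc_subset.1 hev
      refine ⟨min b w, fun t' ht' ht'r => ?_, lt_min hb hw, min_le_right _ _⟩
      rcases le_or_gt t' x with h | h
      · exact hx.1 t' ⟨ht'.1, h⟩ ht'r
      · exact hb' ⟨h, ht'.2.trans (min_le_left _ _)⟩ ht'r
    exact hall ⟨hsr, le_rfl⟩ r ⟨hsr, le_rfl⟩ le_rfl
  have hc : Continuous fun t : ℝ => ((κ - t * κ) * (r - t * r) / (m + 1)) ^ (m + 1) := by fun_prop
  have ht : Tendsto (fun t : ℝ => ((κ - t * κ) * (r - t * r) / (m + 1)) ^ (m + 1)) (𝓝[>] 0)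
      (𝓝 ((κ * r / (m + 1)) ^ (m + 1))) := by
    have := (hc.tendsto 0).mono_left (nhdsWithin_le_nhds (s := Ioi 0))
    simpa using this
  refine le_of_tendsto ht ?_
  filter_upwards [Ioo_mem_nhdsGT (zero_lt_one' ℝ)] with t ht
  exact key _ _ (by nlinarith [ht.2]) (by nlinarith [ht.1]) (mul_pos ht.1 hr) (by nlinarith [ht.2])

section Retr
variable {l : ℝ} {X : Type u} [MetricSpace X] (cat : CatSp l X)

theorem dist_geo_left (x p : X) {s : ℝ} (hs : s ∈ Icc (0 : ℝ) 1) :
    dist x (cat.geo x p s) = s * dist x p := by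
  have := cat.dist_geo x p 0 ⟨le_rfl, zero_le_one⟩ s hs
  rwa [cat.zero, zero_sub, abs_neg, abs_of_nonneg hs.1] at this

/-- the radial retraction onto the closed ball of radius `r` about `x`. -/
noncomputable def retr (x : X) (r : ℝ) (y : X) : X := cat.geo x y (min 1 (r / dist x y))

theorem retr_par {x : X} {r : ℝ} (hr : 0 ≤ r) (y : X) : min 1 (r / dist x y) ∈ Icc (0 : ℝ) 1 :=
  ⟨le_min zero_le_one (div_nonneg hr dist_nonneg), min_le_left _ _⟩

theorem retr_rad {x : X} {r : ℝ} (hr : 0 ≤ r) (y : X) :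
    min 1 (r / dist x y) * dist x y = min (dist x y) r := by
  rcases (dist_nonneg (x := x) (y := y)).eq_or_lt with h | h
  · rw [← h, mul_zero, min_eq_left hr]
  · rw [min_mul_of_nonneg _ _ h.le, one_mul, div_mul_cancel₀ _ h.ne']

theorem dist_retr {x : X} {r : ℝ} (hr : 0 ≤ r) (y : X) :
    dist x (retr cat x r y) = min (dist x y) r := by
  rw [retr, dist_geo_left cat _ _ (retr_par hr y), retr_rad hr]

theorem retr_mem {x : X} {r : ℝ} (hr : 0 ≤ r) (y : X) : retr cat x r y ∈ Metric.closedBall x r := by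
  rw [Metric.mem_closedBall, dist_comm, dist_retr cat hr]; exact min_le_right _ _

theorem retr_of_mem {x : X} {r : ℝ} {y : X} (hy : y ∈ Metric.closedBall x r) :
    retr cat x r y = y := by
  rw [Metric.mem_closedBall, dist_comm] at hy
  rcases (dist_nonneg (x := x) (y := y)).eq_or_lt with h | h
  · have hxy : x = y := dist_eq_zero.1 h.symm
    subst hxy
    have := dist_retr cat (x := x) (dist_nonneg.trans hy) x
    rw [dist_self, min_eq_left (dist_self x ▸ hy)] at this
    exact (dist_eq_zero.1 this).symm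
  · rw [retr, min_eq_left ((one_le_div h).2 hy), cat.one]

theorem lipschitz_retr (hl : 0 ≤ l) (x : X) {r : ℝ} (hr : 0 ≤ r) :
    LipschitzWith 1 (retr cat x r) := by
  have h0 : ∀ y : X, retr cat x r x = x := fun _ => retr_of_mem cat (Metric.mem_closedBall_self hr)
  refine LipschitzWith.of_dist_le_mul fun y y' => ?_
  rw [NNReal.coe_one, one_mul]
  rcases (dist_nonneg (x := x) (y := y)).eq_or_lt with h | h
  · have hxy : x = y := dist_eq_zero.1 h.symm
    subst hxy
    rw [h0 x, dist_retr cat hr]; exact min_le_left _ _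
  rcases (dist_nonneg (x := x) (y := y')).eq_or_lt with h' | h'
  · have hxy : x = y' := dist_eq_zero.1 h'.symm
    subst hxy
    rw [h0 x, dist_comm, dist_retr cat hr, dist_comm y]; exact min_le_left _ _
  have hc := cat.cmp x y y' _ (retr_par (x := x) hr y) _ (retr_par (x := x) hr y')
  rw [retr_rad hr, retr_rad hr] at hc
  have hp := mul_pos (sn_pos hl h) (sn_pos hl h')
  have h1 : md l (min (dist x y) r - min (dist x y') r) ≤ md l (dist x y - dist x y') := by
    refine md_le_of_abs_le hl ?_
    simpa using abs_min_sub_min_le_max (dist x y) r (dist x y') r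
  have h2 : md l (dist x y - dist x y') ≤ md l (dist y y') := by
    refine md_le_of_abs_le hl ?_
    rw [abs_of_nonneg dist_nonneg, dist_comm x y, dist_comm x y']
    exact abs_dist_sub_le _ _ _
  have h3 : sn l (min (dist x y) r) * sn l (min (dist x y') r) ≤
      sn l (dist x y) * sn l (dist x y') :=
    mul_le_mul ((strictMono_sn hl).monotone (min_le_left _ _))
      ((strictMono_sn hl).monotone (min_le_left _ _))
      (sn_nonneg hl (le_min dist_nonneg hr)) (sn_nonneg hl dist_nonneg)
  have h4 := mul_le_mul_of_nonneg_right h3 (sub_nonneg.2 h2)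
  have h5 := mul_le_mul_of_nonneg_left h1 hp.le
  refine le_of_md_le hl dist_nonneg dist_nonneg (le_of_mul_le_mul_left ?_ hp)
  unfold retr
  linarith

end Retr

end Crest.Agent.R241.Alm
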