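import Crest.Agent.R241.Geo

/-! Row 241 (Cartan-Hadamard): the isoperimetric profile `Phi`: `Phi (area r) = vol r`. -/

set_option autoImplicit false

open MeasureTheory Set Filter Topology
open scoped ENNReal NNReal Matrix ContDiff

namespace Crest.Agent.R241

open Crest.GeometryTopology.Submanifold

universe u v

noncomputable section

/-- derivative of the profile: `tanh`-type function of the radius. -/
def phi (n : ℕ) (l m : ℝ) : ℝ :=
  (m / sA n) ^ (1 / (n : ℝ)) / (n * √(1 + l * ((m / sA n) ^ (1 / (n : ℝ))) ^ 2))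

/-- the profile. -/
def Phi (n : ℕ) (l M : ℝ) : ℝ := ∫ m in (0 : ℝ)..M, phi n l m

variable {n : ℕ} {l : ℝ}

theorem phi_eq_alm (n : ℕ) (l : ℝ) : phi n l = Alm.phi n l := by
  funext m; simp [phi, Alm.phi, Alm.sg, one_div]

theorem Phi_eq_alm (n : ℕ) (l : ℝ) : Phi n l = Alm.Fp n l := by
  funext m; simp [Phi, Alm.Fp, phi_eq_alm]

theorem continuous_phi (hn : 1 ≤ n) (hl : 0 ≤ l) : Continuous (phi n l) :=
  phi_eq_alm n l ▸ Alm.continuous_phi (by omega) hl
theorem phi_pos (hn : 1 ≤ n) (hl : 0 ≤ l) {m : ℝ} (hm : 0 < m) : 0 < phi n l m :=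
  phi_eq_alm n l ▸ Alm.phi_pos (by omega) hl hm
theorem phi_monotoneOn (hn : 1 ≤ n) (hl : 0 ≤ l) : MonotoneOn (phi n l) (Ici 0) :=
  phi_eq_alm n l ▸ fun _ ha _ _ hab => Alm.phi_mono hl ha hab
theorem phi_area (hn : 1 ≤ n) (hl : 0 ≤ l) {r : ℝ} (hr : 0 ≤ r) :
    phi n l (area n l r) = sn l r / (n * (1 + l * md l r)) := by
  rw [phi_eq_alm, Alm.phi_area (by omega) hl hr, Alm.cs_eq hl]
theorem hasDerivAt_Phi (hn : 1 ≤ n) (hl : 0 ≤ l) (m : ℝ) :
    HasDerivAt (Phi n l) (phi n l m) m := by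
  rw [phi_eq_alm, Phi_eq_alm]; exact Alm.hasDerivAt_Fp (by omega) hl m
theorem Phi_zero : Phi n l 0 = 0 := by simp [Phi]
theorem Phi_area (hn : 1 ≤ n) (hl : 0 ≤ l) {r : ℝ} (hr : 0 ≤ r) :
    Phi n l (area n l r) = vol n l r := by
  rw [Phi_eq_alm]; exact Alm.Fp_area (by omega) hl hr
theorem Phi_monotoneOn (hn : 1 ≤ n) (hl : 0 ≤ l) : MonotoneOn (Phi n l) (Ici 0) :=
  Phi_eq_alm n l ▸ fun _ ha _ _ hab => Alm.Fp_mono (by omega) hl ha hab
theorem Phi_convexOn (hn : 1 ≤ n) (hl : 0 ≤ l) : ConvexOn ℝ (Ici 0) (Phi n l) := by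
  refine MonotoneOn.convexOn_of_deriv (convex_Ici 0)
    (fun x _ => (hasDerivAt_Phi hn hl x).continuousAt.continuousWithinAt)
    (fun x _ => (hasDerivAt_Phi hn hl x).differentiableAt.differentiableWithinAt) ?_
  intro x hx y hy hxy
  rw [(hasDerivAt_Phi hn hl x).deriv, (hasDerivAt_Phi hn hl y).deriv]
  exact phi_monotoneOn hn hl (interior_subset hx) (interior_subset hy) hxy
theorem Phi_tendsto (hn : 1 ≤ n) (hl : 0 ≤ l) : Tendsto (Phi n l) atTop atTop := by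
  rw [Phi_eq_alm]
  have hp := Alm.phi_pos (n := n) (by omega) hl one_pos
  refine tendsto_atTop_mono' atTop (f₁ := fun m => Alm.Fp n l 1 + Alm.phi n l 1 * (m - 1)) ?_ ?_
  · filter_upwards [eventually_ge_atTop 0] with m hm
    exact Alm.Fp_tangent (by omega) hl zero_le_one hm
  · exact tendsto_atTop_add_const_left _ _
      ((tendsto_atTop_add_const_right _ (-1) tendsto_id).const_mul_atTop hp)
theorem exists_area (hn : 1 ≤ n) (hl : 0 ≤ l) {m : ℝ} (hm : 0 ≤ m) :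
    ∃ r, 0 ≤ r ∧ area n l r = m := Alm.exists_area_eq (by omega) hl hm
theorem Phi_zero_left (hn : 1 ≤ n) {m : ℝ} (hm : 0 ≤ m) :
    Phi n 0 m = 1 / ((n + 1 : ℝ) * sA n ^ (1 / (n : ℝ))) * m ^ ((n + 1 : ℝ) / n) := by
  have hn' : (0 : ℝ) < n := by exact_mod_cast hn
  have hs := sA_pos n
  have h1 : unitBallVol (n + 1) = sA n / (n + 1) := by rw [sA_eq]; field_simp
  rw [Phi_eq_alm, Alm.Fp_flat (by omega) hm, h1, pow_succ, Alm.sg,
    Real.rpow_inv_natCast_pow (div_nonneg hm hs.le) (by omega), Real.div_rpow hm hs.le,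
    show ((n : ℝ) + 1) / n = 1 + (n : ℝ)⁻¹ by field_simp,
    Real.rpow_add' hm (by positivity), Real.rpow_one, one_div (n : ℝ)]
  have := Real.rpow_pos_of_pos hs (n : ℝ)⁻¹
  field_simp

/-- `IsoIn` in terms of the profile. -/
theorem isoIn_iff {X : Type u} [MetricSpace X] (hn : 1 ≤ n) (hl : 0 ≤ l) :
    IsoIn X n l ↔ ∀ T : Chain X n, T.Cyc → T.FillLe (Phi n l T.mass) := by
  constructor
  · intro h T hT
    obtain ⟨r, hr, e⟩ := exists_area hn hl (m := T.mass) ENNReal.toReal_nonneg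
    rw [← e, Phi_area hn hl hr]
    exact h T hT r hr e.ge
  · intro h T hT r hr hm ε hε
    obtain ⟨S, hS, hS'⟩ := h T hT ε hε
    refine ⟨S, hS, hS'.trans ?_⟩
    rw [← Phi_area hn hl hr]
    have : Phi n l T.mass ≤ Phi n l (area n l r) := Phi_monotoneOn hn hl (mem_Ici.2 (ENNReal.toReal_nonneg : 0 ≤ T.mass))
      (mem_Ici.2 (Alm.area_nonneg n hl hr)) hm
    linarith

/-- the ODE comparison of the density estimate. -/
theorem ode_lower {f : ℝ → ℝ} {a b c : ℝ} (hn : 1 ≤ n) (hab : a ≤ b) (hc : 0 ≤ c)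
    (hf : MonotoneOn f (Icc a b)) (h0 : 0 < f a)
    (h : ∀ s t, a ≤ s → s ≤ t → t ≤ b → c * f s ^ (1 - 1 / (n : ℝ)) * (t - s) ≤ f t - f s) :
    (c / n * (b - a)) ^ n ≤ f b := by
  obtain ⟨m, rfl⟩ : ∃ m, n = m + 1 := ⟨n - 1, by omega⟩
  have hfb : 0 < f b := h0.trans_le (hf ⟨le_rfl, hab⟩ ⟨hab, le_rfl⟩ hab)
  rcases hc.eq_or_lt with rfl | hc
  · simpa using hfb.le
  rcases hab.eq_or_lt with rfl | hab'
  · simpa using hfb.le
  have key := Alm.ode_lower (y := fun t => f (a + t)) (r₀ := b - a) (κ := c) (m := m) hc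
    (fun s t hs hst ht => hf ⟨by linarith, by linarith⟩ ⟨by linarith, by linarith⟩ (by linarith))
    (fun s hs hs' => h0.trans_le (hf ⟨le_rfl, hab⟩ ⟨by linarith, by linarith⟩ (by linarith)))
    (fun s t hs hst ht => by
      have := h (a + s) (a + t) (by linarith) (by linarith) (by linarith)
      have e : (1 : ℝ) - 1 / ((m + 1 : ℕ) : ℝ) = (m : ℝ) / (m + 1) := by
        push_cast; field_simp; ring
      rw [e] at this
      nlinarith) (sub_pos.2 hab') le_rfl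
  simp only [add_sub_cancel] at key
  refine le_trans (le_of_eq ?_) key
  push_cast
  ring

theorem Phi_le_flat (hn : 1 ≤ n) (hl : 0 ≤ l) {M : ℝ} (hM : 0 ≤ M) :
    Phi n l M ≤ Phi n 0 M := by
  unfold Phi
  refine intervalIntegral.integral_mono_on hM
    ((continuous_phi hn hl).intervalIntegrable _ _)
    ((continuous_phi hn le_rfl).intervalIntegrable _ _) fun m hm => ?_
  rw [phi_eq_alm, phi_eq_alm, Alm.phi_flat, Alm.phi]
  have hs := Alm.sg_nonneg n hm.1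
  have hn' : (0 : ℝ) < n := by exact_mod_cast hn
  have h1 : 1 ≤ √(1 + l * Alm.sg n m ^ 2) :=
    Real.one_le_sqrt.2 (by nlinarith [sq_nonneg (Alm.sg n m)])
  exact div_le_div_of_nonneg_left hs hn' (by nlinarith)

theorem IsoIn.flat {X : Type u} [MetricSpace X] (hn : 1 ≤ n) (hl : 0 ≤ l) (h : IsoIn X n l) :
    IsoIn X n 0 := by
  rw [isoIn_iff hn hl] at h
  rw [isoIn_iff hn le_rfl]
  intro T hT ε hε
  obtain ⟨S, hS, hS'⟩ := h T hT ε hε
  exact ⟨S, hS, hS'.trans (by linarith [Phi_le_flat hn hl (M := T.mass) ENNReal.toReal_nonneg])⟩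

end

end Crest.Agent.R241
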