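import Crest.Agent.R241.MBas

/-! Row 241, block M (helper76): operations on chains (zero, negation, sum, countable sum,
restriction, push-forward, passing to a subspace) and the algebra of boundaries. -/

set_option autoImplicit false
set_option linter.unusedSectionVars false
open MeasureTheory Filter Topology Set
open scoped NNReal ENNReal
open Crest.GeometryTopology.Submanifold (Euc)

namespace Crest.Agent.R241

universe u v
variable {X : Type u} [MetricSpace X] {k : ℕ}

namespace Chain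

/-! ### `I` as an integral -/

theorem hasSum_I (C : Chain X k) {F : X → ℝ → ℝ} {f h : X → ℝ}
    (hi : Integrable (fun p => C.wt p.1 p.2 * F (C.φ p.1 p.2) (C.G f h p.1 p.2)) C.ν) :
    HasSum (fun i => ∫ z in C.E i, C.wt i z * F (C.φ i z) (C.G f h i z)) (C.I F f h) :=
  (C.hasSum_ν hi).summable.hasSum

theorem I_eq_ν (C : Chain X k) {F : X → ℝ → ℝ} {f h : X → ℝ}
    (hi : Integrable (fun p => C.wt p.1 p.2 * F (C.φ p.1 p.2) (C.G f h p.1 p.2)) C.ν) :
    C.I F f h = ∫ p, C.wt p.1 p.2 * F (C.φ p.1 p.2) (C.G f h p.1 p.2) ∂C.ν :=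
  (C.integral_ν hi).symm

theorem ae_abs_G_le' (C : Chain X k) {u v : X → ℝ} {K K' : ℝ≥0} (hu : LipschitzWith K u)
    (hv : LipschitzWith K' v) : ∀ᵐ p ∂C.ν, |C.G u v p.1 p.2| ≤ (K : ℝ) * K' :=
  C.ae_ν.2 fun i => C.ae_abs_G_le i hu hv

theorem integrable_I [MeasurableSpace X] [BorelSpace X] (C : Chain X k) {F : X → ℝ → ℝ}
    (hF : Measurable (Function.uncurry F)) {f h : X → ℝ} {K K' : ℝ≥0} (hf : LipschitzWith K f)
    (hh : LipschitzWith K' h) {B : ℝ} (hB : ∀ x t, |t| ≤ (K : ℝ) * K' → |F x t| ≤ B) :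
    Integrable (fun p => C.wt p.1 p.2 * F (C.φ p.1 p.2) (C.G f h p.1 p.2)) C.ν := by
  refine C.integrable_of_le (C.measurable_wt'.aemeasurable.mul
    (hF.comp_aemeasurable (C.aem_φ.prodMk (C.aem_G ⟨_, hf⟩ ⟨_, hh⟩)))) B ?_
  filter_upwards [C.ae_abs_G_le' hf hh] with p hp
  rw [abs_mul, abs_of_nonneg (C.wt_nonneg _ _), mul_comm]
  exact mul_le_mul_of_nonneg_right (hB _ _ hp) (C.wt_nonneg _ _)

/-! ### the zero chain -/

/-- the empty chain. -/
def zero (X : Type u) [MetricSpace X] (k : ℕ) : Chain X k where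
  ι := Empty
  cnt := inferInstance
  E := fun i => i.elim
  φ := fun i => i.elim
  θ := fun i => i.elim
  g := fun i => i.elim
  mE := fun i => i.elim
  bE := fun i => i.elim
  lip := fun i => i.elim
  mθ := fun i => i.elim
  iθ := fun i => i.elim
  mg := fun i => i.elim
  psd := fun i => i.elim
  maj := fun i => i.elim
  fin := by simp

@[simp] theorem zero_act (f : X → ℝ) (π : Fin k → X → ℝ) : (zero X k).act f π = 0 :=
  tsum_empty (β := Empty)

@[simp] theorem zero_mass : (zero X k).mass = 0 := by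
  unfold mass
  rw [show (∑' i, ∫⁻ z in (zero X k).E i, ENNReal.ofReal ((zero X k).wt i z)) = 0 from
    tsum_empty (β := Empty)]
  rfl

theorem zero_In (A : Set X) : (zero X k).In A := fun i => Empty.elim i

theorem zero_Cyc : (zero X k).Cyc := fun _ _ => zero_act _ _

/-! ### negation -/

/-- the chain with the opposite orientation. -/
def neg (C : Chain X k) : Chain X k :=
  { C with
    θ := fun i z => -C.θ i z
    mθ := fun i => (C.mθ i).neg
    iθ := fun i => by simpa using (C.iθ i).neg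
    fin := by simpa using C.fin }

@[simp] theorem neg_wt (C : Chain X k) (i : C.ι) (z : Euc k) : C.neg.wt i z = C.wt i z := by
  simp [wt, neg]

@[simp] theorem neg_act (C : Chain X k) (f : X → ℝ) (π : Fin k → X → ℝ) :
    C.neg.act f π = -C.act f π := by
  rw [← act_neg]
  refine tsum_congr (β := C.ι) fun i => integral_congr_ae (.of_forall fun z => ?_)
  simp [neg]

@[simp] theorem neg_mass (C : Chain X k) : C.neg.mass = C.mass := by
  unfold mass
  congr 1
  exact tsum_congr (β := C.ι) fun i => lintegral_congr fun z => by rw [neg_wt]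

@[simp] theorem neg_μ [MeasurableSpace X] (C : Chain X k) : C.neg.μ = C.μ := by
  unfold μ
  simp only [show ∀ (i : C.neg.ι) z, C.neg.wt i z = C.wt i z from C.neg_wt]
  rfl

@[simp] theorem neg_I (C : Chain X k) (F : X → ℝ → ℝ) (f h : X → ℝ) :
    C.neg.I F f h = C.I F f h :=
  tsum_congr (β := C.ι) fun i => integral_congr_ae (.of_forall fun z => by
    show C.neg.wt i z * _ = _
    rw [neg_wt]; rfl)

theorem In.neg {C : Chain X k} {A : Set X} (h : C.In A) : C.neg.In A := h

/-! ### sums -/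

/-- the sum of two chains. -/
def add (C D : Chain X k) : Chain X k where
  ι := C.ι ⊕ D.ι
  cnt := inferInstance
  E := Sum.elim C.E D.E
  φ := Sum.elim C.φ D.φ
  θ := Sum.elim C.θ D.θ
  g := Sum.elim C.g D.g
  mE := fun i => Sum.rec C.mE D.mE i
  bE := fun i => Sum.rec C.bE D.bE i
  lip := fun i => Sum.rec C.lip D.lip i
  mθ := fun i => Sum.rec C.mθ D.mθ i
  iθ := fun i => Sum.rec C.iθ D.iθ i
  mg := fun i => Sum.rec C.mg D.mg i
  psd := fun i => Sum.rec C.psd D.psd i
  maj := fun i => Sum.rec C.maj D.maj i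
  fin := by
    rw [ENNReal.summable.tsum_sum ENNReal.summable]
    exact ENNReal.add_ne_top.2 ⟨C.fin, D.fin⟩

theorem add_mass (C D : Chain X k) : (C.add D).mass = C.mass + D.mass := by
  refine Eq.trans ?_ (ENNReal.toReal_add C.fin D.fin)
  unfold mass
  congr 1
  exact ENNReal.summable.tsum_sum (α := C.ι) (β := D.ι) ENNReal.summable

theorem In.add {C D : Chain X k} {A : Set X} (h : C.In A) (h' : D.In A) : (C.add D).In A :=
  fun i => Sum.rec h h' i

/-- the sum of a countable family of chains with summable masses. -/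
def sigma {T : Type} [Countable T] (C : T → Chain X k)
    (hC : ∑' t, ENNReal.ofReal (C t).mass ≠ ⊤) : Chain X k where
  ι := Σ t, (C t).ι
  cnt := inferInstance
  E := fun i => (C i.1).E i.2
  φ := fun i => (C i.1).φ i.2
  θ := fun i => (C i.1).θ i.2
  g := fun i => (C i.1).g i.2
  mE := fun i => (C i.1).mE i.2
  bE := fun i => (C i.1).bE i.2
  lip := fun i => (C i.1).lip i.2
  mθ := fun i => (C i.1).mθ i.2
  iθ := fun i => (C i.1).iθ i.2
  mg := fun i => (C i.1).mg i.2
  psd := fun i => (C i.1).psd i.2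
  maj := fun i => (C i.1).maj i.2
  fin := by
    rw [ENNReal.tsum_sigma']
    simp only [ofReal_mass] at hC
    exact hC

theorem sigma_ofReal_mass {T : Type} [Countable T] (C : T → Chain X k)
    (hC : ∑' t, ENNReal.ofReal (C t).mass ≠ ⊤) :
    ENNReal.ofReal (sigma C hC).mass = ∑' t, ENNReal.ofReal (C t).mass := by
  simp only [ofReal_mass]
  exact ENNReal.tsum_sigma' (β := fun t => (C t).ι) _

theorem sigma_mass {T : Type} [Countable T] (C : T → Chain X k)
    (hC : ∑' t, ENNReal.ofReal (C t).mass ≠ ⊤) : (sigma C hC).mass = ∑' t, (C t).mass := by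
  rw [← ENNReal.toReal_ofReal (sigma C hC).mass_nonneg, sigma_ofReal_mass,
    ENNReal.tsum_toReal_eq fun _ => ENNReal.ofReal_ne_top]
  exact tsum_congr fun t => ENNReal.toReal_ofReal (C t).mass_nonneg

theorem tsum_ofReal_mass_ne_top {T : Type} {C : T → Chain X k} (h : Summable fun t => (C t).mass) :
    ∑' t, ENNReal.ofReal (C t).mass ≠ ⊤ := by
  rw [← ENNReal.ofReal_tsum_of_nonneg (fun t => (C t).mass_nonneg) h]
  exact ENNReal.ofReal_ne_top

theorem sigma_In {T : Type} [Countable T] {C : T → Chain X k}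
    (hC : ∑' t, ENNReal.ofReal (C t).mass ≠ ⊤) {A : Set X} (h : ∀ t, (C t).In A) :
    (sigma C hC).In A := fun i => h i.1 i.2

/-! ### restriction -/

/-- restriction to measurable subsets of the parameter domains. -/
def restrictP (C : Chain X k) (S : C.ι → Set (Euc k)) (hS : ∀ i, MeasurableSet (S i))
    (hSE : ∀ i, S i ⊆ C.E i) : Chain X k :=
  { C with
    E := S
    mE := hS
    bE := fun i => (C.bE i).subset (hSE i)
    lip := fun i => (C.lip i).imp fun _ h => h.mono (hSE i)
    iθ := fun i => (C.iθ i).mono_set (hSE i)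
    maj := fun i => (ae_restrict_of_ae_restrict_of_subset (hSE i) (C.maj i)).mono
      fun _ h => h.mono (hSE i)
    fin := ne_top_of_le_ne_top C.fin
      (ENNReal.tsum_le_tsum fun i => lintegral_mono_set (hSE i)) }

theorem restrictP_ae_dv (C : Chain X k) {S : C.ι → Set (Euc k)} (hS : ∀ i, MeasurableSet (S i))
    (hSE : ∀ i, S i ⊆ C.E i) {u : X → ℝ} (hu : Lip u) (i : C.ι) :
    ∀ᵐ z ∂(volume.restrict (S i)), dv (S i) (C.φ i) u z = dv (C.E i) (C.φ i) u z := by
  obtain ⟨L, hL⟩ := C.lip i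
  filter_upwards [ae_dW_restrict (hS i) (hSE i) hL hu.choose_spec.lipschitzOnWith] with z hz
  simp only [dv, hz]

theorem restrictP_act (C : Chain X k) {S : C.ι → Set (Euc k)} (hS : ∀ i, MeasurableSet (S i))
    (hSE : ∀ i, S i ⊆ C.E i) (f : X → ℝ) {π : Fin k → X → ℝ} (hπ : ∀ a, Lip (π a)) :
    (C.restrictP S hS hSE).act f π =
      ∑' i, ∫ z in S i, (C.θ i z : ℝ) * f (C.φ i z) * jdet (C.E i) (C.φ i) π z := by
  refine tsum_congr (β := C.ι) fun i => integral_congr_ae ?_
  filter_upwards [ae_all_iff.2 fun a => C.restrictP_ae_dv hS hSE (hπ a) i] with z hz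
  show (C.θ i z : ℝ) * f (C.φ i z) * jdet (S i) (C.φ i) π z = _
  simp only [jdet, hz]

theorem restrictP_I (C : Chain X k) {S : C.ι → Set (Euc k)} (hS : ∀ i, MeasurableSet (S i))
    (hSE : ∀ i, S i ⊆ C.E i) (F : X → ℝ → ℝ) {f h : X → ℝ} (hf : Lip f) (hh : Lip h) :
    (C.restrictP S hS hSE).I F f h =
      ∑' i, ∫ z in S i, C.wt i z * F (C.φ i z) (C.G f h i z) := by
  refine tsum_congr (β := C.ι) fun i => integral_congr_ae ?_
  filter_upwards [C.restrictP_ae_dv hS hSE hf i, C.restrictP_ae_dv hS hSE hh i] with z h1 h2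
  show C.wt i z * F (C.φ i z) (gam (C.g i z) (dv (S i) (C.φ i) f z) (dv (S i) (C.φ i) h z)) = _
  rw [h1, h2]
  rfl

section Meas
variable [MeasurableSpace X] [BorelSpace X]

theorem add_act (C D : Chain X k) {f : X → ℝ} (hf : BM f) {π : Fin k → X → ℝ}
    (hπ : ∀ a, Lip (π a)) : (C.add D).act f π = C.act f π + D.act f π :=
  (HasSum.sum (α := C.ι) (β := D.ι) (f := fun i => ∫ z in (C.add D).E i, ((C.add D).θ i z : ℝ) *
    f ((C.add D).φ i z) * jdet ((C.add D).E i) ((C.add D).φ i) π z)
    (C.hasSum_act hf hπ) (D.hasSum_act hf hπ)).tsum_eq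

theorem add_μ (C D : Chain X k) : (C.add D).μ = C.μ + D.μ := by
  ext A hA
  rw [Measure.add_apply, ← lintegral_indicator_one hA, ← lintegral_indicator_one hA,
    ← lintegral_indicator_one hA, lintegral_μ _ (measurable_one.indicator hA),
    lintegral_μ _ (measurable_one.indicator hA), lintegral_μ _ (measurable_one.indicator hA)]
  exact ENNReal.summable.tsum_sum (α := C.ι) (β := D.ι) ENNReal.summable

theorem add_I (C D : Chain X k) {F : X → ℝ → ℝ}
    (hF : Measurable (Function.uncurry F)) {f h : X → ℝ} {K K' : ℝ≥0} (hf : LipschitzWith K f)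
    (hh : LipschitzWith K' h) {B : ℝ} (hB : ∀ x t, |t| ≤ (K : ℝ) * K' → |F x t| ≤ B) :
    (C.add D).I F f h = C.I F f h + D.I F f h :=
  (HasSum.sum (α := C.ι) (β := D.ι) (f := fun i => ∫ z in (C.add D).E i, (C.add D).wt i z *
    F ((C.add D).φ i z) ((C.add D).G f h i z)) (C.hasSum_I (C.integrable_I hF hf hh hB))
    (D.hasSum_I (D.integrable_I hF hf hh hB))).tsum_eq

theorem hasSum_sigma_act {T : Type} [Countable T] (C : T → Chain X k)
    (hC : ∑' t, ENNReal.ofReal (C t).mass ≠ ⊤) {f : X → ℝ} (hf : BM f) {π : Fin k → X → ℝ}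
    (hπ : ∀ a, Lip (π a)) : HasSum (fun t => (C t).act f π) ((sigma C hC).act f π) :=
  HasSum.sigma (γ := fun t => (C t).ι) ((sigma C hC).hasSum_act hf hπ)
    fun t => (C t).hasSum_act hf hπ

theorem sigma_μ {T : Type} [Countable T] (C : T → Chain X k)
    (hC : ∑' t, ENNReal.ofReal (C t).mass ≠ ⊤) :
    (sigma C hC).μ = Measure.sum fun t => (C t).μ := by
  ext A hA
  rw [Measure.sum_apply _ hA, ← lintegral_indicator_one hA,
    lintegral_μ _ (measurable_one.indicator hA)]
  simp only [← lintegral_indicator_one hA, lintegral_μ _ (measurable_one.indicator hA)]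
  exact ENNReal.tsum_sigma' (β := fun t => (C t).ι) _

theorem measurableSet_pre (C : Chain X k) (i : C.ι) {A : Set X} (hA : MeasurableSet A) :
    MeasurableSet (C.E i ∩ C.φ i ⁻¹' A) := by
  obtain ⟨L, hL⟩ := C.lip i
  have h := (C.mE i).subtype_image (hL.continuousOn.domRestrict.measurable hA)
  convert h using 1
  ext z
  simp only [mem_inter_iff, mem_preimage, mem_image, domRestrict_apply, Subtype.exists,
    exists_and_right, exists_eq_right, exists_prop]

/-- restriction to a Borel subset of `X`. -/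
def restrict (C : Chain X k) (A : Set X) (hA : MeasurableSet A) : Chain X k :=
  C.restrictP (fun i => C.E i ∩ C.φ i ⁻¹' A) (fun i => C.measurableSet_pre i hA)
    fun _ => inter_subset_left

theorem setIntegral_pre (C : Chain X k) (i : C.ι) {A : Set X} (hA : MeasurableSet A)
    (H : Euc k → ℝ) : ∫ z in C.E i ∩ C.φ i ⁻¹' A, H z =
      ∫ z in C.E i, (C.φ i ⁻¹' A).indicator H z := by
  rw [← integral_indicator (C.measurableSet_pre i hA), ← integral_indicator (C.mE i),
    indicator_indicator]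

theorem restrict_act (C : Chain X k) {A : Set X} (hA : MeasurableSet A) (f : X → ℝ)
    {π : Fin k → X → ℝ} (hπ : ∀ a, Lip (π a)) :
    (C.restrict A hA).act f π = C.act (A.indicator f) π := by
  rw [restrict, C.restrictP_act _ _ f hπ]
  refine tsum_congr fun i => ?_
  rw [C.setIntegral_pre i hA]
  refine integral_congr_ae (.of_forall fun z => ?_)
  by_cases hz : C.φ i z ∈ A <;> simp [hz]

theorem restrict_I (C : Chain X k) {A : Set X} (hA : MeasurableSet A) (F : X → ℝ → ℝ)
    {f h : X → ℝ} (hf : Lip f) (hh : Lip h) :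
    (C.restrict A hA).I F f h = C.I (fun x t => A.indicator (fun y => F y t) x) f h := by
  rw [restrict, C.restrictP_I _ _ F hf hh]
  refine tsum_congr fun i => ?_
  rw [C.setIntegral_pre i hA]
  refine integral_congr_ae (.of_forall fun z => ?_)
  by_cases hz : C.φ i z ∈ A <;> simp [hz]

theorem restrict_μ (C : Chain X k) {A : Set X} (hA : MeasurableSet A) :
    (C.restrict A hA).μ = C.μ.restrict A := by
  ext B hB
  rw [Measure.restrict_apply hB, ← lintegral_indicator_one hB,
    ← lintegral_indicator_one (hB.inter hA), lintegral_μ _ (measurable_one.indicator hB),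
    lintegral_μ _ (measurable_one.indicator (hB.inter hA))]
  refine tsum_congr (β := C.ι) fun i => ?_
  show ∫⁻ z in C.E i ∩ C.φ i ⁻¹' A, ENNReal.ofReal (C.wt i z) * B.indicator 1 (C.φ i z) = _
  rw [← lintegral_indicator (C.measurableSet_pre i hA), ← lintegral_indicator (C.mE i)]
  refine lintegral_congr fun z => ?_
  by_cases h1 : z ∈ C.E i <;> by_cases h2 : C.φ i z ∈ A <;> by_cases h3 : C.φ i z ∈ B <;>
    simp [h1, h2, h3]

theorem restrict_mass (C : Chain X k) {A : Set X} (hA : MeasurableSet A) :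
    (C.restrict A hA).mass = C.μ.real A := by
  rw [← μ_real_univ, restrict_μ, measureReal_restrict_apply_univ]

theorem restrict_In (C : Chain X k) {A : Set X} (hA : MeasurableSet A) :
    (C.restrict A hA).In A := fun _ _ hz => hz.2

theorem In.restrict {C : Chain X k} {B : Set X} (h : C.In B) {A : Set X} (hA : MeasurableSet A) :
    (C.restrict A hA).In B := fun i z hz => h i z hz.1

theorem restrict_mass_add_compl (C : Chain X k) {A : Set X} (hA : MeasurableSet A) :
    (C.restrict A hA).mass + (C.restrict Aᶜ hA.compl).mass = C.mass := by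
  rw [restrict_mass, restrict_mass, measureReal_add_measureReal_compl hA, μ_real_univ]

theorem restrict_act_add_compl (C : Chain X k) {A : Set X} (hA : MeasurableSet A) {f : X → ℝ}
    (hf : BM f) {π : Fin k → X → ℝ} (hπ : ∀ a, Lip (π a)) :
    (C.restrict A hA).act f π + (C.restrict Aᶜ hA.compl).act f π = C.act f π := by
  rw [C.restrict_act hA f hπ, C.restrict_act hA.compl f hπ,
    ← C.act_add (hf.indicator hA) (hf.indicator hA.compl) hπ]
  congr 1
  funext x
  by_cases hx : x ∈ A <;> simp [hx]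

end Meas

/-! ### push-forward -/

section Push
variable {Y : Type v} [MetricSpace Y]

/-- the same parameter domains and densities with new maps and a new majorant metric. -/
def remap (C : Chain X k) (ψ : C.ι → Euc k → Y) (g : C.ι → Euc k → Matrix (Fin k) (Fin k) ℝ)
    (lip : ∀ i, ∃ L : ℝ≥0, LipschitzOnWith L (ψ i) (C.E i))
    (mg : ∀ i a b, Measurable fun z => g i z a b) (psd : ∀ i z, (g i z).PosSemidef)
    (maj : ∀ i, ∀ᵐ z ∂(volume.restrict (C.E i)), MajAt (C.E i) (ψ i) (g i z) z)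
    (fin : ∑' i, ∫⁻ z in C.E i, ENNReal.ofReal (|(C.θ i z : ℝ)| * √(g i z).det) ≠ ⊤) :
    Chain Y k :=
  ⟨C.ι, C.cnt, C.E, ψ, C.θ, g, C.mE, C.bE, lip, C.mθ, C.iθ, mg, psd, maj, fin⟩

theorem qf_smul_left (c : ℝ) (g : Matrix (Fin k) (Fin k) ℝ) (v : Fin k → ℝ) :
    qf (c • g) v = c * qf g v := by
  simp [qf, Matrix.smul_mulVec]

theorem sqrt_det_smul (L : ℝ≥0) (g : Matrix (Fin k) (Fin k) ℝ) :
    √(((L : ℝ) ^ 2) • g).det = (L : ℝ) ^ k * √g.det := by
  rw [Matrix.det_smul, Fintype.card_fin, ← pow_mul, mul_comm 2 k, pow_mul,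
    Real.sqrt_mul (sq_nonneg _), Real.sqrt_sq (by positivity)]

theorem _root_.Crest.Agent.R241.MajAt.comp {E : Set (Euc k)} {φ : Euc k → X}
    {g : Matrix (Fin k) (Fin k) ℝ} {z : Euc k} (h : MajAt E φ g z) (hz : z ∈ E) {ψ : Euc k → Y}
    {L : ℝ≥0} (hψ : ∀ w ∈ E, ∀ w' ∈ E, dist (ψ w) (ψ w') ≤ L * dist (φ w) (φ w')) :
    MajAt E ψ (((L : ℝ) ^ 2) • g) z := by
  intro ε hε
  filter_upwards [h (ε / (L + 1)) (by positivity), self_mem_nhdsWithin] with w hw hwE
  rw [qf_smul_left, Real.sqrt_mul (sq_nonneg _), Real.sqrt_sq L.coe_nonneg]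
  refine (hψ w hwE z hz).trans ((mul_le_mul_of_nonneg_left hw L.coe_nonneg).trans ?_)
  rw [mul_add, ← mul_assoc]
  gcongr
  rw [mul_div_assoc', div_le_iff₀ (by positivity)]
  nlinarith [L.coe_nonneg]

/-- push-forward along a map that is `L`-Lipschitz on a set carrying the chain. -/
def map (C : Chain X k) (h : X → Y) (L : ℝ≥0) {A : Set X} (hA : C.In A)
    (hh : LipschitzOnWith L h A) : Chain Y k :=
  C.remap (fun i z => h (C.φ i z)) (fun i z => ((L : ℝ) ^ 2) • C.g i z)
    (fun i => (C.lip i).elim fun _ hK => ⟨_, hh.comp hK (hA i)⟩)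
    (fun i a b => (C.mg i a b).const_mul _) (fun i z => (C.psd i z).smul (sq_nonneg _))
    (fun i => by
      filter_upwards [C.maj i, ae_restrict_mem (C.mE i)] with z h1 h2
      exact h1.comp h2 fun w hw w' hw' => hh.dist_le_mul _ (hA i w hw) _ (hA i w' hw'))
    (by
      have : ∀ i z, ENNReal.ofReal (|(C.θ i z : ℝ)| * √(((L : ℝ) ^ 2) • C.g i z).det) =
          ENNReal.ofReal ((L : ℝ) ^ k) * ENNReal.ofReal (C.wt i z) := fun i z => by
        rw [sqrt_det_smul, ← ENNReal.ofReal_mul (by positivity), wt, mul_left_comm]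
      simp only [this, lintegral_const_mul' _ _ ENNReal.ofReal_ne_top, ENNReal.tsum_mul_left]
      exact ENNReal.mul_ne_top ENNReal.ofReal_ne_top C.fin)

variable (C : Chain X k) (h : X → Y) (L : ℝ≥0) {A : Set X} (hA : C.In A)
  (hh : LipschitzOnWith L h A)

theorem map_act (f : Y → ℝ) (π : Fin k → Y → ℝ) :
    (C.map h L hA hh).act f π = C.act (fun x => f (h x)) fun a x => π a (h x) := rfl

theorem map_wt (i : C.ι) (z : Euc k) : (C.map h L hA hh).wt i z = (L : ℝ) ^ k * C.wt i z := by
  show |(C.θ i z : ℝ)| * √(((L : ℝ) ^ 2) • C.g i z).det = _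
  rw [sqrt_det_smul, wt, mul_left_comm]

theorem map_mass : (C.map h L hA hh).mass = (L : ℝ) ^ k * C.mass := by
  rw [mass_eq, mass_eq, ← integral_const_mul]
  exact integral_congr_ae (.of_forall fun p => C.map_wt h L hA hh p.1 p.2)

theorem map_In {B : Set Y} (hB : MapsTo h A B) : (C.map h L hA hh).In B :=
  fun i z hz => hB (hA i z hz)

theorem map_μ [MeasurableSpace X] [BorelSpace X] [MeasurableSpace Y] [BorelSpace Y]
    (hm : Measurable h) : (C.map h L hA hh).μ = (L ^ k) • C.μ.map h := by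
  ext B hB
  rw [Measure.smul_apply, Measure.map_apply hm hB, ← lintegral_indicator_one hB,
    ← lintegral_indicator_one (hm hB), lintegral_μ' _ (measurable_one.indicator hB),
    lintegral_μ' _ (measurable_one.indicator (hm hB)), ENNReal.smul_def, smul_eq_mul,
    ← lintegral_const_mul' _ _ ENNReal.coe_ne_top]
  refine lintegral_congr (μ := C.ν) fun p => ?_
  rw [map_wt, ENNReal.ofReal_mul (by positivity), mul_assoc]
  congr 1
  rw [← NNReal.coe_pow, ENNReal.ofReal_coe_nnreal]

end Push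

/-! ### passing to a subspace -/

open Classical in
/-- a retraction of `X` onto the subtype `A` (isometric on `A`). -/
noncomputable def retr (A : Set X) (a₀ : A) (x : X) : A := if h : x ∈ A then ⟨x, h⟩ else a₀

theorem retr_val {A : Set X} (a₀ : A) {x : X} (hx : x ∈ A) : (retr A a₀ x : X) = x := by
  simp [retr, hx]

theorem retr_coe {A : Set X} (a₀ a : A) : retr A a₀ a = a := Subtype.ext (retr_val a₀ a.2)

theorem lipschitzOn_retr (A : Set X) (a₀ : A) : LipschitzOnWith 1 (retr A a₀) A :=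
  LipschitzOnWith.of_dist_le_mul fun x hx y hy => by
    rw [Subtype.dist_eq, retr_val a₀ hx, retr_val a₀ hy]; simp

/-- a chain carried by `A` as a chain in the subtype `A`. -/
noncomputable def toSub (C : Chain X k) {A : Set X} (hA : C.In A) (a₀ : A) : Chain A k :=
  C.map (retr A a₀) 1 hA (lipschitzOn_retr A a₀)

theorem toSub_mass (C : Chain X k) {A : Set X} (hA : C.In A) (a₀ : A) :
    (C.toSub hA a₀).mass = C.mass := by simp [toSub, map_mass]

theorem toSub_act (C : Chain X k) {A : Set X} (hA : C.In A) (a₀ : A) (f : X → ℝ)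
    (π : Fin k → X → ℝ) :
    (C.toSub hA a₀).act (fun x => f x) (fun a x => π a x) = C.act f π :=
  C.act_congr_of_In hA (f := fun x => f (retr A a₀ x)) (π := fun a x => π a (retr A a₀ x))
    (fun x hx => by simp [retr_val a₀ hx]) fun a x hx => by simp [retr_val a₀ hx]

/-- a chain in the subtype `A` as a chain in `X`. -/
def ofSub {A : Set X} (C : Chain A k) : Chain X k :=
  C.map (Subtype.val) 1 (A := univ) (fun _ _ _ => trivial)
    (LipschitzWith.subtype_val A).lipschitzOnWith

theorem ofSub_mass {A : Set X} (C : Chain A k) : C.ofSub.mass = C.mass := by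
  refine (C.map_mass Subtype.val 1 (A := univ) _ _).trans ?_
  simp

theorem ofSub_act {A : Set X} (C : Chain A k) (f : X → ℝ) (π : Fin k → X → ℝ) :
    C.ofSub.act f π = C.act (fun x => f x) fun a x => π a x := rfl

theorem ofSub_In {A : Set X} (C : Chain A k) : C.ofSub.In A := fun i z _ => (C.φ i z).2

theorem _root_.Crest.Agent.R241.Lip.restrict {f : X → ℝ} (hf : Lip f) (A : Set X) :
    Lip fun x : A => f x := ⟨_, hf.choose_spec.comp (LipschitzWith.subtype_val A)⟩

theorem _root_.Crest.Agent.R241.Lip.extend {A : Set X} {f : A → ℝ} (hf : Lip f) :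
    ∃ g : X → ℝ, Lip g ∧ ∀ x : A, g x = f x := by
  obtain ⟨K, hK⟩ := hf
  classical
  have h1 : LipschitzOnWith K (fun x : X => if h : x ∈ A then f ⟨x, h⟩ else 0) A :=
    LipschitzOnWith.of_dist_le_mul fun x hx y hy => by
      simpa [hx, hy, Subtype.dist_eq] using hK.dist_le_mul ⟨x, hx⟩ ⟨y, hy⟩
  obtain ⟨g, hg, hfg⟩ := h1.extend_real
  exact ⟨g, ⟨K, hg⟩, fun x => by simpa using (hfg x.2).symm⟩

theorem Cyc.toSub {C : Chain X k} (h : C.Cyc) {A : Set X} (hA : C.In A) (a₀ : A) :
    (C.toSub hA a₀).Cyc := by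
  intro π hπ
  choose σ hσ hσπ using fun a => (hπ a).extend
  have : π = fun a (x : A) => σ a x := funext fun a => funext fun x => (hσπ a x).symm
  rw [this]
  exact (C.toSub_act hA a₀ (fun _ => 1) σ).trans (h σ hσ)

theorem Cyc.ofSub {A : Set X} {C : Chain A k} (h : C.Cyc) : C.ofSub.Cyc :=
  fun _ hπ => h _ fun a => (hπ a).restrict A

theorem Bd.ofSub {A : Set X} {S : Chain A (k + 1)} {T : Chain A k} (h : S.Bd T) :
    S.ofSub.Bd T.ofSub := by
  intro f π hf hπ
  rw [ofSub_act, ofSub_act, ← h _ _ (hf.restrict A) fun a => (hπ a).restrict A]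
  congr 1
  funext a
  refine Fin.cases rfl (fun _ => rfl) a

/-! ### the first coordinate -/

section Cons
variable (C : Chain X (k + 1))

theorem cons_eq_update (u v : X → ℝ) (π : Fin k → X → ℝ) :
    (Fin.cons u π : Fin (k + 1) → X → ℝ) = Function.update (Fin.cons v π) 0 u :=
  (Fin.update_cons_zero _ _ _).symm

theorem act_cons_const (f : X → ℝ) (c : ℝ) (π : Fin k → X → ℝ) :
    C.act f (Fin.cons (fun _ => c) π) = 0 :=
  C.act_eq_zero_of_const (a := 0) (Lip.const c) (c := c) fun _ _ => rfl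

theorem act_cons_const_mul (f : X → ℝ) (π : Fin k → X → ℝ) {u : X → ℝ} (hu : Lip u) (c : ℝ) :
    C.act f (Fin.cons (fun x => c * u x) π) = c * C.act f (Fin.cons u π) := by
  rw [cons_eq_update _ u, C.act_update_const_mul f _ 0 hu, ← cons_eq_update]

theorem act_cons_comp (f : X → ℝ) (π : Fin k → X → ℝ) {u : X → ℝ} (hu : Lip u) {F F' : ℝ → ℝ}
    (hF : ∀ x, HasDerivAt F (F' (u x)) (u x)) :
    C.act f (Fin.cons (fun x => F (u x)) π) = C.act (fun x => f x * F' (u x)) (Fin.cons u π) := by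
  rw [cons_eq_update _ u, C.act_update_comp f _ 0 hu hF, ← cons_eq_update]

variable [MeasurableSpace X] [BorelSpace X]

theorem act_cons_add {f : X → ℝ} (hf : BM f) {π : Fin k → X → ℝ} (hπ : ∀ a, Lip (π a))
    {u v : X → ℝ} (hu : Lip u) (hv : Lip v) :
    C.act f (Fin.cons (fun x => u x + v x) π) = C.act f (Fin.cons u π) + C.act f (Fin.cons v π) := by
  rw [cons_eq_update _ u, C.act_update_add hf (Lip.cons hu hπ) 0 hu hv, ← cons_eq_update,
    ← cons_eq_update]

theorem act_cons_sub {f : X → ℝ} (hf : BM f) {π : Fin k → X → ℝ} (hπ : ∀ a, Lip (π a))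
    {u v : X → ℝ} (hu : Lip u) (hv : Lip v) :
    C.act f (Fin.cons (fun x => u x - v x) π) = C.act f (Fin.cons u π) - C.act f (Fin.cons v π) := by
  rw [cons_eq_update _ u, C.act_update_sub hf (Lip.cons hu hπ) 0 hu hv, ← cons_eq_update,
    ← cons_eq_update]

theorem act_cons_mul {f : X → ℝ} {π : Fin k → X → ℝ} (hπ : ∀ a, Lip (π a)) {u v : X → ℝ}
    (hu : Lip u) (hv : Lip v) (hfu : BM fun x => f x * u x) (hfv : BM fun x => f x * v x) :
    C.act f (Fin.cons (fun x => u x * v x) π) =
      C.act (fun x => f x * u x) (Fin.cons v π) + C.act (fun x => f x * v x) (Fin.cons u π) := by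
  rw [cons_eq_update _ u, C.act_update_mul (Lip.cons hu hπ) 0 hu hv hfu hfv, ← cons_eq_update,
    ← cons_eq_update]

/-- integration by parts on a cycle. -/
theorem Cyc.act_swap [CompactSpace X] {C : Chain X (k + 1)} (h : C.Cyc) {π : Fin k → X → ℝ}
    (hπ : ∀ a, Lip (π a)) {u v : X → ℝ} (hu : Lip u) (hv : Lip v) :
    C.act u (Fin.cons v π) = -C.act v (Fin.cons u π) := by
  have h1 := C.act_cons_mul (f := fun _ => 1) hπ hu hv (by simpa using hu.bm) (by simpa using hv.bm)
  rw [h _ (Lip.cons (hu.mul hv) hπ)] at h1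
  simp only [one_mul] at h1
  linarith

end Cons

/-! ### algebra of boundaries -/

theorem Bd.cyc' {S : Chain X (k + 1)} {T : Chain X k} (h : S.Bd T) : T.Cyc := fun π hπ => by
  rw [← h _ π (Lip.const 1) hπ, act_cons_const]

theorem Bd.neg {S : Chain X (k + 1)} {T : Chain X k} (h : S.Bd T) : S.neg.Bd T.neg :=
  fun f π hf hπ => by rw [neg_act, neg_act, h f π hf hπ]

theorem Cyc.neg {T : Chain X k} (h : T.Cyc) : T.neg.Cyc := fun π hπ => by
  rw [neg_act, h π hπ, neg_zero]

theorem Bd.congr {S : Chain X (k + 1)} {T T' : Chain X k} (h : S.Bd T)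
    (e : ∀ f π, Lip f → (∀ a, Lip (π a)) → T.act f π = T'.act f π) : S.Bd T' :=
  fun f π hf hπ => (h f π hf hπ).trans (e f π hf hπ)

theorem Hom.symm {T T' : Chain X k} {S : Chain X (k + 1)} (h : Hom T T' S) : Hom T' T S.neg :=
  fun f π hf hπ => by rw [neg_act, h f π hf hπ, neg_sub]

theorem zero_Bd : (zero X (k + 1)).Bd (zero X k) := fun _ _ _ _ => by simp

section Alg
variable [MeasurableSpace X] [BorelSpace X]

theorem Cyc.add {T T' : Chain X k} (h : T.Cyc) (h' : T'.Cyc) : (T.add T').Cyc := fun π hπ => by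
  rw [add_act _ _ (BM.const 1) hπ, h π hπ, h' π hπ, add_zero]

theorem Hom.add_bd {T T' : Chain X k} {H S : Chain X (k + 1)} (h : Hom T T' H) (h' : S.Bd T') :
    (H.add S).Bd T := fun f π hf hπ => by
  rw [add_act _ _ (BM.const 1) (Lip.cons hf hπ), h f π hf hπ, h' f π hf hπ, sub_add_cancel]

theorem Hom.trans {T T' T'' : Chain X k} {H H' : Chain X (k + 1)} (h : Hom T T' H)
    (h' : Hom T' T'' H') : Hom T T'' (H.add H') := fun f π hf hπ => by
  rw [add_act _ _ (BM.const 1) (Lip.cons hf hπ), h f π hf hπ, h' f π hf hπ, sub_add_sub_cancel]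

variable [CompactSpace X]

theorem Bd.add {S S' : Chain X (k + 1)} {T T' : Chain X k} (h : S.Bd T) (h' : S'.Bd T') :
    (S.add S').Bd (T.add T') := fun f π hf hπ => by
  rw [add_act _ _ (BM.const 1) (Lip.cons hf hπ), add_act _ _ hf.bm hπ, h f π hf hπ,
    h' f π hf hπ]

theorem Hom_iff_Bd {T T' : Chain X k} {S : Chain X (k + 1)} :
    Hom T T' S ↔ S.Bd (T.add T'.neg) := by
  refine forall₂_congr fun f π => forall₂_congr fun hf hπ => ?_
  rw [add_act _ _ hf.bm hπ, neg_act, sub_eq_add_neg]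

theorem Hom.add_right {T T' : Chain X k} {H : Chain X (k + 1)} (h : Hom T T' H) (R : Chain X k) :
    Hom (T.add R) (T'.add R) H := fun f π hf hπ => by
  rw [add_act _ _ hf.bm hπ, add_act _ _ hf.bm hπ, h f π hf hπ]
  ring

end Alg

end Chain

end Crest.Agent.R241
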