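import Mathlib

/-! Row 241 [M]: change of variables for Lipschitz maps on measurable subsets of a Euclidean space,
with derivatives taken within the set. -/

set_option autoImplicit false
set_option linter.unusedSectionVars false

namespace Crest.Agent.R241

open MeasureTheory Filter Topology Set Metric
open scoped NNReal ENNReal Pointwise

section

variable {V : Type*} [NormedAddCommGroup V] [NormedSpace ℝ V] [FiniteDimensional ℝ V]
  [MeasurableSpace V] [BorelSpace V] (μ : Measure V) [μ.IsAddHaarMeasure]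

/-- almost every point of a measurable set is a point of unique differentiability -/
theorem cov_uniqueDiff {E : Set V} (hE : MeasurableSet E) :
    ∀ᵐ z ∂μ, z ∈ E → UniqueDiffWithinAt ℝ E z := by
  have h := Besicovitch.ae_tendsto_measure_inter_div μ E
  rw [ae_restrict_iff' hE] at h
  filter_upwards [h] with x hx hxE
  have hx := hx hxE
  refine ⟨?_, subset_closure hxE⟩
  have key : ∀ v : V, v ∈ tangentConeAt ℝ E x := by
    intro v
    have h1 : ∀ n : ℕ, ∃ r : ℝ, 0 < r ∧ r < 1 / ((n : ℝ) + 1) ∧ ∃ w : V,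
        dist w v < 1 / ((n : ℝ) + 1) ∧ x + r • w ∈ E := by
      intro n
      have hp : (0 : ℝ) < 1 / ((n : ℝ) + 1) := by positivity
      have h2 := Measure.eventually_nonempty_inter_smul_of_density_one μ E x hx
        (ball v (1 / ((n : ℝ) + 1))) measurableSet_ball (measure_ball_pos μ v hp).ne'
      have h3 : ∀ᶠ r in 𝓝[>] (0 : ℝ), r ∈ Ioo (0 : ℝ) (1 / ((n : ℝ) + 1)) :=
        Ioo_mem_nhdsGT hp
      obtain ⟨r, ⟨y, hyE, hy⟩, hr⟩ := (h2.and h3).exists
      obtain ⟨a, ha, b, hb, rfl⟩ := hy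
      obtain ⟨w, hw, rfl⟩ := hb
      rw [mem_singleton_iff] at ha
      subst ha
      exact ⟨r, hr.1, hr.2, w, hw, hyE⟩
    choose r hr0 hr1 w hw hmem using h1
    have hz : Tendsto (fun n : ℕ => 1 / ((n : ℝ) + 1)) atTop (𝓝 0) :=
      tendsto_one_div_add_atTop_nhds_zero_nat
    have hwv : Tendsto w atTop (𝓝 v) :=
      tendsto_iff_dist_tendsto_zero.2 (squeeze_zero (fun _ => dist_nonneg) (fun n => (hw n).le) hz)
    have hr : Tendsto r atTop (𝓝 0) := squeeze_zero (fun n => (hr0 n).le) (fun n => (hr1 n).le) hz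
    refine mem_tangentConeAt_of_seq atTop (fun n => (r n)⁻¹) (fun n => r n • w n) ?_
      (Eventually.of_forall hmem) ?_
    · simpa using hr.smul hwv
    · refine hwv.congr fun n => ?_
      rw [smul_smul, inv_mul_cancel₀ (hr0 n).ne', one_smul]
  have : (Submodule.span ℝ (tangentConeAt ℝ E x) : Set V) = univ :=
    eq_univ_of_forall fun v => Submodule.subset_span (key v)
  rw [this]; exact dense_univ

/-- Lipschitz maps send null sets to null sets -/
theorem cov_null {ψ : V → V} {L : ℝ≥0} {N : Set V} (hψ : LipschitzOnWith L ψ N) (hN : μ N = 0) :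
    μ (ψ '' N) = 0 := by
  have h1 : μ ≪ Measure.hausdorffMeasure (Module.finrank ℝ V) :=
    Measure.absolutelyContinuous_isAddHaarMeasure _ _
  have h2 : Measure.hausdorffMeasure (Module.finrank ℝ V) ≪ μ :=
    Measure.absolutelyContinuous_isAddHaarMeasure _ _
  apply h1
  have h3 := hψ.hausdorffMeasure_image_le (d := Module.finrank ℝ V) (by positivity)
  rw [h2 hN, mul_zero] at h3
  exact le_antisymm h3 bot_le

/-- a measurable subset of full measure on which `ψ` is differentiable within `E` -/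
theorem cov_good {F : Type*} [NormedAddCommGroup F] [NormedSpace ℝ F] [FiniteDimensional ℝ F]
    {ψ : V → F} {L : ℝ≥0} {E : Set V} (hE : MeasurableSet E) (hψ : LipschitzOnWith L ψ E) :
    ∃ E' ⊆ E, MeasurableSet E' ∧ μ (E \ E') = 0 ∧
      ∀ z ∈ E', HasFDerivWithinAt ψ (fderivWithin ℝ ψ E z) E z := by
  have h := hψ.ae_differentiableWithinAt_of_mem (μ := μ)
  obtain ⟨N, hN1, hN2, hN3⟩ := exists_measurable_superset_of_null (ae_iff.1 h)
  refine ⟨E \ N, diff_subset, hE.diff hN2, measure_mono_null (fun z hz => ?_) hN3, fun z hz => ?_⟩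
  · by_contra hzN
    exact hz.2 ⟨hz.1, hzN⟩
  · have : z ∈ E → DifferentiableWithinAt ℝ ψ E z := by
      by_contra hc
      exact hz.2 (hN1 hc)
    exact (this hz.1).hasFDerivWithinAt

theorem cov_measurableSet_image {Y : Type*} [MetricSpace Y] [SecondCountableTopology Y]
    [MeasurableSpace Y] [BorelSpace Y] {ψ : V → Y} {L : ℝ≥0} {E : Set V} (hE : MeasurableSet E)
    (hψ : LipschitzOnWith L ψ E) (hi : InjOn ψ E) : MeasurableSet (ψ '' E) :=
  hE.image_of_continuousOn_injOn hψ.continuousOn hi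

theorem cov_restrict_eq {E E' : Set V} (h : E' ⊆ E) (h0 : μ (E \ E') = 0) :
    μ.restrict E = μ.restrict E' :=
  Measure.restrict_congr_set (ae_eq_set.2 ⟨h0, by rw [diff_eq_empty.2 h, measure_empty]⟩)

theorem cov_restrict_image_eq {ψ : V → V} {L : ℝ≥0} {E E' : Set V} (hψ : LipschitzOnWith L ψ E)
    (h : E' ⊆ E) (h0 : μ (E \ E') = 0) : μ.restrict (ψ '' E) = μ.restrict (ψ '' E') := by
  refine cov_restrict_eq μ (image_mono h)
    (measure_mono_null ?_ (cov_null μ (hψ.mono diff_subset) h0))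
  rintro y ⟨⟨z, hz, e⟩, hy⟩
  exact ⟨z, ⟨hz, fun hz' => hy ⟨z, hz', e⟩⟩, e⟩

/-- change of variables, Lebesgue integral -/
theorem cov_lintegral {ψ : V → V} {L : ℝ≥0} {E : Set V} (hE : MeasurableSet E)
    (hψ : LipschitzOnWith L ψ E) (hi : InjOn ψ E) (g : V → ℝ≥0∞) :
    ∫⁻ x in ψ '' E, g x ∂μ =
      ∫⁻ x in E, ENNReal.ofReal |(fderivWithin ℝ ψ E x).det| * g (ψ x) ∂μ := by
  obtain ⟨E', h1, h2, h3, h4⟩ := cov_good μ hE hψ
  rw [cov_restrict_image_eq μ hψ h1 h3, cov_restrict_eq μ h1 h3]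
  exact lintegral_image_eq_lintegral_abs_det_fderiv_mul μ h2 (fun x hx => (h4 x hx).mono h1)
    (hi.mono h1) g

/-- change of variables, Bochner integral -/
theorem cov_integral {ψ : V → V} {L : ℝ≥0} {E : Set V} (hE : MeasurableSet E)
    (hψ : LipschitzOnWith L ψ E) (hi : InjOn ψ E) (g : V → ℝ) :
    ∫ x in ψ '' E, g x ∂μ = ∫ x in E, |(fderivWithin ℝ ψ E x).det| * g (ψ x) ∂μ := by
  obtain ⟨E', h1, h2, h3, h4⟩ := cov_good μ hE hψ
  rw [cov_restrict_image_eq μ hψ h1 h3, cov_restrict_eq μ h1 h3]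
  exact integral_image_eq_integral_abs_det_fderiv_smul μ h2 (fun x hx => (h4 x hx).mono h1)
    (hi.mono h1) g

/-- change of variables, integrability -/
theorem cov_integrableOn {ψ : V → V} {L : ℝ≥0} {E : Set V} (hE : MeasurableSet E)
    (hψ : LipschitzOnWith L ψ E) (hi : InjOn ψ E) (g : V → ℝ) :
    IntegrableOn g (ψ '' E) μ ↔
      IntegrableOn (fun x => |(fderivWithin ℝ ψ E x).det| * g (ψ x)) E μ := by
  obtain ⟨E', h1, h2, h3, h4⟩ := cov_good μ hE hψ
  unfold IntegrableOn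
  rw [cov_restrict_image_eq μ hψ h1 h3, cov_restrict_eq μ h1 h3]
  exact integrableOn_image_iff_integrableOn_abs_det_fderiv_smul μ h2
    (fun x hx => (h4 x hx).mono h1) (hi.mono h1) g

/-- the derivative within `E` of a Lipschitz map is a.e. measurable on `E` -/
theorem cov_aemeasurable {ψ : V → V} {L : ℝ≥0} {E : Set V} (hE : MeasurableSet E)
    (hψ : LipschitzOnWith L ψ E) : AEMeasurable (fderivWithin ℝ ψ E) (μ.restrict E) := by
  obtain ⟨E', h1, h2, h3, h4⟩ := cov_good μ hE hψ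
  rw [cov_restrict_eq μ h1 h3]
  exact aemeasurable_fderivWithin μ h2 fun x hx => (h4 x hx).mono h1

/-- a co-Lipschitz map pulls almost-everywhere statements back -/
theorem cov_ae_comp {ψ : V → V} {C : ℝ} {E : Set V}
    (hC : ∀ z ∈ E, ∀ w ∈ E, dist z w ≤ C * dist (ψ z) (ψ w)) {P : V → Prop} (h : ∀ᵐ y ∂μ, P y) :
    ∀ᵐ z ∂μ, z ∈ E → P (ψ z) := by
  classical
  have hi : InjOn ψ E := fun z hz w hw e => by
    have := hC z hz w hw
    rw [e, dist_self, mul_zero] at this
    exact dist_le_zero.1 this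
  let χ := Function.invFunOn ψ E
  have hχ : LipschitzOnWith (Real.toNNReal C) χ (ψ '' E ∩ {y | ¬ P y}) := by
    refine LipschitzOnWith.of_dist_le' ?_
    rintro _ ⟨⟨z, hz, rfl⟩, -⟩ _ ⟨⟨w, hw, rfl⟩, -⟩
    rw [show χ (ψ z) = z from hi.leftInvOn_invFunOn hz,
      show χ (ψ w) = w from hi.leftInvOn_invFunOn hw]
    exact hC z hz w hw
  have h0 := cov_null μ hχ (measure_mono_null inter_subset_right (ae_iff.1 h))
  rw [ae_iff]
  refine measure_mono_null (fun z hz => ?_) h0
  simp only [mem_setOf_eq, Classical.not_imp] at hz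
  exact ⟨ψ z, ⟨⟨z, hz.1, rfl⟩, hz.2⟩, hi.leftInvOn_invFunOn hz.1⟩

variable {F : Type*} [NormedAddCommGroup F] [NormedSpace ℝ F] [FiniteDimensional ℝ F]

/-- derivatives within a measurable subset agree almost everywhere -/
theorem cov_fderiv_subset {u : V → F} {L : ℝ≥0} {A E : Set V} (hA : MeasurableSet A) (hAE : A ⊆ E)
    (hu : LipschitzOnWith L u E) :
    ∀ᵐ z ∂μ, z ∈ A → fderivWithin ℝ u A z = fderivWithin ℝ u E z := by
  filter_upwards [cov_uniqueDiff μ hA, hu.ae_differentiableWithinAt_of_mem (μ := μ)] with z h1 h2 hz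
  exact fderivWithin_subset hAE (h1 hz) (h2 (hAE hz))

/-- functions that agree on `A` have the same derivative within `A` -/
theorem cov_fderiv_congr {u v : V → F} {L L' : ℝ≥0} {A E E' : Set V} (hA : MeasurableSet A)
    (hAE : A ⊆ E) (hAE' : A ⊆ E') (hu : LipschitzOnWith L u E) (hv : LipschitzOnWith L' v E')
    (h : EqOn u v A) : ∀ᵐ z ∂μ, z ∈ A → fderivWithin ℝ u E z = fderivWithin ℝ v E' z := by
  filter_upwards [cov_fderiv_subset μ hA hAE hu, cov_fderiv_subset μ hA hAE' hv] with z h1 h2 hz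
  rw [← h1 hz, ← h2 hz]
  exact fderivWithin_congr' h hz

/-- chain rule almost everywhere along a bi-Lipschitz change of variables -/
theorem cov_chain {ψ : V → V} {u : V → F} {L L' : ℝ≥0} {C : ℝ} {A B : Set V}
    (hA : MeasurableSet A) (hψ : LipschitzOnWith L ψ A)
    (hC : ∀ z ∈ A, ∀ w ∈ A, dist z w ≤ C * dist (ψ z) (ψ w)) (hm : MapsTo ψ A B)
    (hu : LipschitzOnWith L' u B) :
    ∀ᵐ z ∂μ, z ∈ A → fderivWithin ℝ (fun w => u (ψ w)) A z =
      (fderivWithin ℝ u B (ψ z)).comp (fderivWithin ℝ ψ A z) := by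
  filter_upwards [cov_uniqueDiff μ hA, hψ.ae_differentiableWithinAt_of_mem (μ := μ),
    cov_ae_comp μ hC (hu.ae_differentiableWithinAt_of_mem (μ := μ))] with z h1 h2 h3 hz
  exact fderivWithin_comp z (h3 hz (hm hz)) (h2 hz) hm (h1 hz)

omit [MeasurableSpace V] [BorelSpace V] [FiniteDimensional ℝ V] in
theorem cov_det_comp (f g : V →L[ℝ] V) : (f.comp g).det = f.det * g.det :=
  LinearMap.det_comp (f : V →ₗ[ℝ] V) (g : V →ₗ[ℝ] V)

/-- the derivative of a co-Lipschitz map is invertible almost everywhere -/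
theorem cov_det_ne_zero {ψ : V → V} {L : ℝ≥0} {C : ℝ} {A : Set V} (hA : MeasurableSet A)
    (hψ : LipschitzOnWith L ψ A) (hC : ∀ z ∈ A, ∀ w ∈ A, dist z w ≤ C * dist (ψ z) (ψ w)) :
    ∀ᵐ z ∂μ, z ∈ A → (fderivWithin ℝ ψ A z).det ≠ 0 := by
  classical
  have hi : InjOn ψ A := fun z hz w hw e => by
    have := hC z hz w hw
    rw [e, dist_self, mul_zero] at this
    exact dist_le_zero.1 this
  let χ := Function.invFunOn ψ A
  have hχ : LipschitzOnWith (Real.toNNReal C) χ (ψ '' A) := by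
    refine LipschitzOnWith.of_dist_le' ?_
    rintro _ ⟨z, hz, rfl⟩ _ ⟨w, hw, rfl⟩
    rw [show χ (ψ z) = z from hi.leftInvOn_invFunOn hz,
      show χ (ψ w) = w from hi.leftInvOn_invFunOn hw]
    exact hC z hz w hw
  filter_upwards [cov_chain μ hA hψ hC (mapsTo_image ψ A) hχ, cov_uniqueDiff μ hA] with z h1 h2 hz
  have e : fderivWithin ℝ (fun w => χ (ψ w)) A z = ContinuousLinearMap.id ℝ V := by
    have e0 : EqOn (fun w => χ (ψ w)) id A := fun w hw => hi.leftInvOn_invFunOn hw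
    rw [fderivWithin_congr' e0 hz]
    exact fderivWithin_id (h2 hz)
  have h3 := congrArg ContinuousLinearMap.det (e.symm.trans (h1 hz))
  intro h0
  rw [cov_det_comp, h0, mul_zero] at h3
  simp [ContinuousLinearMap.det] at h3

end

end Crest.Agent.R241
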