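import Mathlib
import Crest.Prelude.Def_MetricCurrent

/-! Null Lagrangian `∫ det Du = 0` for Lipschitz tuples, and weak continuity of Jacobians. -/

open MeasureTheory Filter Topology Set Metric
open Crest.GeometryTopology.Submanifold (Euc)

namespace Crest.Agent.R241

variable {k : ℕ}

/-- matrix of the partial derivatives of a tuple of real functions -/
noncomputable def jm (u : Fin k → Euc k → ℝ) (z : Euc k) : Matrix (Fin k) (Fin k) ℝ :=
  Matrix.of fun i j => fderiv ℝ (u i) z (EuclideanSpace.single j 1)

/-- matrix of an endomorphism of `Euc k` -/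
noncomputable def cm (A : Euc k →L[ℝ] Euc k) : Matrix (Fin k) (Fin k) ℝ :=
  Matrix.of fun i j => A (EuclideanSpace.single j 1) i

theorem det_cm (A : Euc k →L[ℝ] Euc k) : (cm A).det = A.det := by
  rw [ContinuousLinearMap.det,
    ← LinearMap.det_toMatrix (EuclideanSpace.basisFun (Fin k) ℝ).toBasis]
  congr 1

theorem lip_image_null {F : Euc k → Euc k} {L : NNReal} {s : Set (Euc k)}
    (hF : LipschitzOnWith L F s) (hs : volume s = 0) : volume (F '' s) = 0 := by
  have h1 : (volume : Measure (Euc k)) ≪ μH[Module.finrank ℝ (Euc k)] :=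
    Measure.absolutelyContinuous_isAddHaarMeasure _ _
  have h2 : (μH[Module.finrank ℝ (Euc k)] : Measure (Euc k)) ≪ volume :=
    Measure.absolutelyContinuous_isAddHaarMeasure _ _
  apply h1
  have := hF.hausdorffMeasure_image_le (d := Module.finrank ℝ (Euc k)) (by positivity)
  rw [h2 hs, mul_zero] at this
  exact le_antisymm this zero_le

theorem measurable_jm_apply (u : Fin k → Euc k → ℝ) (i j : Fin k) :
    Measurable fun z => jm u z i j :=
  measurable_fderiv_apply_const ℝ (u i) _

theorem measurable_det_of {α : Type*} [MeasurableSpace α] {M : α → Matrix (Fin k) (Fin k) ℝ}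
    (h : ∀ i j, Measurable fun z => M z i j) : Measurable fun z => (M z).det := by
  simp only [Matrix.det_apply']
  exact Finset.measurable_sum _ fun σ _ =>
    measurable_const.mul (Finset.measurable_prod _ fun i _ => h _ _)

theorem aemeasurable_det_of {α : Type*} [MeasurableSpace α] {μ : Measure α}
    {M : α → Matrix (Fin k) (Fin k) ℝ}
    (h : ∀ i j, AEMeasurable (fun z => M z i j) μ) : AEMeasurable (fun z => (M z).det) μ := by
  simp only [Matrix.det_apply']
  exact Finset.aemeasurable_fun_sum _ fun σ _ =>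
    aemeasurable_const.mul (Finset.aemeasurable_fun_prod _ fun i _ => h _ _)

theorem measurable_det_jm (u : Fin k → Euc k → ℝ) : Measurable fun z => (jm u z).det :=
  measurable_det_of (measurable_jm_apply u)

theorem abs_det_le_of_entry {M : Matrix (Fin k) (Fin k) ℝ} {C : ℝ} (h : ∀ i j, |M i j| ≤ C) :
    |M.det| ≤ k.factorial * C ^ k := by
  have := Matrix.det_le (abv := AbsoluteValue.abs) (A := M) (x := C) (by simpa using h)
  simpa using this

theorem abs_jm_le {u : Fin k → Euc k → ℝ} {L : NNReal} {i : Fin k} (hu : LipschitzWith L (u i))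
    (z : Euc k) (j : Fin k) : |jm u z i j| ≤ L := by
  have h1 : ‖fderiv ℝ (u i) z‖ ≤ L := norm_fderiv_le_of_lipschitz ℝ hu
  have h2 := (fderiv ℝ (u i) z).le_opNorm (EuclideanSpace.single j 1)
  simp only [PiLp.norm_single, norm_one, mul_one, Real.norm_eq_abs] at h2
  exact h2.trans h1

theorem abs_det_jm_le {u : Fin k → Euc k → ℝ} {L : NNReal} (hu : ∀ i, LipschitzWith L (u i))
    (z : Euc k) : |(jm u z).det| ≤ k.factorial * (L : ℝ) ^ k :=
  abs_det_le_of_entry fun i j => abs_jm_le (hu i) z j

theorem exists_common_lip {α ι : Type*} [PseudoMetricSpace α] [Finite ι] {u : ι → α → ℝ}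
    (hu : ∀ i, ∃ L, LipschitzWith L (u i)) : ∃ L, ∀ i, LipschitzWith L (u i) := by
  choose L hL using hu
  obtain ⟨M, hM⟩ := (Set.finite_range L).bddAbove
  exact ⟨M, fun i => (hL i).weaken (hM ⟨i, rfl⟩)⟩

/-- top coefficient of `t ↦ det (t A + 1)` by interpolation -/
theorem exists_det_interp (hk : 0 < k) {δ : ℝ} (hδ : 0 < δ) :
    ∃ (t c : Fin (k + 1) → ℝ), (∀ j, |t j| ≤ δ) ∧ ∑ j, c j = 0 ∧
      ∀ A : Matrix (Fin k) (Fin k) ℝ, A.det = ∑ j, c j * (t j • A + 1).det := by
  let t : Fin (k + 1) → ℝ := fun j => δ * ((j : ℝ) / (k + 1))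
  have hinj : Set.InjOn t (Finset.univ : Finset (Fin (k + 1))) := by
    intro a _ b _ hab
    have hk1 : (0 : ℝ) < k + 1 := by positivity
    have : (a : ℝ) = b := by
      have h1 := mul_left_cancel₀ hδ.ne' hab
      field_simp at h1
      exact h1
    exact Fin.ext (by exact_mod_cast this)
  let c : Fin (k + 1) → ℝ := fun i => 1 / ∏ j ∈ Finset.univ.erase i, (t i - t j)
  have key : ∀ P : Polynomial ℝ, P.natDegree ≤ k → P.coeff k = ∑ j, c j * P.eval (t j) := by
    intro P hP
    have hd : P.degree < ((Finset.univ : Finset (Fin (k + 1))).card : ℕ) := by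
      simp only [Finset.card_univ, Fintype.card_fin]
      exact lt_of_le_of_lt Polynomial.degree_le_natDegree (by exact_mod_cast Nat.lt_succ_of_le hP)
    have := Lagrange.coeff_eq_sum hinj hd
    simp only [Finset.card_univ, Fintype.card_fin, Nat.add_sub_cancel] at this
    rw [this]
    exact Finset.sum_congr rfl fun j _ => by simp only [c]; ring
  refine ⟨t, c, fun j => ?_, ?_, fun A => ?_⟩
  · have h1 : (j : ℝ) / (k + 1) ≤ 1 := by
      rw [div_le_one (by positivity)]
      exact_mod_cast j.2.le
    have h0 : 0 ≤ (j : ℝ) / (k + 1) := by positivity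
    rw [abs_of_nonneg (by positivity)]
    nlinarith
  · have := key 1 (by simp)
    rw [Polynomial.coeff_one, if_neg hk.ne'] at this
    simpa using this.symm
  · have h1 := Polynomial.coeff_det_X_add_C_card A 1
    have h2 := Polynomial.natDegree_det_X_add_C_le A 1
    simp only [Fintype.card_fin] at h1 h2
    rw [← h1, key _ h2]
    refine Finset.sum_congr rfl fun j _ => ?_
    congr 1
    rw [← Polynomial.coe_evalRingHom, RingHom.map_det]
    congr 1
    ext a b
    by_cases h : a = b
    · simp [Matrix.one_apply, h]; ring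
    · simp [Matrix.one_apply, h]; ring

theorem integrableOn_of_bound {f : Euc k → ℝ} {s : Set (Euc k)} (hs : volume s ≠ ⊤)
    (hf : AEStronglyMeasurable f (volume.restrict s)) {C : ℝ} (h : ∀ z, |f z| ≤ C) :
    IntegrableOn f s :=
  by
    have : IsFiniteMeasure ((volume : Measure (Euc k)).restrict s) :=
      isFiniteMeasure_restrict.2 hs
    exact Integrable.of_bound hf C (.of_forall fun z => by simpa using h z)

/-- null Lagrangian, all components supported in a ball -/
theorem integral_det_jm_ball (hk : 0 < k) {u : Fin k → Euc k → ℝ} {L : NNReal}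
    (hu : ∀ i, LipschitzWith L (u i)) {R : ℝ} (h0 : ∀ i z, z ∉ closedBall (0 : Euc k) R → u i z = 0) :
    ∫ z in closedBall (0 : Euc k) R, (jm u z).det = 0 := by
  set B := closedBall (0 : Euc k) R with hB
  let W : Euc k → Euc k := fun z => WithLp.toLp 2 fun i => u i z
  obtain ⟨K, hW⟩ : ∃ K, LipschitzWith K W := by
    have h1 : LipschitzWith L fun z => fun i => u i z := by
      refine LipschitzWith.of_dist_le_mul fun x y => ?_
      exact (dist_pi_le_iff (by positivity)).2 fun i => (hu i).dist_le_mul x y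
    exact ⟨_, (PiLp.lipschitzWith_toLp 2 (fun _ : Fin k => ℝ)).comp h1⟩
  -- positivity of det near 1
  obtain ⟨η, hη, hpos⟩ : ∃ η > 0, ∀ A : Euc k →L[ℝ] Euc k, ‖A‖ ≤ η →
      0 < (A + ContinuousLinearMap.id ℝ (Euc k)).det := by
    have hc : ContinuousAt (fun A : Euc k →L[ℝ] Euc k =>
        (A + ContinuousLinearMap.id ℝ (Euc k)).det) 0 :=
      (ContinuousLinearMap.continuous_det.comp (continuous_id.add continuous_const)).continuousAt
    have h1 : ∀ᶠ A in 𝓝 (0 : Euc k →L[ℝ] Euc k),
        0 < (A + ContinuousLinearMap.id ℝ (Euc k)).det := by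
      apply hc.eventually (lt_mem_nhds _)
      simp [ContinuousLinearMap.det]
    obtain ⟨ε, hε, h2⟩ := Metric.eventually_nhds_iff.1 h1
    exact ⟨ε / 2, by positivity, fun A hA => h2 (by rw [dist_zero_right]; linarith)⟩
  set δ : ℝ := min η (1 / 2) / (K + 1) with hδ
  have hδ0 : 0 < δ := by positivity
  have hδK : δ * K ≤ min η (1 / 2) := by
    rw [hδ, div_mul_eq_mul_div, div_le_iff₀ (by positivity)]
    have : 0 < min η (1 / 2) := by positivity
    nlinarith
  obtain ⟨t, c, ht, hc, hdet⟩ := exists_det_interp hk hδ0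
  have hBm : MeasurableSet B := measurableSet_closedBall
  have hBf : volume B ≠ ⊤ := (isCompact_closedBall _ _).measure_lt_top.ne
  have hWd := hW.ae_differentiableAt (μ := volume)
  have hjm : ∀ z, DifferentiableAt ℝ W z → jm u z = cm (fderiv ℝ W z) := by
    intro z hz
    ext i j
    have h1 : HasFDerivAt (u i) ((EuclideanSpace.proj i : Euc k →L[ℝ] ℝ).comp (fderiv ℝ W z)) z :=
      (EuclideanSpace.proj i : Euc k →L[ℝ] ℝ).hasFDerivAt.comp z hz.hasFDerivAt
    simp [jm, cm, h1.fderiv]
  have main : ∀ s : ℝ, |s| ≤ δ → ∫ z in B, (s • jm u z + 1).det = (volume B).toReal := by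
    intro s hs
    let F : Euc k → Euc k := fun z => s • W z + z
    have hsK : |s| * K ≤ min η (1 / 2) := (mul_le_mul_of_nonneg_right hs K.2).trans hδK
    have hA : ApproximatesLinearOn F
        ((ContinuousLinearEquiv.refl ℝ (Euc k) : Euc k ≃L[ℝ] Euc k) : Euc k →L[ℝ] Euc k) univ
        (1 / 2) := by
      intro x _ y _
      have : F x - F y - ((ContinuousLinearEquiv.refl ℝ (Euc k) : Euc k ≃L[ℝ] Euc k) :
          Euc k →L[ℝ] Euc k) (x - y) = s • (W x - W y) := by
        simp [F, smul_sub]; abel
      rw [this, norm_smul, Real.norm_eq_abs]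
      have h2 := hW.norm_sub_le x y
      have h3 : |s| * K ≤ 1 / 2 := hsK.trans (min_le_right _ _)
      calc |s| * ‖W x - W y‖ ≤ |s| * (K * ‖x - y‖) := by gcongr
        _ = |s| * K * ‖x - y‖ := by ring
        _ ≤ ((1 / 2 : NNReal) : ℝ) * ‖x - y‖ := by
          gcongr; simpa using h3
    have hN : Subsingleton (Euc k) ∨ (1 / 2 : NNReal) <
        ‖((ContinuousLinearEquiv.refl ℝ (Euc k)).symm : Euc k →L[ℝ] Euc k)‖₊⁻¹ := by
      rcases subsingleton_or_nontrivial (Euc k) with h | h
      · exact Or.inl h
      · right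
        have : ‖((ContinuousLinearEquiv.refl ℝ (Euc k)).symm : Euc k →L[ℝ] Euc k)‖₊ = 1 := by
          simp
        rw [this, inv_one]
        exact one_half_lt_one
    have hinj : Function.Injective F := injOn_univ.1 (hA.injOn hN)
    have hsurj : Function.Surjective F := hA.surjective hN
    have hfix : ∀ z, z ∉ B → F z = z := fun z hz => by
      have : W z = 0 := by
        ext i; simp [W, h0 i z hz]
      simp [F, this]
    have himg : F '' B = B := by
      ext y
      constructor
      · rintro ⟨x, hx, rfl⟩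
        by_contra hy
        exact hy ((hinj (hfix _ hy)).symm ▸ hx)
      · intro hy
        obtain ⟨x, rfl⟩ := hsurj y
        refine ⟨x, ?_, rfl⟩
        by_contra hx
        exact hx (hfix _ hx ▸ hy)
    have hFl : LipschitzWith (‖s‖₊ * K + 1) F :=
      ((lipschitzWith_smul s).comp hW).add LipschitzWith.id
    set D := {z | DifferentiableAt ℝ W z} with hD
    have hDm : MeasurableSet D := measurableSet_of_differentiableAt ℝ W
    have hDc : volume Dᶜ = 0 := hWd
    let F' : Euc k → Euc k →L[ℝ] Euc k := fun z =>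
      s • fderiv ℝ W z + ContinuousLinearMap.id ℝ (Euc k)
    have hF' : ∀ z ∈ B ∩ D, HasFDerivWithinAt F (F' z) (B ∩ D) z := fun z hz =>
      ((hz.2.hasFDerivAt.const_smul s).add (hasFDerivAt_id z)).hasFDerivWithinAt
    have harea := lintegral_abs_det_fderiv_eq_addHaar_image volume (hBm.inter hDm) hF'
      hinj.injOn
    have himg2 : volume (F '' (B ∩ D)) = volume B := by
      apply le_antisymm
      · exact measure_mono ((image_mono inter_subset_left).trans himg.subset)
      · calc volume B = volume (F '' (B ∩ D) ∪ F '' (B ∩ Dᶜ)) := by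
              rw [← image_union, inter_union_compl, himg]
          _ ≤ volume (F '' (B ∩ D)) + volume (F '' (B ∩ Dᶜ)) := measure_union_le _ _
          _ = volume (F '' (B ∩ D)) := by
              rw [lip_image_null hFl.lipschitzOnWith (measure_mono_null inter_subset_right hDc),
                add_zero]
    have hres : (volume : Measure (Euc k)).restrict (B ∩ D) = volume.restrict B := by
      apply Measure.restrict_congr_set
      exact inter_ae_eq_left_of_ae_eq_univ (ae_eq_univ.2 hDc)
    have hF'pos : ∀ z, 0 < (F' z).det := fun z => hpos _ (by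
      rw [norm_smul, Real.norm_eq_abs]
      have : ‖fderiv ℝ W z‖ ≤ K := norm_fderiv_le_of_lipschitz ℝ hW
      exact (mul_le_mul_of_nonneg_left this (abs_nonneg _)).trans (hsK.trans (min_le_left _ _)))
    have hae : ∀ᵐ z ∂(volume.restrict B), (s • jm u z + 1).det = (F' z).det := by
      filter_upwards [ae_restrict_of_ae hWd] with z hz
      rw [hjm z hz, ← det_cm]
      congr 1
      ext i j
      simp [cm, F', Matrix.one_apply]
    rw [integral_congr_ae hae, integral_eq_lintegral_of_nonneg_ae (.of_forall fun z => (hF'pos z).le),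
      ← himg2, ← harea, hres]
    · congr 1
      exact lintegral_congr fun z => by rw [abs_of_pos (hF'pos z)]
    · apply Measurable.aestronglyMeasurable
      exact ContinuousLinearMap.continuous_det.measurable.comp
        (((measurable_fderiv ℝ W).const_smul s).add_const _)
  have hint : ∀ s : ℝ, IntegrableOn (fun z => (s • jm u z + 1).det) B := by
    intro s
    refine integrableOn_of_bound hBf (measurable_det_of fun i j => ?_).aestronglyMeasurable
      (C := k.factorial * (|s| * L + 1) ^ k) fun z => abs_det_le_of_entry fun i j => ?_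
    · simp only [Matrix.add_apply, Matrix.smul_apply, smul_eq_mul]
      exact ((measurable_jm_apply u i j).const_mul s).add_const _
    · simp only [Matrix.add_apply, Matrix.smul_apply, smul_eq_mul]
      refine (abs_add_le _ _).trans (add_le_add ?_ ?_)
      · rw [abs_mul]; exact mul_le_mul_of_nonneg_left (abs_jm_le (hu i) z j) (abs_nonneg _)
      · rw [Matrix.one_apply]; split_ifs <;> simp
  simp_rw [hdet (jm u _)]
  rw [integral_finsetSum _ fun j _ => (hint (t j)).const_mul (c j)]
  simp_rw [integral_const_mul, main _ (ht _)]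
  rw [← Finset.sum_mul, hc, zero_mul]

theorem jm_row_zero {u : Fin k → Euc k → ℝ} {i : Fin k} {z : Euc k} {c : ℝ}
    (h : u i =ᶠ[𝓝 z] fun _ => c) : (jm u z).det = 0 := by
  apply Matrix.det_eq_zero_of_row_eq_zero i
  intro j
  simp [jm, h.fderiv_eq]

/-- **null Lagrangian** -/
theorem integral_det_jm_eq_zero {u : Fin k → Euc k → ℝ} (hu : ∀ i, ∃ L, LipschitzWith L (u i))
    (i0 : Fin k) (hc : HasCompactSupport (u i0)) : ∫ z, (jm u z).det = 0 := by
  obtain ⟨L, hL⟩ := exists_common_lip hu
  obtain ⟨R, hR0, hR⟩ := hc.isCompact.isBounded.subset_ball_lt 0 (0 : Euc k)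
  obtain ⟨M, hM0, hM⟩ : ∃ M : NNReal, True ∧ ∀ i, ∀ z ∈ closedBall (0 : Euc k) (R + 1),
      |u i z| ≤ M := by
    obtain ⟨M0, hM0⟩ := (Set.finite_range fun i => |u i 0|).bddAbove
    refine ⟨⟨max M0 0 + L * (R + 1), by positivity⟩, trivial, fun i z hz => ?_⟩
    have h1 := (hL i).dist_le_mul z 0
    have h2 : |u i 0| ≤ M0 := hM0 ⟨i, rfl⟩
    have h3 : dist z 0 ≤ R + 1 := hz
    rw [Real.dist_eq] at h1
    have h4 : (L : ℝ) * dist z 0 ≤ L * (R + 1) := by gcongr
    have h5 := abs_sub_abs_le_abs_sub (u i z) (u i 0)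
    have h6 := le_max_left M0 0
    change |u i z| ≤ max M0 0 + L * (R + 1)
    linarith
  let b : Euc k → ℝ := fun z => M * max (R + 2 - ‖z‖) 0
  have hb : LipschitzWith M b := by
    have h1 : LipschitzWith 1 fun z : Euc k => max (R + 2 - ‖z‖) 0 := by
      have : LipschitzWith 1 fun z : Euc k => R + 2 - ‖z‖ := by
        simpa using (LipschitzWith.const (R + 2)).sub (lipschitzWith_one_norm (E := Euc k))
      exact this.max_const 0
    refine LipschitzWith.of_dist_le_mul fun x y => ?_
    have := h1.dist_le_mul x y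
    simp only [b, Real.dist_eq, ← mul_sub, abs_mul, NNReal.abs_eq] at this ⊢
    simp only [NNReal.coe_one, one_mul] at this
    gcongr
  let v : Fin k → Euc k → ℝ := fun i z => max (min (u i z) (b z)) (-b z)
  have hv : ∀ i, LipschitzWith (max (max L M) M) (v i) := fun i =>
    ((hL i).min hb).max hb.neg
  have hv0 : ∀ i z, z ∉ closedBall (0 : Euc k) (R + 2) → v i z = 0 := by
    intro i z hz
    have : R + 2 < ‖z‖ := by simpa using hz
    have hb0 : b z = 0 := by simp [b, max_eq_right (by linarith : R + 2 - ‖z‖ ≤ 0)]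
    simp [v, hb0]
  have hvu : ∀ i, ∀ z ∈ ball (0 : Euc k) (R + 1), v i z = u i z := by
    intro i z hz
    have h1 : ‖z‖ < R + 1 := by simpa using hz
    have h2 := hM i z (ball_subset_closedBall hz)
    have h3 : (M : ℝ) ≤ b z := by
      have : (1 : ℝ) ≤ max (R + 2 - ‖z‖) 0 := le_max_of_le_left (by linarith)
      have h0 : (0 : ℝ) ≤ M := M.2
      simp only [b]; nlinarith
    have h4 := abs_le.1 (h2.trans h3)
    simp [v, min_eq_left h4.2, max_eq_left h4.1]
  have hout : ∀ z, z ∉ ball (0 : Euc k) R → u i0 =ᶠ[𝓝 z] fun _ => 0 := fun z hz =>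
    notMem_tsupport_iff_eventuallyEq.1 fun h => hz (hR h)
  have hk : 0 < k := Fin.pos i0
  have h1 := integral_det_jm_ball hk hv hv0
  have h2 : ∀ z, (jm v z).det = (jm u z).det := by
    intro z
    by_cases hz : z ∈ ball (0 : Euc k) (R + 1)
    · congr 1
      ext i j
      have : v i =ᶠ[𝓝 z] u i := by
        filter_upwards [isOpen_ball.mem_nhds hz] with w hw using hvu i w hw
      simp [jm, this.fderiv_eq]
    · have hz' : z ∉ ball (0 : Euc k) R := fun h => hz (ball_subset_ball (by linarith) h)
      rw [jm_row_zero (hout z hz')]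
      apply jm_row_zero (i := i0) (c := 0)
      filter_upwards [hout z hz'] with w hw
      have : 0 ≤ b w := by positivity
      simp [v, hw, this]
  simp_rw [h2] at h1
  rw [← h1, setIntegral_eq_integral_of_forall_compl_eq_zero]
  intro z hz
  exact jm_row_zero (hout z fun h => hz (ball_subset_closedBall (ball_subset_ball (by linarith) h)))

end Crest.Agent.R241
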