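import Crest.Agent.R241.KLin
import Crest.Agent.R241.MCov
import Crest.Agent.R241.MNull

/-! Row 241, slicing (helper42), part A5: Euclidean and matrix lemmas. -/

set_option autoImplicit false

open MeasureTheory Set Filter Topology Matrix
open scoped ENNReal NNReal
open Crest.GeometryTopology.Submanifold (Euc)

namespace Crest.Agent.R241.Sl

variable {k : ℕ}

/-! ### a countable family of Lipschitz functions -/

/-- On a compact metric space there is a countable family of Lipschitz functions such that every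
Lipschitz function is a uniform limit of members with a common Lipschitz constant
(`min_{j ≤ N} (q_j + L dist (x, x_j))`, `q_j` rational, `L` natural, `x_j` a dense sequence; the
empty space is trivial). -/
theorem exists_countable_lip (X : Type*) [MetricSpace X] [CompactSpace X] :
    ∃ D : Set (X → ℝ), D.Countable ∧ (∀ f ∈ D, ∃ K : ℝ≥0, LipschitzWith K f) ∧
      ∀ (f : X → ℝ) (L : ℝ≥0), LipschitzWith L f → ∃ (L' : ℝ≥0) (fs : ℕ → X → ℝ),
        (∀ n, fs n ∈ D) ∧ (∀ n, LipschitzWith L' (fs n)) ∧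
        ∀ n x, |fs n x - f x| ≤ 1 / ((n : ℝ) + 1) := by
  have h : ∀ L : ℕ, ∃ t : Set C(X, ℝ), t ⊆ {g : C(X, ℝ) | LipschitzWith (L : ℝ≥0) g} ∧
      t.Countable ∧ {g : C(X, ℝ) | LipschitzWith (L : ℝ≥0) g} ⊆ closure t := fun L =>
    (TopologicalSpace.IsSeparable.of_separableSpace _).exists_countable_dense_subset
  choose t ht hc hd using h
  refine ⟨⋃ L : ℕ, (fun g : C(X, ℝ) => (g : X → ℝ)) '' t L,
    countable_iUnion fun L => (hc L).image _, ?_, ?_⟩
  · intro f hf
    obtain ⟨L, g, hg, rfl⟩ := by simpa only [mem_iUnion, mem_image] using hf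
    exact ⟨L, ht L hg⟩
  · intro f L hf
    have hf' : LipschitzWith ((⌈L⌉₊ : ℕ) : ℝ≥0) f := hf.weaken (Nat.le_ceil L)
    have hm : (⟨f, hf.continuous⟩ : C(X, ℝ)) ∈ closure (t ⌈L⌉₊) := hd _ hf'
    have h2 : ∀ n : ℕ, ∃ g ∈ t ⌈L⌉₊, dist (⟨f, hf.continuous⟩ : C(X, ℝ)) g < 1 / ((n : ℝ) + 1) :=
      fun n => Metric.mem_closure_iff.1 hm _ (by positivity)
    choose g hg hgd using h2
    refine ⟨(⌈L⌉₊ : ℕ), fun n => g n, fun n => mem_iUnion.2 ⟨_, mem_image_of_mem _ (hg n)⟩,
      fun n => ht _ (hg n), fun n x => ?_⟩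
    have h3 := ContinuousMap.dist_apply_le_dist (f := (⟨f, hf.continuous⟩ : C(X, ℝ))) (g := g n) x
    rw [abs_sub_comm, ← Real.dist_eq]
    exact h3.trans (hgd n).le

/-! ### primitives of test functions -/

/-- `γ t = ∫_{r > t} η r` is `C¹` with derivative `-η`, Lipschitz, and vanishes to the right of the
support. -/
theorem exists_primitive {η : ℝ → ℝ} (hη : Continuous η) (hc : HasCompactSupport η) :
    ∃ γ : ℝ → ℝ, (∀ t, HasDerivAt γ (-η t) t) ∧ (∃ K : ℝ≥0, LipschitzWith K γ) ∧
      (∀ t, γ t = ∫ r, η r * (Ioi t).indicator (fun _ => (1 : ℝ)) r) ∧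
      ∀ b : ℝ, (∀ r, b ≤ r → η r = 0) → ∀ t, b ≤ t → γ t = 0 := by
  have hi : Integrable η := hη.integrable_of_hasCompactSupport hc
  have hd : ∀ t, HasDerivAt (fun t => ∫ r in Ioi t, η r) (-η t) t := by
    intro t
    have e : (fun t => ∫ r in Ioi t, η r) = fun t => (∫ r in Ioi 0, η r) - ∫ r in (0 : ℝ)..t, η r := by
      funext t
      rw [← intervalIntegral.integral_Ioi_sub_Ioi' hi.integrableOn hi.integrableOn]
      ring
    rw [e]
    exact (intervalIntegral.integral_hasDerivAt_right hi.intervalIntegrable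
      (hη.stronglyMeasurableAtFilter _ _) hη.continuousAt).const_sub _
  obtain ⟨C, hC⟩ := hc.exists_bound_of_continuous hη
  refine ⟨fun t => ∫ r in Ioi t, η r, hd, ⟨C.toNNReal, ?_⟩, fun t => ?_, fun b hb t ht => ?_⟩
  · refine lipschitzWith_of_nnnorm_deriv_le (fun t => (hd t).differentiableAt) fun t => ?_
    rw [(hd t).deriv, nnnorm_neg, ← NNReal.coe_le_coe, coe_nnnorm]
    exact (hC t).trans (Real.le_coe_toNNReal C)
  · show ∫ r in Ioi t, η r = _
    rw [← integral_indicator measurableSet_Ioi]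
    refine integral_congr_ae (Eventually.of_forall fun r => ?_)
    by_cases h : r ∈ Ioi t <;> simp [h]
  · exact setIntegral_eq_zero_of_forall_eq_zero fun r hr => hb r (ht.trans (le_of_lt hr))

/-- two locally integrable functions with the same integrals against test functions supported in
`(-∞, b)` agree a.e. there (`IsOpen.ae_eq_zero_of_integral_contDiff_smul_eq_zero`). -/
theorem ae_eq_of_test {A S : ℝ → ℝ} (hA : LocallyIntegrable A) (hS : LocallyIntegrable S) (b : ℝ)
    (h : ∀ η : ℝ → ℝ, Continuous η → HasCompactSupport η → (∀ r, b ≤ r → η r = 0) →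
      ∫ r, η r * A r = ∫ r, η r * S r) :
    ∀ᵐ r : ℝ, r < b → A r = S r := by
  have h1 := (isOpen_Iio (a := b)).ae_eq_zero_of_integral_contDiff_smul_eq_zero
    (f := fun r => A r - S r) (μ := volume) ((hA.sub hS).locallyIntegrableOn _)
    fun g hg hgc hgs => by
      have a1 := hA.integrable_smul_left_of_hasCompactSupport hg.continuous hgc
      have a2 := hS.integrable_smul_left_of_hasCompactSupport hg.continuous hgc
      simp only [smul_sub]
      rw [integral_sub a1 a2, sub_eq_zero]
      exact h g hg.continuous hgc fun r hr =>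
        image_eq_zero_of_notMem_tsupport fun hr' => not_lt.2 hr (hgs hr')
  filter_upwards [h1] with r hr hrb
  exact sub_eq_zero.1 (hr hrb)

end Crest.Agent.R241.Sl
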