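import Crest.Agent.R241.KLin
import Crest.Agent.R241.MCov
import Crest.Agent.R241.MNull

/-! Row 241, slicing (helper42), part A2: Euclidean and matrix lemmas. -/

set_option autoImplicit false

open MeasureTheory Set Filter Topology Matrix
open scoped ENNReal NNReal
open Crest.GeometryTopology.Submanifold (Euc)

namespace Crest.Agent.R241.Sl

variable {k : ℕ}

/-! ### Fubini along the coordinate `0` -/

/-- the slice of `E` at height `r`. -/
def sl (E : Set (Euc (k + 1))) (r : ℝ) : Set (Euc k) := {z | cn r z ∈ E}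

theorem isometry_cn (r : ℝ) : Isometry (cn r : Euc k → Euc (k + 1)) := by
  refine Isometry.of_dist_eq fun w z => ?_
  rw [EuclideanSpace.dist_eq, EuclideanSpace.dist_eq, Fin.sum_univ_succ]
  simp [cn]

theorem cn_sub (r : ℝ) (w z : Euc k) : cn r w - cn r z = cn 0 (w - z) := by
  ext i
  refine Fin.cases ?_ (fun j => ?_) i <;> simp [cn]

theorem continuous_cn₂ : Continuous fun p : ℝ × Euc k => cn p.1 p.2 := by
  unfold cn
  refine (PiLp.continuous_toLp 2 _).comp (continuous_pi fun i => ?_)
  refine Fin.cases ?_ (fun j => ?_) i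
  · simpa using continuous_fst
  · simp only [Fin.cons_succ]
    fun_prop

theorem measurePreserving_cn₂ :
    MeasurePreserving (fun p : ℝ × Euc k => cn p.1 p.2) (volume.prod volume) volume := by
  have h1 : MeasurePreserving (Prod.map (id : ℝ → ℝ) (WithLp.ofLp : Euc k → (Fin k → ℝ)))
      (volume.prod volume) (volume.prod volume) :=
    (MeasurePreserving.id volume).prod (PiLp.volume_preserving_ofLp (Fin k))
  have h2 := (volume_preserving_piFinSuccAbove (fun _ : Fin (k + 1) => ℝ) 0).symm
  have h3 := PiLp.volume_preserving_toLp (Fin (k + 1))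
  have h4 := h3.comp (h2.comp h1)
  have e : (fun p : ℝ × Euc k => cn p.1 p.2) = WithLp.toLp 2 ∘
      (MeasurableEquiv.piFinSuccAbove (fun _ : Fin (k + 1) => ℝ) 0).symm ∘
        Prod.map id WithLp.ofLp := by
    funext p
    ext i
    refine Fin.cases ?_ (fun j => ?_) i <;>
      simp [cn, MeasurableEquiv.piFinSuccAbove, Fin.insertNthEquiv]
  rw [e]
  exact h4

theorem measurableEmbedding_cn₂ : MeasurableEmbedding fun p : ℝ × Euc k => cn p.1 p.2 := by
  refine continuous_cn₂.measurableEmbedding fun p q h => ?_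
  have h0 := congrArg (fun y : Euc (k + 1) => y 0) h
  have h1 := congrArg tl h
  simp only [cn_zero, tl_cn] at h0 h1
  exact Prod.ext h0 h1

theorem measurableSet_sl {E : Set (Euc (k + 1))} (hE : MeasurableSet E) (r : ℝ) :
    MeasurableSet (sl E r) := by
  exact (isometry_cn r).continuous.measurable hE

theorem isBounded_sl {E : Set (Euc (k + 1))} (hE : Bornology.IsBounded E) (r : ℝ) :
    Bornology.IsBounded (sl E r) := by
  exact (isometry_cn r).antilipschitz.isBounded_preimage hE

theorem ae_sl {E : Set (Euc (k + 1))} (hE : MeasurableSet E) {P : Euc (k + 1) → Prop}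
    (h : ∀ᵐ p ∂(volume.restrict E), P p) :
    ∀ᵐ r : ℝ, ∀ᵐ z ∂(volume.restrict (sl E r)), P (cn r z) := by
  rw [ae_restrict_iff' hE] at h
  have h1 := measurePreserving_cn₂.quasiMeasurePreserving.ae h
  filter_upwards [Measure.ae_ae_of_ae_prod h1] with r hr
  rw [ae_restrict_iff' (measurableSet_sl hE r)]
  exact hr

theorem measurable_lintegral_sl {E : Set (Euc (k + 1))} (hE : MeasurableSet E)
    {f : Euc (k + 1) → ℝ≥0∞} (hf : Measurable f) :
    Measurable fun r : ℝ => ∫⁻ z in sl E r, f (cn r z) := by
  have e : (fun r : ℝ => ∫⁻ z in sl E r, f (cn r z)) =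
      fun r : ℝ => ∫⁻ z : Euc k, E.indicator f (cn r z) := by
    funext r
    rw [← lintegral_indicator (measurableSet_sl hE r)]
    rfl
  rw [e]
  exact Measurable.lintegral_prod_right' (f := fun p : ℝ × Euc k => E.indicator f (cn p.1 p.2))
    ((hf.indicator hE).comp continuous_cn₂.measurable)

theorem lintegral_sl {E : Set (Euc (k + 1))} (hE : MeasurableSet E)
    {f : Euc (k + 1) → ℝ≥0∞} (hf : AEMeasurable f (volume.restrict E)) :
    ∫⁻ p in E, f p = ∫⁻ r : ℝ, ∫⁻ z in sl E r, f (cn r z) := by
  have hf' : AEMeasurable (E.indicator f) volume := (aemeasurable_indicator_iff hE).2 hf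
  rw [← lintegral_indicator hE, ← measurePreserving_cn₂.lintegral_comp_emb measurableEmbedding_cn₂,
    lintegral_prod (fun p : ℝ × Euc k => E.indicator f (cn p.1 p.2))
      (hf'.comp_quasiMeasurePreserving measurePreserving_cn₂.quasiMeasurePreserving)]
  refine lintegral_congr fun r => ?_
  rw [← lintegral_indicator (measurableSet_sl hE r)]
  rfl

theorem integral_sl {E : Set (Euc (k + 1))} (hE : MeasurableSet E) {f : Euc (k + 1) → ℝ}
    (hf : IntegrableOn f E) :
    (∀ᵐ r : ℝ, IntegrableOn (fun z => f (cn r z)) (sl E r)) ∧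
      Integrable (fun r : ℝ => ∫ z in sl E r, f (cn r z)) ∧
      ∫ p in E, f p = ∫ r : ℝ, ∫ z in sl E r, f (cn r z) := by
  have hf' : Integrable (E.indicator f) volume := (integrable_indicator_iff hE).2 hf
  have h1 : Integrable (fun p : ℝ × Euc k => E.indicator f (cn p.1 p.2)) (volume.prod volume) :=
    (measurePreserving_cn₂.integrable_comp_emb measurableEmbedding_cn₂).2 hf'
  have e1 : ∀ r : ℝ, (fun z : Euc k => E.indicator f (cn r z)) =
      (sl E r).indicator fun z => f (cn r z) := fun r => rfl
  have e : ∀ r : ℝ, ∫ z in sl E r, f (cn r z) = ∫ z : Euc k, E.indicator f (cn r z) := by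
    intro r
    rw [← integral_indicator (measurableSet_sl hE r), e1]
  refine ⟨?_, ?_, ?_⟩
  · filter_upwards [h1.prod_right_ae] with r hr
    rw [e1] at hr
    exact (integrable_indicator_iff (measurableSet_sl hE r)).1 hr
  · simp only [e]
    exact h1.integral_prod_left
  · simp only [e]
    rw [← integral_indicator hE,
      ← measurePreserving_cn₂.integral_comp measurableEmbedding_cn₂, integral_prod _ h1]

/-- the linear part of `cn r` -/
private noncomputable def h50_A (k : ℕ) : Euc k →L[ℝ] Euc (k + 1) :=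
  LinearMap.toContinuousLinearMap
    { toFun := cn 0
      map_add' := fun x y => by
        ext i
        refine Fin.cases ?_ (fun j => ?_) i <;> simp [cn]
      map_smul' := fun c x => by
        ext i
        refine Fin.cases ?_ (fun j => ?_) i <;> simp [cn] }

private theorem h50_A_apply (z : Euc k) : h50_A k z = cn 0 z := rfl

private theorem h50_A_single (j : Fin k) :
    h50_A k (EuclideanSpace.single j 1) = EuclideanSpace.single j.succ 1 := by
  rw [h50_A_apply]
  ext i
  refine Fin.cases ?_ (fun i => ?_) i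
  · simp [cn, (Fin.succ_ne_zero j).symm]
  · simp [cn]

private theorem h50_hasFDerivAt_cn (r : ℝ) (z : Euc k) :
    HasFDerivAt (cn r : Euc k → Euc (k + 1)) (h50_A k) z := by
  have e : (cn r : Euc k → Euc (k + 1)) = fun w => cn r 0 + h50_A k w := by
    funext w
    rw [h50_A_apply]
    ext i
    refine Fin.cases ?_ (fun j => ?_) i <;> simp [cn]
  rw [e]
  exact (h50_A k).hasFDerivAt.const_add _

/-- derivative within a slice (`HasFDerivWithinAt.comp` with the affine isometry `cn r`,
`cov_uniqueDiff` for `sl E r`). -/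
theorem ae_cv_sl {E : Set (Euc (k + 1))} (hE : MeasurableSet E) {u : Euc (k + 1) → ℝ} {L : ℝ≥0}
    (hu : LipschitzOnWith L u E) :
    ∀ᵐ r : ℝ, ∀ᵐ z ∂(volume.restrict (sl E r)), ∀ j : Fin k,
      cv (fderivWithin ℝ (fun w => u (cn r w)) (sl E r) z) j =
        cv (fderivWithin ℝ u E (cn r z)) j.succ := by
  have h1 : ∀ᵐ p ∂(volume.restrict E), DifferentiableWithinAt ℝ u E p :=
    hu.ae_differentiableWithinAt hE
  filter_upwards [ae_sl hE h1] with r hr
  have h2 := (ae_restrict_iff' (measurableSet_sl hE r)).2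
    (cov_uniqueDiff volume (measurableSet_sl hE r))
  filter_upwards [hr, h2] with z hz hU j
  have h3 : HasFDerivWithinAt (fun w => u (cn r w))
      ((fderivWithin ℝ u E (cn r z)).comp (h50_A k)) (sl E r) z :=
    hz.hasFDerivWithinAt.comp z (h50_hasFDerivAt_cn r z).hasFDerivWithinAt fun _ hw => hw
  rw [h3.fderivWithin hU]
  simp only [cv, ContinuousLinearMap.comp_apply, h50_A_single]

/-- the derivative within `E` of a function that equals the coordinate `0` on `E`. -/
theorem ae_cv_coord {E : Set (Euc (k + 1))} (hE : MeasurableSet E) {u : Euc (k + 1) → ℝ}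
    (hu : ∀ y ∈ E, u y = y 0) :
    ∀ᵐ z ∂(volume.restrict E), cv (fderivWithin ℝ u E z) = Pi.single 0 1 := by
  have h2 := (ae_restrict_iff' hE).2 (cov_uniqueDiff volume hE)
  filter_upwards [h2, ae_restrict_mem hE] with z hU hz
  have h3 : HasFDerivWithinAt u (EuclideanSpace.proj (0 : Fin (k + 1)) : Euc (k + 1) →L[ℝ] ℝ) E z :=
    (EuclideanSpace.proj (0 : Fin (k + 1)) : Euc (k + 1) →L[ℝ] ℝ).hasFDerivWithinAt.congr
      (fun y hy => hu y hy) (hu z hz)
  rw [h3.fderivWithin hU]
  funext j
  simp [cv, Pi.single_apply, eq_comm]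

end Crest.Agent.R241.Sl
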