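import Crest.Agent.R241.KLin
import Crest.Agent.R241.MCov
import Crest.Agent.R241.MNull

/-! Row 241, slicing (helper42), part A4: Euclidean and matrix lemmas. -/

set_option autoImplicit false

open MeasureTheory Set Filter Topology Matrix
open scoped ENNReal NNReal
open Crest.GeometryTopology.Submanifold (Euc)

namespace Crest.Agent.R241.Sl

variable {k : ℕ}

/-! ### matrices -/

theorem det_cons_single (a : Fin k → Fin (k + 1) → ℝ) :
    (Matrix.of (Fin.cons (Pi.single 0 1) a : Fin (k + 1) → Fin (k + 1) → ℝ)).det =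
      (Matrix.of fun i j => a i j.succ).det := by
  rw [Matrix.det_succ_row_zero, Fin.sum_univ_succ]
  have e : (Matrix.of (Fin.cons (Pi.single 0 1) a : Fin (k + 1) → Fin (k + 1) → ℝ)).submatrix
      Fin.succ (Fin.succAbove 0) = Matrix.of fun i j => a i j.succ := by
    ext i j; simp
  rw [e]
  simp

theorem det_vecMul {n : ℕ} (a : Fin n → Fin n → ℝ) (M : Matrix (Fin n) (Fin n) ℝ) :
    (Matrix.of fun i => a i ᵥ* M).det = (Matrix.of a).det * M.det := by
  rw [← Matrix.det_mul]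
  congr 1

theorem qf_submatrix (g : Matrix (Fin (k + 1)) (Fin (k + 1)) ℝ) (v : Fin k → ℝ) :
    qf (g.submatrix Fin.succ Fin.succ) v = qf g (Fin.cons 0 v) := by
  simp [qf, dotProduct, mulVec, Fin.sum_univ_succ]

/-- if `g` is invertible, `g⁻¹ 0 0 = adjugate g 0 0 / det g` (`Matrix.adjugate_fin_succ_eq_det_submatrix`);
if it is singular, a kernel vector has `v 0 = 0` and its tail is a kernel vector of the minor. -/
theorem sqrt_det_submatrix {g : Matrix (Fin (k + 1)) (Fin (k + 1)) ℝ} (hg : g.PosSemidef) {C : ℝ}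
    (h : ∀ v : Fin (k + 1) → ℝ, (v 0) ^ 2 ≤ C * qf g v) :
    √(g.submatrix Fin.succ Fin.succ).det =
      √g.det * √((Pi.single 0 1 : Fin (k + 1) → ℝ) ⬝ᵥ g⁻¹ *ᵥ Pi.single 0 1) := by
  have he : (Pi.single 0 1 : Fin (k + 1) → ℝ) ⬝ᵥ g⁻¹ *ᵥ Pi.single 0 1 = g⁻¹ 0 0 := by
    simp
  rw [he]
  by_cases hd : g.det = 0
  · rw [hd, Real.sqrt_zero, zero_mul]
    obtain ⟨v, hv, h0⟩ := Matrix.exists_mulVec_eq_zero_iff.2 hd
    have hq : qf g v = 0 := by simp [qf, h0]
    have hv0 : v 0 = 0 := by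
      have := h v
      rw [hq, mul_zero] at this
      exact pow_eq_zero_iff two_ne_zero |>.1 (le_antisymm this (sq_nonneg _))
    have hz : (g.submatrix Fin.succ Fin.succ).det = 0 := by
      refine Matrix.exists_mulVec_eq_zero_iff.1 ⟨fun i => v i.succ, fun hh => hv ?_, ?_⟩
      · funext i
        refine Fin.cases hv0 (fun j => ?_) i
        exact congrFun hh j
      · funext i
        have := congrFun h0 i.succ
        simpa [mulVec, dotProduct, Fin.sum_univ_succ, hv0] using this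
    rw [hz, Real.sqrt_zero]
  · rw [← Real.sqrt_mul hg.det_nonneg, Matrix.inv_def, Matrix.smul_apply,
      Matrix.adjugate_fin_succ_eq_det_submatrix, Ring.inverse_eq_inv', smul_eq_mul]
    congr 1
    simp only [Fin.val_zero, add_zero, pow_zero, one_mul, Fin.succAbove_zero]
    field_simp

theorem qf_conj {n : ℕ} (g M : Matrix (Fin n) (Fin n) ℝ) (v : Fin n → ℝ) :
    qf (Mᵀ * g * M) v = qf g (M *ᵥ v) := by
  unfold qf
  rw [← mulVec_mulVec, ← mulVec_mulVec, dotProduct_mulVec, vecMul_transpose]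

theorem psd_conj {n : ℕ} {g : Matrix (Fin n) (Fin n) ℝ} (hg : g.PosSemidef)
    (M : Matrix (Fin n) (Fin n) ℝ) : (Mᵀ * g * M).PosSemidef := by
  have h := hg.conjTranspose_mul_mul_same M
  rwa [conjTranspose_eq_transpose_of_trivial] at h

theorem sqrt_det_conj {n : ℕ} (g M : Matrix (Fin n) (Fin n) ℝ) :
    √(Mᵀ * g * M).det = |M.det| * √g.det := by
  rw [det_mul, det_mul, det_transpose, show M.det * g.det * M.det = M.det ^ 2 * g.det by ring,
    Real.sqrt_mul (sq_nonneg _), Real.sqrt_sq_eq_abs]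

theorem inv_form_conj {n : ℕ} (g : Matrix (Fin n) (Fin n) ℝ) {M : Matrix (Fin n) (Fin n) ℝ}
    (hM : M.det ≠ 0) (a b : Fin n → ℝ) :
    (a ᵥ* M) ⬝ᵥ (Mᵀ * g * M)⁻¹ *ᵥ (b ᵥ* M) = a ⬝ᵥ g⁻¹ *ᵥ b := by
  have hu : IsUnit M.det := isUnit_iff_ne_zero.2 hM
  have hu' : IsUnit Mᵀ.det := by rwa [det_transpose]
  rw [Matrix.mul_inv_rev, Matrix.mul_inv_rev, ← dotProduct_mulVec, ← mulVec_transpose M b,
    mulVec_mulVec, mulVec_mulVec, ← Matrix.mul_assoc M, Matrix.mul_nonsing_inv _ hu,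
    Matrix.one_mul, Matrix.mul_assoc, Matrix.nonsing_inv_mul _ hu', Matrix.mul_one]

/-- `√(qf g ·)` is a seminorm bounded by a multiple of the norm. -/
theorem sqrt_qf_add_le {n : ℕ} {g : Matrix (Fin n) (Fin n) ℝ} (hg : g.PosSemidef) :
    ∃ c : ℝ, 0 ≤ c ∧ ∀ u v : Euc n, √(qf g (u + v).ofLp) ≤ √(qf g u.ofLp) + c * ‖v‖ := by
  obtain ⟨B, rfl⟩ := kl_root hg
  let T : Euc n →L[ℝ] Euc n := LinearMap.toContinuousLinearMap (Matrix.toEuclideanLin B)
  have hT : ∀ v : Euc n, √(qf (Bᵀ * B) v.ofLp) = ‖T v‖ := by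
    intro v
    have h1 : qf (Bᵀ * B) v.ofLp = (B *ᵥ v.ofLp) ⬝ᵥ (B *ᵥ v.ofLp) := by
      unfold qf
      rw [← mulVec_mulVec, dotProduct_mulVec, vecMul_transpose]
    rw [h1, EuclideanSpace.norm_eq]
    congr 1
    refine Finset.sum_congr rfl fun i _ => ?_
    rw [Real.norm_eq_abs, sq_abs, sq]
    rfl
  refine ⟨‖T‖, norm_nonneg _, fun u v => ?_⟩
  rw [hT, hT, map_add]
  exact (norm_add_le _ _).trans (add_le_add le_rfl (T.le_opNorm v))

theorem measurable_inv_apply {α : Type*} [MeasurableSpace α] {n : ℕ}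
    {g : α → Matrix (Fin n) (Fin n) ℝ} (hg : ∀ i j, Measurable fun z => g z i j) (a b : Fin n) :
    Measurable fun z => (g z)⁻¹ a b := by
  simp only [Matrix.inv_def, Matrix.smul_apply, Ring.inverse_eq_inv', smul_eq_mul,
    Matrix.adjugate_apply]
  refine (measurable_det hg).inv.mul (measurable_det fun i j => ?_)
  simp only [Matrix.updateRow_apply]
  split_ifs
  · exact measurable_const
  · exact hg i j

end Crest.Agent.R241.Sl
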