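import Crest.Agent.R241.SlB1
import Crest.Agent.R241.SlA2
import Crest.Agent.R241.SlA4

/-! Row 241, slicing (helper42), part B3: slices of a chain whose charts are adapted to `ρ`. -/

set_option autoImplicit false
set_option linter.unusedSectionVars false

open MeasureTheory Set Filter Topology Matrix
open scoped ENNReal NNReal
open Crest.GeometryTopology.Submanifold (Euc)

namespace Crest.Agent.R241.Sl

universe u
variable {X : Type u} [MetricSpace X] [MeasurableSpace X] [BorelSpace X] {k : ℕ}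

/-- in every chart `ρ` is the coordinate `0`. -/
def Adapted (C : Chain X (k + 1)) (ρ : X → ℝ) : Prop := ∀ i, ∀ y ∈ C.E i, ρ (C.φ i y) = y 0

/-- mass density of the slices. -/
noncomputable def sw (C : Chain X (k + 1)) (i : C.ι) (y : Euc (k + 1)) : ℝ :=
  |(C.θ i y : ℝ)| * √((C.g i y).submatrix Fin.succ Fin.succ).det

/-- `∫ h dμ` on the slice at level `r`. -/
noncomputable def sm (C : Chain X (k + 1)) (h : X → ℝ≥0∞) (r : ℝ) : ℝ≥0∞ :=
  ∑' i, ∫⁻ z in sl (C.E i) r, ENNReal.ofReal (sw C i (cn r z)) * h (C.φ i (cn r z))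

/-- levels at which the slice is a chain. -/
structure Good (C : Chain X (k + 1)) (r : ℝ) : Prop where
  iθ : ∀ i, IntegrableOn (fun z => (C.θ i (cn r z) : ℝ)) (sl (C.E i) r)
  maj : ∀ i, ∀ᵐ z ∂(volume.restrict (sl (C.E i) r)),
    MajAt (C.E i) (C.φ i) (C.g i (cn r z)) (cn r z)
  fin : sm C (fun _ => 1) r ≠ ⊤

theorem majAt_sl {E : Set (Euc (k + 1))} {φ : Euc (k + 1) → X}
    {g : Matrix (Fin (k + 1)) (Fin (k + 1)) ℝ} {r : ℝ} {z : Euc k} (h : MajAt E φ g (cn r z)) :
    MajAt (sl E r) (fun w => φ (cn r w)) (g.submatrix Fin.succ Fin.succ) z := by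
  intro ε hε
  have ht : Tendsto (cn r : Euc k → Euc (k + 1)) (𝓝[sl E r] z) (𝓝[E] (cn r z)) :=
    (isometry_cn r).continuous.continuousWithinAt.tendsto_nhdsWithin fun _ hw => hw
  filter_upwards [ht.eventually (h ε hε)] with w hw
  have e1 : ‖cn r w - cn r z‖ = ‖w - z‖ := by
    rw [← dist_eq_norm, ← dist_eq_norm, (isometry_cn r).dist_eq]
  rw [e1, cn_sub] at hw
  rw [qf_submatrix]
  exact hw

/-- the slice at a good level. -/
noncomputable def slice (C : Chain X (k + 1)) (r : ℝ) (h : Good C r) : Chain X k where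
  ι := C.ι
  cnt := C.cnt
  E i := sl (C.E i) r
  φ i z := C.φ i (cn r z)
  θ i z := C.θ i (cn r z)
  g i z := (C.g i (cn r z)).submatrix Fin.succ Fin.succ
  mE i := measurableSet_sl (C.mE i) r
  bE i := isBounded_sl (C.bE i) r
  lip i := by
    obtain ⟨L, hL⟩ := C.lip i
    exact ⟨_, hL.comp (isometry_cn r).lipschitz.lipschitzOnWith fun _ hw => hw⟩
  mθ i := (C.mθ i).comp (isometry_cn r).continuous.measurable
  iθ := h.iθ
  mg i a b := (C.mg i a.succ b.succ).comp (isometry_cn r).continuous.measurable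
  psd i z := (C.psd i _).submatrix _
  maj i := (h.maj i).mono fun _ hz => majAt_sl hz
  fin := by simpa [sm, sw] using h.fin

/-- the action of the slice at level `r`. -/
noncomputable def sact (C : Chain X (k + 1)) (r : ℝ) (F : X → ℝ) (π : Fin k → X → ℝ) : ℝ :=
  ∑' i, ∫ z in sl (C.E i) r, (C.θ i (cn r z) : ℝ) * F (C.φ i (cn r z)) *
    jdet (sl (C.E i) r) (fun w => C.φ i (cn r w)) π z

variable {C : Chain X (k + 1)} {ρ : X → ℝ}

theorem slice_act {r : ℝ} (h : Good C r) (F : X → ℝ) (π : Fin k → X → ℝ) :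
    (slice C r h).act F π = sact C r F π := rfl

theorem slice_lintegral {r : ℝ} (h : Good C r) {f : X → ℝ≥0∞} (hf : Measurable f) :
    ∫⁻ p, f p ∂(slice C r h).μ = sm C f r := (slice C r h).lintegral_μ hf

theorem slice_in {r : ℝ} (h : Good C r) {A : Set X} (hA : C.In A) : (slice C r h).In A :=
  fun i _ hz => hA i _ hz

theorem slice_in_level (hC : Adapted C ρ) {r : ℝ} (h : Good C r) :
    (slice C r h).In {p | ρ p = r} := fun i z hz => (hC i _ hz).trans (cn_zero r z)

theorem measurable_sw (C : Chain X (k + 1)) (i : C.ι) : Measurable (sw C i) :=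
  ((measurable_of_countable (fun n : ℤ => (n : ℝ))).comp (C.mθ i)).abs.mul
    (measurable_det fun a b => C.mg i a.succ b.succ).sqrt

/-- the gradient of `ρ` in an adapted chart. -/
theorem ae_dv_eq (hC : Adapted C ρ) (i : C.ι) :
    ∀ᵐ y ∂(volume.restrict (C.E i)), dv (C.E i) (C.φ i) ρ y = Pi.single 0 1 :=
  ae_cv_coord (C.mE i) (hC i)

theorem ae_sw_eq (hC : Adapted C ρ) (hρ : Lip ρ) (i : C.ι) :
    ∀ᵐ y ∂(volume.restrict (C.E i)), sw C i y = C.wt i y * √(C.G ρ ρ i y) := by
  obtain ⟨K, hK⟩ := hρ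
  filter_upwards [ae_dv_eq hC i, C.ae_dv_sq_le i hK] with y h1 h2
  rw [h1] at h2
  rw [sw, sqrt_det_submatrix (C.psd i y) (C := (K : ℝ) ^ 2) fun v => by simpa using h2 v,
    Chain.wt, Chain.G, h1, gam, mul_assoc]

/-- a measurable modification of `h ∘ φ i` off the chart domain. -/
theorem measurable_ind (C : Chain X (k + 1)) (i : C.ι) {h : X → ℝ≥0∞} (hh : Measurable h) :
    Measurable ((C.E i).indicator fun y => h (C.φ i y)) := by
  classical
  obtain ⟨L, hL⟩ := C.lip i
  rw [← piecewise_eq_indicator]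
  refine measurable_of_restrict_of_restrict_compl (C.mE i) ?_ ?_
  · rw [restrict_piecewise]
    exact hh.comp hL.continuousOn.restrict.measurable
  · rw [restrict_piecewise_compl]
    exact measurable_const

theorem measurable_sm_term (C : Chain X (k + 1)) {h : X → ℝ≥0∞} (hh : Measurable h) (i : C.ι) :
    Measurable fun r : ℝ =>
      ∫⁻ z in sl (C.E i) r, ENNReal.ofReal (sw C i (cn r z)) * h (C.φ i (cn r z)) := by
  have := measurable_lintegral_sl (C.mE i)
    ((measurable_sw C i).ennreal_ofReal.mul (measurable_ind C i hh))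
  convert this using 2 with r
  refine setLIntegral_congr_fun (measurableSet_sl (C.mE i) r) fun z hz => ?_
  have hz' : cn r z ∈ C.E i := hz
  simp only [Pi.mul_apply, indicator_of_mem hz']

theorem measurable_sm (C : Chain X (k + 1)) {h : X → ℝ≥0∞} (hh : Measurable h) :
    Measurable (sm C h) := Measurable.tsum (measurable_sm_term C hh)

theorem lintegral_sm (hC : Adapted C ρ) (hρ : Lip ρ) {h : X → ℝ≥0∞} (hh : Measurable h) :
    ∫⁻ r, sm C h r = Jh C ρ h := by
  have hm : ∀ i, AEMeasurable (fun y => ENNReal.ofReal (sw C i y) * h (C.φ i y))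
      (volume.restrict (C.E i)) := fun i =>
    (measurable_sw C i).ennreal_ofReal.aemeasurable.mul (hh.comp_aemeasurable (C.aemeasurable_φ i))
  unfold sm Jh
  rw [lintegral_tsum fun i => (measurable_sm_term C hh i).aemeasurable]
  refine tsum_congr fun i => ?_
  rw [← lintegral_sl (C.mE i) (hm i)]
  refine lintegral_congr_ae ?_
  filter_upwards [ae_sw_eq hC hρ i] with y hy
  rw [hy, mul_comm]

theorem ae_good (hC : Adapted C ρ) (hρ : Lip ρ) : ∀ᵐ r : ℝ, Good C r := by
  have h1 : ∀ᵐ r : ℝ, sm C (fun _ => 1) r < ⊤ :=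
    ae_lt_top (measurable_sm C measurable_const) (by
      rw [lintegral_sm hC hρ measurable_const]; exact J_one_ne_top C hρ)
  filter_upwards [h1, ae_all_iff.2 fun i => (integral_sl (C.mE i) (C.iθ i)).1,
    ae_all_iff.2 fun i => ae_sl (C.mE i) (C.maj i)] with r a b c using ⟨b, c, a.ne⟩

/-- the integrand of the slice is the integrand of the chain with `dρ` in front. -/
theorem ae_term_sl (hC : Adapted C ρ) (F : X → ℝ) {π : Fin k → X → ℝ} (hπ : ∀ a, Lip (π a))
    (i : C.ι) : ∀ᵐ r : ℝ, ∀ᵐ z ∂(volume.restrict (sl (C.E i) r)),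
      (C.θ i (cn r z) : ℝ) * F (C.φ i (cn r z)) *
        jdet (sl (C.E i) r) (fun w => C.φ i (cn r w)) π z = term C F (Fin.cons ρ π) i (cn r z) := by
  obtain ⟨L, hL⟩ := C.lip i
  have h1 := ae_all_iff.2 fun a => ae_cv_sl (C.mE i) (u := fun w => π a (C.φ i w))
    ((hπ a).choose_spec.comp_lipschitzOnWith hL)
  filter_upwards [h1, ae_sl (C.mE i) (ae_dv_eq hC i)] with r h2 h3
  filter_upwards [ae_all_iff.2 h2, h3] with z h4 h5
  have e : (fun a => dv (C.E i) (C.φ i) ((Fin.cons ρ π : Fin (k + 1) → X → ℝ) a) (cn r z)) =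
      (Fin.cons (Pi.single 0 1) fun a => dv (C.E i) (C.φ i) (π a) (cn r z) :
        Fin (k + 1) → Fin (k + 1) → ℝ) := by
    funext a
    refine Fin.cases ?_ (fun j => ?_) a
    · simpa using h5
    · simp
  unfold term jdet
  rw [e, det_cons_single]
  congr 2
  ext a j
  exact h4 a j

theorem sact_integral (hC : Adapted C ρ) (hρ : Lip ρ) {F : X → ℝ} (hF : BM F)
    {π : Fin k → X → ℝ} (hπ : ∀ a, Lip (π a)) :
    Integrable (fun r => sact C r F π) ∧ C.act F (Fin.cons ρ π) = ∫ r, sact C r F π := by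
  have hτ := lip_cons hρ hπ
  set T : C.ι → ℝ → ℝ := fun i r => ∫ z in sl (C.E i) r, term C F (Fin.cons ρ π) i (cn r z)
  have e : (fun r => sact C r F π) =ᵐ[volume] fun r => ∑' i, T i r := by
    filter_upwards [ae_all_iff.2 (ae_term_sl hC F hπ)] with r hr
    exact tsum_congr fun i => integral_congr_ae (hr i)
  have hT := fun i => integral_sl (C.mE i) (integrableOn_term C i hF hτ)
  have hs : ∑' i, ∫⁻ r, ‖T i r‖ₑ ≠ ⊤ := by
    refine ne_top_of_le_ne_top (tsum_enorm_term_ne_top C hF hτ) (ENNReal.tsum_le_tsum fun i => ?_)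
    rw [lintegral_sl (C.mE i) (aemeasurable_term C i hF.1 hτ).enorm]
    exact lintegral_mono fun r => enorm_integral_le_lintegral_enorm _
  have hm : ∀ i, AEStronglyMeasurable (T i) volume := fun i => (hT i).2.1.1
  refine ⟨Integrable.congr ?_ e.symm, ?_⟩
  · refine ⟨(AEMeasurable.tsum fun i => (hm i).aemeasurable).aestronglyMeasurable, ?_⟩
    refine lt_of_le_of_lt (lintegral_mono fun r => enorm_tsum_le_tsum_enorm) ?_
    rw [lintegral_tsum fun i => (hm i).enorm]
    exact hs.lt_top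
  · rw [integral_congr_ae e, integral_tsum hm hs, act_eq]
    exact tsum_congr fun i => (hT i).2.2

theorem sact_mul (hC : Adapted C ρ) (η : ℝ → ℝ) (F : X → ℝ) (π : Fin k → X → ℝ) (r : ℝ) :
    sact C r (fun p => η (ρ p) * F p) π = η r * sact C r F π := by
  unfold sact
  rw [← tsum_mul_left]
  refine tsum_congr fun i => ?_
  rw [← integral_const_mul]
  refine setIntegral_congr_fun (measurableSet_sl (C.mE i) r) fun z hz => ?_
  simp only
  rw [hC i _ hz, cn_zero]
  ring

end Crest.Agent.R241.Sl
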