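import Crest.Agent.R241.SlB2
import Crest.Agent.R241.SlB3
import Crest.Agent.R241.SlA5
import Crest.Agent.R241.MOps

/-! Row 241, slicing (helper42), part B4: the slicing theorem. -/

set_option autoImplicit false
set_option linter.unusedSectionVars false

open MeasureTheory Set Filter Topology Matrix
open scoped ENNReal NNReal
open Crest.GeometryTopology.Submanifold (Euc)

namespace Crest.Agent.R241.Sl

universe u
variable {X : Type u} [MetricSpace X] [MeasurableSpace X] [BorelSpace X] {k : ℕ}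

/-- the indicator of a sublevel set. -/
noncomputable abbrev ind (ρ : X → ℝ) (r : ℝ) : X → ℝ := {p | ρ p < r}.indicator fun _ => 1

theorem bm_ind {ρ : X → ℝ} (hρ : Measurable ρ) (r : ℝ) : BM (ind ρ r) :=
  (BM.const 1).indicator (hρ measurableSet_Iio)

theorem fubini_ind (ν : Measure X) [IsFiniteMeasure ν] {ρ : X → ℝ} (hρ : Measurable ρ) :
    LocallyIntegrable (fun r => ∫ p, ind ρ r p ∂ν) ∧ ∀ η : ℝ → ℝ, Integrable η →
      Integrable (fun r => η r * ∫ p, ind ρ r p ∂ν) ∧
      ∫ p, (∫ r, η r * (Ioi (ρ p)).indicator (fun _ => (1 : ℝ)) r) ∂ν =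
        ∫ r, η r * ∫ p, ind ρ r p ∂ν := by
  have hm : Measurable fun q : ℝ × X => ind ρ q.1 q.2 :=
    measurable_const.indicator (measurableSet_lt (hρ.comp measurable_snd) measurable_fst)
  have hb : ∀ r p, ‖ind ρ r p‖ ≤ 1 := fun r p => by
    by_cases h : p ∈ {p | ρ p < r} <;> simp [ind, h]
  have hA : StronglyMeasurable fun r => ∫ p, ind ρ r p ∂ν :=
    hm.stronglyMeasurable.integral_prod_right'
  have hAb : ∀ r, ‖∫ p, ind ρ r p ∂ν‖ ≤ 1 * ν.real univ := fun r =>
    norm_integral_le_of_norm_le_const (.of_forall (hb r))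
  refine ⟨fun x => ⟨Metric.ball x 1, Metric.ball_mem_nhds x one_pos, ?_⟩, fun η hη => ⟨?_, ?_⟩⟩
  · exact Measure.integrableOn_of_bounded measure_ball_lt_top.ne hA.aestronglyMeasurable
      (.of_forall hAb)
  · exact hη.mul_bdd hA.aestronglyMeasurable (.of_forall hAb)
  · have hi : Integrable (Function.uncurry fun (r : ℝ) (p : X) => η r * ind ρ r p)
        (volume.prod ν) := by
      have h1 : Integrable (fun q : ℝ × X => η q.1) (volume.prod ν) := hη.comp_fst ν
      exact h1.mul_bdd hm.aestronglyMeasurable (.of_forall fun q => hb _ _)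
    have := integral_integral_swap hi
    simp only [integral_const_mul] at this
    rw [this]
    rfl

variable [CompactSpace X] {C : Chain X (k + 1)} {ρ : X → ℝ}

/-- the boundary of the part below level `r` is the slice, tested on one form. -/
theorem ae_eq_fixed (P : Par C ρ) (hρ : Lip ρ) {b : ℝ}
    (hC : ∀ (f : X → ℝ) (π : Fin k → X → ℝ), Lip f → (∀ a, Lip (π a)) →
      (∀ p, b ≤ ρ p → f p = 0) → C.act (fun _ => 1) (Fin.cons f π) = 0)
    {f : X → ℝ} (hf : Lip f) {π : Fin k → X → ℝ} (hπ : ∀ a, Lip (π a)) :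
    ∀ᵐ r : ℝ, r < b → C.act (ind ρ r) (Fin.cons f π) = sact P.chain r f π := by
  have hA : Adapted P.chain ρ := fun n y hy => P.coord n.1 n.2 y hy
  have hρm := hρ.continuous.measurable
  obtain ⟨ν₁, ν₂, i1, i2, hν⟩ := exists_rep C (lip_cons hf hπ)
  have e : (fun r => C.act (ind ρ r) (Fin.cons f π)) =
      fun r => ∫ p, ind ρ r p ∂ν₁ - ∫ p, ind ρ r p ∂ν₂ := funext fun r => hν _ (bm_ind hρm r)
  obtain ⟨a1, b1⟩ := fubini_ind ν₁ hρm
  obtain ⟨a2, b2⟩ := fubini_ind ν₂ hρm
  refine ae_eq_of_test (A := fun r => C.act (ind ρ r) (Fin.cons f π))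
    (e ▸ a1.sub a2) (sact_integral hA hρ hf.bm hπ).1.locallyIntegrable b fun η hη hc hb => ?_
  obtain ⟨γ, g1, g2, g3, g4⟩ := exists_primitive hη hc
  have hγρ : Lip fun p => γ (ρ p) := ⟨_, g2.choose_spec.comp hρ.choose_spec⟩
  have hi : Integrable η := hη.integrable_of_hasCompactSupport hc
  have h0 := hC _ π (hγρ.mul hf) hπ fun p hp => by rw [g4 b hb _ hp, zero_mul]
  rw [act_leibniz C hf hρ g1 g2 hη.neg hπ] at h0
  have hηρ : BM fun p => η (ρ p) := by
    obtain ⟨B, hB⟩ := hη.bounded_above_of_compact_support hc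
    exact ⟨hη.measurable.comp hρm, B, fun p => hB _⟩
  have h1 : C.act (fun p => -η (ρ p) * f p) (Fin.cons ρ π) =
      -∫ r, η r * sact P.chain r f π := by
    simp only [neg_mul]
    rw [C.act_neg, ← P.act_eq hρ (hηρ.mul hf.bm) hπ, (sact_integral hA hρ (hηρ.mul hf.bm) hπ).2]
    simp only [sact_mul hA]
  have h2 : C.act (fun p => γ (ρ p)) (Fin.cons f π) =
      ∫ r, η r * C.act (ind ρ r) (Fin.cons f π) := by
    rw [hν _ hγρ.bm]
    simp only [g3]
    rw [(b1 η hi).2, (b2 η hi).2, ← integral_sub (b1 η hi).1 (b2 η hi).1]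
    refine integral_congr_ae (.of_forall fun r => ?_)
    simp only [congrFun e r]
    ring
  linarith

/-- identities between actions extend from a countable dense family of test functions. -/
theorem exists_countable_test (X : Type u) [MetricSpace X] [MeasurableSpace X] [BorelSpace X]
    [CompactSpace X] : ∃ D : Set (X → ℝ), D.Countable ∧ (∀ f ∈ D, Lip f) ∧
      ∀ (k : ℕ) (C : Chain X (k + 1)) (s : Chain X k) (F : X → ℝ), BM F →
        (∀ (f : D) (π : Fin k → D), C.act F (Fin.cons f.1 fun a => (π a).1) =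
          s.act f.1 fun a => (π a).1) →
        ∀ (f : X → ℝ) (π : Fin k → X → ℝ), Lip f → (∀ a, Lip (π a)) →
          C.act F (Fin.cons f π) = s.act f π := by
  obtain ⟨D, hD, hL, hd⟩ := exists_countable_lip X
  refine ⟨D, hD, hL, fun k C s F hF h f π hf hπ => ?_⟩
  obtain ⟨L₀, fs, f1, f2, f3⟩ := hd f _ hf.choose_spec
  choose L πs p1 p2 p3 using fun a => hd (π a) _ (hπ a).choose_spec
  have lim : ∀ {u : ℕ → ℝ} {x : ℝ}, (∀ n, |u n - x| ≤ 1 / ((n : ℝ) + 1)) →
      Tendsto u atTop (𝓝 x) := fun {u x} hu =>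
    tendsto_iff_norm_sub_tendsto_zero.2 (squeeze_zero (fun _ => norm_nonneg _) hu
      tendsto_one_div_add_atTop_nhds_zero_nat)
  set K : ℝ≥0 := L₀ + ∑ a, L a
  have k0 : ∀ n, LipschitzWith K (fs n) := fun n => (f2 n).weaken le_self_add
  have k1 : ∀ n a, LipschitzWith K (πs a n) := fun n a => (p2 a n).weaken
    ((Finset.single_le_sum (f := L) (fun _ _ => zero_le) (Finset.mem_univ a)).trans le_add_self)
  have t1 : Tendsto (fun n => C.act F (Fin.cons (fs n) fun a => πs a n)) atTop
      (𝓝 (C.act F (Fin.cons f π))) := by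
    refine C.tendsto_act hF (K := K) (fun n a => ?_) fun a x => ?_
    · refine Fin.cases ?_ (fun j => ?_) a
      · simpa using k0 n
      · simpa using k1 n j
    · refine Fin.cases ?_ (fun j => ?_) a
      · simpa using lim fun n => f3 n x
      · simpa using lim fun n => p3 j n x
  have t2 : Tendsto (fun n => s.act f fun a => πs a n) atTop (𝓝 (s.act f π)) :=
    s.tendsto_act hf.bm k1 fun a x => lim fun n => p3 a n x
  have t3 : Tendsto (fun n => s.act (fun x => fs n x - f x) fun a => πs a n) atTop (𝓝 0) := by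
    refine squeeze_zero_norm (fun n => s.abs_act_le_mass
      ((k0 n).continuous.sub hf.continuous).measurable (f3 n) (k1 n)) ?_
    simpa using (tendsto_one_div_add_atTop_nhds_zero_nat.mul_const s.mass).const_mul
      (∏ _a : Fin k, (K : ℝ))
  have t4 := t2.add t3
  rw [add_zero] at t4
  refine tendsto_nhds_unique t1 (t4.congr fun n => ?_)
  rw [s.act_sub (Lip.bm ⟨_, k0 n⟩) hf.bm fun a => ⟨_, k1 n a⟩,
    h ⟨fs n, f1 n⟩ fun a => ⟨πs a n, p1 a n⟩]
  ring

/-- SLICING (relative form).  `s r` is the slice at level `r`. -/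
theorem slicing_rel (C : Chain X (k + 1)) (hρ : Lip ρ) (b : ℝ)
    (hC : ∀ (f : X → ℝ) (π : Fin k → X → ℝ), Lip f → (∀ a, Lip (π a)) →
      (∀ p, b ≤ ρ p → f p = 0) → C.act (fun _ => 1) (Fin.cons f π) = 0) :
    ∃ s : ℝ → Chain X k, (∀ r, (s r).In {p | ρ p = r}) ∧ (∀ r A, C.In A → (s r).In A) ∧
      (∀ᵐ r : ℝ, r < b → (s r).Cyc ∧ ∀ (f : X → ℝ) (π : Fin k → X → ℝ), Lip f →
        (∀ a, Lip (π a)) → C.act (ind ρ r) (Fin.cons f π) = (s r).act f π) ∧
      ∀ h : X → ℝ≥0∞, Measurable h → AEMeasurable (fun r => ∫⁻ p, h p ∂(s r).μ) ∧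
        ∫⁻ r, ∫⁻ p, h p ∂(s r).μ ≤ Jh C ρ h := by
  classical
  obtain ⟨P⟩ := exists_par C hρ
  have hA : Adapted P.chain ρ := fun n y hy => P.coord n.1 n.2 y hy
  obtain ⟨D, hD, hL, hd⟩ := exists_countable_test X
  have := hD.to_subtype
  refine ⟨fun r => if h : Good P.chain r then slice P.chain r h else Chain.zero X k,
    fun r => ?_, fun r A hA' => ?_, ?_, fun h hh => ?_⟩
  · simp only
    split_ifs with h
    · exact slice_in_level hA h
    · exact Chain.zero_In _
  · simp only
    split_ifs with h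
    · exact slice_in h (P.chain_in hA')
    · exact Chain.zero_In _
  · have h1 := ae_all_iff.2 fun q : D × (Fin k → D) =>
      ae_eq_fixed P hρ hC (hL _ q.1.2) (π := fun a => (q.2 a).1) fun a => hL _ (q.2 a).2
    filter_upwards [h1, ae_good hA hρ] with r h2 h3 hr
    rw [dif_pos h3]
    have h4 := hd k C (slice P.chain r h3) _ (bm_ind hρ.continuous.measurable r)
      fun f π => h2 (f, π) hr
    refine ⟨fun π hπ => ?_, h4⟩
    rw [← h4 _ π (Lip.const 1) hπ, act_cons_const]
  · have e : sm P.chain h =ᵐ[volume] fun r => ∫⁻ p, h p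
        ∂(if h : Good P.chain r then slice P.chain r h else Chain.zero X k).μ := by
      filter_upwards [ae_good hA hρ] with r hr
      rw [dif_pos hr, slice_lintegral hr hh]
    refine ⟨(measurable_sm _ hh).aemeasurable.congr e, ?_⟩
    rw [← lintegral_congr_ae e, lintegral_sm hA hρ hh]
    exact P.Jh_le hρ h

/-- the mass of a chain inside a level set, weighted. -/
theorem lintegral_level {s : Chain X k} (hρ : Lip ρ) {r : ℝ} (hs : s.In {p | ρ p = r})
    (ψ : ℝ → ℝ≥0∞) : ∫⁻ p, ψ (ρ p) ∂s.μ = ψ r * ENNReal.ofReal s.mass := by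
  rw [← s.μ_univ, ← lintegral_const]
  refine lintegral_congr_ae ?_
  filter_upwards [hs.ae_μ (hρ.continuous.measurable (measurableSet_singleton r))] with p hp
  rw [show ρ p = r from hp]

/-- almost every level set is null. -/
theorem ae_level_null (ν : Measure X) [IsFiniteMeasure ν] {ρ : X → ℝ} (hρ : Measurable ρ) :
    ∀ᵐ r : ℝ, ν {p | ρ p = r} = 0 := by
  have h := (Measure.countable_meas_level_set_pos (μ := ν) hρ).measure_zero volume
  refine measure_mono_null (fun r hr => ?_) h
  exact pos_iff_ne_zero.2 hr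

end Crest.Agent.R241.Sl
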