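import Crest.Agent.R241.Ops
import Crest.Agent.R241.SlB4

/-! Row 241 (Cartan-Hadamard): block S: slicing.
On `{dv ρ ≠ 0}` reparametrise countably many pieces bi-Lipschitz so that `ρ ∘ φ = z 0`; the slice
has metric `g` restricted to `z 0 = r`, `√det g' = √det g · √G(ρ,ρ)`; Fubini.  Test with
`χ(ρ) f`, `χ s = ∫_s^∞ ψ`, to identify the slice for a.e. `r`; countable dense families of
`L`-Lipschitz functions + `act_tendsto`. -/

set_option autoImplicit false

open MeasureTheory Set Filter Topology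
open scoped ENNReal NNReal Matrix ContDiff

namespace Crest.Agent.R241

open Crest.GeometryTopology.Submanifold

universe u v

variable {X : Type u} [MetricSpace X] [CompactSpace X] [MeasurableSpace X] [BorelSpace X] {k : ℕ}

theorem slice (T : Chain X (k + 1)) {ρ : X → ℝ} (hρ : Lip ρ) (r₁ : ℝ)
    (hT : ∀ π : Fin (k + 1) → X → ℝ, (∀ a, Lip (π a)) → (∀ p, r₁ ≤ ρ p → π 0 p = 0) →
      T.act (fun _ => 1) π = 0) :
    ∃ m : ℝ → ℝ, Measurable m ∧ Integrable m ∧ (∀ r, 0 ≤ m r) ∧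
      (∀ᵐ r : ℝ, r < r₁ → ∃ σ : Chain X k, σ.mass ≤ m r ∧ σ.In {p | ρ p = r} ∧
        ∀ f π, Lip f → (∀ a, Lip (π a)) →
          σ.act f π = T.act ({p | ρ p < r}.indicator fun _ => 1) (Fin.cons f π)) ∧
      ∀ ψ : ℝ → ℝ, BM ψ → (∀ r, 0 ≤ ψ r) →
        ∫ r, ψ r * m r ≤ T.I (fun p t => ψ (ρ p) * √t) ρ ρ := by
  obtain ⟨s, s1, -, s3, s4⟩ := Sl.slicing_rel T hρ r₁ fun f π hf hπ h =>
    hT _ (Lip.cons hf hπ) (by simpa using h)
  obtain ⟨K, hK⟩ := id hρ
  have hρm := hρ.continuous.measurable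
  obtain ⟨a1, a2⟩ := s4 (fun _ => 1) measurable_const
  simp only [lintegral_one, Chain.μ_univ] at a1 a2
  have a3 : AEMeasurable fun r => (s r).mass := by
    simpa only [ENNReal.toReal_ofReal (Chain.mass_nonneg _)] using a1.ennreal_toReal
  have e : (fun r => (s r).mass) =ᵐ[volume] fun r => max (a3.mk _ r) 0 := by
    filter_upwards [a3.ae_eq_mk] with r hr
    rw [← hr, max_eq_left (Chain.mass_nonneg _)]
  have hi : Integrable fun r => (s r).mass :=
    (lintegral_ofReal_ne_top_iff_integrable a3.aestronglyMeasurable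
      (.of_forall fun r => Chain.mass_nonneg _)).1
      (ne_top_of_le_ne_top (Sl.J_one_ne_top T hρ) a2)
  refine ⟨fun r => max (a3.mk _ r) 0, a3.measurable_mk.max measurable_const, hi.congr e,
    fun r => le_max_right _ _, ?_, fun ψ hψ hψ0 => ?_⟩
  · filter_upwards [s3, e] with r h1 h2 hr
    exact ⟨s r, h2.le, s1 r, fun f π hf hπ => ((h1 hr).2 f π hf hπ).symm⟩
  · obtain ⟨B, hB⟩ := hψ.2
    have h1 := (s4 (fun p => ENNReal.ofReal (ψ (ρ p))) (hψ.1.comp hρm).ennreal_ofReal).2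
    simp only [fun r => Sl.lintegral_level hρ (s1 r) fun t => ENNReal.ofReal (ψ t)] at h1
    have hI := T.integrable_I (F := fun p t => ψ (ρ p) * √t)
      ((hψ.1.comp (hρm.comp measurable_fst)).mul measurable_snd.sqrt) hK hK
      (B := B * √((K : ℝ) * K)) fun x t ht => by
        rw [abs_mul, abs_of_nonneg (Real.sqrt_nonneg t)]
        exact mul_le_mul (hB _) (Real.sqrt_le_sqrt ((le_abs_self t).trans ht)) (Real.sqrt_nonneg _)
          ((abs_nonneg _).trans (hB 0))
    have hn : ∀ p : T.ι × Euc (k + 1),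
        0 ≤ T.wt p.1 p.2 * (ψ (ρ (T.φ p.1 p.2)) * √(T.G ρ ρ p.1 p.2)) := fun p =>
      mul_nonneg (T.wt_nonneg _ _) (mul_nonneg (hψ0 _) (Real.sqrt_nonneg _))
    have h2 : ∫ r, ψ r * max (a3.mk _ r) 0 = ∫ r, ψ r * (s r).mass :=
      integral_congr_ae (e.mono fun r hr => by simp only at hr ⊢; rw [hr])
    have hi' : Integrable fun r => ψ r * (s r).mass :=
      hi.bdd_mul hψ.1.aestronglyMeasurable (.of_forall hB)
    have h3 := T.I_eq_ν (F := fun p t => ψ (ρ p) * √t) (f := ρ) (h := ρ) hI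
    beta_reduce at h3 hI
    rw [h2, h3, ← ENNReal.ofReal_le_ofReal_iff (integral_nonneg hn),
      ofReal_integral_eq_lintegral_ofReal hI (.of_forall hn),
      ofReal_integral_eq_lintegral_ofReal hi'
        (.of_forall fun r => mul_nonneg (hψ0 r) (Chain.mass_nonneg _)), T.lintegral_ν]
    simp only [ENNReal.ofReal_mul (hψ0 _)]
    refine h1.trans (le_of_eq ?_)
    unfold Sl.Jh
    refine tsum_congr fun i => lintegral_congr fun z => ?_
    rw [← ENNReal.ofReal_mul (hψ0 _), mul_left_comm]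

end Crest.Agent.R241
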