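import Crest.Agent.R241.Move
import Crest.Agent.R241.Slice
import Crest.Agent.R241.Prof
import Crest.Agent.R241.AlmCalc

/-! Row 241 (Cartan-Hadamard): block V: the density estimate of Almgren's argument. -/

set_option autoImplicit false

open MeasureTheory Set Filter Topology
open scoped ENNReal NNReal Matrix ContDiff

namespace Crest.Agent.R241

open Crest.GeometryTopology.Submanifold

universe u v

variable {X : Type u} [MetricSpace X] [CompactSpace X] [MeasurableSpace X]
  [BorelSpace X] {l : ℝ} {n : ℕ}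

omit [CompactSpace X] [MeasurableSpace X] [BorelSpace X] in
theorem h9_lip_cons {f : X → ℝ} {π : Fin n → X → ℝ} (hf : Lip f) (hπ : ∀ a, Lip (π a)) :
    ∀ a, Lip ((Fin.cons f π : Fin (n + 1) → X → ℝ) a) := fun a => by
  refine Fin.cases ?_ (fun b => ?_) a
  · simpa using hf
  · simpa using hπ b

omit [CompactSpace X] [MeasurableSpace X] [BorelSpace X] in
theorem h9_lip_comp {f : X → ℝ} (hf : Lip f) {P : X → X} (hP : LipschitzWith 1 P) :
    Lip fun q => f (P q) := by
  obtain ⟨K, hK⟩ := hf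
  exact ⟨_, hK.comp hP⟩

omit [CompactSpace X] [BorelSpace X] in
theorem h9_bm_indicator {f : X → ℝ} (hf : BM f) {A : Set X} (hA : MeasurableSet A) :
    BM (A.indicator f) := by
  obtain ⟨h1, C, hC⟩ := hf
  refine ⟨h1.indicator hA, max C 0, fun x => ?_⟩
  by_cases hx : x ∈ A
  · rw [indicator_of_mem hx]; exact (hC x).trans (le_max_left _ _)
  · rw [indicator_of_notMem hx, abs_zero]; exact le_max_right _ _

omit [CompactSpace X] in
/-- `∫ w √(..) ≤ ∫ w`. -/
theorem h9_I_le (C : Chain X n) {ρ w : X → ℝ} (hρ : LipschitzWith 1 ρ) (hw : BM w)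
    (h0 : ∀ᵐ p ∂C.μ, 0 ≤ w p) {ψ : ℝ → ℝ} (hψ : Continuous ψ)
    (h1 : ∀ t ∈ Icc (0 : ℝ) 1, ψ t ≤ 1) :
    C.I (fun p t => w p * ψ t) ρ ρ ≤ ∫ p, w p ∂C.μ := by
  have hl : Lip ρ := ⟨1, hρ⟩
  obtain ⟨hwm, B, hB⟩ := hw
  obtain ⟨i1, e1⟩ := C.I_eq hl hl (F := fun p t => w p * ψ t)
    ((hwm.comp measurable_fst).mul (hψ.measurable.comp measurable_snd)) fun M => by
      obtain ⟨B', hB'⟩ := (isCompact_Icc (a := -M) (b := M)).exists_bound_of_continuousOn
        hψ.continuousOn
      refine ⟨|B| * B', fun p t ht => ?_⟩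
      rw [abs_mul]
      exact mul_le_mul ((hB p).trans (le_abs_self B)) (hB' t (abs_le.1 ht)) (abs_nonneg _)
        (abs_nonneg _)
  have := C.law_fin hl hl
  rw [e1, ← C.law_fst hl hl, integral_map measurable_fst.aemeasurable hwm.aestronglyMeasurable]
  rw [← C.law_fst hl hl] at h0
  refine integral_mono_ae i1 (BM.integrable ⟨hwm.comp measurable_fst, B, fun q => hB q.1⟩ _) ?_
  filter_upwards [C.law_ae_mem hρ, ae_of_ae_map measurable_fst.aemeasurable h0] with q hq hq0
  exact mul_le_of_le_one_right hq0 (h1 _ (by simpa using hq))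

theorem h9_coneW_bm (hl : 0 ≤ l) (p : X) : BM fun q => coneW n l (dist p q) := by
  refine ⟨(measurable_coneW n l).comp (continuous_const.dist continuous_id).measurable,
    Metric.diam (univ : Set X), fun q => ?_⟩
  rw [abs_of_nonneg (coneW_nonneg hl n dist_nonneg)]
  exact ((coneW_le hl n dist_nonneg).trans (div_le_self dist_nonneg
    (by linarith [n.cast_nonneg (α := ℝ)]))).trans
    (Metric.dist_le_diam_of_mem isCompact_univ.isBounded (mem_univ _) (mem_univ _))

/-- the cone over a cycle in a ball. -/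
theorem h9_cone_ball (c : CatSp l X) (hl : 0 ≤ l) (Z : Chain X n) (hZ : Z.Cyc) (p : X) {r : ℝ}
    (hin : Z.In (Metric.closedBall p r)) : ∃ S : Chain X (n + 1), S.Bd Z ∧ S.mass ≤ r * Z.mass := by
  obtain ⟨S, hS, hm⟩ := cone_fill c hl Z hZ p
  have hle : ∀ q, coneW n l (dist p q) ≤ dist p q := fun q =>
    (coneW_le hl n dist_nonneg).trans (div_le_self dist_nonneg (by linarith [n.cast_nonneg (α := ℝ)]))
  have hw : BM fun q => coneW n l (dist p q) := by
    refine ⟨(measurable_coneW n l).comp (continuous_const.dist continuous_id).measurable,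
      Metric.diam (univ : Set X), fun q => ?_⟩
    rw [abs_of_nonneg (coneW_nonneg hl n dist_nonneg)]
    exact (hle q).trans (Metric.dist_le_diam_of_mem isCompact_univ.isBounded (mem_univ _) (mem_univ _))
  refine ⟨S, hS, hm.trans ((h9_I_le Z (lip_dist p) hw
    (.of_forall fun q => coneW_nonneg hl n dist_nonneg) (ψ := fun t => √(1 - t)) (by fun_prop)
    fun t ht => Real.sqrt_le_one.2 (by linarith [ht.1])).trans ?_)⟩
  rw [← Z.μ_real_univ, mul_comm, ← smul_eq_mul, ← integral_const]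
  refine integral_mono_ae (hw.integrable _) (integrable_const _) ?_
  filter_upwards [Z.ae_mem_of_In Metric.isClosed_closedBall.measurableSet hin] with q hq
  exact (hle q).trans (by rwa [Metric.mem_closedBall'] at hq)

theorem cut_fill' (c : CatSp l X) (hl : 0 ≤ l) (hn : 1 ≤ n) (hiso : IsoIn X n 0)
    (T : Chain X (n + 1)) (hT : T.Cyc) (p : X) {r : ℝ} (hr : 0 < r) (σ : Chain X n)
    (hσ : σ.In {q | dist p q = r})
    (hb : ∀ f π, Lip f → (∀ a, Lip (π a)) →
      σ.act f π = T.act ({q | dist p q < r}.indicator fun _ => 1) (Fin.cons f π))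
    {ε : ℝ} (hε : 0 < ε) :
    ∃ (T' : Chain X (n + 1)) (S : Chain X (n + 2)) (s : ℝ), 0 ≤ s ∧ s ≤ Phi n 0 σ.mass + ε ∧
      T.Hom T' S ∧ T'.mass = T.mass - T.μ.real (Metric.ball p r) + s ∧
      S.mass ≤ r * (T.μ.real (Metric.ball p r) + s) := by
  have hB : {q | dist p q < r} = Metric.ball p r := by
    ext q; rw [Metric.mem_ball']; rfl
  rw [hB] at hb
  have mB : MeasurableSet (Metric.ball p r) := Metric.isOpen_ball.measurableSet
  have bm1 : BM fun _ : X => (1 : ℝ) := BM.of_continuous continuous_const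
  have hσc : σ.Cyc := fun π hπ => by
    rw [hb _ π (Lip.const 1) hπ]
    exact T.act_local (h9_bm_indicator bm1 mB) (h9_lip_cons (Lip.const 1) hπ) 0 1 fun _ _ => rfl
  obtain ⟨S₀, hS₀, hm₀⟩ := (isoIn_iff hn le_rfl).1 hiso σ hσc ε hε
  obtain ⟨P, hP, hP1, hP2⟩ := c.retr hl p hr.le
  obtain ⟨S₁, a₁, m₁, -, i₁⟩ := S₀.exists_map hP
  have hS₁ : S₁.Bd σ := fun f π hf hπ => by
    have e : (fun a q => (Fin.cons f π : Fin (n + 1) → X → ℝ) a (P q)) =
        Fin.cons (fun q => f (P q)) fun a q => π a (P q) := by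
      funext a
      refine Fin.cases ?_ (fun b => ?_) a <;> simp
    rw [a₁, e, hS₀ _ _ (h9_lip_comp hf hP) fun a => h9_lip_comp (hπ a) hP]
    exact σ.act_congr hσ (fun q hq => by simp only [hP2 q (le_of_eq hq)])
      fun a q hq => by simp only [hP2 q (le_of_eq hq)]
  obtain ⟨TB, aB, μB, iB, -⟩ := T.exists_restrict mB
  obtain ⟨TO, aO, μO, -⟩ := T.exists_restrict mB.compl
  obtain ⟨T', aT, mT, -⟩ := TO.exists_add S₁
  obtain ⟨N, aN, mN, -, iN⟩ := S₁.exists_neg
  obtain ⟨Z, aZ, mZ, -, iZ⟩ := TB.exists_add N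
  have mTB : TB.mass = T.μ.real (Metric.ball p r) := by
    rw [← TB.μ_real_univ, μB, measureReal_restrict_apply_univ]
  have mTO : TO.mass = T.mass - T.μ.real (Metric.ball p r) := by
    rw [← TO.μ_real_univ, μO, measureReal_restrict_apply_univ, measureReal_compl mB, T.μ_real_univ]
  have hZ : Z.Cyc := fun π hπ => by
    have e : π = Fin.cons (π 0) fun a => π a.succ := (Fin.cons_self_tail π).symm
    rw [aZ _ _ bm1 hπ, aB _ _ bm1 hπ, aN, e, hS₁ _ _ (hπ 0) fun a => hπ a.succ,
      hb _ _ (hπ 0) fun a => hπ a.succ, add_neg_cancel]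
  obtain ⟨S, hS, hm⟩ := h9_cone_ball c hl Z hZ p (r := r) (iZ _
    (fun i z hz => Metric.ball_subset_closedBall (iB i z hz)) (iN _ fun i z hz => by
      obtain ⟨q, -, hq⟩ := i₁ univ (fun _ _ _ => mem_univ _) i z hz
      rw [← hq, Metric.mem_closedBall']
      exact hP1 q))
  refine ⟨T', S, S₁.mass, S₁.mass_nonneg, m₁ ▸ hm₀, fun f π hf hπ => ?_, by rw [mT, mTO],
    by rwa [mZ, mTB, mN] at hm⟩
  have bf : BM f := BM.of_continuous hf.continuous
  have e := T.act_add_left (h9_bm_indicator bf mB) (h9_bm_indicator bf mB.compl) hπ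
  simp only [indicator_self_add_compl_apply] at e
  rw [hS f π hf hπ, aZ _ _ bf hπ, aT _ _ bf hπ, aB _ _ bf hπ, aO _ _ bf hπ, aN, e]
  ring

theorem h9_chord {F : ℝ → ℝ} (hF : ConvexOn ℝ (Ici 0) F) (hF0 : F 0 = 0) {y m : ℝ} (hy : 0 ≤ y)
    (hm : 0 < m) (hym : y ≤ m) : F y * m ≤ y * F m := by
  have h := hF.2 (mem_Ici.2 (le_refl (0 : ℝ))) (mem_Ici.2 hm.le)
    (sub_nonneg.2 ((div_le_one hm).2 hym)) (div_nonneg hy hm.le) (by ring)
  simp only [smul_eq_mul, hF0, mul_zero, zero_add, div_mul_cancel₀ _ hm.ne'] at h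
  rw [div_mul_eq_mul_div, le_div_iff₀ hm] at h
  exact h

theorem h9_drop {F : ℝ → ℝ} (hF : ConvexOn ℝ (Ici 0) F) (hF0 : F 0 = 0) {m₀ m d : ℝ}
    (hm₀ : 0 < m₀) (hm : m₀ ≤ m) (hd : 0 ≤ d) (hdm : d ≤ m) :
    F (m - d) + F m₀ / m₀ * d ≤ F m := by
  have hm' := hm₀.trans_le hm
  have h1 := h9_chord hF hF0 (sub_nonneg.2 hdm) hm' (by linarith)
  have h2 := h9_chord hF hF0 hm₀.le hm' hm
  have h3 : F m₀ / m₀ * m ≤ F m := by
    rw [div_mul_eq_mul_div, div_le_iff₀ hm₀]; linarith
  have h4 := mul_le_mul_of_nonneg_right h3 hd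
  refine le_of_mul_le_mul_right ?_ hm'
  nlinarith

/-- the inverse of the flat profile. -/
noncomputable def h9Psi (n : ℕ) (x : ℝ) : ℝ :=
  (n + 1) * unitBallVol (n + 1) * (max x 0 / unitBallVol (n + 1)) ^ ((n : ℝ) / (n + 1))

theorem h9Psi_cont (n : ℕ) : Continuous (h9Psi n) :=
  continuous_const.mul ((Real.continuous_rpow_const (by positivity)).comp
    ((continuous_id.max continuous_const).div_const _))

theorem h9Psi_mono (n : ℕ) : Monotone (h9Psi n) := fun a b hab => by
  have := unitBallVol_pos (n + 1)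
  unfold h9Psi
  gcongr

theorem h9Psi_le (hn : 1 ≤ n) {x m : ℝ} (hm : 0 ≤ m) (h : x ≤ Phi n 0 m) : h9Psi n x ≤ m := by
  obtain ⟨ρ, hρ, rfl⟩ := exists_area hn le_rfl hm
  have hω := unitBallVol_pos (n + 1)
  rw [Phi_area hn le_rfl hρ, vol_zero_left] at h
  refine (h9Psi_mono n h).trans (le_of_eq ?_)
  rw [h9Psi, max_eq_left (by positivity), mul_div_cancel_left₀ _ hω.ne', area_eq, sn_zero_left,
    sA_eq, ← Real.rpow_natCast ρ (n + 1), ← Real.rpow_mul hρ, ← Real.rpow_natCast ρ n]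
  congr 2
  push_cast
  field_simp

/-- the differential inequality for an almost minimiser. -/
theorem h9_step (c : CatSp l X) (hl : 0 ≤ l) (hn : 1 ≤ n) (hiso : IsoIn X n 0)
    (T : Chain X (n + 1)) (hT : T.Cyc) {F : ℝ → ℝ} {e : ℝ}
    (hA : ∀ (T' : Chain X (n + 1)) (S : Chain X (n + 2)), T.Hom T' S →
      F T.mass ≤ S.mass + F T'.mass + e)
    (hF : ConvexOn ℝ (Ici 0) F) (hF0 : F 0 = 0) {m₀ a : ℝ} (hm₀ : 0 < m₀) (hm : m₀ ≤ T.mass)
    (ha : a = F m₀ / m₀) {r₀ : ℝ} (hr₀ : r₀ < a) (p : X) {s t : ℝ} (hs : 0 < s) (hst : s < t)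
    (ht : t ≤ r₀) :
    T.μ.real (Metric.ball p s) + (t - s) *
      h9Psi n (((a - r₀) * T.μ.real (Metric.ball p s) - |e|) / (a + r₀)) ≤
        T.μ.real (Metric.ball p t) := by
  have hρ : Lip (dist p) := ⟨1, lip_dist p⟩
  have hr₀' : 0 < r₀ := by linarith
  have hap : 0 < a + r₀ := by linarith
  obtain ⟨m, hmm, hmi, hm0, hsl, hco⟩ := slice T hρ (t + 1) fun π hπ _ => hT π hπ
  set κ := h9Psi n (((a - r₀) * T.μ.real (Metric.ball p s) - |e|) / (a + r₀)) with hκ
  have h1 : ∀ᵐ r : ℝ, r ∈ Ico s t → κ ≤ m r := by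
    filter_upwards [hsl] with r hr hrI
    obtain ⟨σ, hσm, hσ, hb⟩ := hr (by linarith [hrI.2])
    have hr0 : 0 < r := hs.trans_le hrI.1
    have hrr : r ≤ r₀ := hrI.2.le.trans ht
    refine le_trans (h9Psi_le hn σ.mass_nonneg (le_of_forall_pos_le_add fun ε hε => ?_)) hσm
    obtain ⟨T', S, b, hb0, hb1, hH, hT', hS⟩ := cut_fill' c hl hn hiso T hT p hr0 σ hσ hb hε
    have hy : T.μ.real (Metric.ball p s) ≤ T.μ.real (Metric.ball p r) :=
      measureReal_mono (Metric.ball_subset_ball hrI.1)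
    have hy0 : 0 ≤ T.μ.real (Metric.ball p r) := measureReal_nonneg
    have hy1 : T.μ.real (Metric.ball p r) ≤ T.mass := by
      rw [← T.μ_real_univ]; exact measureReal_mono (subset_univ _)
    set y := T.μ.real (Metric.ball p r)
    refine le_trans ?_ hb1
    rw [div_le_iff₀ hap]
    have h2 := mul_le_mul_of_nonneg_left hy (sub_nonneg.2 hr₀.le)
    have h3 := le_abs_self e
    have h3' := abs_nonneg e
    rcases le_total y b with h | h
    · nlinarith
    · have h4 := h9_drop hF hF0 hm₀ hm (sub_nonneg.2 h) (by linarith)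
      have h5 := hA T' S hH
      rw [hT', show T.mass - y + b = T.mass - (y - b) by ring] at h5
      rw [← ha] at h4
      nlinarith [mul_le_mul_of_nonneg_right hrr (add_nonneg hy0 hb0)]
  have mI : MeasurableSet (Ico s t) := measurableSet_Ico
  have bψ : BM ((Ico s t).indicator fun _ : ℝ => (1 : ℝ)) :=
    ⟨measurable_const.indicator mI, 1, fun x => by
      by_cases hx : x ∈ Ico s t <;> simp [hx]⟩
  have h2 := hco _ bψ fun r => indicator_nonneg (fun _ _ => zero_le_one) r
  have mA : MeasurableSet (Metric.ball p t \ Metric.ball p s) :=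
    Metric.isOpen_ball.measurableSet.diff Metric.isOpen_ball.measurableSet
  have e1 : (fun q => (Ico s t).indicator (fun _ : ℝ => (1 : ℝ)) (dist p q)) =
      (Metric.ball p t \ Metric.ball p s).indicator fun _ => (1 : ℝ) := by
    funext q
    simp only [indicator, mem_Ico, mem_diff, Metric.mem_ball', not_lt, and_comm]
  have h3 := h9_I_le T (lip_dist p) (w := fun q => (Ico s t).indicator (fun _ => (1 : ℝ)) (dist p q))
    (by rw [e1]; exact h9_bm_indicator (BM.of_continuous continuous_const) mA)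
    (.of_forall fun q => indicator_nonneg (fun _ _ => zero_le_one) _) (ψ := fun t => √t)
    (by fun_prop) fun t ht => Real.sqrt_le_one.2 ht.2
  rw [e1, integral_indicator_const _ mA, smul_eq_mul, mul_one,
    measureReal_diff (Metric.ball_subset_ball hst.le) Metric.isOpen_ball.measurableSet] at h3
  have h4 : (t - s) * κ ≤ ∫ r, (Ico s t).indicator (fun _ : ℝ => (1 : ℝ)) r * m r := by
    have e2 : (fun r => (Ico s t).indicator (fun _ : ℝ => (1 : ℝ)) r * m r) =
        (Ico s t).indicator m := by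
      funext r
      by_cases hr : r ∈ Ico s t <;> simp [hr]
    rw [e2, integral_indicator mI, ← Real.volume_real_Ico_of_le hst.le, ← smul_eq_mul,
      ← setIntegral_const]
    exact setIntegral_mono_on_ae (integrable_const _) hmi.integrableOn mI h1
  linarith

omit [CompactSpace X] in
theorem h9_cut (p : X) {a s : ℝ} (has : a < s) : ∃ η : X → ℝ, Continuous η ∧
    ∀ μ : Measure X, IsFiniteMeasure μ → μ.real (Metric.closedBall p a) ≤ ∫ q, η q ∂μ ∧
      ∫ q, η q ∂μ ≤ μ.real (Metric.ball p s) := by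
  have hd : 0 < s - a := sub_pos.2 has
  have hc : Continuous fun q => max 0 (min 1 ((s - dist q p) / (s - a))) := by fun_prop
  have h0 : ∀ q, 0 ≤ max 0 (min 1 ((s - dist q p) / (s - a))) := fun q => le_max_left _ _
  have h1 : ∀ q, max 0 (min 1 ((s - dist q p) / (s - a))) ≤ 1 := fun q =>
    max_le zero_le_one (min_le_left _ _)
  refine ⟨_, hc, fun μ _ => ?_⟩
  have hi : Integrable (fun q => max 0 (min 1 ((s - dist q p) / (s - a)))) μ :=
    BM.integrable ⟨hc.measurable, 1, fun q => by rw [abs_of_nonneg (h0 q)]; exact h1 q⟩ μ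
  have mc : MeasurableSet (Metric.closedBall p a) := Metric.isClosed_closedBall.measurableSet
  have mo : MeasurableSet (Metric.ball p s) := Metric.isOpen_ball.measurableSet
  constructor
  · rw [← mul_one (μ.real _), ← smul_eq_mul, ← integral_indicator_const _ mc]
    refine integral_mono ((integrable_const _).indicator mc) hi fun q => ?_
    by_cases hq : q ∈ Metric.closedBall p a
    · rw [indicator_of_mem hq]
      refine le_max_of_le_right (le_min le_rfl ?_)
      rw [le_div_iff₀ hd]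
      linarith [Metric.mem_closedBall.1 hq]
    · rw [indicator_of_notMem hq]; exact h0 q
  · rw [← mul_one (μ.real _), ← smul_eq_mul, ← integral_indicator_const _ mo]
    refine integral_mono hi ((integrable_const _).indicator mo) fun q => ?_
    by_cases hq : q ∈ Metric.ball p s
    · rw [indicator_of_mem hq]; exact h1 q
    · rw [indicator_of_notMem hq]
      refine max_le le_rfl (min_le_of_right_le (div_nonpos_of_nonpos_of_nonneg ?_ hd.le))
      linarith [not_lt.1 (mt Metric.mem_ball.2 hq)]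

theorem dens_of_amin' (c : CatSp l X) (hl : 0 ≤ l) (hn : 1 ≤ n) (hiso : IsoIn X n 0)
    {T : ℕ → Chain X (n + 1)} (hT : ∀ j, (T j).Cyc) {F : ℝ → ℝ} {e : ℕ → ℝ}
    (hA : ∀ j (T' : Chain X (n + 1)) (S : Chain X (n + 2)), (T j).Hom T' S →
      F (T j).mass ≤ S.mass + F T'.mass + e j)
    (𝒰 : Ultrafilter ℕ) (he : Tendsto e 𝒰 (𝓝 0)) {M : ℝ} (hM : 0 < M)
    (hm : Tendsto (fun j => (T j).mass) 𝒰 (𝓝 M)) (hF : ConvexOn ℝ (Ici 0) F) (hF0 : F 0 = 0)
    (hFp : ∀ m, 0 < m → 0 < F m) (V : DV X)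
    (h1 : ∀ η : X → ℝ, Continuous η →
        Tendsto (fun j => ∫ p, η p ∂(T j).μ) 𝒰 (𝓝 (∫ p, η p ∂V.μ))) :
    V.Dens (n + 1) := by
  have := V.fin
  have hω := unitBallVol_pos (n + 1)
  obtain ⟨a, ha⟩ : ∃ a, a = F (M / 2) / (M / 2) := ⟨_, rfl⟩
  have ha0 : 0 < a := ha ▸ div_pos (hFp _ (half_pos hM)) (half_pos hM)
  filter_upwards [V.μ.support_mem_ae] with p hp
  set Y : ℝ → ℝ := fun r => V.μ.real (Metric.closedBall p r) with hY
  have hpos : ∀ r, 0 < r → 0 < Y r := fun r hr =>
    ENNReal.toReal_pos ((Measure.mem_support_iff_forall p).1 hp _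
      (Metric.closedBall_mem_nhds p hr)).ne' (measure_ne_top _ _)
  have hmono : ∀ r r', r ≤ r' → Y r ≤ Y r' := fun r r' h =>
    measureReal_mono (Metric.closedBall_subset_closedBall h)
  have key : ∀ r₀, 0 < r₀ → r₀ < a → ∀ r, 0 < r → r ≤ r₀ →
      unitBallVol (n + 1) * ((a - r₀) / (a + r₀)) ^ n * r ^ (n + 1) ≤ Y r := by
    intro r₀ hr₀ hra
    obtain ⟨θ, hθ⟩ : ∃ θ, θ = (a - r₀) / (a + r₀) := ⟨_, rfl⟩
    have hθ0 : 0 < θ := hθ ▸ div_pos (by linarith) (by linarith)
    have step : ∀ x y, 0 < x → x < y → y ≤ r₀ → Y x + (y - x) * h9Psi n (θ * Y x) ≤ Y y := by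
      intro x y hx hxy hy
      have h2 : ∀ δ, 0 < δ → δ < (y - x) / 2 →
          Y x + (y - x - 2 * δ) * h9Psi n (θ * Y x) ≤ Y y := by
        intro δ hδ hδ'
        obtain ⟨η, hη, Hη⟩ := h9_cut p (a := x) (s := x + δ) (by linarith)
        obtain ⟨ζ, hζ, Hζ⟩ := h9_cut p (a := y - δ) (s := y) (by linarith)
        have l1 : Tendsto (fun j => ∫ q, η q ∂(T j).μ + (y - x - 2 * δ) *
            h9Psi n (((a - r₀) * ∫ q, η q ∂(T j).μ - |e j|) / (a + r₀))) 𝒰
            (𝓝 (∫ q, η q ∂V.μ + (y - x - 2 * δ) *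
              h9Psi n (((a - r₀) * ∫ q, η q ∂V.μ - |0|) / (a + r₀)))) :=
          (h1 η hη).add (((h9Psi_cont n).tendsto _).comp
            ((((h1 η hη).const_mul _).sub he.abs).div_const _) |>.const_mul _)
        have l2 := le_of_tendsto_of_tendsto l1 (h1 ζ hζ) (by
          filter_upwards [hm.eventually (le_mem_nhds (half_lt_self hM))] with j hj
          have s1 := h9_step c hl hn hiso (T j) (hT j) (hA j) hF hF0 (half_pos hM) hj ha hra p
            (s := x + δ) (t := y - δ) (by linarith) (by linarith) (by linarith)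
          have s2 := (Hη (T j).μ inferInstance).2
          have s3 := (Hζ (T j).μ inferInstance).1
          have s4 : (T j).μ.real (Metric.ball p (y - δ)) ≤
              (T j).μ.real (Metric.closedBall p (y - δ)) :=
            measureReal_mono Metric.ball_subset_closedBall
          have s5 : h9Psi n (((a - r₀) * ∫ q, η q ∂(T j).μ - |e j|) / (a + r₀)) ≤
              h9Psi n (((a - r₀) * (T j).μ.real (Metric.ball p (x + δ)) - |e j|) / (a + r₀)) :=
            h9Psi_mono n (by gcongr)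
          have s6 := mul_le_mul_of_nonneg_left s5 (show 0 ≤ y - x - 2 * δ by linarith)
          rw [show y - δ - (x + δ) = y - x - 2 * δ by ring] at s1
          show _ ≤ _
          linarith)
        have s2 := (Hη V.μ inferInstance).1
        have s3 := (Hζ V.μ inferInstance).2
        have s4 : V.μ.real (Metric.ball p y) ≤ Y y := measureReal_mono Metric.ball_subset_closedBall
        have s5 : h9Psi n (θ * Y x) ≤
            h9Psi n (((a - r₀) * ∫ q, η q ∂V.μ - |0|) / (a + r₀)) := by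
          refine h9Psi_mono n ?_
          rw [abs_zero, sub_zero, mul_div_right_comm, ← hθ]
          exact mul_le_mul_of_nonneg_left s2 hθ0.le
        have s6 := mul_le_mul_of_nonneg_left s5 (show 0 ≤ y - x - 2 * δ by linarith)
        linarith
      have l3 : Tendsto (fun δ : ℝ => Y x + (y - x - 2 * δ) * h9Psi n (θ * Y x)) (𝓝[>] 0)
          (𝓝 (Y x + (y - x - 2 * 0) * h9Psi n (θ * Y x))) :=
        tendsto_nhdsWithin_of_tendsto_nhds (Continuous.tendsto (by fun_prop) 0)
      rw [mul_zero, sub_zero] at l3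
      refine le_of_tendsto l3 ?_
      filter_upwards [Ioo_mem_nhdsGT (show 0 < (y - x) / 2 by linarith)] with δ hδ
      exact h2 δ hδ.1 hδ.2
    intro r hr hrr
    have hn1 : (0 : ℝ) < n + 1 := by positivity
    have h3 := Alm.ode_lower (y := fun r => θ * Y r / unitBallVol (n + 1)) (r₀ := r₀)
      (κ := θ * (n + 1)) (m := n) (by positivity)
      (fun x y _ hxy _ => by have := hmono x y hxy; gcongr)
      (fun x hx _ => by have := hpos x hx; positivity)
      (fun x y hx hxy hy => by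
        have h4 := mul_le_mul_of_nonneg_left (step x y hx hxy hy) hθ0.le
        rw [h9Psi, max_eq_left (mul_pos hθ0 (hpos x hx)).le] at h4
        rw [le_div_iff₀ hω, add_mul, div_mul_cancel₀ _ hω.ne']
        refine le_trans (le_of_eq ?_) h4
        ring) hr hrr
    rw [mul_assoc, mul_comm ((n : ℝ) + 1), ← mul_assoc, mul_div_cancel_right₀ _ hn1.ne',
      le_div_iff₀ hω, mul_pow, pow_succ θ] at h3
    rw [← hθ]
    refine le_of_mul_le_mul_left (le_trans (le_of_eq ?_) h3) hθ0
    ring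
  intro c' hc'
  have l4 : Tendsto (fun r₀ : ℝ => unitBallVol (n + 1) * ((a - r₀) / (a + r₀)) ^ n) (𝓝[>] 0)
      (𝓝 (unitBallVol (n + 1) * ((a - 0) / (a + 0)) ^ n)) :=
    tendsto_nhdsWithin_of_tendsto_nhds (ContinuousAt.tendsto (by
      fun_prop (disch := simpa using ha0.ne')))
  rw [sub_zero, add_zero, div_self ha0.ne', one_pow, mul_one] at l4
  filter_upwards [l4.eventually (lt_mem_nhds hc'), Ioo_mem_nhdsGT ha0] with r h5 hr
  exact (mul_le_mul_of_nonneg_right h5.le (pow_nonneg hr.1.le _)).trans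
    (key r hr.1 hr.2 r hr.1 le_rfl)

end Crest.Agent.R241
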