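import Crest.Agent.R241.KRiesz

/-! Row 241, block K: a carré du champ given as a functional `B h f g = ∫ h Γ(f,g) dμ`. -/

set_option autoImplicit false
open MeasureTheory Filter Topology Set
open scoped NNReal ENNReal
open Crest.GeometryTopology.Submanifold (Euc)

namespace Crest.Agent.R241

universe u

/-- the integrated form of `DV`. -/
structure FDV (X : Type u) [MetricSpace X] [MeasurableSpace X] where
  μ : Measure X
  fin : IsFiniteMeasure μ
  B : (X → ℝ) → (X → ℝ) → (X → ℝ) → ℝ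
  add_h : ∀ h h' f g, Continuous h → Continuous h' → Lip f → Lip g →
    B (fun x => h x + h' x) f g = B h f g + B h' f g
  smul_h : ∀ (c : ℝ) h f g, Continuous h → Lip f → Lip g → B (fun x => c * h x) f g = c * B h f g
  bound : ∀ h f g (K K' : ℝ≥0), Continuous h → LipschitzWith K f → LipschitzWith K' g →
    |B h f g| ≤ (K : ℝ) * K' * ∫ x, |h x| ∂μ
  symm : ∀ h f g, Continuous h → Lip f → Lip g → B h f g = B h g f
  add : ∀ h f₁ f₂ g, Continuous h → Lip f₁ → Lip f₂ → Lip g →
    B h (fun x => f₁ x + f₂ x) g = B h f₁ g + B h f₂ g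
  mul : ∀ h f₁ f₂ g, Continuous h → Lip f₁ → Lip f₂ → Lip g →
    B h (fun x => f₁ x * f₂ x) g = B (fun x => h x * f₁ x) f₂ g + B (fun x => h x * f₂ x) f₁ g
  chain : ∀ h (F : ℝ → ℝ) f g, Continuous h → ContDiff ℝ 1 F → Lip f → Lip g →
    B h (fun x => F (f x)) g = B (fun x => h x * deriv F (f x)) f g
  nonneg : ∀ h f, Continuous h → (∀ x, 0 ≤ h x) → Lip f → 0 ≤ B h f f

variable {X : Type u} [MetricSpace X] [CompactSpace X] [MeasurableSpace X] [BorelSpace X]

theorem FDV.exists_dens (F : FDV X) (f g : X → ℝ) : ∃ γ : X → ℝ, Measurable γ ∧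
    (Lip f → Lip g → (∃ C : ℝ, ∀ x, |γ x| ≤ C) ∧
      ∀ h, Continuous h → F.B h f g = ∫ x, h x * γ x ∂F.μ) := by
  haveI := F.fin
  by_cases hfg : Lip f ∧ Lip g
  · obtain ⟨⟨K, hK⟩, ⟨K', hK'⟩⟩ := hfg
    obtain ⟨γ, hm, hb, hi⟩ := KU.exists_density F.μ (fun h => F.B h f g) (K := (K : ℝ) * K')
      (by positivity)
      (fun h h' hh hh' => F.add_h h h' f g hh hh' ⟨K, hK⟩ ⟨K', hK'⟩)
      (fun c h hh => F.smul_h c h f g hh ⟨K, hK⟩ ⟨K', hK'⟩)
      (fun h hh => F.bound h f g K K' hh hK hK')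
    exact ⟨γ, hm, fun _ _ => ⟨⟨_, hb⟩, hi⟩⟩
  · exact ⟨fun _ => 0, measurable_const, fun hf hg => absurd ⟨hf, hg⟩ hfg⟩

/-- `Γ f g` is the density given by `KU.exists_density` (`0` off Lipschitz pairs); the a.e.
identities follow from `KU.ae_eq_of_integral`, `KU.ae_nonneg_of_integral`. -/
theorem FDV.exists_DV (F : FDV X) : ∃ V : DV X, V.μ = F.μ ∧
    ∀ h f g, Continuous h → Lip f → Lip g → ∫ x, h x * V.Γ f g x ∂V.μ = F.B h f g := by
  haveI := F.fin
  choose Γ hm hΓ using F.exists_dens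
  have hint : ∀ h f g, Continuous h → Lip f → Lip g →
      Integrable (fun x => h x * Γ f g x) F.μ := fun h f g hh hf hg => by
    obtain ⟨⟨C, hC⟩, -⟩ := hΓ f g hf hg
    exact KU.integrable_mul_of_bdd hh (hm f g).aemeasurable (ae_of_all _ hC)
  have hint1 : ∀ f g, Lip f → Lip g → Integrable (Γ f g) F.μ := fun f g hf hg => by
    simpa using hint (fun _ => 1) f g continuous_const hf hg
  have hB : ∀ h f g, Continuous h → Lip f → Lip g →
      ∫ x, h x * Γ f g x ∂F.μ = F.B h f g := fun h f g hh hf hg => ((hΓ f g hf hg).2 h hh).symm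
  refine ⟨⟨F.μ, F.fin, Γ, hm, ?_, ?_, ?_, ?_, ?_, ?_⟩, rfl, hB⟩
  · intro f g hf hg
    refine KU.ae_eq_of_integral (hint1 f g hf hg) (hint1 g f hg hf) fun h hh => ?_
    rw [hB h f g hh hf hg, hB h g f hh hg hf, F.symm h f g hh hf hg]
  · intro f₁ f₂ g h1 h2 hg
    refine KU.ae_eq_of_integral (hint1 _ g (KU.lip_add h1 h2) hg)
      ((hint1 _ _ h1 hg).add (hint1 _ _ h2 hg)) fun h hh => ?_
    rw [hB h _ g hh (KU.lip_add h1 h2) hg, F.add h f₁ f₂ g hh h1 h2 hg]
    simp only [mul_add]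
    rw [integral_add (hint h _ _ hh h1 hg) (hint h _ _ hh h2 hg), hB h _ _ hh h1 hg,
      hB h _ _ hh h2 hg]
  · intro f₁ f₂ g h1 h2 hg
    have c1 := KU.lip_continuous h1
    have c2 := KU.lip_continuous h2
    refine KU.ae_eq_of_integral (hint1 _ g (KU.lip_mul h1 h2) hg)
      ((hint _ _ _ c1 h2 hg).add (hint _ _ _ c2 h1 hg)) fun h hh => ?_
    rw [hB h _ g hh (KU.lip_mul h1 h2) hg, F.mul h f₁ f₂ g hh h1 h2 hg]
    simp only [mul_add, ← mul_assoc]
    rw [integral_add (hint (fun x => h x * f₁ x) _ _ (hh.mul c1) h2 hg)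
      (hint (fun x => h x * f₂ x) _ _ (hh.mul c2) h1 hg),
      hB (fun x => h x * f₁ x) _ _ (hh.mul c1) h2 hg,
      hB (fun x => h x * f₂ x) _ _ (hh.mul c2) h1 hg]
  · intro G f g hG hf hg
    have cd : Continuous fun x => deriv G (f x) :=
      (hG.continuous_deriv le_rfl).comp (KU.lip_continuous hf)
    refine KU.ae_eq_of_integral (hint1 _ g (KU.lip_comp hG hf) hg)
      (hint _ _ _ cd hf hg) fun h hh => ?_
    rw [hB h _ g hh (KU.lip_comp hG hf) hg, F.chain h G f g hh hG hf hg]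
    simp only [← mul_assoc]
    rw [hB (fun x => h x * deriv G (f x)) _ _ (hh.mul cd) hf hg]
  · intro f hf
    refine KU.ae_nonneg_of_integral (hint1 f f hf hf) fun h hh h0 => ?_
    rw [hB h f f hh hf hf]
    exact F.nonneg h f hh h0 hf
  · intro f L hL
    have hf : Lip f := ⟨L, hL⟩
    have h1 : ∀ᵐ x ∂F.μ, 0 ≤ (L : ℝ) ^ 2 - Γ f f x := by
      refine KU.ae_nonneg_of_integral (γ := fun x => (L : ℝ) ^ 2 - Γ f f x)
        ((integrable_const _).sub (hint1 f f hf hf)) fun h hh h0 => ?_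
      have hi : Integrable (fun x => h x * (L : ℝ) ^ 2) F.μ :=
        KU.integrable_mul_of_bdd hh aemeasurable_const (C := |(L : ℝ) ^ 2|)
          (ae_of_all _ fun _ => le_rfl)
      simp only [mul_sub]
      rw [integral_sub hi (hint h f f hh hf hf), hB h f f hh hf hf, integral_mul_const]
      have hb := F.bound h f f L L hh hL hL
      have he : ∫ x, |h x| ∂F.μ = ∫ x, h x ∂F.μ :=
        integral_congr_ae (ae_of_all _ fun x => abs_of_nonneg (h0 x))
      rw [he] at hb
      have := le_abs_self (F.B h f f)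
      nlinarith
    filter_upwards [h1] with x hx
    linarith

namespace DV
variable (V : DV X)

/-- `Γ (c f) g = c Γ f g` (chain rule with a linear function). -/
theorem kΓ_const_mul (c : ℝ) {f g : X → ℝ} (hf : Lip f) (hg : Lip g) :
    V.Γ (fun x => c * f x) g =ᵐ[V.μ] fun x => c * V.Γ f g x := by
  have hF : ContDiff ℝ 1 fun t : ℝ => c * t := contDiff_const.mul contDiff_id
  filter_upwards [V.chain (fun t : ℝ => c * t) f g hF hf hg] with x hx
  rw [hx]
  have : deriv (fun t : ℝ => c * t) (f x) = c := by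
    simpa using ((hasDerivAt_id (f x)).const_mul c).deriv
  rw [this]

/-- Cauchy–Schwarz: expand `0 ≤ Γ (f + t g) (f + t g)` for rational `t`. -/
theorem kΓ_sq_le {f g : X → ℝ} (hf : Lip f) (hg : Lip g) :
    ∀ᵐ x ∂V.μ, V.Γ f g x ^ 2 ≤ V.Γ f f x * V.Γ g g x := by
  have hcm : ∀ (c : ℝ) {u : X → ℝ}, Lip u → Lip fun x => c * u x := fun c u hu =>
    KU.lip_mul (KU.lip_const c) hu
  have key : ∀ t : ℝ, ∀ᵐ x ∂V.μ,
      0 ≤ V.Γ g g x * (t * t) + 2 * V.Γ f g x * t + V.Γ f f x := by
    intro t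
    have htg := hcm t hg
    have hs := KU.lip_add hf htg
    filter_upwards [V.nonneg _ hs, V.add f (fun x => t * g x) _ hf htg hs,
      V.kΓ_const_mul t hg hs, V.symm f _ hf hs, V.symm g _ hg hs,
      V.add f (fun x => t * g x) f hf htg hf, V.add f (fun x => t * g x) g hf htg hg,
      V.kΓ_const_mul t hg hf, V.kΓ_const_mul t hg hg, V.symm g f hg hf]
      with x h0 h1 h2 h3 h4 h5 h6 h7 h8 h9
    rw [h1, h2, h3, h4, h5, h6, h7, h8, h9] at h0
    nlinarith
  have key2 : ∀ᵐ x ∂V.μ, ∀ q : ℚ,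
      0 ≤ V.Γ g g x * ((q : ℝ) * q) + 2 * V.Γ f g x * q + V.Γ f f x :=
    ae_all_iff.2 fun q => key q
  filter_upwards [key2] with x hx
  have hall : ∀ t : ℝ, 0 ≤ V.Γ g g x * (t * t) + 2 * V.Γ f g x * t + V.Γ f f x := by
    intro t
    refine Rat.denseRange_cast.induction_on t ?_ hx
    exact isClosed_le continuous_const (by fun_prop)
  have hd := discrim_le_zero hall
  unfold discrim at hd
  nlinarith

theorem kabs_Γ_le {f g : X → ℝ} {K K' : ℝ≥0} (hf : LipschitzWith K f) (hg : LipschitzWith K' g) :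
    ∀ᵐ x ∂V.μ, |V.Γ f g x| ≤ (K : ℝ) * K' := by
  have hf' : Lip f := ⟨K, hf⟩
  have hg' : Lip g := ⟨K', hg⟩
  filter_upwards [V.kΓ_sq_le hf' hg', V.le_lip f K hf, V.le_lip g K' hg, V.nonneg f hf',
    V.nonneg g hg'] with x h1 h2 h3 h4 h5
  refine abs_le_of_sq_le_sq' ?_ (by positivity) |>.elim fun a b => abs_le.2 ⟨a, b⟩
  calc V.Γ f g x ^ 2 ≤ V.Γ f f x * V.Γ g g x := h1
    _ ≤ (K : ℝ) ^ 2 * (K' : ℝ) ^ 2 := mul_le_mul h2 h3 h5 (by positivity)
    _ = ((K : ℝ) * K') ^ 2 := by ring

theorem kintegrable {h f g : X → ℝ} (hh : Continuous h) (hf : Lip f) (hg : Lip g) :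
    Integrable (fun x => h x * V.Γ f g x) V.μ := by
  haveI := V.fin
  obtain ⟨K, hK⟩ := hf
  obtain ⟨K', hK'⟩ := hg
  exact KU.integrable_mul_of_bdd hh (V.meas f g).aemeasurable (V.kabs_Γ_le hK hK')

end DV

private theorem h32_bound (V : DV X) {h f g : X → ℝ} {K K' : ℝ≥0} (hh : Continuous h)
    (hf : LipschitzWith K f) (hg : LipschitzWith K' g) :
    |∫ x, h x * V.Γ f g x ∂V.μ| ≤ (K : ℝ) * K' * ∫ x, |h x| ∂V.μ := by
  have := V.fin
  have hi : Integrable (fun x => |h x|) V.μ :=
    (hh.abs.integrable_of_hasCompactSupport (HasCompactSupport.of_compactSpace _))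
  rw [← integral_const_mul]
  refine abs_integral_le_integral_abs.trans (integral_mono_of_nonneg
    (Eventually.of_forall fun x => abs_nonneg _) (hi.const_mul _) ?_)
  filter_upwards [V.kabs_Γ_le hf hg] with x hx
  rw [abs_mul, mul_comm]
  exact mul_le_mul_of_nonneg_right hx (abs_nonneg _)

private theorem h32_lim {u : ℕ → ℝ} {C : ℝ} (hu : ∀ n, |u n| ≤ C) (U : Ultrafilter ℕ) :
    ∃ b, Tendsto u U (𝓝 b) := by
  obtain ⟨b, -, hb⟩ := (isCompact_Icc (a := -C) (b := C)).ultrafilter_le_nhds (U.map u) (by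
    rw [Ultrafilter.coe_map, le_principal_iff, mem_map]
    exact Eventually.of_forall fun n => abs_le.1 (hu n))
  exact ⟨b, hb⟩

/-- **ultralimit** of carrés du champ: `B h f g := lim_U ∫ h Γ_n(f,g) dμ_n` (a bounded sequence
converges along an ultrafilter) is an `FDV` over `KU.exists_ultra_measure`. -/
theorem exists_ultra_DV (V : ℕ → DV X) {M : ℝ} (hM : ∀ n, (V n).μ.real univ ≤ M)
    (U : Ultrafilter ℕ) : ∃ W : DV X,
      (∀ h : X → ℝ, Continuous h →
        Tendsto (fun n => ∫ x, h x ∂(V n).μ) U (𝓝 (∫ x, h x ∂W.μ))) ∧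
      ∀ h f g, Continuous h → Lip f → Lip g →
        Tendsto (fun n => ∫ x, h x * (V n).Γ f g x ∂(V n).μ) U (𝓝 (∫ x, h x * W.Γ f g x ∂W.μ)) := by
  have := fun n => (V n).fin
  obtain ⟨ν, hν, hνt⟩ := KU.exists_ultra_measure (fun n => (V n).μ) hM U
  have hex : ∀ h f g : X → ℝ, ∃ b : ℝ, Continuous h → Lip f → Lip g →
      Tendsto (fun n => ∫ x, h x * (V n).Γ f g x ∂(V n).μ) U (𝓝 b) := by
    intro h f g
    by_cases H : Continuous h ∧ Lip f ∧ Lip g
    · obtain ⟨hh, ⟨K, hf⟩, ⟨K', hg⟩⟩ := H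
      obtain ⟨C, hC0, hC⟩ := KU.exists_abs_le hh
      obtain ⟨b, hb⟩ := h32_lim (u := fun n => ∫ x, h x * (V n).Γ f g x ∂(V n).μ)
        (C := (K : ℝ) * K' * (M * C)) (fun n => by
          refine (h32_bound (V n) hh hf hg).trans (mul_le_mul_of_nonneg_left ?_ (by positivity))
          calc ∫ x, |h x| ∂(V n).μ ≤ ∫ _x, C ∂(V n).μ :=
                integral_mono_of_nonneg (Eventually.of_forall fun x => abs_nonneg _)
                  (integrable_const _) (Eventually.of_forall hC)
            _ = (V n).μ.real univ * C := by rw [integral_const, smul_eq_mul]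
            _ ≤ M * C := mul_le_mul_of_nonneg_right (hM n) hC0) U
      exact ⟨b, fun _ _ _ => hb⟩
    · exact ⟨0, fun h1 h2 h3 => absurd ⟨h1, h2, h3⟩ H⟩
  choose B hB using hex
  let F : FDV X :=
    { μ := ν
      fin := hν
      B := B
      add_h := fun h h' f g hh hh' hf hg => by
        refine tendsto_nhds_unique (hB _ f g (hh.add hh') hf hg)
          (((hB h f g hh hf hg).add (hB h' f g hh' hf hg)).congr fun n => ?_)
        rw [← integral_add ((V n).kintegrable hh hf hg) ((V n).kintegrable hh' hf hg)]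
        exact integral_congr_ae (Eventually.of_forall fun x => by simp only; ring)
      smul_h := fun c h f g hh hf hg => by
        refine tendsto_nhds_unique (hB (fun x => c * h x) f g (continuous_const.mul hh) hf hg)
          (((hB h f g hh hf hg).const_mul c).congr fun n => ?_)
        rw [← integral_const_mul]
        exact integral_congr_ae (Eventually.of_forall fun x => by simp only; ring)
      bound := fun h f g K K' hh hf hg =>
        le_of_tendsto_of_tendsto' (hB h f g hh ⟨K, hf⟩ ⟨K', hg⟩).abs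
          ((hνt (fun x => |h x|) hh.abs).const_mul ((K : ℝ) * K'))
          fun n => h32_bound (V n) hh hf hg
      symm := fun h f g hh hf hg => by
        refine tendsto_nhds_unique (hB h f g hh hf hg) ((hB h g f hh hg hf).congr fun n => ?_)
        refine integral_congr_ae ?_
        filter_upwards [(V n).symm f g hf hg] with x hx
        rw [hx]
      add := fun h f₁ f₂ g hh h1 h2 hg => by
        refine tendsto_nhds_unique (hB h _ g hh (KU.lip_add h1 h2) hg)
          (((hB h f₁ g hh h1 hg).add (hB h f₂ g hh h2 hg)).congr fun n => ?_)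
        rw [← integral_add ((V n).kintegrable hh h1 hg) ((V n).kintegrable hh h2 hg)]
        refine integral_congr_ae ?_
        filter_upwards [(V n).add f₁ f₂ g h1 h2 hg] with x hx
        rw [hx]; ring
      mul := fun h f₁ f₂ g hh h1 h2 hg => by
        have c1 : Continuous fun x => h x * f₁ x := hh.mul (KU.lip_continuous h1)
        have c2 : Continuous fun x => h x * f₂ x := hh.mul (KU.lip_continuous h2)
        refine tendsto_nhds_unique (hB h _ g hh (KU.lip_mul h1 h2) hg)
          (((hB _ f₂ g c1 h2 hg).add (hB _ f₁ g c2 h1 hg)).congr fun n => ?_)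
        rw [← integral_add ((V n).kintegrable c1 h2 hg) ((V n).kintegrable c2 h1 hg)]
        refine integral_congr_ae ?_
        filter_upwards [(V n).mul f₁ f₂ g h1 h2 hg] with x hx
        rw [hx]; ring
      chain := fun h Φ f g hh hΦ hf hg => by
        have c1 : Continuous fun x => h x * deriv Φ (f x) :=
          hh.mul ((hΦ.continuous_deriv le_rfl).comp (KU.lip_continuous hf))
        refine tendsto_nhds_unique (hB h _ g hh (KU.lip_comp hΦ hf) hg)
          ((hB _ f g c1 hf hg).congr fun n => ?_)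
        refine integral_congr_ae ?_
        filter_upwards [(V n).chain Φ f g hΦ hf hg] with x hx
        rw [hx]; ring
      nonneg := fun h f hh h0 hf => by
        refine ge_of_tendsto' (hB h f f hh hf hf) fun n => integral_nonneg_of_ae ?_
        filter_upwards [(V n).nonneg f hf] with x hx
        exact mul_nonneg (h0 x) hx }
  obtain ⟨W, hW, hWB⟩ := F.exists_DV
  refine ⟨W, fun h hh => ?_, fun h f g hh hf hg => ?_⟩
  · rw [hW]; exact hνt h hh
  · rw [hWB h f g hh hf hg]; exact hB h f g hh hf hg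

end Crest.Agent.R241
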