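import Crest.Agent.R241.KeyLip

/-! Row 241, block KEY: lower density gives concentration of the kernels. -/

set_option autoImplicit false

open MeasureTheory Set Filter Topology
open scoped ENNReal NNReal

namespace Crest.Agent.R241.Key

open Crest.GeometryTopology.Submanifold

noncomputable section

universe u

variable {X : Type u} [MetricSpace X] [CompactSpace X] [MeasurableSpace X] [BorelSpace X]

/-- layer cake inequality for a decreasing function of the distance -/
private theorem h48_layer (μ : Measure X) [IsFiniteMeasure μ] (q : X) {g h φ : ℝ → ℝ} {r0 : ℝ}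
    (hr0 : 0 ≤ r0) (hh : Continuous h) (hg : ∀ t, HasDerivAt g (-h t) t) (hg0 : 0 ≤ g r0)
    {G : X → ℝ} (hG : Integrable G μ) (hG0 : ∀ p, 0 ≤ G p)
    (hGg : ∀ p, dist q p ≤ r0 → g (dist q p) ≤ G p) (hφ : Continuous φ)
    (hφh : ∀ t ∈ Ioc 0 r0, φ t ≤ h t * μ.real (Metric.closedBall q t)) :
    ∫ t in (0 : ℝ)..r0, φ t ≤ ∫ p, G p ∂μ := by
  let S : Set (ℝ × X) := {z | dist q z.2 ≤ z.1}
  have hS : MeasurableSet S :=
    measurableSet_le ((continuous_const.dist continuous_id).measurable.comp measurable_snd)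
      measurable_fst
  have h1 : Integrable h (volume.restrict (Ioc 0 r0)) := hh.integrableOn_Ioc
  have hF : Integrable (S.indicator fun z => h z.1) ((volume.restrict (Ioc 0 r0)).prod μ) :=
    (h1.comp_fst μ).indicator hS
  have e1 : ∀ t, ∫ p, S.indicator (fun z => h z.1) (t, p) ∂μ =
      h t * μ.real (Metric.closedBall q t) := by
    intro t
    have : (fun p => S.indicator (fun z => h z.1) (t, p)) =
        (Metric.closedBall q t).indicator fun _ => h t := by
      funext p
      simp only [indicator, S, mem_ofPred_eq, Metric.mem_closedBall, dist_comm p q]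
    rw [this, integral_indicator_const _ measurableSet_closedBall, smul_eq_mul, mul_comm]
  have e2 : ∀ p, ∫ t in Ioc 0 r0, S.indicator (fun z => h z.1) (t, p) ≤ G p := by
    intro p
    have : (fun t => S.indicator (fun z => h z.1) (t, p)) = (Ici (dist q p)).indicator h := by
      funext t
      simp only [indicator, S, mem_ofPred_eq, mem_Ici]
    rw [this, setIntegral_indicator measurableSet_Ici]
    by_cases hp : dist q p ≤ r0
    · have e : (Ioc 0 r0 ∩ Ici (dist q p) : Set ℝ) =ᵐ[volume] Ioc (dist q p) r0 := by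
        have h0 : ∀ᵐ t : ℝ, t ≠ dist q p := compl_mem_ae_iff.2 (measure_singleton _)
        filter_upwards [h0] with t ht
        refine propext ⟨fun h => ⟨lt_of_le_of_ne h.2 ht.symm, h.1.2⟩, fun h => ?_⟩
        exact ⟨⟨lt_of_le_of_lt dist_nonneg h.1, h.2⟩, h.1.le⟩
      rw [setIntegral_congr_set e, ← intervalIntegral.integral_of_le hp,
        intervalIntegral.integral_eq_sub_of_hasDerivAt (f := fun t => -g t)
          (fun t _ => (hg t).neg.congr_deriv (neg_neg _)) (hh.intervalIntegrable _ _)]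
      have := hGg p hp
      linarith
    · have e : (Ioc 0 r0 ∩ Ici (dist q p) : Set ℝ) = ∅ :=
        eq_empty_of_forall_notMem fun t ht => hp (le_trans ht.2 ht.1.2)
      rw [e, setIntegral_empty]
      exact hG0 p
  rw [intervalIntegral.integral_of_le hr0]
  calc ∫ t in Ioc 0 r0, φ t ≤ ∫ t in Ioc 0 r0, ∫ p, S.indicator (fun z => h z.1) (t, p) ∂μ := by
        refine setIntegral_mono_on hφ.integrableOn_Ioc hF.integral_prod_left measurableSet_Ioc
          fun t ht => ?_
        rw [e1]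
        exact hφh t ht
    _ = ∫ p, (∫ t in Ioc 0 r0, S.indicator (fun z => h z.1) (t, p)) ∂μ :=
        integral_integral_swap (f := fun t p => S.indicator (fun z => h z.1) (t, p)) hF
    _ ≤ _ := integral_mono hF.integral_prod_right hG e2

/-- the kernel estimate at a fixed scale -/
private theorem h48_kernel (μ : Measure X) [IsFiniteMeasure μ] {n : ℕ} {a l : ℝ} (ha : 0 ≤ a)
    (hn : (n : ℝ) = 2 * a + 2) (hl : 0 ≤ l) (q : X) {r r0 κ c s : ℝ} (hr0 : 0 < r0) (hr : r0 < r)
    (hκ : 0 < κ) (hs : 0 < s) (hmd : ∀ t, 0 ≤ t → t ≤ r0 → md l t ≤ κ * t ^ 2)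
    (hc : ∀ t ∈ Ioc 0 r0, c * t ^ n ≤ μ.real (Metric.closedBall q t)) :
    c * (s⁻¹ * κ ^ (-(a + 1)) * (κ * r0 ^ 2 / (κ * r0 ^ 2 + s)) ^ (a + 2)) ≤
      ∫ p in Metric.ball q r, (Dx l q p + s) ^ (-(a + 2)) ∂μ := by
  have hD : ∀ t : ℝ, 0 < κ * t ^ 2 + s := fun t => by positivity
  have hd1 : ∀ t : ℝ, HasDerivAt (fun t : ℝ => κ * t ^ 2) (κ * (2 * t)) t := fun t => by
    simpa using (hasDerivAt_pow 2 t).const_mul κ
  have hcD : Continuous fun t : ℝ => κ * t ^ 2 + s := by fun_prop
  let H : ℝ → ℝ := fun t => c * (s⁻¹ * κ ^ (-(a + 1)) * (κ * t ^ 2 / (κ * t ^ 2 + s)) ^ (a + 2))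
  let φ : ℝ → ℝ := fun t => c * (s⁻¹ * κ ^ (-(a + 1)) * (κ * (2 * t) * s / (κ * t ^ 2 + s) ^ 2 *
    (a + 2) * (κ * t ^ 2 / (κ * t ^ 2 + s)) ^ (a + 1)))
  have hH : ∀ t, HasDerivAt H (φ t) t := by
    intro t
    have h1 := ((hd1 t).div ((hd1 t).add_const s) (hD t).ne').rpow_const (p := a + 2)
      (Or.inr (by linarith))
    refine ((h1.const_mul (s⁻¹ * κ ^ (-(a + 1)))).const_mul c).congr_deriv ?_
    simp only [φ, Pi.div_apply, show a + 2 - 1 = a + 1 by ring]
    congr 4
    ring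
  have hφ : Continuous φ := by
    refine continuous_const.mul (continuous_const.mul (Continuous.mul (Continuous.mul
      (Continuous.div (by fun_prop) (hcD.pow 2) fun t => (pow_pos (hD t) 2).ne') continuous_const)
      (Continuous.rpow_const (Continuous.div (by fun_prop) hcD fun t => (hD t).ne')
        fun t => Or.inr (by linarith))))
  have hG : Continuous fun p => (Dx l q p + s) ^ (-(a + 2)) :=
    ((continuous_Dx_right hl q).add continuous_const).rpow_const fun p =>
      Or.inl (Dx_add_pos hl q p hs).ne'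
  have hGi : Integrable (fun p => (Dx l q p + s) ^ (-(a + 2))) μ :=
    hG.integrable_of_hasCompactSupport (HasCompactSupport.of_compactSpace _)
  have key := h48_layer μ q (g := fun t => (κ * t ^ 2 + s) ^ (-(a + 2)))
    (h := fun t => κ * (2 * t) * (a + 2) * (κ * t ^ 2 + s) ^ (-(a + 2) - 1)) (φ := φ) hr0.le
    (Continuous.mul (by fun_prop) (hcD.rpow_const fun t => Or.inl (hD t).ne'))
    (fun t => (((hd1 t).add_const s).rpow_const (p := -(a + 2)) (Or.inl (hD t).ne')).congr_deriv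
      (by ring))
    (Real.rpow_nonneg (hD r0).le _) (hGi.indicator (Metric.isOpen_ball (x := q) (ε := r)).measurableSet)
    (fun p => indicator_nonneg (fun p _ => Real.rpow_nonneg (Dx_add_pos hl q p hs).le _) p)
    (fun p hp => by
      rw [indicator_of_mem (by rw [Metric.mem_ball, dist_comm]; exact hp.trans_lt hr)]
      refine Real.rpow_le_rpow_of_nonpos (Dx_add_pos hl q p hs) ?_ (by linarith)
      have := hmd _ dist_nonneg hp
      simp only [Dx]
      linarith) hφ
    (fun t ht => by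
      have ht0 := ht.1
      refine le_trans (le_of_eq ?_) (mul_le_mul_of_nonneg_left (hc t ht)
        (mul_nonneg (by positivity) (Real.rpow_nonneg (hD t).le _)))
      have e1 : t ^ n = (t ^ 2) ^ (a + 1) := by
        rw [← Real.rpow_natCast t n, ← Real.rpow_natCast t 2, ← Real.rpow_mul ht0.le, hn]
        congr 1
        push_cast
        ring
      have e2 : (κ * t ^ 2 + s) ^ (-(a + 2) - 1) =
          ((κ * t ^ 2 + s) ^ (a + 1) * (κ * t ^ 2 + s) ^ 2)⁻¹ := by
        rw [← Real.rpow_natCast (κ * t ^ 2 + s) 2, ← Real.rpow_add (hD t),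
          ← Real.rpow_neg (hD t).le]
        congr 1
        push_cast
        ring
      have h1 : 0 < κ ^ (a + 1) := Real.rpow_pos_of_pos hκ _
      have h2 : 0 < (κ * t ^ 2 + s) ^ (a + 1) := Real.rpow_pos_of_pos (hD t) _
      have h3 := hD t
      simp only [φ]
      rw [e1, e2, Real.div_rpow (by positivity) (hD t).le,
        Real.mul_rpow hκ.le (sq_nonneg t), Real.rpow_neg hκ.le]
      field_simp)
  rw [integral_indicator Metric.isOpen_ball.measurableSet,
    intervalIntegral.integral_eq_sub_of_hasDerivAt (fun t _ => hH t)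
      (hφ.intervalIntegrable _ _)] at key
  have h0 : H 0 = 0 := by
    simp only [H]
    rw [show κ * (0 : ℝ) ^ 2 / (κ * 0 ^ 2 + s) = 0 by simp, Real.zero_rpow (by linarith)]
    simp
  rw [h0, sub_zero] at key
  exact key

/-- at one point. Layer cake for the decreasing function `(κ r² + s)^(-(a+2))`, `κ = (1+η)/2`;
`(t/(1+t))^(a+2)` is an antiderivative of `(a+2) t^(a+1) (1+t)^(-(a+3))`. -/
theorem low_point (μ : Measure X) [IsFiniteMeasure μ] {n : ℕ} {a l ω : ℝ} (ha : 0 ≤ a)
    (hn : (n : ℝ) = 2 * a + 2) (hl : 0 ≤ l) (q : X)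
    (hq : ∀ c < ω, ∀ᶠ r in 𝓝[>] (0 : ℝ), c * r ^ n ≤ μ.real (Metric.closedBall q r))
    {r : ℝ} (hr : 0 < r) {c : ℝ} (hc : c < 2 ^ (a + 2) * ω) :
    ∀ᶠ s in 𝓝[>] (0 : ℝ),
      c ≤ (2 * s - l * s ^ 2) * ∫ p in Metric.ball q r, (Dx l q p + s) ^ (-(a + 2)) ∂μ := by
  have hev : ∀ᶠ s in 𝓝[>] (0 : ℝ), 0 < s ∧ 0 < 2 - l * s := by
    have h1 : ContinuousAt (fun s : ℝ => 2 - l * s) 0 := by fun_prop
    have h2 : ∀ᶠ s in 𝓝 (0 : ℝ), 0 < 2 - l * s :=
      continuousAt_const.eventually_lt h1 (by simp)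
    exact (eventually_mem_nhdsWithin (s := Ioi 0)).and (h2.filter_mono nhdsWithin_le_nhds)
  rcases le_or_gt c 0 with hc0 | hc0
  · filter_upwards [hev] with s hs
    refine hc0.trans (mul_nonneg (by nlinarith [mul_pos hs.1 hs.2]) ?_)
    exact integral_nonneg fun p => Real.rpow_nonneg (Dx_add_pos hl q p hs.1).le _
  obtain ⟨η, hη, hcη⟩ : ∃ η : ℝ, 0 < η ∧ c < 2 * (ω - η) * ((1 + η) / 2) ^ (-(a + 1)) := by
    have h1 : ContinuousAt (fun η : ℝ => 2 * (ω - η) * ((1 + η) / 2) ^ (-(a + 1))) 0 :=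
      ContinuousAt.mul (by fun_prop) (ContinuousAt.rpow_const (by fun_prop) (Or.inl (by norm_num)))
    have h2 : c < 2 * (ω - 0) * ((1 + 0) / 2 : ℝ) ^ (-(a + 1)) := by
      refine hc.trans_eq ?_
      rw [add_zero, sub_zero, one_div, Real.inv_rpow (by norm_num), ← Real.rpow_neg (by norm_num),
        neg_neg, show a + 2 = a + 1 + 1 by ring, Real.rpow_add_one (by norm_num)]
      ring
    have h3 := (continuousAt_const.eventually_lt h1 h2).filter_mono
      (nhdsWithin_le_nhds (s := Ioi 0))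
    obtain ⟨η, h4, h5⟩ := (h3.and (eventually_mem_nhdsWithin (s := Ioi 0))).exists
    exact ⟨η, h5, h4⟩
  obtain ⟨r₁, hr₁, hmd⟩ := md_le_near hl hη
  obtain ⟨r₂, hr₂, hq2⟩ := (nhdsGT_basis_Ioc (0 : ℝ)).eventually_iff.1 (hq (ω - η) (by linarith))
  set κ : ℝ := (1 + η) / 2 with hκdef
  have hκ : 0 < κ := by positivity
  set r0 : ℝ := min (r / 2) (min r₁ r₂) with hr0def
  have hr0 : 0 < r0 := by positivity
  have hr0r : r0 < r := (min_le_left _ _).trans_lt (by linarith)
  have hr01 : r0 ≤ r₁ := (min_le_right _ _).trans (min_le_left _ _)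
  have hr02 : r0 ≤ r₂ := (min_le_right _ _).trans (min_le_right _ _)
  have hp : 0 < κ * r0 ^ 2 := by positivity
  have h1 : ContinuousAt (fun s : ℝ => (2 - l * s) * (ω - η) * κ ^ (-(a + 1)) *
      (κ * r0 ^ 2 / (κ * r0 ^ 2 + s)) ^ (a + 2)) 0 :=
    ContinuousAt.mul (by fun_prop) (ContinuousAt.rpow_const
      (ContinuousAt.div (by fun_prop) (by fun_prop) (by simpa using hp.ne'))
      (Or.inr (by linarith)))
  have h2 : c < (2 - l * 0) * (ω - η) * κ ^ (-(a + 1)) *
      (κ * r0 ^ 2 / (κ * r0 ^ 2 + 0)) ^ (a + 2) := by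
    rw [add_zero, div_self hp.ne', Real.one_rpow, mul_zero, sub_zero, mul_one]
    exact hcη
  filter_upwards [hev, (continuousAt_const.eventually_lt h1 h2).filter_mono nhdsWithin_le_nhds]
    with s hs h3
  have h4 := h48_kernel μ ha hn hl q hr0 hr0r hκ hs.1
    (fun t ht htr => (hmd t ht (htr.trans hr01)).trans_eq (by rw [hκdef]; ring))
    (fun t ht => hq2 ⟨ht.1, ht.2.trans hr02⟩)
  refine h3.le.trans (le_trans (le_of_eq ?_)
    (mul_le_mul_of_nonneg_left h4 (by nlinarith [mul_pos hs.1 hs.2])))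
  have := hs.1.ne'
  field_simp

theorem low_of_dens (V : DV X) {n : ℕ} {a l : ℝ} (ha : 0 ≤ a) (hn : (n : ℝ) = 2 * a + 2)
    (hl : 0 ≤ l) (hV : V.Dens n) : Low a l (2 ^ (a + 2) * unitBallVol n) V.μ := by
  filter_upwards [hV] with q hq r hr c hc using low_point V.μ ha hn hl q hq hr hc

end

end Crest.Agent.R241.Key
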