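import Crest.Agent.R241.KeyCalc

/-! Row 241, block KEY: powers of `D + s` in the first variation inequality. -/

set_option autoImplicit false

open MeasureTheory Set Filter Topology
open scoped ENNReal NNReal

namespace Crest.Agent.R241.Key

open Crest.GeometryTopology.Submanifold

noncomputable section

universe u

variable {X : Type u} [MetricSpace X] [CompactSpace X] [MeasurableSpace X] [BorelSpace X]

/-- `|∇D|² ≤ sn² = 2D + l D²` (chain rule for `md`, `le_lip` for the 1-Lipschitz `dist p`). -/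
theorem gam_D_le (V : DV X) {l : ℝ} (hl : 0 ≤ l) (p : X) :
    ∀ᵐ x ∂V.μ, V.Γ (Dx l p) (Dx l p) x ≤ 2 * Dx l p x + l * Dx l p x ^ 2 := by
  have hd : Lip (fun x : X => dist p x) := ⟨1, LipschitzWith.dist_right p⟩
  filter_upwards [V.chain (md l) _ _ (contDiff_md hl) hd (lip_Dx hl p), V.symm _ _ hd (lip_Dx hl p),
    V.chain (md l) _ _ (contDiff_md hl) hd hd, V.le_lip _ 1 (LipschitzWith.dist_right p)]
    with x h1 h2 h3 h4
  have e : Dx l p = fun x => md l (dist p x) := rfl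
  rw [← e] at h1 h3
  rw [h1, h2, h3, (Alm.hasDerivAt_md hl _).deriv]
  have h5 := Alm.sn_sq hl (dist p x)
  have h6 : Dx l p x = md l (dist p x) := rfl
  have h7 : V.Γ (fun x => dist p x) (fun x => dist p x) x ≤ 1 := by simpa using h4
  rw [h6, ← h5]
  nlinarith [sq_nonneg (sn l (dist p x))]

omit [MetricSpace X] [CompactSpace X] [BorelSpace X] in
private theorem h97_lin {μ : Measure X} {f g h : X → ℝ} (hf : Integrable f μ) (hg : Integrable g μ)
    (hh : Integrable h μ) (a b c : ℝ) :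
    a * ∫ x, f x ∂μ - b * ∫ x, g x ∂μ + c * ∫ x, h x ∂μ = ∫ x, (a * f x - b * g x + c * h x) ∂μ := by
  have h1 : Integrable (fun x => a * f x - b * g x) μ := (hf.const_mul a).sub (hg.const_mul b)
  rw [integral_add h1 (hh.const_mul c), integral_sub (hf.const_mul a) (hg.const_mul b),
    integral_const_mul, integral_const_mul, integral_const_mul]

private theorem h97_int (V : DV X) {l : ℝ} (hl : 0 ≤ l) (p : X) {η : X → ℝ} (hη : Continuous η) :
    Integrable (fun x => η x * √(2 * Dx l p x + l * Dx l p x ^ 2 - V.Γ (Dx l p) (Dx l p) x)) V.μ := by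
  have hD := continuous_Dx_right hl p
  have hc : Continuous fun x => |η x| * √(2 * Dx l p x + l * Dx l p x ^ 2) := by fun_prop
  refine (integrable_cont V.μ hc).mono' ?_ ?_
  · have h1 : Measurable fun x => 2 * Dx l p x + l * Dx l p x ^ 2 :=
      (by fun_prop : Continuous fun x => 2 * Dx l p x + l * Dx l p x ^ 2).measurable
    exact (hη.measurable.mul (h1.sub (V.meas _ _)).sqrt).aestronglyMeasurable
  · filter_upwards [V.nonneg _ (lip_Dx hl p)] with x hx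
    rw [Real.norm_eq_abs, abs_mul, abs_of_nonneg (Real.sqrt_nonneg _)]
    exact mul_le_mul_of_nonneg_left (Real.sqrt_le_sqrt (by linarith)) (abs_nonneg _)

/-- FV tested with `η = ξ F^(-γ)`, `F = D + s`, and AM-GM `Λ √W ≤ γ W / F + Λ² F / (4γ)`. -/
theorem fv_pow (V : DV X) {n : ℕ} {l Λ : ℝ} (hl : 0 ≤ l) (hV : V.FV n l Λ) (p : X) {s γ : ℝ}
    (hs : 0 < s) (hγ : 0 < γ) {ξ : X → ℝ} (hξ : Lip ξ) (h0 : ∀ x, 0 ≤ ξ x) :
    n * ∫ x, ξ x * (Dx l p x + s) ^ (-γ) * (1 + l * Dx l p x) ∂V.μ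
        - γ * ∫ x, ξ x * (Dx l p x + s) ^ (-γ - 1) * (2 * Dx l p x + l * Dx l p x ^ 2) ∂V.μ
        - Λ ^ 2 / (4 * γ) * ∫ x, ξ x * (Dx l p x + s) ^ (1 - γ) ∂V.μ ≤
      -∫ x, (Dx l p x + s) ^ (-γ) * V.Γ ξ (Dx l p) x ∂V.μ := by
  have hD := lip_Dx hl p
  have hF : Lip fun x => Dx l p x + s := lip_add hD (lip_const s)
  have hpos : ∀ x, 0 < Dx l p x + s := fun x => Dx_add_pos hl p x hs
  have hP : ∀ t : ℝ, Lip fun x => (Dx l p x + s) ^ t := fun t => lip_rpow hF hpos t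
  have cD := lip_cont hD
  have cξ := lip_cont hξ
  have cP : ∀ t : ℝ, Continuous fun x => (Dx l p x + s) ^ t := fun t => lip_cont (hP t)
  have h1 := hV p (fun x => ξ x * (Dx l p x + s) ^ (-γ)) (lip_mul hξ (hP _))
    fun x => mul_nonneg (h0 x) (Real.rpow_nonneg (hpos x).le _)
  have iA : Integrable (fun x => ξ x * (Dx l p x + s) ^ (-γ) * (1 + l * Dx l p x)) V.μ :=
    integrable_cont _ ((cξ.mul (cP _)).mul (by fun_prop))
  have iB : Integrable (fun x => ξ x * (Dx l p x + s) ^ (-γ - 1) *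
      (2 * Dx l p x + l * Dx l p x ^ 2)) V.μ :=
    integrable_cont _ ((cξ.mul (cP _)).mul (by fun_prop))
  have iC : Integrable (fun x => ξ x * (Dx l p x + s) ^ (1 - γ)) V.μ :=
    integrable_cont _ (cξ.mul (cP _))
  have iG : Integrable (fun x => ξ x * (Dx l p x + s) ^ (-γ - 1) *
      V.Γ (Dx l p) (Dx l p) x) V.μ := V.cc.integrable_mul (cξ.mul (cP _)) hD hD
  have iH : Integrable (fun x => (Dx l p x + s) ^ (-γ) * V.Γ ξ (Dx l p) x) V.μ :=
    V.cc.integrable_mul (cP _) hξ hD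
  have e1 : ∫ x, (n * (ξ x * (Dx l p x + s) ^ (-γ)) * (1 + l * Dx l p x) +
      V.Γ (fun x => ξ x * (Dx l p x + s) ^ (-γ)) (Dx l p) x) ∂V.μ =
      n * ∫ x, ξ x * (Dx l p x + s) ^ (-γ) * (1 + l * Dx l p x) ∂V.μ -
        γ * ∫ x, ξ x * (Dx l p x + s) ^ (-γ - 1) * V.Γ (Dx l p) (Dx l p) x ∂V.μ +
        ∫ x, (Dx l p x + s) ^ (-γ) * V.Γ ξ (Dx l p) x ∂V.μ := by
    rw [← one_mul (∫ x, (Dx l p x + s) ^ (-γ) * V.Γ ξ (Dx l p) x ∂V.μ), h97_lin iA iG iH]
    refine integral_congr_ae ?_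
    filter_upwards [V.mul ξ _ _ hξ (hP (-γ)) hD, V.cc.rpow_left (-γ) hF hpos hD,
      V.cc.add_const_left s hD hD] with x a1 a2 a3
    have a2' : V.Γ (fun x => (Dx l p x + s) ^ (-γ)) (Dx l p) x =
      -γ * (Dx l p x + s) ^ (-γ - 1) * V.Γ (fun x => Dx l p x + s) (Dx l p) x := a2
    have a3' : V.Γ (fun x => Dx l p x + s) (Dx l p) x = V.Γ (Dx l p) (Dx l p) x := a3
    rw [a1, a2', a3']
    ring
  have e2 : Λ * ∫ x, ξ x * (Dx l p x + s) ^ (-γ) *
      √(2 * Dx l p x + l * Dx l p x ^ 2 - V.Γ (Dx l p) (Dx l p) x) ∂V.μ ≤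
      γ * ∫ x, ξ x * (Dx l p x + s) ^ (-γ - 1) * (2 * Dx l p x + l * Dx l p x ^ 2) ∂V.μ -
        γ * ∫ x, ξ x * (Dx l p x + s) ^ (-γ - 1) * V.Γ (Dx l p) (Dx l p) x ∂V.μ +
        Λ ^ 2 / (4 * γ) * ∫ x, ξ x * (Dx l p x + s) ^ (1 - γ) ∂V.μ := by
    rw [h97_lin iB iG iC, ← integral_const_mul]
    refine integral_mono_ae ((h97_int V hl p (cξ.mul (cP _))).const_mul _)
      (((iB.const_mul _).sub (iG.const_mul _)).add (iC.const_mul _)) ?_
    filter_upwards [gam_D_le V hl p] with x hx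
    have b1 : (Dx l p x + s) ^ (-γ) = (Dx l p x + s) ^ (-γ - 1) * (Dx l p x + s) := by
      rw [← Real.rpow_add_one (hpos x).ne']; congr 1; ring
    have b2 : (Dx l p x + s) ^ (1 - γ) = (Dx l p x + s) ^ (-γ - 1) * (Dx l p x + s) ^ 2 := by
      rw [← Real.rpow_natCast, ← Real.rpow_add (hpos x)]; congr 1; push_cast; ring
    have b3 := Real.sq_sqrt (sub_nonneg.2 hx)
    have b4 : 0 ≤ ξ x * (Dx l p x + s) ^ (-γ - 1) :=
      mul_nonneg (h0 x) (Real.rpow_nonneg (hpos x).le _)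
    rw [b1, b2]
    generalize √(2 * Dx l p x + l * Dx l p x ^ 2 - V.Γ (Dx l p) (Dx l p) x) = t at b3 ⊢
    generalize (Dx l p x + s) ^ (-γ - 1) = u at b4 ⊢
    have b5 : V.Γ (Dx l p) (Dx l p) x = 2 * Dx l p x + l * Dx l p x ^ 2 - t ^ 2 := by linarith
    rw [b5]
    have b6 : 0 ≤ ξ x * u * ((2 * γ * t - Λ * (Dx l p x + s)) ^ 2 / (4 * γ)) := by positivity
    have b7 : ξ x * u * ((2 * γ * t - Λ * (Dx l p x + s)) ^ 2 / (4 * γ)) =
        γ * (ξ x * u * t ^ 2) - Λ * (ξ x * (u * (Dx l p x + s)) * t) +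
          Λ ^ 2 / (4 * γ) * (ξ x * (u * (Dx l p x + s) ^ 2)) := by
      field_simp
      ring
    nlinarith
  rw [e1] at h1
  linarith

/-- the case `γ = n/2 = a + 1`:  `n F (1 + l D) - (n/2)(2D + l D²) = (n/2)(l F² + 2s - l s²)`. -/
theorem sup0 (V : DV X) {n : ℕ} {a l Λ : ℝ} (ha : 0 ≤ a) (hn : (n : ℝ) = 2 * a + 2) (hl : 0 ≤ l)
    (hV : V.FV n l Λ) (p : X) {s : ℝ} (hs : 0 < s) {ξ : X → ℝ} (hξ : Lip ξ) (h0 : ∀ x, 0 ≤ ξ x) :
    (a + 1) * (2 * s - l * s ^ 2) * ∫ x, ξ x * (Dx l p x + s) ^ (-(a + 2)) ∂V.μ ≤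
      -∫ x, (Dx l p x + s) ^ (-(a + 1)) * V.Γ ξ (Dx l p) x ∂V.μ +
        (Λ ^ 2 - n ^ 2 * l) / (2 * n) * ∫ x, ξ x * (Dx l p x + s) ^ (-a) ∂V.μ := by
  have hD := lip_Dx hl p
  have hF : Lip fun x => Dx l p x + s := lip_add hD (lip_const s)
  have hpos : ∀ x, 0 < Dx l p x + s := fun x => Dx_add_pos hl p x hs
  have cD := lip_cont hD
  have cξ := lip_cont hξ
  have cP : ∀ t : ℝ, Continuous fun x => (Dx l p x + s) ^ t :=
    fun t => lip_cont (lip_rpow hF hpos t)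
  have h1 := fv_pow V hl hV p hs (γ := a + 1) (by linarith) hξ h0
  have iA : Integrable (fun x => ξ x * (Dx l p x + s) ^ (-(a + 1)) * (1 + l * Dx l p x)) V.μ :=
    integrable_cont _ ((cξ.mul (cP _)).mul (by fun_prop))
  have iB : Integrable (fun x => ξ x * (Dx l p x + s) ^ (-(a + 1) - 1) *
      (2 * Dx l p x + l * Dx l p x ^ 2)) V.μ :=
    integrable_cont _ ((cξ.mul (cP _)).mul (by fun_prop))
  have iC : ∀ t : ℝ, Integrable (fun x => ξ x * (Dx l p x + s) ^ t) V.μ :=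
    fun t => integrable_cont _ (cξ.mul (cP _))
  have e1 : n * ∫ x, ξ x * (Dx l p x + s) ^ (-(a + 1)) * (1 + l * Dx l p x) ∂V.μ -
      (a + 1) * ∫ x, ξ x * (Dx l p x + s) ^ (-(a + 1) - 1) *
        (2 * Dx l p x + l * Dx l p x ^ 2) ∂V.μ =
      (a + 1) * (2 * s - l * s ^ 2) * ∫ x, ξ x * (Dx l p x + s) ^ (-(a + 2)) ∂V.μ +
        (a + 1) * l * ∫ x, ξ x * (Dx l p x + s) ^ (-a) ∂V.μ := by
    rw [← integral_const_mul, ← integral_const_mul, ← integral_const_mul, ← integral_const_mul,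
      ← integral_sub (iA.const_mul _) (iB.const_mul _),
      ← integral_add ((iC _).const_mul _) ((iC _).const_mul _)]
    refine integral_congr_ae (Eventually.of_forall fun x => ?_)
    have b0 : -(a + 1) - 1 = -(a + 2) := by ring
    have b1 : (Dx l p x + s) ^ (-(a + 1)) = (Dx l p x + s) ^ (-(a + 2)) * (Dx l p x + s) := by
      rw [← Real.rpow_add_one (hpos x).ne']; congr 1; ring
    have b2 : (Dx l p x + s) ^ (-a) = (Dx l p x + s) ^ (-(a + 2)) * (Dx l p x + s) ^ 2 := by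
      rw [← Real.rpow_natCast, ← Real.rpow_add (hpos x)]; congr 1; push_cast; ring
    simp only []
    rw [b0, b1, b2, hn]
    ring
  have e2 : (1 : ℝ) - (a + 1) = -a := by ring
  have e3 : (Λ ^ 2 - n ^ 2 * l) / (2 * n) = Λ ^ 2 / (4 * (a + 1)) - (a + 1) * l := by
    rw [hn]
    have : a + 1 ≠ 0 := by linarith
    have : 2 * a + 2 ≠ 0 := by linarith
    field_simp
    ring
  rw [e1, e2] at h1
  rw [e3]
  linarith

/-- `(D + s)^(-a)` is a supersolution for `Q`. -/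
theorem sup1 (V : DV X) {n : ℕ} {a l Λ : ℝ} (ha : 0 ≤ a) (hn : (n : ℝ) = 2 * a + 2) (hl : 0 ≤ l)
    (hV : V.FV n l Λ) (p : X) {s : ℝ} (hs : 0 < s) {ξ : X → ℝ} (hξ : Lip ξ) (h0 : ∀ x, 0 ≤ ξ x) :
    a * (a + 1) * (2 * s - l * s ^ 2) * ∫ x, ξ x * (Dx l p x + s) ^ (-(a + 2)) ∂V.μ ≤
      V.cc.Q (a * (Λ ^ 2 - n ^ 2 * l) / (2 * n)) (fun x => (Dx l p x + s) ^ (-a)) ξ := by
  have hD := lip_Dx hl p
  have hF : Lip fun x => Dx l p x + s := lip_add hD (lip_const s)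
  have hpos : ∀ x, 0 < Dx l p x + s := fun x => Dx_add_pos hl p x hs
  have h1 := mul_le_mul_of_nonneg_left (sup0 V ha hn hl hV p hs hξ h0) ha
  have e1 : ∫ x, V.cc.Γ (fun x => (Dx l p x + s) ^ (-a)) ξ x ∂V.cc.μ =
      -a * ∫ x, (Dx l p x + s) ^ (-(a + 1)) * V.Γ ξ (Dx l p) x ∂V.μ := by
    rw [← integral_const_mul]
    refine integral_congr_ae ?_
    filter_upwards [V.cc.rpow_left (-a) hF hpos hξ, V.cc.add_const_left s hD hξ,
      V.cc.symm _ _ hD hξ] with x a1 a2 a3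
    have b0 : -a - 1 = -(a + 1) := by ring
    rw [a1, a2, a3, b0, mul_assoc]
    rfl
  have e2 : ∫ x, (Dx l p x + s) ^ (-a) * ξ x ∂V.cc.μ =
      ∫ x, ξ x * (Dx l p x + s) ^ (-a) ∂V.μ :=
    integral_congr_ae (Eventually.of_forall fun x => mul_comm _ _)
  unfold Cc.Q
  rw [e1, e2, mul_div_assoc]
  linarith

/-- FV with `η = 1`: `Λ √(2D + l D²) < n (1 + l D)` if `Λ² ≤ n² l`. -/
theorem lam_pos (V : DV X) {n : ℕ} {l Λ : ℝ} (hn : n ≠ 0) (hl : 0 ≤ l) (hV : V.FV n l Λ)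
    (hμ : V.μ ≠ 0) : n ^ 2 * l < Λ ^ 2 := by
  by_contra hc
  have hc' : Λ ^ 2 ≤ n ^ 2 * l := not_lt.1 hc
  have hne : (ae V.μ).NeBot := ae_neBot.2 hμ
  obtain ⟨p, -⟩ := (Eventually.of_forall (f := ae V.μ) fun _ => trivial).exists
  have hD := lip_Dx hl p
  have cD := lip_cont hD
  have hn' : (0 : ℝ) < n := Nat.cast_pos.2 (Nat.pos_of_ne_zero hn)
  have h1 := hV p (fun _ => 1) (lip_const 1) fun _ => zero_le_one
  have iA : Integrable (fun x => (n : ℝ) * (1 + l * Dx l p x)) V.μ :=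
    integrable_cont _ (by fun_prop)
  have iB := (h97_int V hl p (η := fun _ => 1) continuous_const).const_mul Λ
  have e1 : ∫ x, (n * 1 * (1 + l * Dx l p x) + V.Γ (fun _ => 1) (Dx l p) x) ∂V.μ =
      ∫ x, (n : ℝ) * (1 + l * Dx l p x) ∂V.μ := by
    refine integral_congr_ae ?_
    filter_upwards [V.cc.const_left 1 hD] with x a1
    have a1' : V.Γ (fun _ => 1) (Dx l p) x = 0 := a1
    rw [a1', mul_one, add_zero]
  rw [e1, ← integral_const_mul] at h1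
  have hlt : ∀ᵐ x ∂V.μ, 0 < (n : ℝ) * (1 + l * Dx l p x) -
      Λ * (1 * √(2 * Dx l p x + l * Dx l p x ^ 2 - V.Γ (Dx l p) (Dx l p) x)) := by
    filter_upwards [gam_D_le V hl p, V.nonneg _ hD] with x hx hx0
    have b3 := Real.sq_sqrt (sub_nonneg.2 hx)
    generalize √(2 * Dx l p x + l * Dx l p x ^ 2 - V.Γ (Dx l p) (Dx l p) x) = t at b3 ⊢
    have hd := Dx_nonneg hl p x
    rw [one_mul, sub_pos]
    refine lt_of_pow_lt_pow_left₀ 2 (by positivity) ?_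
    have b4 : Λ ^ 2 * t ^ 2 ≤ n ^ 2 * l * t ^ 2 := mul_le_mul_of_nonneg_right hc' (sq_nonneg _)
    have b5 : (n : ℝ) ^ 2 * l * t ^ 2 ≤ n ^ 2 * l * (2 * Dx l p x + l * Dx l p x ^ 2) :=
      mul_le_mul_of_nonneg_left (by linarith) (by positivity)
    have b6 : (0 : ℝ) < n ^ 2 := by positivity
    nlinarith
  have h2 := (integral_eq_zero_iff_of_nonneg_ae (hlt.mono fun x hx => hx.le) (iA.sub iB)).1
    (le_antisymm (by rw [integral_sub iA iB]; linarith)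
      (integral_nonneg_of_ae (hlt.mono fun x hx => hx.le)))
  obtain ⟨x, a1, a2⟩ := (hlt.and h2).exists
  exact a1.ne' a2

end

end Crest.Agent.R241.Key
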