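import Crest.Agent.R241.Geo
import Crest.Agent.R241.KFdv
import Crest.Agent.R241.KeyFV
import Crest.Agent.R241.KeyDens

/-! Row 241 (Cartan-Hadamard): block KEY for `n = 2`. -/

set_option autoImplicit false

open MeasureTheory Set Filter Topology
open scoped ENNReal NNReal Matrix ContDiff

namespace Crest.Agent.R241

open Crest.GeometryTopology.Submanifold

universe u v

variable {X : Type u} [MetricSpace X] [CompactSpace X] [MeasurableSpace X] [BorelSpace X]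
  {n : ℕ} {l Λ : ℝ}

theorem h64_sA_two : sA 2 = 4 * unitBallVol 2 := by
  rw [Alm.sA_eq]
  simp only [unitBallVol]
  rw [EuclideanSpace.volume_ball_fin_two, EuclideanSpace.volume_ball_fin_three]
  simp only [ENNReal.ofReal_one, one_pow, one_mul]
  rw [ENNReal.toReal_ofReal (by positivity), ENNReal.toReal_ofReal (by positivity)]
  push_cast
  ring

theorem h64_low (V : DV X) (hl : 0 ≤ l) (hD : V.Dens 2) :
    ∀ᵐ q ∂V.μ, ∀ c < sA 2, ∀ᶠ s in 𝓝[>] (0 : ℝ),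
      c ≤ (2 * s - l * s ^ 2) * ∫ p, (Dx l q p + s) ^ (-((0 : ℝ) + 2)) ∂V.μ := by
  have h := Key.low_of_dens V (n := 2) (a := 0) le_rfl (by norm_num) hl hD
  filter_upwards [h] with q hq c hc
  have hc' : c < 2 ^ ((0 : ℝ) + 2) * unitBallVol 2 := by
    rw [h64_sA_two] at hc
    have : (2 : ℝ) ^ ((0 : ℝ) + 2) = 4 := by
      rw [zero_add, Real.rpow_two]; norm_num
    rwa [this]
  have hs0 : ∀ᶠ s in 𝓝[>] (0 : ℝ), l * s < 2 := by
    have : Tendsto (fun s : ℝ => l * s) (𝓝[>] 0) (𝓝 (l * 0)) :=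
      ((continuous_const.mul continuous_id).tendsto 0).mono_left nhdsWithin_le_nhds
    rw [mul_zero] at this
    exact this.eventually (gt_mem_nhds two_pos)
  filter_upwards [hq 1 one_pos c hc', hs0, self_mem_nhdsWithin] with s h1 h2 (hs : 0 < s)
  refine h1.trans (mul_le_mul_of_nonneg_left ?_ (by nlinarith))
  have hpos : ∀ x, 0 < Dx l q x + s := fun x => Key.Dx_add_pos hl q x hs
  refine setIntegral_le_integral (Key.integrable_cont _ (Key.lip_cont (Key.lip_rpow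
    (Key.lip_add (Key.lip_Dx hl q) (Key.lip_const s)) hpos _))) ?_
  exact Eventually.of_forall fun x => Real.rpow_nonneg (hpos x).le _

/-- `Key.sup0` with `a = 0`, `ξ = 1` and `Key.low_of_dens`. -/
theorem key_two (V : DV X) (hl : 0 ≤ l) (hFV : V.FV 2 l Λ) (hD : V.Dens 2) (hμ : V.μ ≠ 0) :
    4 * sA 2 ≤ (Λ ^ 2 - l * 4) * V.μ.real univ := by
  have : (ae V.μ).NeBot := ae_neBot.2 hμ
  obtain ⟨q, hq⟩ := (h64_low V hl hD).exists
  have key : ∀ c < sA 2, c ≤ (Λ ^ 2 - l * 4) * V.μ.real univ / 4 := by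
    intro c hc
    obtain ⟨s, h1, (hs : 0 < s)⟩ := ((hq c hc).and self_mem_nhdsWithin).exists
    have h2 := Key.sup0 V (n := 2) (a := 0) le_rfl (by norm_num) hl hFV q hs (Key.lip_const 1)
      fun _ => zero_le_one
    have h3 : ∫ x, (Dx l q x + s) ^ (-((0 : ℝ) + 1)) * V.Γ (fun _ => 1) (Dx l q) x ∂V.μ = 0 := by
      rw [← integral_zero X ℝ (μ := V.μ)]
      refine integral_congr_ae ?_
      filter_upwards [V.cc.const_left 1 (Key.lip_Dx hl q)] with x hx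
      have hx' : V.Γ (fun _ => 1) (Dx l q) x = 0 := hx
      rw [hx', mul_zero]
    rw [h3] at h2
    simp only [one_mul, neg_zero, Real.rpow_zero, integral_const, smul_eq_mul, mul_one,
      zero_add] at h1 h2
    push_cast at h2
    linarith
  have := le_of_forall_lt_imp_le_of_dense key
  linarith

theorem h64_int (V : DV X) (hl : 0 ≤ l) (p : X) {η : X → ℝ} (hη : Continuous η) :
    Integrable (fun x => η x * √(2 * Dx l p x + l * Dx l p x ^ 2 - V.Γ (Dx l p) (Dx l p) x)) V.μ := by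
  have hD := Key.continuous_Dx_right hl p
  have hc : Continuous fun x => |η x| * √(2 * Dx l p x + l * Dx l p x ^ 2) := by fun_prop
  refine (Key.integrable_cont V.μ hc).mono' ?_ ?_
  · have h1 : Measurable fun x => 2 * Dx l p x + l * Dx l p x ^ 2 :=
      (by fun_prop : Continuous fun x => 2 * Dx l p x + l * Dx l p x ^ 2).measurable
    exact (hη.measurable.mul (h1.sub (V.meas _ _)).sqrt).aestronglyMeasurable
  · filter_upwards [V.nonneg _ (Key.lip_Dx hl p)] with x hx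
    rw [Real.norm_eq_abs, abs_mul, abs_of_nonneg (Real.sqrt_nonneg _)]
    exact mul_le_mul_of_nonneg_left (Real.sqrt_le_sqrt (by linarith)) (abs_nonneg _)

theorem h64_core (V : DV X) (hFV : V.FV 2 0 Λ) (q : X) {s c : ℝ} (hs : 0 < s)
    (hc : ∀ x, c * (Dx 0 q x + s) ≤ 1) :
    2 * s * ∫ p, (Dx 0 q p + s) ^ (-((0 : ℝ) + 2)) ∂V.μ ≤
      ∫ p, (Λ ^ 2 / 4 * (1 - c * (Dx 0 q p + s)) ^ 2 + 2 * c) ∂V.μ := by
  have hl : (0 : ℝ) ≤ 0 := le_rfl
  have hD := Key.lip_Dx hl q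
  have hF : Lip fun x => Dx 0 q x + s := Key.lip_add hD (Key.lip_const s)
  have hpos : ∀ x, 0 < Dx 0 q x + s := fun x => Key.Dx_add_pos hl q x hs
  have hP : ∀ t : ℝ, Lip fun x => (Dx 0 q x + s) ^ t := fun t => Key.lip_rpow hF hpos t
  have cD := Key.lip_cont hD
  have cP : ∀ t : ℝ, Continuous fun x => (Dx 0 q x + s) ^ t := fun t => Key.lip_cont (hP t)
  have hη : Lip fun x => (Dx 0 q x + s) ^ (-1 : ℝ) + -c := Key.lip_add (hP _) (Key.lip_const _)
  have h1 := hFV q _ hη fun x => by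
    rw [Real.rpow_neg_one, ← sub_eq_add_neg, sub_nonneg, ← one_div, le_div_iff₀ (hpos x)]
    exact hc x
  have cη := Key.lip_cont hη
  have i1 : Integrable (fun p => ((2 : ℕ) : ℝ) * ((Dx 0 q p + s) ^ (-1 : ℝ) + -c) *
      (1 + 0 * Dx 0 q p) + V.Γ (fun x => (Dx 0 q x + s) ^ (-1 : ℝ) + -c) (Dx 0 q) p) V.μ :=
    (Key.integrable_cont _ (by fun_prop)).add (V.cc.integrable hη hD)
  have i2 := (h64_int V hl q cη).const_mul Λ
  have i3 : Integrable (fun p => 2 * s * (Dx 0 q p + s) ^ (-((0 : ℝ) + 2))) V.μ :=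
    (Key.integrable_cont _ (cP _)).const_mul _
  have i4 : Integrable (fun p => Λ ^ 2 / 4 * (1 - c * (Dx 0 q p + s)) ^ 2 + 2 * c) V.μ :=
    Key.integrable_cont _ (by fun_prop)
  rw [← integral_const_mul] at h1 ⊢
  have h2 := integral_mono_ae (i3.add i2) (i4.add i1) (by
    filter_upwards [Key.gam_D_le V hl q, V.cc.add_const_left (-c) (hP (-1)) hD,
      V.cc.rpow_left (-1) hF hpos hD, V.cc.add_const_left s hD hD] with x hx a1 a2 a3
    have a1' : V.Γ (fun x => (Dx 0 q x + s) ^ (-1 : ℝ) + -c) (Dx 0 q) x =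
      V.Γ (fun x => (Dx 0 q x + s) ^ (-1 : ℝ)) (Dx 0 q) x := a1
    have a2' : V.Γ (fun x => (Dx 0 q x + s) ^ (-1 : ℝ)) (Dx 0 q) x =
      -1 * (Dx 0 q x + s) ^ (-1 - 1 : ℝ) * V.Γ (fun x => Dx 0 q x + s) (Dx 0 q) x := a2
    have a3' : V.Γ (fun x => Dx 0 q x + s) (Dx 0 q) x = V.Γ (Dx 0 q) (Dx 0 q) x := a3
    simp only [Pi.add_apply]
    rw [a1', a2', a3']
    have b1 : (Dx 0 q x + s) ^ (-1 - 1 : ℝ) = (Dx 0 q x + s)⁻¹ ^ 2 := by
      rw [show (-1 - 1 : ℝ) = -2 by norm_num, Real.rpow_neg (hpos x).le, Real.rpow_two, inv_pow]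
    have b2 : (Dx 0 q x + s) ^ (-((0 : ℝ) + 2)) = (Dx 0 q x + s)⁻¹ ^ 2 := by
      rw [zero_add, Real.rpow_neg (hpos x).le, Real.rpow_two, inv_pow]
    have b3 := Real.sq_sqrt (sub_nonneg.2 hx)
    rw [b1, b2, Real.rpow_neg_one]
    generalize √(2 * Dx 0 q x + 0 * Dx 0 q x ^ 2 - V.Γ (Dx 0 q) (Dx 0 q) x) = t at b3 ⊢
    have b5 : V.Γ (Dx 0 q) (Dx 0 q) x = 2 * Dx 0 q x - t ^ 2 := by linarith
    rw [b5]
    have hy := hpos x
    have b6 : Dx 0 q x = (Dx 0 q x + s) - s := by ring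
    generalize Dx 0 q x + s = y at hy b6 ⊢
    rw [b6]
    have b7 : 0 ≤ (t * y⁻¹ - Λ / 2 * (1 - c * y)) ^ 2 := sq_nonneg _
    have b8 : y * y⁻¹ = 1 := mul_inv_cancel₀ hy.ne'
    generalize y⁻¹ = u at b7 b8 ⊢
    push_cast
    have b9 : y * u ^ 2 = u := by rw [sq, ← mul_assoc, b8, one_mul]
    have b10 : t * u * (c * y) = t * c := by
      calc t * u * (c * y) = t * c * (y * u) := by ring
        _ = t * c := by rw [b8, mul_one]
    have b11 : Λ * (t * u * (c * y)) = Λ * (t * c) := by rw [b10]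
    linarith)
  rw [integral_add' i3 i2, integral_add' i4 i1] at h2
  exact le_of_add_le_add_right (h2.trans (add_le_add le_rfl h1))

/-- `W = 2D - Γ(D,D)`, `η_s = 1/(D+s) ≥ c > 0`.  FV for `η_s - c` reads
`∫ 2s/(D+s)² + ∫ (√W/(D+s) - Λ/2)² + c (Λ ∫ √W - 2M) ≤ Λ² M/4 = 4π`, the first term has
`liminf ≥ 4π`, the last is `≥ 0` (FV for `η = 1`).  So `Λ ∫ √W = 2M` and (Cauchy-Schwarz)
`∫ |√W - Λ D/2| = 0`. -/
theorem key_eqa_two (V : DV X) (hΛ : 0 < Λ) (hFV : V.FV 2 0 Λ) (hD : V.Dens 2)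
    (heq : V.μ.real univ = area 2 0 (2 / Λ)) :
    ∀ᵐ p ∂V.μ, ∫ q, Dx 0 p q ∂V.μ ≤ V.μ.real univ * (2 / Λ) ^ 2 := by
  have hl : (0 : ℝ) ≤ 0 := le_rfl
  obtain ⟨R, hR0, hR⟩ := Key.Dx_bdd (X := X) hl
  rw [Alm.area_zero_left] at heq
  set M := V.μ.real univ with hM
  have hM0 : 0 ≤ M := measureReal_nonneg
  have hM4 : Λ ^ 2 / 4 * M = sA 2 := by rw [heq]; field_simp; ring
  filter_upwards [h64_low V hl hD] with q hq
  have cD := Key.continuous_Dx_right hl q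
  have iD : Integrable (Dx 0 q) V.μ := Key.integrable_cont _ cD
  set A := ∫ p, Dx 0 q p ∂V.μ with hA
  have h1 : ∀ c : ℝ, 0 < c → c * (R + 1) ≤ 1 →
      Λ ^ 2 / 2 * A ≤ 2 * M + c * (Λ ^ 2 / 4 * (R + 1) ^ 2 * M) := by
    intro c hc0 hc
    have h2 : ∀ b < sA 2, b ≤ sA 2 - c * (Λ ^ 2 / 2 * A) + c * (2 * M) +
        c * (c * (Λ ^ 2 / 4 * (R + 1) ^ 2 * M)) := by
      intro b hb
      have hs1 : ∀ᶠ s in 𝓝[>] (0 : ℝ), s < 1 := nhdsWithin_le_nhds (gt_mem_nhds one_pos)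
      obtain ⟨s, h3, (hs : 0 < s), hs'⟩ := ((hq b hb).and (hs1.and self_mem_nhdsWithin |>.mono
        fun s h => And.intro h.2 h.1)).exists
      have h4 := h64_core V hFV q hs (c := c) fun x => by
        have := hR q x
        nlinarith
      have h5 : ∫ p, (Λ ^ 2 / 4 * (1 - c * (Dx 0 q p + s)) ^ 2 + 2 * c) ∂V.μ ≤
          ∫ p, ((Λ ^ 2 / 4 + 2 * c + c * (c * (Λ ^ 2 / 4 * (R + 1) ^ 2))) -
            c * (Λ ^ 2 / 2) * Dx 0 q p) ∂V.μ := by
        refine integral_mono (Key.integrable_cont _ (by fun_prop))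
          (Key.integrable_cont _ (by fun_prop)) fun p => ?_
        have a1 := hR q p
        have a2 := Key.Dx_nonneg hl q p
        have a3 : (Dx 0 q p + s) ^ 2 ≤ (R + 1) ^ 2 := by gcongr
        have a4 : 0 ≤ Λ ^ 2 / 4 := by positivity
        have a5 : c * (c * (Λ ^ 2 / 4 * (Dx 0 q p + s) ^ 2)) ≤
            c * (c * (Λ ^ 2 / 4 * (R + 1) ^ 2)) := by gcongr
        have a6 : 0 ≤ c * (Λ ^ 2 / 4) * s := by positivity
        show Λ ^ 2 / 4 * (1 - c * (Dx 0 q p + s)) ^ 2 + 2 * c ≤ _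
        nlinarith
      rw [integral_sub (integrable_const _) (iD.const_mul _), integral_const_mul, integral_const,
        smul_eq_mul, ← hM, ← hA] at h5
      rw [zero_mul, sub_zero] at h3
      have h10 := h3.trans (h4.trans h5)
      rw [← hM4]
      linarith
    have h6 := le_of_forall_lt_imp_le_of_dense h2
    have h7 : c * (Λ ^ 2 / 2 * A) ≤ c * (2 * M + c * (Λ ^ 2 / 4 * (R + 1) ^ 2 * M)) := by linarith
    exact le_of_mul_le_mul_left h7 hc0
  have h8 : Λ ^ 2 / 2 * A ≤ 2 * M := by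
    have ht : Tendsto (fun c : ℝ => 2 * M + c * (Λ ^ 2 / 4 * (R + 1) ^ 2 * M)) (𝓝[>] 0)
        (𝓝 (2 * M + 0 * (Λ ^ 2 / 4 * (R + 1) ^ 2 * M))) :=
      (Continuous.tendsto (by fun_prop) 0).mono_left nhdsWithin_le_nhds
    rw [zero_mul, add_zero] at ht
    refine ge_of_tendsto ht ?_
    have hs1 : ∀ᶠ c in 𝓝[>] (0 : ℝ), c < 1 / (R + 1) :=
      nhdsWithin_le_nhds (gt_mem_nhds (by positivity))
    filter_upwards [hs1, self_mem_nhdsWithin] with c h9 (hc : 0 < c)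
    exact h1 c hc ((lt_div_iff₀ (by positivity)).1 h9).le
  rw [div_pow, ← mul_div_assoc, le_div_iff₀ (by positivity)]
  linarith

/-- `VarIneq` gives `∫ r²/2 ≤ M ρ²/2`, `FV` with `η = 1` gives `ρ M ≤ ∫ r`, so `∫ (r - ρ)² ≤ 0`. -/
theorem key_eqb (V : DV X) (hΛ : 0 < Λ) (hFV : V.FV n 0 Λ) (hV : VarIneq 0 X)
    (h : ∀ᵐ p ∂V.μ, ∫ q, Dx 0 p q ∂V.μ ≤ V.μ.real univ * (n / Λ) ^ 2) :
    ∃ x : X, ∀ᵐ p ∂V.μ, dist x p = n / Λ := by
  have hl : (0 : ℝ) ≤ 0 := le_rfl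
  obtain ⟨x, hx⟩ := hV V.μ inferInstance
  refine ⟨x, ?_⟩
  by_cases hμ : V.μ = 0
  · rw [hμ]; simp
  set M := V.μ.real univ with hM
  have hM0 : 0 < M := by
    have : NeZero V.μ := ⟨hμ⟩
    exact measureReal_univ_pos
  set ρ := (n : ℝ) / Λ with hρ
  have hρ0 : 0 ≤ ρ := by positivity
  have e : ∀ p, Dx 0 x p = dist x p ^ 2 / 2 := fun p => Alm.md_zero_left _
  have cr : Continuous fun p => dist x p := by fun_prop
  have h1 : ∫ p, ∫ q, Dx 0 p q ∂V.μ ∂V.μ ≤ M * (M * ρ ^ 2) := by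
    have := integral_mono_of_nonneg (μ := V.μ) (f := fun p => ∫ q, Dx 0 p q ∂V.μ)
      (g := fun _ => M * ρ ^ 2)
      (Eventually.of_forall fun p => integral_nonneg fun q => Key.Dx_nonneg hl p q)
      (integrable_const _) h
    rwa [integral_const, smul_eq_mul] at this
  have h2 : ∫ p, dist x p ^ 2 ∂V.μ ≤ M * ρ ^ 2 := by
    have h3 : ∫ p, Dx 0 x p ∂V.μ = (∫ p, dist x p ^ 2 ∂V.μ) / 2 := by
      simp only [e, integral_div]
    rw [h3, zero_mul, add_zero] at hx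
    have h4 : M * ∫ p, dist x p ^ 2 ∂V.μ ≤ M * (M * ρ ^ 2) := by linarith
    exact le_of_mul_le_mul_left h4 hM0
  have h5 : ρ * M ≤ ∫ p, dist x p ∂V.μ := by
    have h6 := hFV x (fun _ => 1) (Key.lip_const 1) fun _ => zero_le_one
    have h7 : ∫ p, (n * (1 : ℝ) * (1 + 0 * Dx 0 x p) + V.Γ (fun _ => 1) (Dx 0 x) p) ∂V.μ =
        n * M := by
      rw [integral_congr_ae (g := fun _ => (n : ℝ)), integral_const, smul_eq_mul, mul_comm]
      filter_upwards [V.cc.const_left 1 (Key.lip_Dx hl x)] with p hp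
      have hp' : V.Γ (fun _ => 1) (Dx 0 x) p = 0 := hp
      rw [hp']; ring
    have h8 : ∫ p, 1 * √(2 * Dx 0 x p + 0 * Dx 0 x p ^ 2 - V.Γ (Dx 0 x) (Dx 0 x) p) ∂V.μ ≤
        ∫ p, dist x p ∂V.μ := by
      refine integral_mono_of_nonneg (Eventually.of_forall fun p => by positivity)
        (Key.integrable_cont _ cr) ?_
      filter_upwards [V.nonneg _ (Key.lip_Dx hl x)] with p hp
      rw [one_mul, Real.sqrt_le_left dist_nonneg, e p]
      linarith
    rw [h7] at h6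
    rw [hρ, div_mul_eq_mul_div, div_le_iff₀ hΛ]
    nlinarith
  have i1 : Integrable (fun p => dist x p ^ 2) V.μ := Key.integrable_cont _ (by fun_prop)
  have i2 : Integrable (fun p => dist x p) V.μ := Key.integrable_cont _ cr
  have i3 : Integrable (fun p => (dist x p - ρ) ^ 2) V.μ := Key.integrable_cont _ (by fun_prop)
  have h9 : ∫ p, (dist x p - ρ) ^ 2 ∂V.μ = 0 := by
    refine le_antisymm ?_ (integral_nonneg fun p => sq_nonneg _)
    have : ∀ p, (dist x p - ρ) ^ 2 = dist x p ^ 2 - 2 * ρ * dist x p + ρ ^ 2 := fun p => by ring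
    simp only [this]
    have i4 : Integrable (fun p => dist x p ^ 2 - 2 * ρ * dist x p) V.μ := i1.sub (i2.const_mul _)
    rw [integral_add i4 (integrable_const _),
      integral_sub i1 (i2.const_mul _), integral_const_mul, integral_const, smul_eq_mul, ← hM]
    nlinarith
  filter_upwards [(integral_eq_zero_iff_of_nonneg (fun p => sq_nonneg _) i3).1 h9] with p hp
  exact sub_eq_zero.1 (pow_eq_zero_iff two_ne_zero |>.1 hp)

end Crest.Agent.R241
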