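import Crest.Agent.R241.Key
import Crest.Agent.R241.KeyTwo

/-! Row 241 (Cartan-Hadamard): block KEY for all `n ≥ 2`. -/

set_option autoImplicit false

open MeasureTheory Set Filter Topology
open scoped ENNReal NNReal Matrix ContDiff

namespace Crest.Agent.R241

open Crest.GeometryTopology.Submanifold

universe u v

variable {X : Type u} [MetricSpace X] [CompactSpace X] [MeasurableSpace X] [BorelSpace X]
  {n : ℕ} {l Λ : ℝ}

theorem key (V : DV X) (hn : 2 ≤ n) (hl : 0 ≤ l) (hFV : V.FV n l Λ)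
    (hD : V.Dens n) (hV : VarIneq l X) (hμ : V.μ ≠ 0) :
    (n : ℝ) ^ 2 * sA n ^ (2 / (n : ℝ)) ≤ (Λ ^ 2 - l * n ^ 2) * V.μ.real univ ^ (2 / (n : ℝ)) := by
  rcases hn.eq_or_lt with rfl | h
  · have := key_two V hl hFV hD hμ
    norm_num
    linarith
  · rw [mul_comm l]
    exact Key.key V h hl hFV hD hV hμ

theorem key_eq (V : DV X) (hn : 2 ≤ n) (hΛ : 0 < Λ) (hFV : V.FV n 0 Λ)
    (hD : V.Dens n) (hV : VarIneq 0 X) (heq : V.μ.real univ = area n 0 (n / Λ)) :
    ∃ x : X, ∀ᵐ p ∂V.μ, dist x p = n / Λ := by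
  rcases hn.eq_or_lt with rfl | h
  · refine key_eqb V hΛ hFV hV ?_
    exact_mod_cast key_eqa_two V hΛ hFV hD (by exact_mod_cast heq)
  · have hn0 : (0 : ℝ) < n := by exact_mod_cast (by omega : 0 < n)
    have hs := Alm.sA_pos n
    have hq : 0 < (n : ℝ) / Λ := div_pos hn0 hΛ
    rw [Alm.area_zero_left] at heq
    have hμ : V.μ ≠ 0 := by
      intro h0
      rw [h0] at heq
      have : 0 < sA n * ((n : ℝ) / Λ) ^ n := by positivity
      simp at heq
      rcases heq with h1 | h1
      · exact hs.ne' h1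
      · rcases h1.1 with h2 | h2
        · omega
        · exact hΛ.ne' h2
    obtain ⟨x, r, hr, hx, he⟩ := Key.key_eq V h le_rfl hFV hD hV hμ (by
      rw [heq, Real.mul_rpow hs.le (by positivity), ← Real.rpow_natCast, ← Real.rpow_natCast,
        ← Real.rpow_natCast, ← Real.rpow_mul hq.le]
      have : (n : ℝ) * (2 / n) = ((2 : ℕ) : ℝ) := by field_simp; norm_num
      rw [this]
      simp only [Real.rpow_natCast]
      field_simp
      simp)
    refine ⟨x, hx.mono fun p hp => ?_⟩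
    rw [hp, eq_div_iff hΛ.ne']
    rw [Alm.sn_zero_left] at he
    have h1 : (r * Λ) ^ 2 = (n : ℝ) ^ 2 := by rw [← he]; ring
    exact (pow_left_inj₀ (by positivity) hn0.le two_ne_zero).1 h1

end Crest.Agent.R241
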