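import Crest.Agent.R241.A

/-! Row 241 (Cartan-Hadamard): block U: ultralimits of chains (Riesz-Markov-Kakutani + Radon-Nikodym).
Third clause: `√(1-t) ≤ (β (1-t) + 1/β)/2` with `β` continuous, close in `L¹` to `1/√(1-Γ+δ)`. -/

set_option autoImplicit false

open MeasureTheory Set Filter Topology
open scoped ENNReal NNReal Matrix ContDiff

namespace Crest.Agent.R241

open Crest.GeometryTopology.Submanifold

universe u v

variable {X : Type u} [MetricSpace X] [CompactSpace X] [MeasurableSpace X] [BorelSpace X] {k : ℕ}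

theorem exists_ultralimit (T : ℕ → Chain X k) (M : ℝ) (hM : ∀ j, (T j).mass ≤ M)
    (𝒰 : Ultrafilter ℕ) :
    ∃ V : DV X,
      (∀ η : X → ℝ, Continuous η →
        Tendsto (fun j => ∫ p, η p ∂(T j).μ) 𝒰 (𝓝 (∫ p, η p ∂V.μ))) ∧
      (∀ η f h : X → ℝ, Continuous η → Lip f → Lip h →
        Tendsto (fun j => (T j).B η f h) 𝒰 (𝓝 (∫ p, η p * V.Γ f h p ∂V.μ))) ∧
      ∀ η f : X → ℝ, Continuous η → (∀ p, 0 ≤ η p) → LipschitzWith 1 f → ∀ ε > 0,
        ∀ᶠ j in (𝒰 : Filter ℕ), (T j).I (fun p t => η p * √(1 - t)) f f ≤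
          ∫ p, η p * √(1 - V.Γ f f p) ∂V.μ + ε := by
  obtain ⟨W, hW⟩ := exists_uLim T hM 𝒰
  refine ⟨W, hW.μ, hW.Γ, fun η f hη h0 hf ε hε => ?_⟩
  by_contra hc
  have h1 := (Ultrafilter.eventually_not.2 hc).mono fun j hj => (not_le.1 hj).le
  have h2 := hW.le_sqrt (f := f) (q := fun _ => 1) ⟨1, hf⟩ continuous_const hη h0
    (fun j i => by simpa using (T j).ae_G_self_le i hf)
    (c := ∫ p, η p * √(1 - W.Γ f f p) ∂W.μ + ε)
    fun δ hδ => h1.mono fun j hj => by linarith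
  linarith


end Crest.Agent.R241
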