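import Crest.Agent.R241.AlmFV
import Crest.Agent.R241.AlmDens
import Crest.Agent.R241.Ultra
import Crest.Agent.R241.KeyAll

/-! Row 241 (Cartan-Hadamard): block V: the induction step and its equality case. -/

set_option autoImplicit false

open MeasureTheory Set Filter Topology
open scoped ENNReal NNReal Matrix ContDiff

namespace Crest.Agent.R241

open Crest.GeometryTopology.Submanifold

universe u v

variable {X : Type u} [MetricSpace X] [CompactSpace X] [Nonempty X] [MeasurableSpace X]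
  [BorelSpace X] {l : ℝ} {n : ℕ}

omit [Nonempty X] in
/-- the ultralimit of an almost minimising sequence. -/
theorem h9_limit (c : CatSp l X) (hl : 0 ≤ l) (hn : 1 ≤ n) (hiso : IsoIn X n 0)
    {T : ℕ → Chain X (n + 1)} (hT : ∀ j, (T j).Cyc) {γ : ℝ} (hγ : 0 < γ) {e : ℕ → ℝ}
    (hA : AMin T (fun m => γ * Phi (n + 1) l m) e) (𝒰 : Ultrafilter ℕ)
    (he : Tendsto e 𝒰 (𝓝 0)) {B M : ℝ} (hB : ∀ j, (T j).mass ≤ B) (hM : 0 < M)
    (hm : Tendsto (fun j => (T j).mass) 𝒰 (𝓝 M)) :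
    ∃ V : DV X, V.FV (n + 1) l (1 / (γ * phi (n + 1) l M)) ∧ V.Dens (n + 1) ∧
      V.μ.real univ = M ∧ ∀ η : X → ℝ, Continuous η →
        Tendsto (fun j => ∫ p, η p ∂(T j).μ) 𝒰 (𝓝 (∫ p, η p ∂V.μ)) := by
  have hn1 : 1 ≤ n + 1 := by omega
  obtain ⟨V, h1, h2, h3⟩ := exists_ultralimit T B hB 𝒰
  have hd := fun m => (hasDerivAt_Phi hn1 hl m).const_mul γ
  refine ⟨V, fv_of_amin c hl hn1 hT hA 𝒰 he (mul_pos hγ (phi_pos hn1 hl hM)) hm
    (fun a ha b hb hab => mul_le_mul_of_nonneg_left (Phi_monotoneOn hn1 hl ha hb hab) hγ.le)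
    (continuous_iff_continuousAt.2 fun m => (hd m).continuousAt) (hd M) V h1 h2 h3,
    dens_of_amin' c hl hn hiso hT (F := fun m => γ * Phi (n + 1) l m) (e := e) hA 𝒰 he hM hm
      ((Phi_convexOn hn1 hl).smul hγ.le)
      (by simp [Phi_zero]) (fun m hm => mul_pos hγ ?_) V h1, ?_, h1⟩
  · rw [Phi_eq_alm]
    exact Alm.Fp_pos (by omega) hl hm
  · have h4 := h1 (fun _ => 1) continuous_const
    simp only [integral_const, smul_eq_mul, mul_one, Chain.μ_real_univ] at h4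
    exact tendsto_nhds_unique h4 hm

theorem iso_step' (c : CatSp l X) (hl : 0 ≤ l) (hn : 1 ≤ n) (hiso : IsoIn X n 0) :
    IsoIn X (n + 1) l := by
  have hn1 : 1 ≤ n + 1 := by omega
  refine isoIn_of_amin c hl hn1 fun γ hγ T e B hT hB he hA η hη => ?_
  by_contra hcon
  push Not at hcon
  obtain ⟨M, hMI, hm⟩ := (isCompact_Icc (a := η) (b := B)).ultrafilter_le_nhds
    ((hyperfilter ℕ).map fun j => (T j).mass)
    (le_principal_iff.2 (mem_map.2 (univ_mem' fun j => ⟨(hcon j).le, hB j⟩)))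
  have hM : 0 < M := hη.trans_le hMI.1
  obtain ⟨V, hFV, hD, hV, -⟩ := h9_limit c hl hn hiso hT (one_pos.trans hγ) hA (hyperfilter ℕ)
    (he.mono_left Nat.hyperfilter_le_atTop) hB hM hm
  have hk := key V (by omega) hl hFV hD (c.varIneq hl) (fun h => by simp [h] at hV; linarith)
  obtain ⟨r, hr, rfl⟩ := exists_area hn1 hl hM.le
  have hs := sA_pos (n + 1)
  have hN : (0 : ℝ) < ((n + 1 : ℕ) : ℝ) := by positivity
  have hsn : 0 < sn l r := by
    refine (sn_nonneg hl hr).lt_of_ne fun h => ?_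
    rw [area_eq, ← h] at hM
    simp at hM
  rw [hV, phi_area hn1 hl hr, area_eq, Real.mul_rpow hs.le (by positivity),
    ← Real.rpow_natCast (sn l r), ← Real.rpow_mul hsn.le, mul_div_cancel₀ _ hN.ne',
    Real.rpow_two] at hk
  have hp : 0 < sA (n + 1) ^ (2 / ((n + 1 : ℕ) : ℝ)) := Real.rpow_pos_of_pos hs _
  have hmd := md_nonneg hl r
  have hsq := sn_sq hl r
  generalize sA (n + 1) ^ (2 / ((n + 1 : ℕ) : ℝ)) = a at hk hp
  generalize ((n + 1 : ℕ) : ℝ) = N at hk hN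
  have hc : 0 < 1 + l * md l r := by positivity
  have hγ0 : 0 < γ := one_pos.trans hγ
  have e : ((1 / (γ * (sn l r / (N * (1 + l * md l r))))) ^ 2 - l * N ^ 2) * (a * sn l r ^ 2) =
      N ^ 2 * a * ((1 + l * md l r) ^ 2 / γ ^ 2 - l * sn l r ^ 2) := by
    field_simp
  rw [e] at hk
  have h1 : (1 + l * md l r) ^ 2 / γ ^ 2 < (1 + l * md l r) ^ 2 :=
    div_lt_self (by positivity) (by nlinarith)
  have h2 : (1 + l * md l r) ^ 2 = 1 + l * sn l r ^ 2 := by rw [hsq]; ring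
  have h3 : N ^ 2 * a * ((1 + l * md l r) ^ 2 / γ ^ 2 - l * sn l r ^ 2) < N ^ 2 * a * 1 :=
    mul_lt_mul_of_pos_left (by linarith) (by positivity)
  linarith

theorem eq_step' (c : CatSp 0 X) (hn : 1 ≤ n) (hiso : IsoIn X n 0) (hiso' : IsoIn X (n + 1) 0)
    (T : ℕ → Chain X (n + 1)) (hT : ∀ j, (T j).Cyc) {ρ₀ : ℝ} (hρ : 0 < ρ₀)
    (hm : Tendsto (fun j => (T j).mass) atTop (𝓝 (area (n + 1) 0 ρ₀))) {e : ℕ → ℝ}
    (he : Tendsto e atTop (𝓝 0)) (hF : ∀ j, (T j).FillGe (vol (n + 1) 0 ρ₀ - e j)) :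
    ∃ x : X, ∀ δ > 0, ∀ η > 0,
      ∃ᶠ j in atTop, (T j).μ.real {p | δ ≤ |dist x p - ρ₀|} ≤ η := by
  have hn1 : 1 ≤ n + 1 := by omega
  have hA := amin_of_fillGe le_rfl hn1 hiso' hT hF
  obtain ⟨B, hB⟩ := hm.bddAbove_range
  have hM : 0 < area (n + 1) 0 ρ₀ := by
    rw [area_eq, sn_zero_left]
    exact mul_pos (sA_pos _) (pow_pos hρ _)
  have he' : Tendsto (fun j => Phi (n + 1) 0 (T j).mass - (vol (n + 1) 0 ρ₀ - e j)) atTop
      (𝓝 0) := by
    have := (((hasDerivAt_Phi hn1 le_rfl _).continuousAt.tendsto.comp hm).sub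
      ((tendsto_const_nhds (x := vol (n + 1) 0 ρ₀)).sub he))
    rwa [Phi_area hn1 le_rfl hρ.le, sub_zero, sub_self] at this
  obtain ⟨V, hFV, hD, hV, h1⟩ := h9_limit c le_rfl hn hiso hT one_pos (by simpa using hA)
    (hyperfilter ℕ) (he'.mono_left Nat.hyperfilter_le_atTop) (fun j => hB (mem_range_self j)) hM
    (hm.mono_left Nat.hyperfilter_le_atTop)
  have hN : (0 : ℝ) < ((n + 1 : ℕ) : ℝ) := by positivity
  have e1 : 1 / (1 * phi (n + 1) 0 (area (n + 1) 0 ρ₀)) = ((n + 1 : ℕ) : ℝ) / ρ₀ := by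
    rw [phi_area hn1 le_rfl hρ.le, sn_zero_left]
    simp
  have e2 : ((n + 1 : ℕ) : ℝ) / (((n + 1 : ℕ) : ℝ) / ρ₀) = ρ₀ := by field_simp
  rw [e1] at hFV
  obtain ⟨x, hx⟩ := key_eq V (by omega) (div_pos hN hρ) hFV hD (c.varIneq le_rfl) (by rw [e2, hV])
  rw [e2] at hx
  have := V.fin
  exact ⟨x, conc_of_limit Nat.hyperfilter_le_atTop h1 hx⟩

end Crest.Agent.R241
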