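import Crest.Agent.R241.One
import Crest.Agent.R241.AlmEq

/-! Row 241 (Cartan-Hadamard): block V: Almgren's argument. -/

set_option autoImplicit false

open MeasureTheory Set Filter Topology
open scoped ENNReal NNReal Matrix ContDiff

namespace Crest.Agent.R241

open Crest.GeometryTopology.Submanifold

universe u v

variable {X : Type u} [MetricSpace X] [CompactSpace X] [Nonempty X] [MeasurableSpace X]
  [BorelSpace X] {l : ℝ} {n : ℕ}

theorem iso_step (c : CatSp l X) (hl : 0 ≤ l) (hn : 1 ≤ n) (hiso : IsoIn X n 0) :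
    IsoIn X (n + 1) l := iso_step' c hl hn hiso

theorem iso_all (c : CatSp l X) (hl : 0 ≤ l) (hn : 1 ≤ n) : IsoIn X n l := by
  induction n, hn using Nat.le_induction with
  | base => exact iso_one c hl
  | succ m hm ih => exact iso_step c hl hm (ih.flat hm hl)

theorem eq_step (c : CatSp 0 X) (hn : 1 ≤ n) (T : ℕ → Chain X (n + 1)) (hT : ∀ j, (T j).Cyc)
    {ρ₀ : ℝ} (hρ : 0 < ρ₀)
    (hm : Tendsto (fun j => (T j).mass) atTop (𝓝 (area (n + 1) 0 ρ₀))) {e : ℕ → ℝ}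
    (he : Tendsto e atTop (𝓝 0)) (hF : ∀ j, (T j).FillGe (vol (n + 1) 0 ρ₀ - e j)) :
    ∃ x : X, ∀ δ > 0, ∀ η > 0,
      ∃ᶠ j in atTop, (T j).μ.real {p | δ ≤ |dist x p - ρ₀|} ≤ η :=
  eq_step' c hn (iso_all c le_rfl hn) (iso_all c le_rfl (by omega)) T hT hρ hm he hF

/-- almost extremal cycles concentrate on a sphere. -/
theorem eq_case (c : CatSp 0 X) (hn : 1 ≤ n) (T : ℕ → Chain X n) (hT : ∀ j, (T j).Cyc)
    {ρ₀ : ℝ} (hρ : 0 < ρ₀)
    (hm : Tendsto (fun j => (T j).mass) atTop (𝓝 (area n 0 ρ₀))) {e : ℕ → ℝ}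
    (he : Tendsto e atTop (𝓝 0)) (hF : ∀ j, (T j).FillGe (vol n 0 ρ₀ - e j)) :
    ∃ x : X, ∀ δ > 0, ∀ η > 0,
      ∃ᶠ j in atTop, (T j).μ.real {p | δ ≤ |dist x p - ρ₀|} ≤ η := by
  obtain ⟨m, rfl⟩ : ∃ m, n = m + 1 := ⟨n - 1, by omega⟩
  cases m with
  | zero => exact eq_one c T hT hρ hm he hF
  | succ m => exact eq_step c (by omega) T hT hρ hm he hF

/-- exact filling in curvature `≤ 0`. -/
theorem fill_exact (c : CatSp 0 X) (hn : 1 ≤ n) (T : Chain X n) (hT : T.Cyc) :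
    ∃ S : Chain X (n + 1), S.Bd T ∧ S.mass ≤ Phi n 0 T.mass := by
  obtain ⟨ρ₀, hρ₀, hρ⟩ := exists_area hn le_rfl T.mass_nonneg
  rw [← hρ, Phi_area hn le_rfl hρ₀]
  rcases hρ₀.eq_or_lt with rfl | hρ₀
  · obtain ⟨x⟩ := ‹Nonempty X›
    obtain ⟨r, hr⟩ := (isCompact_univ (X := X)).isBounded.subset_closedBall x
    obtain ⟨S, hS, hm⟩ := h9_cone_ball c le_rfl T hT x (r := r) fun _ _ _ => hr (mem_univ _)
    refine ⟨S, hS, hm.trans (le_of_eq ?_)⟩
    rw [← hρ, area_eq, vol_zero_left, sn_zero, zero_pow (by omega), zero_pow (by omega)]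
    simp
  by_contra hcon
  push Not at hcon
  obtain ⟨x, hx⟩ := eq_case c hn (fun _ => T) (fun _ => hT) hρ₀ (hρ ▸ tendsto_const_nhds)
    (e := fun _ => 0) tendsto_const_nhds fun _ S hS => by rw [sub_zero]; exact (hcon S hS).le
  have h0 : ∀ᵐ p ∂T.μ, dist x p ≤ ρ₀ := by
    have h1 : ∀ k : ℕ, ∀ᵐ p ∂T.μ, |dist x p - ρ₀| < 1 / ((k : ℝ) + 1) := fun k => by
      rw [ae_iff]
      simp only [not_lt]
      rw [← measureReal_eq_zero_iff]
      exact le_antisymm (le_of_forall_pos_le_add fun η hη => by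
        simpa using (hx _ Nat.one_div_pos_of_nat η hη).exists) measureReal_nonneg
    filter_upwards [ae_all_iff.2 h1] with p hp
    by_contra h
    obtain ⟨k, hk⟩ := exists_nat_one_div_lt (sub_pos.2 (not_le.1 h))
    linarith [hp k, le_abs_self (dist x p - ρ₀)]
  obtain ⟨S, hS, hm⟩ := cone_fill c le_rfl T hT x
  have hn1 : (0 : ℝ) < n + 1 := by positivity
  have hw := h9_coneW_bm (n := n) le_rfl x
  refine (hcon S hS).not_ge (hm.trans ((h9_I_le T (lip_dist x) hw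
    (.of_forall fun q => coneW_nonneg le_rfl n dist_nonneg) (ψ := fun t => √(1 - t)) (by fun_prop)
    fun t ht => Real.sqrt_le_one.2 (by linarith [ht.1])).trans ?_))
  refine (integral_mono_ae (hw.integrable _) (integrable_const (ρ₀ / (n + 1))) ?_).trans
    (le_of_eq ?_)
  · filter_upwards [h0] with q hq
    exact (coneW_le le_rfl n dist_nonneg).trans (div_le_div_of_nonneg_right hq hn1.le)
  · rw [integral_const, T.μ_real_univ, ← hρ, area_eq, vol_zero_left, sn_zero_left, sA_eq,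
      smul_eq_mul, pow_succ]
    field_simp

end Crest.Agent.R241
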