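import Crest.Agent.R241.Defs

/-! Row 241, block ALM: the model functions `sn`, `md`, and the isoperimetric profile `Fp` as a
function of the boundary mass. -/

set_option autoImplicit false

open MeasureTheory Set Filter Topology
open scoped ENNReal NNReal

namespace Crest.Agent.R241.Alm

open Crest.GeometryTopology.Submanifold

noncomputable section

/-- `cosh(√l r)`. -/
def cs (l r : ℝ) : ℝ := Real.cosh (√l * r)

variable {l : ℝ}

theorem sn_zero_left (r : ℝ) : sn 0 r = r := by simp [sn, snk]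

theorem md_zero_left (r : ℝ) : md 0 r = r ^ 2 / 2 := by simp [md]

theorem cs_zero_left (r : ℝ) : cs 0 r = 1 := by simp [cs]

theorem sn_of_pos (hl : 0 < l) (r : ℝ) : sn l r = Real.sinh (√l * r) / √l := by
  simp [sn, snk, hl.ne']

theorem md_of_pos (hl : 0 < l) (r : ℝ) : md l r = (Real.cosh (√l * r) - 1) / l := by
  simp [md, hl.ne']

theorem cs_pos (l r : ℝ) : 0 < cs l r := Real.cosh_pos _

theorem one_le_cs (l r : ℝ) : 1 ≤ cs l r := Real.one_le_cosh _

theorem cs_eq (hl : 0 ≤ l) (r : ℝ) : cs l r = 1 + l * md l r := by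
  rcases hl.eq_or_lt with rfl | hl
  · simp [cs]
  · rw [md_of_pos hl, cs]; field_simp; ring

theorem cs_sq (hl : 0 ≤ l) (r : ℝ) : cs l r ^ 2 = 1 + l * sn l r ^ 2 := by
  rcases hl.eq_or_lt with rfl | hl
  · simp [cs]
  · have h : 0 < √l := Real.sqrt_pos.2 hl
    rw [sn_of_pos hl, cs, div_pow, Real.sq_sqrt hl.le, Real.cosh_sq]
    field_simp; ring

theorem sn_sq (hl : 0 ≤ l) (r : ℝ) : sn l r ^ 2 = 2 * md l r + l * md l r ^ 2 := by
  rcases hl.eq_or_lt with rfl | hl
  · simp [sn_zero_left, md_zero_left]; ring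
  · have h1 := cs_sq hl.le r
    rw [cs_eq hl.le] at h1
    have : l * sn l r ^ 2 = l * (2 * md l r + l * md l r ^ 2) := by linear_combination -h1
    exact mul_left_cancel₀ hl.ne' this

theorem hasDerivAt_sn (hl : 0 ≤ l) (r : ℝ) : HasDerivAt (sn l) (cs l r) r := by
  rcases hl.eq_or_lt with rfl | hl
  · have : sn 0 = id := funext sn_zero_left
    rw [this, cs_zero_left]; exact hasDerivAt_id r
  · have h : 0 < √l := Real.sqrt_pos.2 hl
    have : sn l = fun r => Real.sinh (√l * r) / √l := funext (sn_of_pos hl)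
    rw [this]
    have h1 := (((hasDerivAt_id r).const_mul √l).sinh).div_const √l
    refine h1.congr_deriv ?_
    simp only [cs, id, mul_one]; field_simp

theorem hasDerivAt_md (hl : 0 ≤ l) (r : ℝ) : HasDerivAt (md l) (sn l r) r := by
  rcases hl.eq_or_lt with rfl | hl
  · have : md 0 = fun r => r ^ 2 / 2 := funext md_zero_left
    rw [this, sn_zero_left]
    refine ((hasDerivAt_pow 2 r).div_const 2).congr_deriv ?_
    norm_num
  · have h : 0 < √l := Real.sqrt_pos.2 hl
    have : md l = fun r => (Real.cosh (√l * r) - 1) / l := funext (md_of_pos hl)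
    rw [this, sn_of_pos hl]
    have h1 := ((((hasDerivAt_id r).const_mul √l).cosh).sub_const 1).div_const l
    refine h1.congr_deriv ?_
    simp only [id, mul_one]
    field_simp
    rw [Real.sq_sqrt hl.le, mul_comm]

theorem hasDerivAt_cs (hl : 0 ≤ l) (r : ℝ) : HasDerivAt (cs l) (l * sn l r) r := by
  have : cs l = fun r => 1 + l * md l r := funext (cs_eq hl)
  rw [this]
  exact ((hasDerivAt_md hl r).const_mul l).const_add 1

theorem continuous_cs (l : ℝ) : Continuous (cs l) := by unfold cs; fun_prop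

theorem continuous_sn (hl : 0 ≤ l) : Continuous (sn l) :=
  continuous_iff_continuousAt.2 fun r => (hasDerivAt_sn hl r).continuousAt

theorem continuous_md (hl : 0 ≤ l) : Continuous (md l) :=
  continuous_iff_continuousAt.2 fun r => (hasDerivAt_md hl r).continuousAt

theorem sn_zero (l : ℝ) : sn l 0 = 0 := by
  unfold sn snk; split_ifs <;> simp

theorem md_zero (l : ℝ) : md l 0 = 0 := by
  unfold md; split_ifs <;> simp

theorem md_neg (l r : ℝ) : md l (-r) = md l r := by
  unfold md; split_ifs <;> simp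

theorem md_abs (l r : ℝ) : md l |r| = md l r := by
  rcases abs_choice r with h | h <;> rw [h]
  exact md_neg l r

theorem strictMono_sn (hl : 0 ≤ l) : StrictMono (sn l) :=
  strictMono_of_hasDerivAt_pos (hasDerivAt_sn hl) fun r => cs_pos l r

theorem sn_pos (hl : 0 ≤ l) {r : ℝ} (hr : 0 < r) : 0 < sn l r := by
  simpa [sn_zero] using strictMono_sn hl hr

theorem sn_nonneg (hl : 0 ≤ l) {r : ℝ} (hr : 0 ≤ r) : 0 ≤ sn l r := by
  simpa [sn_zero] using (strictMono_sn hl).monotone hr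

theorem le_sn (hl : 0 ≤ l) {r : ℝ} (hr : 0 ≤ r) : r ≤ sn l r := by
  have h : Monotone fun r => sn l r - r :=
    monotone_of_hasDerivAt_nonneg (f' := fun r => cs l r - 1)
      (fun r => (hasDerivAt_sn hl r).sub (hasDerivAt_id r))
      fun r => by simpa using one_le_cs l r
  have := h hr
  simp only [sn_zero] at this
  linarith

theorem strictMonoOn_md (hl : 0 ≤ l) : StrictMonoOn (md l) (Ici 0) := by
  refine strictMonoOn_of_deriv_pos (convex_Ici 0) (continuous_md hl).continuousOn fun r hr => ?_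
  rw [(hasDerivAt_md hl r).deriv]
  exact sn_pos hl (by simpa using hr)

theorem md_nonneg (hl : 0 ≤ l) (r : ℝ) : 0 ≤ md l r := by
  rw [← md_abs]
  simpa [md_zero] using (strictMonoOn_md hl).monotoneOn (mem_Ici.2 le_rfl)
    (mem_Ici.2 (abs_nonneg r)) (abs_nonneg r)

theorem md_le_of_abs_le (hl : 0 ≤ l) {a b : ℝ} (h : |a| ≤ |b|) : md l a ≤ md l b := by
  rw [← md_abs l a, ← md_abs l b]
  exact (strictMonoOn_md hl).monotoneOn (mem_Ici.2 (abs_nonneg _)) (mem_Ici.2 (abs_nonneg _)) h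

theorem le_of_md_le (hl : 0 ≤ l) {a b : ℝ} (ha : 0 ≤ a) (hb : 0 ≤ b) (h : md l a ≤ md l b) :
    a ≤ b := ((strictMonoOn_md hl).le_iff_le (mem_Ici.2 ha) (mem_Ici.2 hb)).1 h

theorem unitBallVol_pos (n : ℕ) : 0 < unitBallVol n :=
  ENNReal.toReal_pos (Metric.measure_ball_pos _ _ one_pos).ne' measure_ball_lt_top.ne

theorem sA_eq (n : ℕ) : sA n = (n + 1) * unitBallVol (n + 1) := by
  simp [sA, unitSphereArea]

theorem sA_pos (n : ℕ) : 0 < sA n := by
  rw [sA_eq]; have := unitBallVol_pos (n + 1); positivity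

theorem area_eq (n : ℕ) (l r : ℝ) : area n l r = sA n * sn l r ^ n := by
  simp [area, modelArea, sA, sn]

theorem vol_eq (n : ℕ) (l r : ℝ) : vol n l r = sA n * ∫ t in (0 : ℝ)..r, sn l t ^ n := by
  simp [vol, modelVolume, sA, sn]

theorem vol_zero_left (n : ℕ) (r : ℝ) : vol n 0 r = unitBallVol (n + 1) * r ^ (n + 1) := by
  rw [vol_eq, sA_eq]
  simp only [sn_zero_left, integral_pow]
  have : (n : ℝ) + 1 ≠ 0 := by positivity
  field_simp
  simp

theorem area_zero_left (n : ℕ) (r : ℝ) : area n 0 r = sA n * r ^ n := by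
  rw [area_eq, sn_zero_left]

theorem coneW_nonneg (n : ℕ) (hl : 0 ≤ l) {r : ℝ} (hr : 0 ≤ r) : 0 ≤ coneW n l r :=
  intervalIntegral.integral_nonneg hr fun t ht =>
    pow_nonneg (div_nonneg (sn_nonneg hl ht.1) (sn_nonneg hl hr)) n

theorem coneW_le (n : ℕ) (hl : 0 ≤ l) {r : ℝ} (hr : 0 ≤ r) : coneW n l r ≤ r := by
  have h : coneW n l r ≤ ∫ _ in (0 : ℝ)..r, (1 : ℝ) := by
    refine intervalIntegral.integral_mono_on hr ?_ (by simp) fun t ht => ?_
    · exact (((continuous_sn hl).div_const _).pow n).intervalIntegrable _ _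
    · refine pow_le_one₀ (div_nonneg (sn_nonneg hl ht.1) (sn_nonneg hl hr)) ?_
      exact div_le_one_of_le₀ ((strictMono_sn hl).monotone ht.2) (sn_nonneg hl hr)
  simpa using h

theorem coneW_zero_left (n : ℕ) {r : ℝ} (hr : 0 ≤ r) : coneW n 0 r = r / (n + 1) := by
  rcases hr.eq_or_lt with rfl | hr
  · simp [coneW]
  · simp only [coneW, sn_zero_left, div_pow, intervalIntegral.integral_div, integral_pow]
    have : (n : ℝ) + 1 ≠ 0 := by positivity
    field_simp
    simp [pow_succ]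

theorem coneW_one (hl : 0 ≤ l) (r : ℝ) : coneW 1 l r = md l r / sn l r := by
  simp only [coneW, pow_one, intervalIntegral.integral_div]
  rw [intervalIntegral.integral_eq_sub_of_hasDerivAt (fun t _ => hasDerivAt_md hl t)
    ((continuous_sn hl).intervalIntegrable _ _), md_zero, sub_zero]

/-- `sn` of the radius of the model sphere of area `m`. -/
def sg (n : ℕ) (m : ℝ) : ℝ := (m / sA n) ^ ((n : ℝ)⁻¹)

/-- the derivative of the profile: the inverse mean curvature of the model sphere of area `m`. -/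
def phi (n : ℕ) (l m : ℝ) : ℝ := sg n m / (n * √(1 + l * sg n m ^ 2))

/-- the isoperimetric profile: volume of the model ball with boundary area `M`. -/
def Fp (n : ℕ) (l M : ℝ) : ℝ := ∫ m in (0 : ℝ)..M, phi n l m

variable {n : ℕ}

theorem continuous_sg (n : ℕ) : Continuous (sg n) :=
  (Real.continuous_rpow_const (by positivity)).comp (continuous_id.div_const _)

theorem sg_nonneg (n : ℕ) {m : ℝ} (hm : 0 ≤ m) : 0 ≤ sg n m :=
  Real.rpow_nonneg (div_nonneg hm (sA_pos n).le) _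

theorem sg_pos (n : ℕ) {m : ℝ} (hm : 0 < m) : 0 < sg n m :=
  Real.rpow_pos_of_pos (div_pos hm (sA_pos n)) _

theorem sg_mono (n : ℕ) {a b : ℝ} (ha : 0 ≤ a) (hab : a ≤ b) : sg n a ≤ sg n b :=
  Real.rpow_le_rpow (div_nonneg ha (sA_pos n).le)
    (div_le_div_of_nonneg_right hab (sA_pos n).le) (by positivity)

theorem sg_pow (hn : n ≠ 0) {m : ℝ} (hm : 0 ≤ m) : sA n * sg n m ^ n = m := by
  rw [sg, Real.rpow_inv_natCast_pow (div_nonneg hm (sA_pos n).le) hn]
  have := sA_pos n
  field_simp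

theorem sg_mul_pow (hn : n ≠ 0) {s : ℝ} (hs : 0 ≤ s) : sg n (sA n * s ^ n) = s := by
  rw [sg, mul_div_cancel_left₀ _ (sA_pos n).ne', Real.pow_rpow_inv_natCast hs hn]

theorem sg_area (hn : n ≠ 0) (hl : 0 ≤ l) {r : ℝ} (hr : 0 ≤ r) : sg n (area n l r) = sn l r := by
  rw [area_eq, sg_mul_pow hn (sn_nonneg hl hr)]

theorem continuous_phi (hn : n ≠ 0) (hl : 0 ≤ l) : Continuous (phi n l) := by
  refine (continuous_sg n).div (continuous_const.mul
    (continuous_const.add (continuous_const.mul ((continuous_sg n).pow 2))).sqrt) fun m => ?_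
  have : 0 < 1 + l * sg n m ^ 2 := by positivity
  have : (0 : ℝ) < n := by exact_mod_cast Nat.pos_of_ne_zero hn
  positivity

theorem phi_nonneg (hl : 0 ≤ l) {m : ℝ} (hm : 0 ≤ m) : 0 ≤ phi n l m := by
  have := sg_nonneg n hm
  unfold phi; positivity

theorem phi_pos (hn : n ≠ 0) (hl : 0 ≤ l) {m : ℝ} (hm : 0 < m) : 0 < phi n l m := by
  have := sg_pos n hm
  have : (0 : ℝ) < n := by exact_mod_cast Nat.pos_of_ne_zero hn
  have : 0 < 1 + l * sg n m ^ 2 := by positivity
  unfold phi; positivity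

theorem div_sqrt_mono (hl : 0 ≤ l) {a b : ℝ} (ha : 0 ≤ a) (hab : a ≤ b) :
    a / √(1 + l * a ^ 2) ≤ b / √(1 + l * b ^ 2) := by
  have hb : 0 ≤ b := ha.trans hab
  have h1 : 0 < 1 + l * a ^ 2 := by positivity
  have h2 : 0 < 1 + l * b ^ 2 := by positivity
  rw [div_le_div_iff₀ (Real.sqrt_pos.2 h1) (Real.sqrt_pos.2 h2)]
  refine (pow_le_pow_iff_left₀ (by positivity) (by positivity) two_ne_zero).1 ?_
  rw [mul_pow, mul_pow, Real.sq_sqrt h1.le, Real.sq_sqrt h2.le]
  have : a ^ 2 ≤ b ^ 2 := pow_le_pow_left₀ ha hab 2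
  nlinarith

theorem phi_mono (hl : 0 ≤ l) {a b : ℝ} (ha : 0 ≤ a) (hab : a ≤ b) : phi n l a ≤ phi n l b := by
  have h := div_sqrt_mono hl (sg_nonneg n ha) (sg_mono n ha hab)
  unfold phi
  rw [mul_comm (n : ℝ), mul_comm (n : ℝ), ← div_div, ← div_div]
  exact div_le_div_of_nonneg_right h (by positivity)

theorem phi_area (hn : n ≠ 0) (hl : 0 ≤ l) {r : ℝ} (hr : 0 ≤ r) :
    phi n l (area n l r) = sn l r / (n * cs l r) := by
  rw [phi, sg_area hn hl hr, ← cs_sq hl, Real.sqrt_sq (cs_pos l r).le]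

theorem hasDerivAt_Fp (hn : n ≠ 0) (hl : 0 ≤ l) (M : ℝ) : HasDerivAt (Fp n l) (phi n l M) M :=
  ((continuous_phi hn hl).integral_hasStrictDerivAt 0 M).hasDerivAt

theorem continuous_Fp (hn : n ≠ 0) (hl : 0 ≤ l) : Continuous (Fp n l) :=
  continuous_iff_continuousAt.2 fun M => (hasDerivAt_Fp hn hl M).continuousAt

theorem Fp_zero (n : ℕ) (l : ℝ) : Fp n l 0 = 0 := by simp [Fp]

theorem Fp_sub (hn : n ≠ 0) (hl : 0 ≤ l) (a b : ℝ) :
    Fp n l b - Fp n l a = ∫ m in a..b, phi n l m :=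
  intervalIntegral.integral_interval_sub_left ((continuous_phi hn hl).intervalIntegrable _ _)
    ((continuous_phi hn hl).intervalIntegrable _ _)

/-- convexity: the graph lies above its tangent lines. -/
theorem Fp_tangent (hn : n ≠ 0) (hl : 0 ≤ l) {a b : ℝ} (ha : 0 ≤ a) (hb : 0 ≤ b) :
    Fp n l a + phi n l a * (b - a) ≤ Fp n l b := by
  have hi := fun a b => (continuous_phi hn hl).intervalIntegrable (μ := volume) a b
  rcases le_total a b with h | h
  · have h1 : ∫ _ in a..b, phi n l a ≤ ∫ m in a..b, phi n l m :=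
      intervalIntegral.integral_mono_on h (by simp) (hi _ _) fun m hm => phi_mono hl ha hm.1
    rw [← Fp_sub hn hl] at h1
    simp only [intervalIntegral.integral_const, smul_eq_mul] at h1
    linarith
  · have h1 : ∫ m in b..a, phi n l m ≤ ∫ _ in b..a, phi n l a :=
      intervalIntegral.integral_mono_on h (hi _ _) (by simp)
        fun m hm => phi_mono hl (hb.trans hm.1) hm.2
    rw [← Fp_sub hn hl] at h1
    simp only [intervalIntegral.integral_const, smul_eq_mul] at h1
    linarith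

theorem Fp_mono (hn : n ≠ 0) (hl : 0 ≤ l) {a b : ℝ} (ha : 0 ≤ a) (hab : a ≤ b) :
    Fp n l a ≤ Fp n l b := by
  have := Fp_tangent hn hl ha (ha.trans hab)
  have := mul_nonneg (phi_nonneg (n := n) hl ha) (sub_nonneg.2 hab)
  linarith

theorem Fp_nonneg (hn : n ≠ 0) (hl : 0 ≤ l) {a : ℝ} (ha : 0 ≤ a) : 0 ≤ Fp n l a := by
  simpa [Fp_zero] using Fp_mono hn hl le_rfl ha

theorem Fp_pos (hn : n ≠ 0) (hl : 0 ≤ l) {a : ℝ} (ha : 0 < a) : 0 < Fp n l a := by
  have h1 := Fp_tangent hn hl (a := a / 2) (b := a) (by positivity) ha.le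
  have h2 := Fp_nonneg hn hl (a := a / 2) (by positivity)
  have h3 := phi_pos hn hl (m := a / 2) (by positivity)
  have : 0 < phi n l (a / 2) * (a - a / 2) := mul_pos h3 (by linarith)
  linarith

/-- chords from the origin: `F(y) M ≤ y F(M)` for `0 ≤ y ≤ M`. -/
theorem Fp_chord (hn : n ≠ 0) (hl : 0 ≤ l) {y M : ℝ} (hy : 0 ≤ y) (hyM : y ≤ M) :
    Fp n l y * M ≤ y * Fp n l M := by
  have h1 := Fp_tangent hn hl hy le_rfl
  have h2 := Fp_tangent hn hl hy (hy.trans hyM)
  rw [Fp_zero] at h1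
  have h3 := mul_le_mul_of_nonneg_left h1 (sub_nonneg.2 hyM)
  have h4 := mul_le_mul_of_nonneg_left h2 hy
  nlinarith

/-- removing mass `y` lowers the profile by at least `y F(M) / M`. -/
theorem Fp_drop (hn : n ≠ 0) (hl : 0 ≤ l) {y M : ℝ} (hy : 0 ≤ y) (hyM : y ≤ M) :
    y * Fp n l M ≤ (Fp n l M - Fp n l (M - y)) * M := by
  have := Fp_chord hn hl (y := M - y) (M := M) (by linarith) (by linarith)
  nlinarith

theorem Fp_area (hn : n ≠ 0) (hl : 0 ≤ l) {r : ℝ} (hr : 0 ≤ r) :
    Fp n l (area n l r) = vol n l r := by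
  have ha : area n l = fun t => sA n * sn l t ^ n := funext (area_eq n l)
  have hd : ∀ t, HasDerivAt (area n l) (sA n * (n * sn l t ^ (n - 1) * cs l t)) t := fun t => by
    rw [ha]; exact ((hasDerivAt_sn hl t).pow n).const_mul _
  have h1 := intervalIntegral.integral_comp_mul_deriv (a := 0) (b := r) (fun t _ => hd t)
    (Continuous.continuousOn (by have := continuous_sn hl; have := continuous_cs l; fun_prop))
    (continuous_phi hn hl)
  have h0 : area n l 0 = 0 := by rw [area_eq, sn_zero, zero_pow hn, mul_zero]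
  rw [h0] at h1
  rw [Fp, ← h1, vol_eq, ← intervalIntegral.integral_const_mul]
  refine intervalIntegral.integral_congr fun t ht => ?_
  rw [uIcc_of_le hr] at ht
  simp only [Function.comp]
  rw [phi_area hn hl ht.1]
  have h2 := cs_pos l t
  have h3 : (0 : ℝ) < n := by exact_mod_cast Nat.pos_of_ne_zero hn
  obtain ⟨k, rfl⟩ := Nat.exists_eq_succ_of_ne_zero hn
  simp only [Nat.succ_eq_add_one, Nat.add_sub_cancel]
  field_simp
  ring

theorem area_nonneg (n : ℕ) (hl : 0 ≤ l) {r : ℝ} (hr : 0 ≤ r) : 0 ≤ area n l r := by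
  rw [area_eq]; exact mul_nonneg (sA_pos n).le (pow_nonneg (sn_nonneg hl hr) n)

theorem exists_area_eq (hn : n ≠ 0) (hl : 0 ≤ l) {M : ℝ} (hM : 0 ≤ M) :
    ∃ r, 0 ≤ r ∧ area n l r = M := by
  have hs := sg_nonneg n hM
  obtain ⟨r, hr, h⟩ : sg n M ∈ sn l '' Icc 0 (sg n M) :=
    intermediate_value_Icc hs (continuous_sn hl).continuousOn
      ⟨by rw [sn_zero]; exact hs, le_sn hl hs⟩
  exact ⟨r, hr.1, by rw [area_eq, h, sg_pow hn hM]⟩

/-- flat profile. -/
theorem Fp_flat (hn : n ≠ 0) {M : ℝ} (hM : 0 ≤ M) :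
    Fp n 0 M = unitBallVol (n + 1) * sg n M ^ (n + 1) := by
  have h := Fp_area hn le_rfl (sg_nonneg n hM)
  rw [area_zero_left, sg_pow hn hM, vol_zero_left] at h
  exact h

theorem phi_flat (n : ℕ) (M : ℝ) : phi n 0 M = sg n M / n := by simp [phi]

/-- the profile grows at least linearly. -/
theorem le_of_Fp_le (hn : n ≠ 0) (hl : 0 ≤ l) {M c : ℝ} (hM : 0 ≤ M) (h : Fp n l M ≤ c) :
    M ≤ 1 + c / phi n l 1 := by
  have h1 := Fp_tangent hn hl zero_le_one hM
  have h2 := Fp_nonneg hn hl (n := n) zero_le_one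
  have h3 := phi_pos hn hl (n := n) one_pos
  have : M - 1 ≤ c / phi n l 1 := by rw [le_div_iff₀ h3]; linarith
  linarith

end

end Crest.Agent.R241.Alm
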