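import Crest.Agent.R241.AlmMin

/-! Row 241 (Cartan-Hadamard): the first variation of the ultralimit of almost minimisers. -/

set_option autoImplicit false

open MeasureTheory Set Filter Topology
open scoped ENNReal NNReal Matrix ContDiff

namespace Crest.Agent.R241

open Crest.GeometryTopology.Submanifold

universe u v

variable {X : Type u} [MetricSpace X] [CompactSpace X] [MeasurableSpace X]
  [BorelSpace X] {l : ℝ} {n : ℕ}

theorem DV.Γ_Dx (V : DV X) (hl : 0 ≤ l) (x : X) :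
    ∀ᵐ p ∂V.μ, V.Γ (Dx l x) (Dx l x) p = sn l (dist x p) ^ 2 * V.Γ (dist x) (dist x) p := by
  have hd : Lip (dist x) := ⟨1, lip_dist x⟩
  have hm : ContDiff ℝ 1 (md l) := (contDiff_md l).of_le (by norm_cast)
  have h1 := V.chain (md l) (dist x) (Dx l x) hm hd (lip_Dx l x)
  have h2 := V.symm (dist x) (Dx l x) hd (lip_Dx l x)
  have h3 := V.chain (md l) (dist x) (dist x) hm hd hd
  filter_upwards [h1, h2, h3] with p h1 h2 h3
  have e : (fun y => md l (dist x y)) = Dx l x := rfl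
  rw [e] at h1 h3
  rw [h1, h2, h3, (hasDerivAt_md hl _).deriv]
  ring

/-- first variation of the ultralimit (from `deform`). -/
theorem fv_of_amin (c : CatSp l X) (hl : 0 ≤ l) (hn : 1 ≤ n) {T : ℕ → Chain X n}
    (hT : ∀ j, (T j).Cyc) {F : ℝ → ℝ} {e : ℕ → ℝ} (hA : AMin T F e) (𝒰 : Ultrafilter ℕ)
    (he : Tendsto e 𝒰 (𝓝 0)) {M φ : ℝ} (hφ : 0 < φ)
    (hm : Tendsto (fun j => (T j).mass) 𝒰 (𝓝 M)) (hFm : MonotoneOn F (Ici 0))
    (hFc : Continuous F) (hFd : HasDerivAt F φ M) (V : DV X)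
    (h1 : ∀ η : X → ℝ, Continuous η →
        Tendsto (fun j => ∫ p, η p ∂(T j).μ) 𝒰 (𝓝 (∫ p, η p ∂V.μ)))
    (h2 : ∀ η f h : X → ℝ, Continuous η → Lip f → Lip h →
        Tendsto (fun j => (T j).B η f h) 𝒰 (𝓝 (∫ p, η p * V.Γ f h p ∂V.μ)))
    (h3 : ∀ η f : X → ℝ, Continuous η → (∀ p, 0 ≤ η p) → LipschitzWith 1 f → ∀ ε > 0,
        ∀ᶠ j in (𝒰 : Filter ℕ), (T j).I (fun p t => η p * √(1 - t)) f f ≤
          ∫ p, η p * √(1 - V.Γ f f p) ∂V.μ + ε) :
    V.FV n l (1 / φ) := by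
  intro x η hη h0
  haveI := V.fin
  obtain ⟨C, s₀, hs₀, hdef⟩ := deform c hl hn x hη h0
  have hDc : Continuous (Dx l x) := (lip_Dx l x).continuous
  have hsn : Continuous fun p => η p * sn l (dist x p) :=
    hη.continuous.mul ((Alm.continuous_sn hl).comp (by fun_prop))
  have hsn0 : ∀ p, 0 ≤ η p * sn l (dist x p) := fun p =>
    mul_nonneg (h0 p) (sn_nonneg hl dist_nonneg)
  have hq : Continuous fun p => η p * (1 + l * Dx l x p) := by
    have := hη.continuous; fun_prop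
  set P : ℝ := ∫ p, 1 * V.Γ η (Dx l x) p ∂V.μ + n * ∫ p, η p * (1 + l * Dx l x p) ∂V.μ with hP
  set Q : ℝ := ∫ p, η p * sn l (dist x p) * √(1 - V.Γ (dist x) (dist x) p) ∂V.μ with hQ
  have hPj : Tendsto (fun j => (T j).B (fun _ => 1) η (Dx l x) +
      n * ∫ p, η p * (1 + l * Dx l x p) ∂(T j).μ) 𝒰 (𝓝 P) :=
    (h2 _ _ _ continuous_const hη (lip_Dx l x)).add ((h1 _ hq).const_mul _)
  have hs : ∀ s ∈ Ioc 0 s₀, F M - F (M - s * P + C * s ^ 2 * M) ≤ s * Q := by
    intro s hs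
    refine le_of_forall_pos_le_add fun ε hε => ?_
    have hε' : 0 < ε / s := div_pos hε hs.1
    have hl1 : Tendsto (fun j => F (T j).mass - F ((T j).mass - s * ((T j).B (fun _ => 1) η (Dx l x) +
        n * ∫ p, η p * (1 + l * Dx l x p) ∂(T j).μ) + C * s ^ 2 * (T j).mass) - e j) 𝒰
        (𝓝 (F M - F (M - s * P + C * s ^ 2 * M) - 0)) :=
      (((hFc.tendsto _).comp hm).sub ((hFc.tendsto _).comp
        ((hm.sub (hPj.const_mul s)).add (hm.const_mul _)))).sub he
    rw [sub_zero] at hl1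
    refine le_of_tendsto hl1 ?_
    filter_upwards [h3 _ (dist x) hsn hsn0 (lip_dist x) _ hε'] with j hj
    obtain ⟨T', S, hH, hT', hS⟩ := hdef (T j) (hT j) s hs
    have a1 := hA j T' S hH
    have a2 := hFm (mem_Ici.2 T'.mass_nonneg) (mem_Ici.2 (T'.mass_nonneg.trans hT')) hT'
    have a3 := mul_le_mul_of_nonneg_left hj hs.1.le
    rw [mul_add, mul_div_cancel₀ _ hs.1.ne'] at a3
    linarith
  have hd : HasDerivAt (fun s => F (M - s * P + C * s ^ 2 * M)) (φ * -P) 0 := by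
    have h4 : HasDerivAt (fun s : ℝ => M - s * P + C * s ^ 2 * M) (-P) 0 := by
      have := (((hasDerivAt_id (0 : ℝ)).mul_const P).const_sub M).add
        (((hasDerivAt_pow 2 (0 : ℝ)).const_mul C).mul_const M)
      refine this.congr_deriv ?_
      simp
    have h5 : HasDerivAt F φ (M - 0 * P + C * 0 ^ 2 * M) := by simpa using hFd
    exact h5.comp (0 : ℝ) h4
  have hPQ : φ * P ≤ Q := by
    have h6 := (hasDerivAt_iff_tendsto_slope.1 hd).mono_left
      (nhdsWithin_mono (0 : ℝ) fun u (hu : u ∈ Ioi (0 : ℝ)) => (ne_of_gt hu : u ≠ 0))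
    have h7 : -Q ≤ φ * -P := by
      refine ge_of_tendsto h6 ?_
      filter_upwards [Ioc_mem_nhdsGT hs₀] with s hs'
      have := hs s hs'
      rw [slope_def_field, sub_zero, le_div_iff₀ hs'.1]
      simp only [zero_mul, sub_zero, ne_eq, OfNat.ofNat_ne_zero, not_false_eq_true, zero_pow,
        mul_zero, add_zero]
      linarith
    linarith
  have e1 : ∫ p, (n * η p * (1 + l * Dx l x p) + V.Γ η (Dx l x) p) ∂V.μ = P := by
    have i1 := V.kintegrable (h := fun _ => 1) continuous_const hη (lip_Dx l x)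
    have i2 : Integrable (fun p => n * (η p * (1 + l * Dx l x p))) V.μ :=
      ((BM.of_continuous hq).integrable V.μ).const_mul _
    rw [hP, ← integral_const_mul, ← integral_add i1 i2]
    exact integral_congr_ae (.of_forall fun p => by ring)
  have e2 : ∫ p, η p * √(2 * Dx l x p + l * Dx l x p ^ 2 - V.Γ (Dx l x) (Dx l x) p) ∂V.μ = Q := by
    refine integral_congr_ae ?_
    filter_upwards [V.Γ_Dx hl x] with p hp
    have : 2 * Dx l x p + l * Dx l x p ^ 2 = sn l (dist x p) ^ 2 := (sn_sq hl _).symm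
    rw [hp, this, ← mul_one_sub, Real.sqrt_mul (sq_nonneg _),
      Real.sqrt_sq (sn_nonneg hl dist_nonneg), mul_assoc]
  rw [e1, e2, one_div, le_inv_mul_iff₀ hφ]
  exact hPQ

end Crest.Agent.R241
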