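import Crest.Agent.R241.Move
import Crest.Agent.R241.Slice
import Crest.Agent.R241.Prof

/-! Row 241 (Cartan-Hadamard): almost minimising sequences, gluing of homologies, cone bounds. -/

set_option autoImplicit false

open MeasureTheory Set Filter Topology
open scoped ENNReal NNReal Matrix ContDiff

namespace Crest.Agent.R241

open Crest.GeometryTopology.Submanifold

universe u v

variable {X : Type u} [MetricSpace X] {l : ℝ} {n : ℕ}

/-- almost minimality for `mass S + F (mass T')` among `∂ S = T - T'`. -/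
def AMin (T : ℕ → Chain X n) (F : ℝ → ℝ) (e : ℕ → ℝ) : Prop :=
  ∀ j (T' : Chain X n) (S : Chain X (n + 1)), (T j).Hom T' S →
    F (T j).mass ≤ S.mass + F T'.mass + e j

variable [MeasurableSpace X] [BorelSpace X]

namespace Chain

theorem exists_hom_refl (T : Chain X n) : ∃ Z : Chain X (n + 1), T.Hom T Z ∧ Z.mass = 0 := by
  obtain ⟨Z, h1, h2, -⟩ := exists_zero (X := X) (k := n + 1)
  exact ⟨Z, fun f π _ _ => by rw [h1, sub_self], h2⟩

theorem Hom.trans' {T T' T'' : Chain X n} {S S' : Chain X (n + 1)} (h : T.Hom T' S)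
    (h' : T'.Hom T'' S') : ∃ U : Chain X (n + 1), T.Hom T'' U ∧ U.mass = S.mass + S'.mass := by
  obtain ⟨U, h1, h2, -⟩ := exists_add S S'
  refine ⟨U, fun f π hf hπ => ?_, h2⟩
  rw [h1 _ _ (BM.const 1) (Lip.cons hf hπ), h f π hf hπ, h' f π hf hπ]
  ring

theorem Hom.bd' {T T' : Chain X n} {S S' : Chain X (n + 1)} (h : T.Hom T' S)
    (h' : S'.Bd T') : ∃ U : Chain X (n + 1), U.Bd T ∧ U.mass = S.mass + S'.mass := by
  obtain ⟨U, h1, h2, -⟩ := exists_add S S'
  refine ⟨U, fun f π hf hπ => ?_, h2⟩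
  rw [h1 _ _ (BM.const 1) (Lip.cons hf hπ), h f π hf hπ, h' f π hf hπ]
  ring

theorem law_ae_fst {C : Chain X n} {f h : X → ℝ} (hf : Lip f) (hh : Lip h) {P : X → Prop}
    (hP : ∀ᵐ p ∂C.μ, P p) : ∀ᵐ q ∂(C.law f h), P q.1 := by
  rw [← C.law_fst hf hh] at hP
  exact ae_of_ae_map measurable_fst.aemeasurable hP

theorem integral_law_fst (C : Chain X n) {f h : X → ℝ} (hf : Lip f) (hh : Lip h) {g : X → ℝ}
    (hg : Measurable g) : ∫ q, g q.1 ∂(C.law f h) = ∫ p, g p ∂C.μ := by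
  rw [← C.law_fst hf hh, integral_map measurable_fst.aemeasurable hg.aestronglyMeasurable]

end Chain

variable [CompactSpace X]

omit [MeasurableSpace X] [BorelSpace X] in
theorem exists_diam (X : Type u) [MetricSpace X] [CompactSpace X] :
    ∃ D : ℝ, 0 < D ∧ ∀ x y : X, dist x y ≤ D := by
  obtain ⟨D, hD⟩ := Metric.isBounded_iff.1 (isCompact_univ (X := X)).isBounded
  exact ⟨max D 1, by positivity, fun x y => (hD (mem_univ x) (mem_univ y)).trans (le_max_left _ _)⟩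

theorem cone_integrand (hl : 0 ≤ l) (T : Chain X n) (x : X) :
    Integrable (fun q : X × ℝ => coneW n l (dist x q.1) * √(1 - q.2)) (T.law (dist x) (dist x)) ∧
      T.I (fun p t => coneW n l (dist x p) * √(1 - t)) (dist x) (dist x) =
        ∫ q, coneW n l (dist x q.1) * √(1 - q.2) ∂(T.law (dist x) (dist x)) := by
  obtain ⟨D, hD0, hD⟩ := exists_diam X
  refine T.I_eq ⟨1, lip_dist x⟩ ⟨1, lip_dist x⟩ (F := fun p t => coneW n l (dist x p) * √(1 - t))
    (((measurable_coneW n l).comp (by fun_prop)).mul (by fun_prop)) fun M => ⟨D * √(1 + M), ?_⟩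
  intro p t ht
  rw [abs_mul, abs_of_nonneg (coneW_nonneg hl n dist_nonneg), abs_of_nonneg (Real.sqrt_nonneg _)]
  refine mul_le_mul ((Alm.coneW_le n hl dist_nonneg).trans (hD _ _))
    (Real.sqrt_le_sqrt (by linarith [neg_abs_le t])) (Real.sqrt_nonneg _) hD0.le

/-- the cone over a cycle, with the crude bound. -/
theorem cone_le (c : CatSp l X) (hl : 0 ≤ l) (T : Chain X n) (hT : T.Cyc) (x : X) {w : ℝ}
    (hw : ∀ᵐ p ∂T.μ, coneW n l (dist x p) ≤ w) :
    ∃ S : Chain X (n + 1), S.Bd T ∧ S.mass ≤ w * T.mass := by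
  obtain ⟨S, hS, hm⟩ := cone_fill c hl T hT x
  refine ⟨S, hS, hm.trans ?_⟩
  obtain ⟨h1, h2⟩ := cone_integrand hl T x
  have hd : Lip (dist x) := ⟨1, lip_dist x⟩
  haveI := T.law_fin hd hd
  rw [h2, ← T.μ_real_univ, mul_comm w, ← smul_eq_mul, ← integral_const,
    ← T.integral_law_fst hd hd measurable_const]
  refine integral_mono_ae h1 (integrable_const _) ?_
  filter_upwards [Chain.law_ae_fst hd hd hw, T.law_ae_mem (lip_dist x)] with q h3 h4
  have h5 : √(1 - q.2) ≤ 1 := Real.sqrt_le_one.2 (by linarith [h4.1])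
  have h6 := coneW_nonneg hl n (dist_nonneg (x := x) (y := q.1))
  nlinarith [Real.sqrt_nonneg (1 - q.2)]

omit [CompactSpace X] in
/-- a minimising sequence for `mass S + F (mass T')`. -/
theorem exists_amin (T : Chain X n) {F : ℝ → ℝ} (hF0 : ∀ m, 0 ≤ m → 0 ≤ F m) :
    ∃ (T' : ℕ → Chain X n) (S : ℕ → Chain X (n + 1)) (e : ℕ → ℝ), Tendsto e atTop (𝓝 0) ∧
      (∀ j, T.Hom (T' j) (S j)) ∧ AMin T' F e ∧
      ∀ j, (S j).mass + F (T' j).mass ≤ F T.mass := by
  let A : Set ℝ := {a | ∃ (T' : Chain X n) (S : Chain X (n + 1)), T.Hom T' S ∧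
    a = S.mass + F T'.mass}
  obtain ⟨Z, hZ, hZ0⟩ := T.exists_hom_refl
  have hne : A.Nonempty := ⟨_, T, Z, hZ, rfl⟩
  have hb : BddBelow A := ⟨0, by
    rintro a ⟨T', S, -, rfl⟩
    exact add_nonneg S.mass_nonneg (hF0 _ T'.mass_nonneg)⟩
  have h1 : ∀ j : ℕ, ∃ (T' : Chain X n) (S : Chain X (n + 1)), T.Hom T' S ∧
      S.mass + F T'.mass ≤ sInf A + 1 / ((j : ℝ) + 1) ∧ S.mass + F T'.mass ≤ F T.mass := by
    intro j
    obtain ⟨a, ⟨T', S, h, rfl⟩, ha⟩ := exists_lt_of_csInf_lt hne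
      (lt_add_of_pos_right (sInf A) (by positivity : (0 : ℝ) < 1 / ((j : ℝ) + 1)))
    rcases le_total (S.mass + F T'.mass) (F T.mass) with h2 | h2
    · exact ⟨T', S, h, ha.le, h2⟩
    · exact ⟨T, Z, hZ, by rw [hZ0]; linarith, by rw [hZ0]; linarith⟩
  choose T' S h1 h2 h3 using h1
  refine ⟨T', S, fun j => 1 / ((j : ℝ) + 1), tendsto_one_div_add_atTop_nhds_zero_nat, h1,
    fun j T'' S' h => ?_, h3⟩
  obtain ⟨U, hU, hm⟩ := (h1 j).trans' h
  have := csInf_le hb (⟨T'', U, hU, rfl⟩ : U.mass + F T''.mass ∈ A)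
  have := h2 j
  simp only
  linarith

/-- Almgren's reduction: it suffices that almost minimisers for `γ Phi`, `γ > 1`, lose their
mass. -/
theorem isoIn_of_amin [Nonempty X] (c : CatSp l X) (hl : 0 ≤ l) (hn : 1 ≤ n)
    (h : ∀ γ > (1 : ℝ), ∀ (T : ℕ → Chain X n) (e : ℕ → ℝ) (B : ℝ), (∀ j, (T j).Cyc) →
      (∀ j, (T j).mass ≤ B) → Tendsto e atTop (𝓝 0) → AMin T (fun m => γ * Phi n l m) e →
      ∀ η > 0, ∃ j, (T j).mass ≤ η) : IsoIn X n l := by
  rw [isoIn_iff hn hl]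
  intro T hT ε hε
  have hP : ∀ m, 0 ≤ m → 0 ≤ Phi n l m := fun m hm => by
    rw [Phi_eq_alm]; exact Alm.Fp_nonneg (by omega) hl hm
  have hP0 := hP _ T.mass_nonneg
  set γ : ℝ := 1 + ε / (2 * (Phi n l T.mass + 1)) with hγ
  have hγ1 : 1 < γ := lt_add_of_pos_right _ (by positivity)
  obtain ⟨T', S, e, he, hH, hA, hb⟩ := exists_amin T (F := fun m => γ * Phi n l m)
    fun m hm => mul_nonneg (by linarith) (hP m hm)
  obtain ⟨D, hD0, hD⟩ := exists_diam X
  have hB : ∀ j, (T' j).mass ≤ 1 + Phi n l T.mass / Alm.phi n l 1 := fun j => by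
    refine Alm.le_of_Fp_le (by omega) hl (T' j).mass_nonneg ?_
    rw [← Phi_eq_alm]
    have := hb j
    have := (S j).mass_nonneg
    exact le_of_mul_le_mul_left (by linarith) (by linarith : 0 < γ)
  obtain ⟨j, hj⟩ := h γ hγ1 T' e _ (fun j => (hH j).cyc hT) hB he hA (ε / (2 * D))
    (by positivity)
  obtain ⟨x⟩ := ‹Nonempty X›
  obtain ⟨S', hS', hm⟩ := cone_le c hl (T' j) ((hH j).cyc hT) x (w := D)
    (.of_forall fun p => (Alm.coneW_le n hl dist_nonneg).trans (hD _ _))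
  obtain ⟨U, hU, hUm⟩ := (hH j).bd' hS'
  refine ⟨U, hU, ?_⟩
  have h1 : D * (T' j).mass ≤ ε / 2 := by
    have := mul_le_mul_of_nonneg_left hj hD0.le
    rwa [show D * (ε / (2 * D)) = ε / 2 by field_simp] at this
  have h2 : γ * Phi n l T.mass ≤ Phi n l T.mass + ε / 2 := by
    have : ε / (2 * (Phi n l T.mass + 1)) * Phi n l T.mass ≤ ε / 2 := by
      rw [div_mul_eq_mul_div, div_le_div_iff₀ (by positivity) (by positivity)]
      nlinarith
    rw [hγ]; linarith
  have h3 := hb j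
  have h4 := mul_nonneg (by linarith : 0 ≤ γ) (hP _ (T' j).mass_nonneg)
  linarith

/-- extremal sequences are almost minimising for the profile itself. -/
theorem amin_of_fillGe (hl : 0 ≤ l) (hn : 1 ≤ n) (hiso : IsoIn X n l) {T : ℕ → Chain X n}
    (hT : ∀ j, (T j).Cyc) {a : ℕ → ℝ} (hF : ∀ j, (T j).FillGe (a j)) :
    AMin T (Phi n l) fun j => Phi n l (T j).mass - a j := by
  intro j T' S h
  refine le_of_forall_pos_le_add fun ε hε => ?_
  obtain ⟨S', hS', hm⟩ := (isoIn_iff hn hl).1 hiso T' (h.cyc (hT j)) ε hε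
  obtain ⟨U, hU, hUm⟩ := h.bd' hS'
  have := hF j U hU
  simp only
  linarith

/-- concentration of the limit on a sphere gives concentration of the sequence. -/
theorem conc_of_limit {μ : ℕ → Measure X} [∀ j, IsFiniteMeasure (μ j)] {ν : Measure X}
    [IsFiniteMeasure ν] {U : Filter ℕ} [U.NeBot] (hU : U ≤ atTop)
    (h : ∀ η : X → ℝ, Continuous η → Tendsto (fun j => ∫ p, η p ∂(μ j)) U (𝓝 (∫ p, η p ∂ν)))
    {x : X} {ρ₀ : ℝ} (hx : ∀ᵐ p ∂ν, dist x p = ρ₀) :
    ∀ δ > 0, ∀ η > 0, ∃ᶠ j in atTop, (μ j).real {p | δ ≤ |dist x p - ρ₀|} ≤ η := by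
  intro δ hδ η hη
  by_contra hc
  rw [not_frequently] at hc
  have hcl : IsClosed {p | δ ≤ |dist x p - ρ₀|} := isClosed_le continuous_const (by fun_prop)
  have h1 := KU.le_real_closed h hcl (c := η) ((hc.filter_mono hU).mono fun j hj => (not_le.1 hj).le)
  have h2 : ν {p | δ ≤ |dist x p - ρ₀|} = 0 := by
    refine measure_mono_null (fun p hp => ?_) (ae_iff.1 hx)
    intro (h3 : dist x p = ρ₀)
    simp only [mem_setOf_eq, h3, sub_self, abs_zero] at hp
    linarith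
  rw [Measure.real, h2] at h1
  simp at h1
  linarith

theorem isoIn_zero (hl : 0 ≤ l) (hn : 1 ≤ n) (h : IsoIn X n l) : IsoIn X n 0 := by
  rw [isoIn_iff hn hl] at h
  rw [isoIn_iff hn le_rfl]
  intro T hT ε hε
  obtain ⟨S, hS, hm⟩ := h T hT ε hε
  refine ⟨S, hS, hm.trans (add_le_add ?_ le_rfl)⟩
  refine intervalIntegral.integral_mono_on T.mass_nonneg
    ((continuous_phi hn hl).intervalIntegrable _ _)
    ((continuous_phi hn le_rfl).intervalIntegrable _ _) fun m hm => ?_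
  have hn' : (0 : ℝ) < n := by exact_mod_cast hn
  have h1 := Alm.sg_nonneg n hm.1
  rw [phi_eq_alm, phi_eq_alm, Alm.phi_flat, Alm.phi]
  refine div_le_div_of_nonneg_left h1 hn' (le_mul_of_one_le_right hn'.le ?_)
  exact Real.one_le_sqrt.2 (by nlinarith [mul_nonneg hl (sq_nonneg (Alm.sg n m))])

end Crest.Agent.R241
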