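import Crest.Agent.R241.AlmF

/-! Row 241, block ALM: the calibration integral for one-dimensional cycles. -/

set_option autoImplicit false

open MeasureTheory Set Filter Topology
open scoped ENNReal NNReal Real

namespace Crest.Agent.R241.Alm

open Crest.GeometryTopology.Submanifold

variable {l : ℝ}

/-- `tanh(√l ρ/2)/√l` (`ρ/2` when `l = 0`): the weight of the cone over a curve. -/
noncomputable def tn (l ρ : ℝ) : ℝ := sn l (ρ / 2) / cs l (ρ / 2)

theorem md_half (hl : 0 ≤ l) (ρ : ℝ) : md l ρ = 2 * sn l (ρ / 2) ^ 2 := by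
  rcases hl.eq_or_lt with rfl | hl
  · rw [md_zero_left, sn_zero_left]; ring
  · rw [md_of_pos hl, sn_of_pos hl, div_pow, Real.sq_sqrt hl.le,
      show √l * ρ = 2 * (√l * (ρ / 2)) by ring, Real.cosh_two_mul, Real.cosh_sq]
    field_simp; ring

theorem sn_half (hl : 0 ≤ l) (ρ : ℝ) : sn l ρ = 2 * sn l (ρ / 2) * cs l (ρ / 2) := by
  rcases hl.eq_or_lt with rfl | hl
  · rw [sn_zero_left, sn_zero_left, cs_zero_left]; ring
  · rw [sn_of_pos hl, sn_of_pos hl, cs, show √l * ρ = 2 * (√l * (ρ / 2)) by ring,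
      Real.sinh_two_mul]
    ring

theorem coneW_one_eq (hl : 0 ≤ l) {ρ : ℝ} (hρ : 0 ≤ ρ) : coneW 1 l ρ = tn l ρ := by
  rw [coneW_one hl]
  rcases hρ.eq_or_lt with rfl | hρ
  · simp [tn, md_zero, sn_zero]
  · have h1 := sn_pos hl (half_pos hρ)
    have h2 := cs_pos l (ρ / 2)
    rw [md_half hl, sn_half hl ρ, tn]
    field_simp

theorem tn_eq (hl : 0 ≤ l) (ρ : ℝ) : tn l ρ = sn l (ρ / 2) / √(1 + l * sn l (ρ / 2) ^ 2) := by
  rw [← cs_sq hl, Real.sqrt_sq (cs_pos _ _).le, tn]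

theorem tn_nonneg (hl : 0 ≤ l) {ρ : ℝ} (hρ : 0 ≤ ρ) : 0 ≤ tn l ρ :=
  div_nonneg (sn_nonneg hl (by linarith)) (cs_pos _ _).le

theorem tn_pos (hl : 0 ≤ l) {ρ : ℝ} (hρ : 0 < ρ) : 0 < tn l ρ :=
  div_pos (sn_pos hl (by linarith)) (cs_pos _ _)

theorem tn_mono (hl : 0 ≤ l) {a b : ℝ} (ha : 0 ≤ a) (hab : a ≤ b) : tn l a ≤ tn l b := by
  rw [tn_eq hl, tn_eq hl]
  exact div_sqrt_mono hl (sn_nonneg hl (by linarith)) ((strictMono_sn hl).monotone (by linarith))

theorem tn_le (hl : 0 ≤ l) {ρ : ℝ} (hρ : 0 ≤ ρ) : tn l ρ ≤ ρ := by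
  rw [← coneW_one_eq hl hρ]; exact coneW_le 1 hl hρ

theorem tn_zero_left (ρ : ℝ) : tn 0 ρ = ρ / 2 := by simp [tn, sn_zero_left, cs_zero_left]

theorem continuous_tn (hl : 0 ≤ l) : Continuous (tn l) :=
  ((continuous_sn hl).comp (continuous_id.div_const 2)).div
    ((continuous_cs l).comp (continuous_id.div_const 2)) fun ρ => (cs_pos _ _).ne'

theorem sA_one : sA 1 = 2 * π := by
  rw [sA_eq, unitBallVol, EuclideanSpace.volume_ball_fin_two]
  simp [Real.pi_pos.le]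
  norm_num

theorem integral_calib (hl : 0 ≤ l) {R : ℝ} (hR : 0 ≤ R) :
    ∫ ρ in (0 : ℝ)..R, √(tn l R ^ 2 - tn l ρ ^ 2) = π * md l (R / 2) / cs l (R / 2) := by
  rcases hR.eq_or_lt with rfl | hR
  · simp [md_zero]
  set S := sn l (R / 2) with hS
  set C := cs l (R / 2) with hC
  have hS0 : 0 < S := sn_pos hl (half_pos hR)
  have hC0 : 0 < C := cs_pos _ _
  have hCS : C ^ 2 = 1 + l * S ^ 2 := cs_sq hl _
  have hs : ∀ ρ, HasDerivAt (fun ρ => sn l (ρ / 2)) (cs l (ρ / 2) * (1 / 2)) ρ := fun ρ =>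
    (hasDerivAt_sn hl (ρ / 2)).comp ρ ((hasDerivAt_id ρ).div_const 2)
  have hc : ∀ ρ, HasDerivAt (fun ρ => cs l (ρ / 2)) (l * sn l (ρ / 2) * (1 / 2)) ρ := fun ρ =>
    HasDerivAt.comp (h₂ := cs l) ρ (hasDerivAt_cs hl (ρ / 2)) ((hasDerivAt_id ρ).div_const 2)
  have hsc : Continuous fun ρ => sn l (ρ / 2) := (continuous_sn hl).comp (by fun_prop)
  have hcc : Continuous fun ρ => cs l (ρ / 2) := (continuous_cs l).comp (by fun_prop)
  have hint : IntervalIntegrable (fun ρ => √(tn l R ^ 2 - tn l ρ ^ 2)) volume 0 R :=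
    ((continuous_const.sub ((continuous_tn hl).pow 2)).sqrt).intervalIntegrable _ _
  have hlt : ∀ ρ ∈ Ioo 0 R, 0 < sn l (ρ / 2) ∧ sn l (ρ / 2) < S := fun ρ hρ =>
    ⟨sn_pos hl (half_pos hρ.1), strictMono_sn hl (by linarith [hρ.2])⟩
  have hsq : ∀ ρ ∈ Ioo 0 R, √(tn l R ^ 2 - tn l ρ ^ 2) =
      √(S ^ 2 - sn l (ρ / 2) ^ 2) / (C * cs l (ρ / 2)) := fun ρ hρ => by
    have h1 := cs_pos l (ρ / 2)
    have h2 := cs_sq hl (ρ / 2)
    rw [← Real.sqrt_sq (mul_pos hC0 h1).le, ← Real.sqrt_div' _ (sq_nonneg _)]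
    congr 1
    rw [tn, tn, ← hS, ← hC]
    field_simp
    rw [hCS, h2]; ring
  have harc : ∀ ρ ∈ Ioo 0 R, HasDerivAt (fun ρ => Real.arcsin (sn l (ρ / 2) / S))
      (cs l (ρ / 2) / (2 * √(S ^ 2 - sn l (ρ / 2) ^ 2))) ρ := fun ρ hρ => by
    obtain ⟨h1, h2⟩ := hlt ρ hρ
    have h3 : sn l (ρ / 2) / S < 1 := (div_lt_one hS0).2 h2
    have h4 : 0 < sn l (ρ / 2) / S := div_pos h1 hS0
    have h5 := (Real.hasDerivAt_arcsin (x := sn l (ρ / 2) / S) (by linarith) h3.ne).comp ρ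
      ((hs ρ).div_const S)
    refine h5.congr_deriv ?_
    have h6 : 0 < S ^ 2 - sn l (ρ / 2) ^ 2 := by nlinarith
    have h7 : √(1 - (sn l (ρ / 2) / S) ^ 2) = √(S ^ 2 - sn l (ρ / 2) ^ 2) / S := by
      rw [← Real.sqrt_sq hS0.le, ← Real.sqrt_div' _ (sq_nonneg _), Real.sqrt_sq hS0.le]
      congr 1
      field_simp
    have h8 := Real.sqrt_pos.2 h6
    rw [h7]
    field_simp
  rcases hl.eq_or_lt with rfl | hl'
  · have hC1 : C = 1 := cs_zero_left _
    rw [intervalIntegral.integral_eq_sub_of_hasDerivAt_of_le hR.le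
      (f := fun ρ => sn 0 (ρ / 2) * √(S ^ 2 - sn 0 (ρ / 2) ^ 2) +
        S ^ 2 * Real.arcsin (sn 0 (ρ / 2) / S)) (by fun_prop) ?_ hint]
    · rw [← hS, hC1, md_zero_left]
      simp only [sub_self, Real.sqrt_zero, mul_zero, div_self hS0.ne', Real.arcsin_one, zero_div,
        sn_zero, zero_mul, Real.arcsin_zero]
      rw [hS, sn_zero_left]; ring
    · intro ρ hρ
      obtain ⟨h1, h2⟩ := hlt ρ hρ
      have h6 : 0 < S ^ 2 - sn 0 (ρ / 2) ^ 2 := by nlinarith
      have h8 := Real.sqrt_pos.2 h6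
      have h9 := (((hs ρ).pow 2).const_sub (S ^ 2)).sqrt h6.ne'
      refine (((hs ρ).mul h9).add ((harc ρ hρ).const_mul (S ^ 2))).congr_deriv ?_
      rw [hsq ρ hρ, hC1, cs_zero_left]
      have h10 := Real.sq_sqrt h6.le
      simp only [Pi.pow_apply, Nat.cast_ofNat, Nat.add_one_sub_one, pow_one]
      field_simp
      linear_combination (-1) * h10
  · have hcne : ∀ ρ, S * cs l (ρ / 2) ≠ 0 := fun ρ => (mul_pos hS0 (cs_pos _ _)).ne'
    rw [intervalIntegral.integral_eq_sub_of_hasDerivAt_of_le hR.le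
      (f := fun ρ => 2 / (l * C) * (C * Real.arcsin (C * sn l (ρ / 2) / (S * cs l (ρ / 2))) -
        Real.arcsin (sn l (ρ / 2) / S))) ?_ ?_ hint]
    · rw [← hS, ← hC, mul_comm S C, div_self (mul_pos hC0 hS0).ne', div_self hS0.ne']
      simp only [Real.arcsin_one, zero_div, sn_zero, mul_zero, Real.arcsin_zero, sub_self,
        sub_zero]
      rw [hC, cs_eq hl]
      have : 0 < 1 + l * md l (R / 2) := by rw [← cs_eq hl]; exact hC0
      field_simp
      ring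
    · refine Continuous.continuousOn (continuous_const.mul ((continuous_const.mul
        (Real.continuous_arcsin.comp ((continuous_const.mul hsc).div
          (continuous_const.mul hcc) hcne))).sub (Real.continuous_arcsin.comp (by fun_prop))))
    · intro ρ hρ
      obtain ⟨h1, h2⟩ := hlt ρ hρ
      have h6 : 0 < S ^ 2 - sn l (ρ / 2) ^ 2 := by nlinarith
      have h8 := Real.sqrt_pos.2 h6
      have hc0 := cs_pos l (ρ / 2)
      have hc2 := cs_sq hl (ρ / 2)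
      have hw : 1 - (C * sn l (ρ / 2) / (S * cs l (ρ / 2))) ^ 2 =
          (S ^ 2 - sn l (ρ / 2) ^ 2) / (S * cs l (ρ / 2)) ^ 2 := by
        field_simp
        rw [hCS, hc2]; ring
      have hw0 : 0 < C * sn l (ρ / 2) / (S * cs l (ρ / 2)) := by positivity
      have hw1 : C * sn l (ρ / 2) / (S * cs l (ρ / 2)) ≠ 1 := fun h => by
        rw [h] at hw
        have : 0 < (S ^ 2 - sn l (ρ / 2) ^ 2) / (S * cs l (ρ / 2)) ^ 2 := by positivity
        linarith
      have h5 := (Real.hasDerivAt_arcsin (x := C * sn l (ρ / 2) / (S * cs l (ρ / 2)))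
        (by linarith) hw1).comp ρ (((hs ρ).const_mul C).div ((hc ρ).const_mul S) (hcne ρ))
      refine (((h5.const_mul C).sub (harc ρ hρ)).const_mul (2 / (l * C))).congr_deriv ?_
      rw [hsq ρ hρ, hw, Real.sqrt_div' _ (sq_nonneg _), Real.sqrt_sq (mul_pos hS0 hc0).le]
      have h10 := Real.sq_sqrt h6.le
      field_simp
      rw [h10]
      have e : cs l (ρ / 2) ^ 2 - sn l (ρ / 2) ^ 2 * l = 1 := by linarith
      first
        | linear_combination (C ^ 2) * e + hCS - hc2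
        | nlinarith

/-- the calibration bound is the Legendre transform of the profile. -/
theorem calib_le (hl : 0 ≤ l) {R L : ℝ} (hR : 0 ≤ R) (hL : 0 ≤ L) :
    tn l R * L - 2 * ∫ ρ in (0 : ℝ)..R, √(tn l R ^ 2 - tn l ρ ^ 2) ≤ Fp 1 l L := by
  have hr : 0 ≤ R / 2 := by linarith
  have h1 := Fp_tangent one_ne_zero hl (area_nonneg 1 hl hr) hL
  rw [Fp_area one_ne_zero hl hr, phi_area one_ne_zero hl hr, area_eq, vol_eq, sA_one] at h1
  simp only [pow_one, Nat.cast_one, one_mul] at h1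
  rw [intervalIntegral.integral_eq_sub_of_hasDerivAt (fun t _ => hasDerivAt_md hl t)
    ((continuous_sn hl).intervalIntegrable _ _), md_zero, sub_zero] at h1
  rw [integral_calib hl hR, tn]
  refine le_trans (le_of_eq ?_) h1
  have h2 := cs_pos l (R / 2)
  have h3 := sn_sq hl (R / 2)
  have h4 := cs_eq hl (R / 2)
  field_simp
  linear_combination (2 * π) * h3 - (2 * π * md l (R / 2)) * h4

end Crest.Agent.R241.Alm
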