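import Crest.Agent.R241.AlmFV
import Crest.Agent.R241.AlmDens
import Crest.Agent.R241.Ultra
import Crest.Agent.R241.KeyAll

/-! Row 241 (Cartan-Hadamard): the induction step of Almgren's argument. -/

set_option autoImplicit false

open MeasureTheory Set Filter Topology
open scoped ENNReal NNReal Matrix ContDiff

namespace Crest.Agent.R241

open Crest.GeometryTopology.Submanifold

universe u v

variable {X : Type u} [MetricSpace X] [CompactSpace X] [Nonempty X] [MeasurableSpace X]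
  [BorelSpace X] {l : ℝ} {n : ℕ}

theorem hyper_le_atTop : (hyperfilter ℕ : Filter ℕ) ≤ atTop := by
  rw [← Nat.cofinite_eq_atTop]; exact hyperfilter_le_cofinite

omit [Nonempty X] in
/-- the ultralimit of almost minimisers for `γ Phi`. -/
theorem limit_data (c : CatSp l X) (hl : 0 ≤ l) (hn : 1 ≤ n) (hiso : IsoIn X n 0) {γ : ℝ}
    (hγ : 0 < γ) {T : ℕ → Chain X (n + 1)} (hT : ∀ j, (T j).Cyc) {B : ℝ}
    (hB : ∀ j, (T j).mass ≤ B) {e : ℕ → ℝ} (he : Tendsto e atTop (𝓝 0))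
    (hA : AMin T (fun m => γ * Phi (n + 1) l m) e) :
    ∃ V : DV X, (∀ η : X → ℝ, Continuous η →
        Tendsto (fun j => ∫ p, η p ∂(T j).μ) (hyperfilter ℕ) (𝓝 (∫ p, η p ∂V.μ))) ∧
      Tendsto (fun j => (T j).mass) (hyperfilter ℕ) (𝓝 (V.μ.real univ)) ∧
      (0 < V.μ.real univ →
        V.FV (n + 1) l (1 / (γ * phi (n + 1) l (V.μ.real univ))) ∧ V.Dens (n + 1)) := by
  obtain ⟨V, h1, h2, h3⟩ := exists_ultralimit T B hB (hyperfilter ℕ)
  have hn1 : 1 ≤ n + 1 := by omega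
  have hm : Tendsto (fun j => (T j).mass) (hyperfilter ℕ) (𝓝 (V.μ.real univ)) := by
    simpa [Chain.μ_real_univ] using h1 (fun _ => 1) continuous_const
  have he' := he.mono_left hyper_le_atTop
  refine ⟨V, h1, hm, fun hM => ⟨?_, ?_⟩⟩
  · refine fv_of_amin c hl hn1 hT hA _ he' (mul_pos hγ (phi_pos hn1 hl hM)) hm
      (fun a ha b hb hab => mul_le_mul_of_nonneg_left (Phi_monotoneOn hn1 hl ha hb hab) hγ.le)
      (continuous_const.mul (continuous_iff_continuousAt.2 fun m =>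
        (hasDerivAt_Phi hn1 hl m).continuousAt))
      ((hasDerivAt_Phi hn1 hl _).const_mul γ) V h1 h2 h3
  · refine dens_of_amin' c hl hn hiso hT (F := fun m => γ * Phi (n + 1) l m) hA _ he' hM hm
      ((Phi_convexOn hn1 hl).smul hγ.le) (by simp [Phi_zero]) (fun m hm => mul_pos hγ ?_) V h1
    rw [Phi_eq_alm]; exact Alm.Fp_pos (by omega) hl hm

theorem iso_step' (c : CatSp l X) (hl : 0 ≤ l) (hn : 1 ≤ n) (hiso : IsoIn X n 0) :
    IsoIn X (n + 1) l := by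
  refine isoIn_of_amin c hl (by omega) fun γ hγ T e B hT hB he hA η hη => ?_
  obtain ⟨V, -, hm, hV⟩ := limit_data c hl hn hiso (by linarith) hT hB he hA
  rcases (measureReal_nonneg (μ := V.μ) (s := univ)).eq_or_lt with h0 | hM
  · rw [← h0] at hm
    obtain ⟨j, hj⟩ := (hm.eventually (gt_mem_nhds hη)).exists
    exact ⟨j, hj.le⟩
  exfalso
  obtain ⟨hFV, hD⟩ := hV hM
  have hk := key V (by omega) hl hFV hD (c.varIneq hl) (fun h => by simp [h] at hM)
  set M := V.μ.real univ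
  have hs := sA_pos (n + 1)
  have hσ := Alm.sg_pos (n + 1) hM
  have hMσ := Alm.sg_pow (n := n + 1) (by omega) hM.le
  set σ := Alm.sg (n + 1) M with hσd
  have hN : (0 : ℝ) < ((n + 1 : ℕ) : ℝ) := by positivity
  have h1 : M ^ (2 / ((n + 1 : ℕ) : ℝ)) = sA (n + 1) ^ (2 / ((n + 1 : ℕ) : ℝ)) * σ ^ 2 := by
    rw [← hMσ, Real.mul_rpow hs.le (by positivity), ← Real.rpow_natCast σ (n + 1),
      ← Real.rpow_mul hσ.le, mul_div_cancel₀ _ hN.ne', Real.rpow_two]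
  have h2 : 0 < 1 + l * σ ^ 2 := by positivity
  have h3 : (1 / (γ * phi (n + 1) l M)) ^ 2 =
      ((n + 1 : ℕ) : ℝ) ^ 2 * (1 + l * σ ^ 2) / (γ ^ 2 * σ ^ 2) := by
    rw [phi_eq_alm, Alm.phi, ← hσd, div_pow, mul_pow, div_pow, mul_pow, Real.sq_sqrt h2.le]
    have : γ ≠ 0 := by linarith
    field_simp
  rw [h1, h3] at hk
  have h4 := Real.rpow_pos_of_pos hs (2 / ((n + 1 : ℕ) : ℝ))
  generalize sA (n + 1) ^ (2 / ((n + 1 : ℕ) : ℝ)) = s at hk h4
  generalize ((n + 1 : ℕ) : ℝ) = N at hk hN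
  have hγ2 : 1 < γ ^ 2 := by nlinarith
  have h5 : (N ^ 2 * (1 + l * σ ^ 2) / (γ ^ 2 * σ ^ 2) - l * N ^ 2) * (s * σ ^ 2) =
      N ^ 2 * s * ((1 + l * σ ^ 2) / γ ^ 2 - l * σ ^ 2) := by
    have : γ ≠ 0 := by linarith
    field_simp
  have h6 : (1 + l * σ ^ 2) / γ ^ 2 < 1 + l * σ ^ 2 := div_lt_self h2 hγ2
  have h7 : 0 < N ^ 2 * s := by positivity
  rw [h5] at hk
  nlinarith

end Crest.Agent.R241
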