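import Crest.Agent.R241.CSm

/-! Row 241, block C (helper74): an `R244.RAtlas` isometrically embedded as a closed subset of
Euclidean space is geodesically complete (port of `R244/Complete`, `R244/Exp`). -/

set_option autoImplicit false

open Set Filter
open scoped ContDiff Topology

namespace Crest.Agent.R241.Sm

open Crest.Agent.R244 Crest.Agent.R244.RAtlas
open Crest.GeometryTopology.CoordMetric Crest.GeometryTopology.ChartCurvature
  Crest.GeometryTopology.Geodesic

variable {n N : ℕ} {M : Type} [TopologicalSpace M]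

/-- `J` is a closed isometric embedding. -/
structure Emb (A : RAtlas n M) (J : M → E N) : Prop where
  emb : Topology.IsClosedEmbedding J
  smooth : ∀ i, ∀ y ∈ (A.chart i).target, ContDiffAt ℝ ∞ (fun y => J ((A.chart i).symm y)) y
  metric : ∀ i, ∀ y ∈ (A.chart i).target, ∀ u v, bil (A.G i y) u v =
    inner ℝ (fderiv ℝ (fun y => J ((A.chart i).symm y)) y u)
      (fderiv ℝ (fun y => J ((A.chart i).symm y)) y v)

theorem Emb.norm_eq {A : RAtlas n M} {J : M → E N} (hJ : Emb A J) {i : A.ι} {y : E n}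
    (hy : y ∈ (A.chart i).target) (u : E n) :
    ‖fderiv ℝ (fun y => J ((A.chart i).symm y)) y u‖ = √(bil (A.G i y) u u) := by
  rw [hJ.metric i y hy, real_inner_self_eq_norm_sq, Real.sqrt_sq (norm_nonneg _)]

/-- velocity of a curve after embedding. -/
theorem Emb.hasDerivAt {A : RAtlas n M} {J : M → E N} (hJ : Emb A J) {c : ℝ → M} {s : ℝ}
    (hc : ContinuousAt c s) {i : A.ι} (hi : c s ∈ (A.chart i).source) {c' : E n}
    (hd : HasDerivAt (A.crd i c) c' s) :
    HasDerivAt (fun t => J (c t))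
      (fderiv ℝ (fun y => J ((A.chart i).symm y)) (A.chart i (c s)) c') s := by
  have h1 := ((hJ.smooth i _ ((A.chart i).map_source hi)).differentiableAt
    (by simp)).hasFDerivAt.comp_hasDerivAt s (f := A.crd i c) hd
  refine h1.congr_of_eventuallyEq ?_
  filter_upwards [hc.eventually ((A.chart i).open_source.mem_nhds hi)] with t ht
  simp only [Function.comp, crd, (A.chart i).left_inv ht]

theorem Emb.norm_sub_le {A : RAtlas n M} {J : M → E N} (hJ : Emb A J) {γ : ℝ → M} {S : Set ℝ}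
    (hg : A.GeoOn γ S) (ho : IsOpen S) (hc : IsPreconnected S) (h0 : (0 : ℝ) ∈ S) {i : A.ι}
    (hi : γ 0 ∈ (A.chart i).source) {s : ℝ} (hs : s ∈ S) :
    ‖J (γ s) - J (γ 0)‖ ≤
      √(bil (A.G i (A.chart i (γ 0))) (deriv (A.crd i γ) 0) (deriv (A.crd i γ) 0)) * |s| := by
  choose k hk using A.cover
  have h := hc.ordConnected.convex.norm_image_sub_le_of_norm_hasDerivWithin_le
    (f := fun t => J (γ t)) (f' := fun t => fderiv ℝ (fun y => J ((A.chart (k (γ t))).symm y))
      (A.chart (k (γ t)) (γ t)) (deriv (A.crd (k (γ t)) γ) t))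
    (C := √(bil (A.G i (A.chart i (γ 0))) (deriv (A.crd i γ) 0) (deriv (A.crd i γ) 0)))
    (fun t ht => (hJ.hasDerivAt (hg.1.continuousAt (ho.mem_nhds ht)) (hk _)
      (jet_fst (hg.2 t ht _ (hk _))).1.differentiableAt.hasDerivAt).hasDerivWithinAt)
    (fun t ht => by
      rw [hJ.norm_eq ((A.chart _).map_source (hk _)), hg.speed ho hc ht h0 (hk _) hi]) h0 hs
  simpa using h

theorem sol_small' (A : RAtlas n M) {K : Set M} (hK : IsCompact K) :
    ∃ ε > 0, ∃ ρ > 0, ∀ x ∈ K, ∀ j,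
    x ∈ (A.chart j).source → ∀ v, bil (A.G j (A.chart j x)) v v < ρ → A.Sol x j v ε := by
  refine hK.induction_on (p := fun K => ∃ ε > 0, ∃ ρ > 0, ∀ x ∈ K, ∀ j,
    x ∈ (A.chart j).source → ∀ v, bil (A.G j (A.chart j x)) v v < ρ → A.Sol x j v ε) ?_ ?_ ?_ ?_
  · exact ⟨1, one_pos, 1, one_pos, fun x hx => absurd hx (notMem_empty x)⟩
  · rintro s t hst ⟨ε, hε, ρ, hρ, h⟩
    exact ⟨ε, hε, ρ, hρ, fun x hx => h x (hst hx)⟩
  · rintro s t ⟨ε, hε, ρ, hρ, h⟩ ⟨ε', hε', ρ', hρ', h'⟩
    refine ⟨min ε ε', lt_min hε hε', min ρ ρ', lt_min hρ hρ', fun x hx j hj v hv => ?_⟩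
    rcases hx with hx | hx
    · exact (h x hx j hj v (hv.trans_le (min_le_left _ _))).mono (min_le_left _ _)
    · exact (h' x hx j hj v (hv.trans_le (min_le_right _ _))).mono (min_le_right _ _)
  · intro x _
    obtain ⟨W, hW, h⟩ := A.sol_local x
    exact ⟨W, mem_nhdsWithin_of_mem_nhds hW, h⟩

theorem sol_bounded' (A : RAtlas n M) {K : Set M} (hK : IsCompact K) {B : ℝ} (hB : 0 ≤ B) :
    ∃ ε > 0, ∀ x ∈ K, ∀ j,
    x ∈ (A.chart j).source → ∀ v, bil (A.G j (A.chart j x)) v v ≤ B → A.Sol x j v ε := by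
  obtain ⟨ε, hε, ρ, hρ, h⟩ := sol_small' A hK
  obtain ⟨l, hl⟩ : ∃ l, l = ρ / (ρ + B + 1) := ⟨_, rfl⟩
  have hl0 : 0 < l := by rw [hl]; positivity
  have hl1 : l ≤ 1 := by rw [hl, div_le_one (by positivity)]; linarith
  have hlB : l * B < ρ := by
    rw [hl, div_mul_eq_mul_div, div_lt_iff₀ (by positivity)]
    nlinarith
  refine ⟨l * ε, by positivity, fun x hxK j hj v hv => ?_⟩
  obtain ⟨γ, hγ, h0, hd⟩ := h x hxK j hj (l • v) (by
    rw [bil_smul_left, bil_smul_right]
    have h1 : l * bil (A.G j (A.chart j x)) v v ≤ l * B := mul_le_mul_of_nonneg_left hv hl0.le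
    have h2 : l * (l * B) ≤ 1 * (l * B) := mul_le_mul_of_nonneg_right hl1 (by positivity)
    have h3 := mul_le_mul_of_nonneg_left h1 hl0.le
    linarith)
  have h00 : l⁻¹ * 0 + 0 = (0 : ℝ) := by ring
  refine ⟨fun s => γ (l⁻¹ * s + 0), (hγ.comp_affine isOpen_Ioo l⁻¹ 0).mono ?_, ?_, ?_⟩
  · intro s hs
    refine ⟨?_, ?_⟩
    · rw [add_zero, lt_inv_mul_iff₀ hl0]; linarith [hs.1]
    · rw [add_zero, inv_mul_lt_iff₀ hl0]; exact hs.2
  · simp only [h00, h0]
  · rw [hγ.deriv_comp_affine l⁻¹ 0 0 (by rw [h00]; exact ⟨by linarith, hε⟩)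
      (by rw [h00, h0]; exact hj), h00, hd, smul_smul, inv_mul_cancel₀ hl0.ne', one_smul]

/-- completeness of closed submanifolds. -/
theorem Emb.exists_geo [T2Space M] {A : RAtlas n M} {J : M → E N} (hJ : Emb A J) {i : A.ι} {x : M}
    (hx : x ∈ (A.chart i).source) (v : E n) :
    ∃ γ, A.Geo γ ∧ γ 0 = x ∧ deriv (A.crd i γ) 0 = v := by
  have hB := bil_self_nonneg (A.posDef hx) v
  let P : Set ℝ → (ℝ → M) → Prop := fun S γ => IsOpen S ∧ IsPreconnected S ∧ (0 : ℝ) ∈ S ∧
    A.GeoOn γ S ∧ γ 0 = x ∧ deriv (A.crd i γ) 0 = v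
  let T : Set ℝ := {t | ∃ S γ, P S γ ∧ t ∈ S}
  have hinter : ∀ {S S' : Set ℝ}, IsPreconnected S → IsPreconnected S' →
      IsPreconnected (S ∩ S') := fun h h' =>
    (h.ordConnected.inter h'.ordConnected).isPreconnected
  have hTo : IsOpen T := by
    rw [isOpen_iff_mem_nhds]
    rintro t ⟨S, γ, hP, ht⟩
    exact mem_of_superset (hP.1.mem_nhds ht) fun t' ht' => ⟨S, γ, hP, ht'⟩
  have hT0 : (0 : ℝ) ∈ T := by
    obtain ⟨ε, hε, hsol⟩ := sol_bounded' A (isCompact_singleton (x := x)) hB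
    obtain ⟨γ, h1, h2, h3⟩ := hsol x rfl i hx v le_rfl
    have h00 : (0 : ℝ) ∈ Ioo (-ε) ε := ⟨by linarith, hε⟩
    exact ⟨_, γ, ⟨isOpen_Ioo, isPreconnected_Ioo, h00, h1, h2, h3⟩, h00⟩
  have hTc : IsClosed T := by
    refine isClosed_of_closure_subset fun t ht => ?_
    obtain ⟨ε, hε, hsol⟩ := sol_bounded' A (hJ.emb.isCompact_preimage (isCompact_closedBall (J x)
      (√(bil (A.G i (A.chart i x)) v v) * (|t| + 1)))) hB
    obtain ⟨s₁, ⟨S, γ, ⟨ho, hc, h0, hg, hγ0, hγv⟩, hs₁⟩, hd'⟩ :=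
      Metric.mem_closure_iff.1 ht (min ε 1) (lt_min hε one_pos)
    have hd : dist t s₁ < ε := hd'.trans_le (min_le_left _ _)
    have hK : γ s₁ ∈ J ⁻¹' Metric.closedBall (J x)
        (√(bil (A.G i (A.chart i x)) v v) * (|t| + 1)) := by
      have h1 := hJ.norm_sub_le hg ho hc h0 (i := i) (by rw [hγ0]; exact hx) hs₁
      rw [hγ0, hγv] at h1
      rw [mem_preimage, mem_closedBall_iff_norm]
      refine h1.trans (mul_le_mul_of_nonneg_left ?_ (Real.sqrt_nonneg _))
      have h2 := hd'.trans_le (min_le_right _ _)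
      rw [Real.dist_eq] at h2
      have h3 := abs_sub_abs_le_abs_sub s₁ t
      rw [abs_sub_comm] at h3
      linarith
    obtain ⟨j, hj⟩ := A.cover (γ s₁)
    have hsp := hg.speed ho hc hs₁ h0 hj (j := i) (by rw [hγ0]; exact hx)
    rw [hγ0, hγv] at hsp
    obtain ⟨β, hβ, hβ0, hβv⟩ := hsol (γ s₁) hK j hj _ hsp.le
    have e0 : 1 * s₁ + -s₁ = (0 : ℝ) := by ring
    have hS' : {s : ℝ | 1 * s + -s₁ ∈ Ioo (-ε) ε} = Ioo (s₁ - ε) (s₁ + ε) := by
      ext s
      simp only [mem_ofPred_eq, mem_Ioo]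
      constructor <;> rintro ⟨h1, h2⟩ <;> constructor <;> linarith
    have hβ' := hβ.comp_affine isOpen_Ioo 1 (-s₁)
    rw [hS'] at hβ'
    have hs₁' : s₁ ∈ Ioo (s₁ - ε) (s₁ + ε) := ⟨by linarith, by linarith⟩
    have heq : EqOn γ (fun s => β (1 * s + -s₁)) (S ∩ Ioo (s₁ - ε) (s₁ + ε)) := by
      refine GeoOn.unique (hg.mono inter_subset_left) (hβ'.mono inter_subset_right)
        (ho.inter isOpen_Ioo) (hinter hc isPreconnected_Ioo) ⟨hs₁, hs₁'⟩ hj ?_ ?_
      · simp only [e0, hβ0]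
      · rw [hβ.deriv_comp_affine 1 (-s₁) s₁ (by rw [e0]; exact ⟨by linarith, hε⟩)
          (by rw [e0, hβ0]; exact hj), e0, hβv, one_smul]
    obtain ⟨γ', hγ', he⟩ := hg.glue hβ' ho isOpen_Ioo heq
    refine ⟨_, γ', ⟨ho.union isOpen_Ioo, hc.union s₁ hs₁ hs₁' isPreconnected_Ioo, Or.inl h0, hγ',
      by rw [he h0, hγ0], ?_⟩, Or.inr ?_⟩
    · rw [A.deriv_crd_congr i (he.eventuallyEq_of_mem (ho.mem_nhds h0)), hγv]
    · rw [Real.dist_eq, abs_lt] at hd
      exact ⟨by linarith [hd.1], by linarith [hd.2]⟩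
  have hT : T = univ := IsClopen.eq_univ ⟨hTc, hTo⟩ ⟨0, hT0⟩
  have hall : ∀ t : ℝ, ∃ S γ, P S γ ∧ t ∈ S := fun t => (hT ▸ mem_univ t : t ∈ T)
  choose S γ hP ht using hall
  have hloc : ∀ t, (fun s => γ s s) =ᶠ[𝓝 t] γ t := by
    intro t
    filter_upwards [(hP t).1.mem_nhds (ht t)] with s hs
    obtain ⟨ho, hc, h0, hg, hγ0, hγv⟩ := hP t
    obtain ⟨ho', hc', h0', hg', hγ0', hγv'⟩ := hP s
    exact GeoOn.unique (hg'.mono inter_subset_left) (hg.mono inter_subset_right) (ho'.inter ho)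
      (hinter hc' hc) ⟨h0', h0⟩ (i := i) (by rw [hγ0']; exact hx) (by rw [hγ0, hγ0'])
      (by rw [hγv, hγv']) ⟨ht s, hs⟩
  refine ⟨fun s => γ s s, A.geoOn_of_local fun t _ => ⟨γ t, S t, (hP t).1, ht t, (hP t).2.2.2.1,
    hloc t⟩, (hP 0).2.2.2.2.1, ?_⟩
  rw [A.deriv_crd_congr i (hloc 0)]
  exact (hP 0).2.2.2.2.2

theorem Emb.exists_exp [T2Space M] {A : RAtlas n M} {J : M → E N} (hJ : Emb A J) {i : A.ι} {x : M}
    (hx : x ∈ (A.chart i).source) : ∃ p, A.IsExp i x p := by
  choose gam hg h0 hv using hJ.exists_geo hx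
  have hscale : ∀ (v : E n) (s : ℝ), gam (s • v) 1 = gam v s := by
    intro v s
    have h1 : A.GeoOn (fun t => gam v (s * t + 0)) univ :=
      (GeoOn.comp_affine (hg v) isOpen_univ s 0).mono fun _ _ => mem_univ _
    have h2 : EqOn (gam (s • v)) (fun t => gam v (s * t + 0)) univ := by
      refine GeoOn.unique (i := i) (s₀ := 0) (hg _) h1 isOpen_univ isPreconnected_univ
        (mem_univ _) (by rw [h0]; exact hx) (by simp [h0]) ?_
      rw [GeoOn.deriv_comp_affine (hg v) s 0 0 (mem_univ _) (by simpa [h0] using hx), hv]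
      simp [hv]
    simpa using h2 (mem_univ 1)
  have hfun : ∀ v : E n, (fun s : ℝ => gam (s • v) 1) = gam v := fun v => funext (hscale v)
  have hZ0 : (fun v => jet (A.crd i (gam v)) 0) = fun v => (A.chart i x, v) := by
    funext v
    simp only [jet, hv]
    simp only [crd, h0]
  have hL0 : ∀ v₀ : E n, HasStrictFDerivAt (fun v => jet (A.crd i (gam v)) 0)
      ((0 : E n →L[ℝ] E n).prod (ContinuousLinearMap.id ℝ (E n))) v₀ := by
    intro v₀
    rw [hZ0]
    exact (hasStrictFDerivAt_const _ _).prodMk (hasStrictFDerivAt_id v₀)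
  have hP0 : ∀ v₀, A.FamP gam v₀ i 0 := by
    intro v₀
    refine ⟨by rw [h0]; exact hx, ?_, _, hL0 v₀⟩
    simp only [h0]
    exact continuousAt_const
  have hP : ∀ v₀ s j, gam v₀ s ∈ (A.chart j).source → A.FamP gam v₀ j s :=
    fun v₀ s j hj => famP_all hg (hP0 v₀) s hj
  have hcont : Continuous fun v => gam v 1 := by
    refine continuous_iff_continuousAt.2 fun v => ?_
    obtain ⟨j, hj⟩ := A.cover (gam v 1)
    exact (hP v 1 j hj).2.1
  have hstrict : ∀ j v, gam v 1 ∈ (A.chart j).source →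
      HasStrictFDerivAt (fun w => A.chart j (gam w 1)) (A.dp (fun v => gam v 1) j v) v := by
    intro j v hj
    obtain ⟨L, hL⟩ := (hP v 1 j hj).2.2
    have h1 : HasStrictFDerivAt (fun w => A.chart j (gam w 1))
        ((ContinuousLinearMap.fst ℝ _ _).comp L) v := hL.fst
    rwa [dp, h1.hasFDerivAt.fderiv]
  -- the variation field
  have hfst : ∀ (v w : E n) (j : A.ι) (s : ℝ), gam v s ∈ (A.chart j).source →
      A.dp (fun v => gam v 1) j (s • v) (s • w) =
        (fderiv ℝ (fun v => jet (A.crd j (gam v)) s) v w).1 := by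
    intro v w j s hj
    obtain ⟨L, hL⟩ := (hP v s j hj).2.2
    have h1 : HasFDerivAt (fun w => A.chart j (gam w s))
        ((ContinuousLinearMap.fst ℝ _ _).comp L) v := hL.fst.hasFDerivAt
    have h2 : HasFDerivAt (fun w : E n => A.chart j (gam (s • w) 1))
        ((A.dp (fun v => gam v 1) j (s • v)).comp (s • ContinuousLinearMap.id ℝ (E n))) v :=
      HasFDerivAt.comp (g := fun w => A.chart j (gam w 1)) (f := fun w : E n => s • w) v
        (hstrict j (s • v) (by rw [hscale]; exact hj)).hasFDerivAt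
        ((hasFDerivAt_id v).const_smul s)
    simp only [hscale] at h2
    have h3 := congrArg (fun T : E n →L[ℝ] E n => T w) (h2.unique h1)
    rw [hL.hasFDerivAt.fderiv]
    simpa using h3
  have hder : ∀ (v w : E n) (j : A.ι) (s : ℝ), gam v s ∈ (A.chart j).source →
      HasDerivAt (fun s => fderiv ℝ (fun v => jet (A.crd j (gam v)) s) v w)
        (fderiv ℝ (spray (A.G j)) (jet (A.crd j (gam v)) s)
          (fderiv ℝ (fun v => jet (A.crd j (gam v)) s) v w)) s := by
    intro v w j s hj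
    obtain ⟨ε, -, hev⟩ := famP_step hg v hj
    have h1 := (hev.self_of_nhds (hP v s j hj)).2
    simpa using h1.clm_apply (hasDerivAt_const s w)
  have hnear : ∀ (v : E n) (j : A.ι) (s : ℝ), gam v s ∈ (A.chart j).source →
      ∀ᶠ s' in 𝓝 s, gam v s' ∈ (A.chart j).source := fun v j s hj =>
    (hg v).continuous.continuousAt.eventually ((A.chart j).open_source.mem_nhds hj)
  have hjet : ∀ (v w : E n) (j : A.ι) (s : ℝ), gam v s ∈ (A.chart j).source →
      jet (fun s : ℝ => A.dp (fun v => gam v 1) j (s • v) (s • w)) s =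
        fderiv ℝ (fun v => jet (A.crd j (gam v)) s) v w := by
    intro v w j s hj
    have h1 : (fun s : ℝ => A.dp (fun v => gam v 1) j (s • v) (s • w)) =ᶠ[𝓝 s]
        fun s => (fderiv ℝ (fun v => jet (A.crd j (gam v)) s) v w).1 := by
      filter_upwards [hnear v j s hj] with s' hs'
      exact hfst v w j s' hs'
    refine Prod.ext (hfst v w j s hj) ?_
    change deriv _ s = _
    have h2 := (ContinuousLinearMap.fst ℝ (E n) (E n)).hasFDerivAt.comp_hasDerivAt s
      (hder v w j s hj)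
    rw [h1.deriv_eq]
    refine h2.deriv.trans ?_
    exact fderiv_spray_fst (A.riem j) ((A.chart j).map_source hj) _
  refine ⟨fun v => gam v 1, hx, ?_, ?_, ?_, hcont, hstrict, ?_, ?_⟩
  · have := hscale 0 0
    rwa [zero_smul, h0] at this
  · intro v
    rw [hfun]
    exact hg v
  · intro v
    rw [hfun]
    exact hv v
  · intro v w
    rw [hfun]
    constructor
    · intro j k s hj hk
      have hj' : gam (s • v) 1 ∈ (A.chart j).source := by rw [hscale]; exact hj
      have hk' : gam (s • v) 1 ∈ (A.chart k).source := by rw [hscale]; exact hk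
      have h1 : HasFDerivAt (A.tr j k) (fderiv ℝ (A.tr j k) (A.chart j (gam (s • v) 1)))
          (A.chart j (gam (s • v) 1)) :=
        ((A.contDiffAt_tr hj' hk').differentiableAt (by simp)).hasFDerivAt
      have h2 := HasFDerivAt.comp (f := fun w => A.chart j (gam w 1)) (s • v) h1
        (hstrict j _ hj').hasFDerivAt
      have h3 : HasFDerivAt (fun w => A.chart k (gam w 1))
          ((fderiv ℝ (A.tr j k) (A.chart j (gam (s • v) 1))).comp
            (A.dp (fun v => gam v 1) j (s • v))) (s • v) := by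
        refine h2.congr_of_eventuallyEq ?_
        filter_upwards [hcont.continuousAt.eventually ((A.chart j).open_source.mem_nhds hj')]
          with u hu
        exact (A.tr_apply k hu).symm
      have h4 := congrArg (fun T : E n →L[ℝ] E n => T (s • w))
        ((hstrict k _ hk').hasFDerivAt.unique h3)
      simpa [hscale] using h4
    · intro j s hj
      rw [hjet v w j s hj]
      refine (hder v w j s hj).congr_of_eventuallyEq ?_
      filter_upwards [hnear v j s hj] with s' hs'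
      exact hjet v w j s' hs'
  · intro v w
    have h1 := congrArg Prod.snd (hjet v w i 0 (by rw [h0]; exact hx))
    rw [(hL0 v).hasFDerivAt.fderiv] at h1
    simpa [jet] using h1

end Crest.Agent.R241.Sm
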