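import Crest.Agent.R241.CCat
import Crest.Agent.R241.CEmb

/-! Row 241, block C (helper74): assembling the structure `CH`. -/

set_option autoImplicit false

open Set Filter
open scoped ContDiff Topology

namespace Crest.Agent.R241.Sm

open Crest.Agent.R244 Crest.Agent.R244.RAtlas

variable {n N : ℕ} {M : Type} [TopologicalSpace M]

/-- an orthonormal frame for the pull-back of the norm under an injective linear map. -/
theorem exists_frame (L : E n →L[ℝ] E N) (hL : Function.Injective L) :
    ∃ T : E n ≃L[ℝ] E n, ∀ w, ‖L (T w)‖ = ‖w‖ := by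
  let R := LinearMap.range (L : E n →ₗ[ℝ] E N)
  have hR : Module.finrank ℝ R = n := by
    rw [LinearMap.finrank_range_of_inj hL, finrank_euclideanSpace_fin]
  let e : R ≃ₗᵢ[ℝ] E n := ((stdOrthonormalBasis ℝ R).reindex (finCongr hR)).repr
  let P : E n ≃ₗ[ℝ] R := LinearEquiv.ofInjective (L : E n →ₗ[ℝ] E N) hL
  refine ⟨(e.symm.toLinearEquiv.trans P.symm).toContinuousLinearEquiv, fun w => ?_⟩
  have h : L (P.symm (e.symm w)) = (e.symm w : E N) := by
    have := congrArg Subtype.val (P.apply_symm_apply (e.symm w))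
    exact this
  change ‖L (P.symm (e.symm w))‖ = ‖w‖
  rw [h, ← Submodule.coe_norm, e.symm.norm_map]

theorem Emb.contDiff_exp [T2Space M] {A : RAtlas n M} {J : M → E N} (hJ : Emb A J) {i : A.ι}
    {x : M} {p : E n → M} (hp : A.IsExp i x p) : ContDiff ℝ ∞ fun w => J (p w) := by
  refine contDiff_iff_contDiffAt.2 fun v => ?_
  obtain ⟨k, hk⟩ := A.cover (p v)
  refine ((hJ.smooth k _ ((A.chart k).map_source hk)).comp v
    (isExp_contDiffAt hp v hk)).congr_of_eventuallyEq ?_
  filter_upwards [hp.cont.continuousAt.eventually ((A.chart k).open_source.mem_nhds hk)] with w hw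
  simp only [Function.comp, (A.chart k).left_inv hw]

/-- **Cartan-Hadamard.** -/
theorem Emb.exists_CH [T2Space M] [SimplyConnectedSpace M] [LocallyPathConnectedSpace M]
    {A : RAtlas n M} {J : M → E N} (hJ : Emb A J) {l : ℝ} (hl : 0 ≤ l) (hA : Cm.SecLe A l) :
    ∃ m : MetricSpace M, Nonempty (@CH n N l (range J) M m) := by
  choose j hj using A.cover
  choose q hq using fun x : M => hJ.exists_exp (hj x)
  obtain ⟨m, ⟨c⟩, hbij, hrad, hexp, hlen⟩ := Cm.exists_cat A hl hA j q hq
  have hinj : ∀ x, Function.Injective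
      (fderiv ℝ (fun y => J ((A.chart (j x)).symm y)) (A.chart (j x) x)) := fun x => by
    refine (injective_iff_map_eq_zero _).2 fun u hu => ?_
    by_contra h0
    have h1 := bil_self_pos (A.posDef (hj x)) h0
    rw [hJ.metric _ _ ((A.chart _).map_source (hj x)), hu, inner_zero_left] at h1
    exact lt_irrefl _ h1
  choose T hT using fun x => exists_frame _ (hinj x)
  have hT' : ∀ x w, √(bil (A.G (j x) (A.chart (j x) x)) (T x w) (T x w)) = ‖w‖ := fun x w => by
    rw [← hJ.norm_eq ((A.chart _).map_source (hj x)), hT]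
  have hsm : ∀ x, ContDiff ℝ ∞ fun w => J (q x (T x w)) := fun x =>
    (hJ.contDiff_exp (hq x)).comp (T x).contDiff
  have hlow : ∀ a b, ‖J a - J b‖ ≤ @dist M m.toDist a b := fun a b => by
    obtain ⟨v, rfl⟩ := (hbij a).2 b
    have h := hJ.norm_sub_le ((hq a).geo v) isOpen_univ isPreconnected_univ (mem_univ 0)
      (i := j a) (by simpa [(hq a).zero] using hj a) (mem_univ 1)
    rw [(hq a).vel v] at h
    simp only [one_smul, zero_smul, (hq a).zero, abs_one, mul_one] at h
    rw [hrad, norm_sub_rev]
    exact h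
  refine ⟨m, ⟨@CH.mk n N l (range J) M m c J rfl hJ.emb.injective (fun x w => q x (T x w))
    (fun x => (hbij x).comp (T x).bijective) (fun x w => by rw [hrad, hT'])
    (fun x w w' => by rw [← hT' x, map_sub]; exact hexp x _ _) hsm (fun x W hW => ?_)
    (fun x y ε hε => ?_)⟩⟩
  · have h1 : IsOpen (q x '' (T x '' W)) :=
      ((hq x).isLocalHomeomorph ((hq x).inj_of_npc (hA.npc hl))).isOpenMap _
        ((T x).toHomeomorph.isOpenMap _ hW)
    obtain ⟨U, hU, hUe⟩ := hJ.emb.isInducing.isOpen_iff.1 h1
    refine ⟨U, hU, ?_⟩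
    rw [inter_comm, ← image_preimage_eq_inter_range, hUe, image_image, image_image]
  · set F : E n → E N := fun w => J (q x (T x w)) with hF
    have hst : HasStrictFDerivAt F (fderiv ℝ F y) y :=
      (hsm x).contDiffAt.hasStrictFDerivAt (by simp)
    have hc : ContinuousAt (fderiv ℝ F) y := ((hsm x).continuous_fderiv (by simp)).continuousAt
    obtain ⟨δ, hδ, hδb⟩ := Metric.continuousAt_iff.1 hc ε hε
    have hb : ∀ᶠ p : E n × E n in 𝓝 (y, y), p ∈ Metric.ball y δ ×ˢ Metric.ball y δ :=
      prod_mem_nhds (Metric.ball_mem_nhds y hδ) (Metric.ball_mem_nhds y hδ)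
    filter_upwards [hst.isLittleO.def hε, hb] with p h1 h2
    rw [abs_le]
    constructor
    · have h3 := hlow (q x (T x p.1)) (q x (T x p.2))
      have h4 := norm_sub_norm_le (fderiv ℝ F y (p.1 - p.2)) (F p.1 - F p.2)
      rw [norm_sub_rev] at h1
      simp only [hF] at h1 h4 ⊢
      linarith
    · have hcc : Continuous fun s : ℝ => q x (T x (p.1 + s • (p.2 - p.1))) :=
        (hq x).cont.comp ((T x).continuous.comp (by fun_prop))
      have h3 := hlen (fun s : ℝ => q x (T x (p.1 + s • (p.2 - p.1))))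
        (‖fderiv ℝ F y (p.1 - p.2)‖ + ε * ‖p.1 - p.2‖) (by positivity) hcc fun s hs => by
          have hl1 : HasDerivAt (fun s : ℝ => p.1 + s • (p.2 - p.1)) (p.2 - p.1) s := by
            simpa using ((hasDerivAt_id s).smul_const (p.2 - p.1)).const_add p.1
          have hl2 := (T x).hasFDerivAt.comp_hasDerivAt s hl1
          have hd := ((hq x).strict _ _ (hj (q x (T x (p.1 + s • (p.2 - p.1)))))).hasFDerivAt
            |>.comp_hasDerivAt s hl2
          refine ⟨_, _, hj _, hd, ?_⟩
          have e1 := hJ.hasDerivAt hcc.continuousAt (hj _) hd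
          have e2 := (((hsm x).differentiable (by simp)) (p.1 + s • (p.2 - p.1))).hasFDerivAt
            |>.comp_hasDerivAt s hl1
          have e3 := e1.unique e2
          rw [hJ.metric _ _ ((A.chart _).map_source (hj _)), e3, real_inner_self_eq_norm_sq]
          refine pow_le_pow_left₀ (norm_nonneg _) ?_ 2
          have hz : p.1 + s • (p.2 - p.1) ∈ Metric.ball y δ :=
            (convex_ball y δ).add_smul_sub_mem h2.1 h2.2 hs
          have h5 := hδb hz
          rw [dist_eq_norm] at h5
          have h6 := (fderiv ℝ F (p.1 + s • (p.2 - p.1)) - fderiv ℝ F y).le_opNorm (p.2 - p.1)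
          rw [sub_apply] at h6
          have h7 := norm_sub_norm_le (fderiv ℝ F (p.1 + s • (p.2 - p.1)) (p.2 - p.1))
            (fderiv ℝ F y (p.2 - p.1))
          have h8 : ‖fderiv ℝ F y (p.2 - p.1)‖ = ‖fderiv ℝ F y (p.1 - p.2)‖ := by
            rw [← neg_sub, map_neg, norm_neg]
          have h9 := mul_le_mul_of_nonneg_right h5.le (norm_nonneg (p.2 - p.1))
          rw [norm_sub_rev p.2 p.1] at h6 h9
          linarith
      simp only [zero_smul, add_zero, one_smul, add_sub_cancel] at h3
      linarith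

end Crest.Agent.R241.Sm
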