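import Crest.Agent.R241.CDefs

/-! Row 241, block C: charts in normal form.
`exists_chart`: `A = fderiv f 0` is injective, so has a continuous linear left inverse `L`
(`LinearMap.exists_leftInverse_of_injective`, finite dimension); `L ∘ f` has derivative `id` at `0`,
take `e = ContDiffAt.toOpenPartialHomeomorph`; `e.symm` is `C^∞` at every point of a neighbourhood
(`OpenPartialHomeomorph.contDiffAt_symm` where `fderiv (L ∘ f)` is invertible: an open condition);
`V` = small open nhd of `0` inside `V₀ ∩ e.source`, `f '' V = S ∩ U₁` (`image_open`),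
`U = U₁ ∩ L ⁻¹' (e '' V)`, `r = e.symm ∘ L`. -/

set_option autoImplicit false

open Set Filter Topology
open scoped ContDiff InnerProductSpace

namespace Crest.Agent.R241.C

open Crest.GeometryTopology.Submanifold

variable {n N : ℕ} {S : Set (Euc N)}

theorem exists_chart {p : Euc N} {f : Euc n → Euc N} {V₀ : Set (Euc n)}
    (h : IsLocalParam n N S p f V₀) : ∃ c : Chart n N S p, c.f = f ∧ (0 : Euc n) ∈ c.V := by
  obtain ⟨L₀, hL₀⟩ := (fderiv ℝ f 0).toLinearMap.exists_leftInverse_of_injective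
    (LinearMap.ker_eq_bot.2 (h.injective_fderiv 0 h.zero_mem))
  let L : Euc N →L[ℝ] Euc n := LinearMap.toContinuousLinearMap L₀
  have hsf : ContDiffOn ℝ ∞ f V₀ := h.contDiffOn
  have hg : ContDiffOn ℝ ∞ (fun y => L (f y)) V₀ := L.contDiff.comp_contDiffOn hsf
  have hgAt : ∀ y ∈ V₀, ContDiffAt ℝ ∞ (fun y => L (f y)) y := fun y hy =>
    hg.contDiffAt (h.isOpen.mem_nhds hy)
  have hd0 : HasFDerivAt (fun y => L (f y))
      ((ContinuousLinearEquiv.refl ℝ (Euc n) : Euc n ≃L[ℝ] Euc n) : Euc n →L[ℝ] Euc n) 0 := by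
    have h1 := L.hasFDerivAt.comp (0 : Euc n)
      ((hsf.contDiffAt (h.isOpen.mem_nhds h.zero_mem)).differentiableAt (by simp)).hasFDerivAt
    refine h1.congr_fderiv ?_
    ext1 a
    exact congr($hL₀ a)
  let e := (hgAt 0 h.zero_mem).toOpenPartialHomeomorph _ hd0 (by simp)
  have he : ∀ y, e y = L (f y) := fun _ => rfl
  have h0e : (0 : Euc n) ∈ e.source :=
    (hgAt 0 h.zero_mem).mem_toOpenPartialHomeomorph_source hd0 (by simp)
  let W : Set (Euc n) := V₀ ∩ fderiv ℝ (fun y => L (f y)) ⁻¹'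
    range ((↑) : (Euc n ≃L[ℝ] Euc n) → Euc n →L[ℝ] Euc n)
  have hW : IsOpen W := (hg.continuousOn_fderiv_of_isOpen h.isOpen (by simp)).isOpen_inter_preimage
    h.isOpen ContinuousLinearEquiv.isOpen
  have h0W : (0 : Euc n) ∈ W := ⟨h.zero_mem, _, hd0.fderiv.symm⟩
  let V : Set (Euc n) := W ∩ e.source
  have hV : IsOpen V := hW.inter e.open_source
  have hVV : V ⊆ V₀ := fun y hy => hy.1.1
  obtain ⟨U₁, hU₁, hfU⟩ := h.image_open V hVV hV
  have heV : IsOpen (e '' V) := e.isOpen_image_of_subset_source hV inter_subset_right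
  have hmem : ∀ y ∈ V, f y ∈ S ∧ f y ∈ U₁ ∩ L ⁻¹' (e '' V) := by
    intro y hy
    have : f y ∈ S ∩ U₁ := hfU ▸ mem_image_of_mem f hy
    exact ⟨this.1, this.2, y, hy, rfl⟩
  have hrf : ∀ y ∈ V, e.symm (L (f y)) = y := fun y hy => e.left_inv hy.2
  have hS : ∀ x ∈ S, x ∈ U₁ ∩ L ⁻¹' (e '' V) → ∃ y ∈ V, f y = x := by
    intro x hx hU
    have : x ∈ f '' V := hfU ▸ ⟨hx, hU.1⟩
    exact this
  refine ⟨⟨f, fun x => e.symm (L x), V, U₁ ∩ L ⁻¹' (e '' V), hV,
    hU₁.inter (heV.preimage L.continuous), h.map_zero ▸ (hmem 0 ⟨h0W, h0e⟩).2, hsf.mono hVV,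
    fun x hx => ?_, hmem, hrf, fun x hx hU => ?_, fun x hx hU => ?_⟩, rfl, h0W, h0e⟩
  · obtain ⟨y, hy, hyx⟩ := hx.2
    obtain ⟨A, hA⟩ := hy.1.2
    have h1 : e.symm (L x) = y := by rw [← hyx]; exact e.left_inv hy.2
    have h2 : ContDiffAt ℝ ∞ e.symm (L x) := by
      refine e.contDiffAt_symm (f₀' := A) (hyx ▸ e.map_source hy.2) ?_ ?_
      · rw [h1, hA]
        exact ((hgAt y (hVV hy)).differentiableAt (by simp)).hasFDerivAt
      · rw [h1]
        exact hgAt y (hVV hy)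
    exact (h2.comp x L.contDiff.contDiffAt).contDiffWithinAt
  · obtain ⟨y, hy, rfl⟩ := hS x hx hU
    rw [hrf y hy]
    exact hy
  · obtain ⟨y, hy, rfl⟩ := hS x hx hU
    rw [hrf y hy]

namespace Chart
variable {p : Euc N} (c : Chart n N S p)

theorem contDiffAt_f {y : Euc n} (hy : y ∈ c.V) : ContDiffAt ℝ ∞ c.f y :=
  c.sf.contDiffAt (c.oV.mem_nhds hy)

theorem contDiffAt_r {x : Euc N} (hx : x ∈ c.U) : ContDiffAt ℝ ∞ c.r x :=
  c.sr.contDiffAt (c.oU.mem_nhds hx)

/-- differentiate `r ∘ f = id`. -/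
theorem fderiv_r_f {y : Euc n} (hy : y ∈ c.V) (a : Euc n) :
    fderiv ℝ c.r (c.f y) (fderiv ℝ c.f y a) = a := by
  have h1 := ((c.contDiffAt_r (c.f_mem y hy).2).differentiableAt (by simp)).hasFDerivAt.comp y
    ((c.contDiffAt_f hy).differentiableAt (by simp)).hasFDerivAt
  have h2 : HasFDerivAt (c.r ∘ c.f) (ContinuousLinearMap.id ℝ (Euc n)) y :=
    (hasFDerivAt_id y).congr_of_eventuallyEq
      (by filter_upwards [c.oV.mem_nhds hy] with w hw using c.r_f w hw)
  exact congr($(h1.unique h2) a)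

theorem injective_fderiv {y : Euc n} (hy : y ∈ c.V) : Function.Injective (fderiv ℝ c.f y) :=
  Function.LeftInverse.injective (c.fderiv_r_f hy)

/-- a map into `S` factors through the chart. -/
theorem eventually_eq {W : Type*} [TopologicalSpace W] {F : W → Euc N} {z : W}
    (hF : ContinuousAt F z) (hS : ∀ᶠ w in 𝓝 z, F w ∈ S) (hz : F z ∈ c.U) :
    ∀ᶠ w in 𝓝 z, c.r (F w) ∈ c.V ∧ c.f (c.r (F w)) = F w := by
  filter_upwards [hS, hF (c.oU.mem_nhds hz)] with w h1 h2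
  exact ⟨c.r_mem _ h1 h2, c.f_r _ h1 h2⟩

/-- differentiate `F = f ∘ r ∘ F`. -/
theorem fderiv_eq {W : Type*} [NormedAddCommGroup W] [NormedSpace ℝ W] {F : W → Euc N} {z : W}
    (hF : DifferentiableAt ℝ F z) (hS : ∀ᶠ w in 𝓝 z, F w ∈ S) (hz : F z ∈ c.U) (a : W) :
    fderiv ℝ c.f (c.r (F z)) (fderiv ℝ c.r (F z) (fderiv ℝ F z a)) = fderiv ℝ F z a := by
  have hev := c.eventually_eq hF.continuousAt hS hz
  have h1 := ((c.contDiffAt_f hev.self_of_nhds.1).differentiableAt (by simp)).hasFDerivAt.comp z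
    (((c.contDiffAt_r hz).differentiableAt (by simp)).hasFDerivAt.comp z hF.hasFDerivAt)
  have h2 : HasFDerivAt (c.f ∘ c.r ∘ F) (fderiv ℝ F z) z :=
    hF.hasFDerivAt.congr_of_eventuallyEq (by filter_upwards [hev] with w hw using hw.2)
  exact congr($(h1.unique h2) a)

/-- the tangent space does not depend on the chart. -/
theorem range_eq {q : Euc N} (c' : Chart n N S q) {y y' : Euc n} (hy : y ∈ c.V) (hy' : y' ∈ c'.V)
    (h : c.f y = c'.f y') (u : Euc N) :
    (∃ a, fderiv ℝ c.f y a = u) ↔ ∃ a, fderiv ℝ c'.f y' a = u := by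
  have key : ∀ {p q : Euc N} (c : Chart n N S p) (c' : Chart n N S q) {y y' : Euc n},
      y ∈ c.V → y' ∈ c'.V → c.f y = c'.f y' → (∃ a, fderiv ℝ c.f y a = u) →
        ∃ a, fderiv ℝ c'.f y' a = u := by
    rintro p q c c' y y' hy hy' h ⟨a, rfl⟩
    have h1 := c'.fderiv_eq (F := c.f) (z := y) ((c.contDiffAt_f hy).differentiableAt (by simp))
      (by filter_upwards [c.oV.mem_nhds hy] with w hw using (c.f_mem w hw).1)
      (h ▸ (c'.f_mem y' hy').2) a
    have h2 : c'.r (c.f y) = y' := by rw [h]; exact c'.r_f y' hy'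
    rw [h2] at h1
    exact ⟨_, h1⟩
  exact ⟨key c c' hy hy' h, key c' c hy' hy h.symm⟩

end Chart

end Crest.Agent.R241.C
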