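import Crest.Agent.R241.KVar

/-! Row 241, block K: `CatSp` from the point-side comparison; the ODE comparison behind it. -/

set_option autoImplicit false
open Filter Topology Set

namespace Crest.Agent.R241

universe u
variable {X : Type u} [MetricSpace X] {l : ℝ}

/-- the point-side comparison applied twice gives `CatSp.cmp`. -/
theorem catSp_of_side (hl : 0 ≤ l) (geo : X → X → ℝ → X) (zero : ∀ x p, geo x p 0 = x)
    (one : ∀ x p, geo x p 1 = p)
    (dist_geo : ∀ x p, ∀ s ∈ Icc (0 : ℝ) 1, ∀ t ∈ Icc (0 : ℝ) 1,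
      dist (geo x p s) (geo x p t) = |s - t| * dist x p)
    (side : ∀ x p q, ∀ t ∈ Icc (0 : ℝ) 1,
      sn l (dist x q) * md l (dist p (geo x q t)) ≤
        sn l (dist x q) * md l (dist x p - t * dist x q) +
          sn l (t * dist x q) * (md l (dist p q) - md l (dist x p - dist x q))) :
    ∃ c : CatSp l X, c.geo = geo := by
  refine ⟨⟨geo, zero, one, dist_geo, fun x p q s hs t ht => ?_⟩, rfl⟩
  have h1 := side x (geo x p s) q t ht
  have h2 := side x q p s hs
  have e : dist x (geo x p s) = s * dist x p := by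
    have := dist_geo x p 0 ⟨le_rfl, zero_le_one⟩ s hs
    rwa [zero, zero_sub, abs_neg, abs_of_nonneg hs.1] at this
  rw [e] at h1
  rw [dist_comm q (geo x p s), dist_comm q p, ← neg_sub (s * dist x p), Alm.md_neg,
    ← neg_sub (dist x p), Alm.md_neg] at h2
  have a := Alm.sn_nonneg hl (dist_nonneg : 0 ≤ dist x p)
  have b := Alm.sn_nonneg hl (mul_nonneg ht.1 (dist_nonneg : 0 ≤ dist x q))
  nlinarith [mul_le_mul_of_nonneg_left h1 a, mul_le_mul_of_nonneg_left h2 b]

/-- maximum principle: `h'' ≥ c h` with `c ≥ 0` and `h 0, h 1 ≤ 0` force `h ≤ 0` on `[0,1]`. -/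
theorem nonpos_of_second {h h' h'' : ℝ → ℝ} {c : ℝ} (hc : 0 ≤ c)
    (hh : ContinuousOn h (Icc 0 1)) (h1 : ∀ t ∈ Ioo (0 : ℝ) 1, HasDerivAt h (h' t) t)
    (h2 : ∀ t ∈ Ioo (0 : ℝ) 1, HasDerivAt h' (h'' t) t)
    (hle : ∀ t ∈ Ioo (0 : ℝ) 1, c * h t ≤ h'' t) (h0 : h 0 ≤ 0) (h0' : h 1 ≤ 0) :
    ∀ t ∈ Icc (0 : ℝ) 1, h t ≤ 0 := by
  -- perturb by `ε (t² - 1)`-type strictly convex term
  have key : ∀ ε > (0 : ℝ), ∀ t ∈ Icc (0 : ℝ) 1, h t + ε * t ^ 2 ≤ ε := by
    intro ε hε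
    obtain ⟨t₀, ht₀, hmax⟩ := isCompact_Icc.exists_isMaxOn (nonempty_Icc.2 zero_le_one)
      (hh.add (by fun_prop : ContinuousOn (fun t : ℝ => ε * t ^ 2) (Icc 0 1)))
    by_contra hcon
    push Not at hcon
    obtain ⟨t₁, ht₁, hlt⟩ := hcon
    have hbig : ε < h t₀ + ε * t₀ ^ 2 := hlt.trans_le (hmax ht₁)
    have hI : t₀ ∈ Ioo (0 : ℝ) 1 := by
      refine ⟨ht₀.1.lt_of_ne ?_, ht₀.2.lt_of_ne ?_⟩
      · rintro rfl
        nlinarith
      · rintro rfl
        nlinarith
    have hpos : 0 < h t₀ := by nlinarith [hI.1, hI.2, mul_pos hε (sub_pos.2 hI.2)]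
    have hloc : IsLocalMax (fun t => h t + ε * t ^ 2) t₀ :=
      hmax.isLocalMax (Icc_mem_nhds hI.1 hI.2)
    have hd : ∀ t ∈ Ioo (0 : ℝ) 1, HasDerivAt (fun t => h t + ε * t ^ 2) (h' t + ε * (2 * t)) t :=
      fun t ht => by
        simpa using (h1 t ht).fun_add ((hasDerivAt_pow 2 t).const_mul ε)
    have hz : h' t₀ + ε * (2 * t₀) = 0 := hloc.hasDerivAt_eq_zero (hd t₀ hI)
    have hd2 : HasDerivAt (fun t => h' t + ε * (2 * t)) (h'' t₀ + ε * 2) t₀ := by
      simpa using (h2 t₀ hI).fun_add (((hasDerivAt_id' t₀).const_mul 2).const_mul ε)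
    have hp2 : 0 < h'' t₀ + ε * 2 := by nlinarith [hle t₀ hI, mul_nonneg hc hpos.le]
    -- the derivative is positive just to the right of `t₀`
    have hev : ∀ᶠ t in 𝓝[>] t₀, 0 < h' t + ε * (2 * t) := by
      have := (hasDerivAt_iff_tendsto_slope.1 hd2).eventually (lt_mem_nhds hp2)
      filter_upwards [this.filter_mono (nhdsWithin_mono _ fun t (ht : t₀ < t) => ht.ne'),
        self_mem_nhdsWithin] with t ht ht'
      rw [slope_def_field, hz, sub_zero] at ht
      exact (div_pos_iff_of_pos_right (sub_pos.2 ht')).1 ht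
    obtain ⟨b, hb, hsub⟩ := (mem_nhdsGT_iff_exists_Ioo_subset).1
      (hev.and (Ioo_mem_nhdsGT hI.2))
    have hm : t₀ < (t₀ + b) / 2 := by
      have : t₀ < b := hb
      linarith
    have hm' : (t₀ + b) / 2 < b := by
      have : t₀ < b := hb
      linarith
    have hin : ∀ t ∈ Icc t₀ ((t₀ + b) / 2), t ∈ Ioo (0 : ℝ) 1 := fun t ht => by
      rcases ht.1.eq_or_lt with rfl | h3
      · exact hI
      · exact ⟨hI.1.trans h3, (hsub ⟨h3, ht.2.trans_lt hm'⟩).2.2⟩
    obtain ⟨ξ, hξ, hξe⟩ := exists_hasDerivAt_eq_slope (fun t => h t + ε * t ^ 2)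
      (fun t => h' t + ε * (2 * t)) hm
      (fun t ht => (hd t (hin t ht)).continuousAt.continuousWithinAt)
      (fun t ht => hd t (hin t (Ioo_subset_Icc_self ht)))
    have hξp := (hsub ⟨hξ.1, hξ.2.trans hm'⟩).1
    rw [hξe] at hξp
    have h4 := (div_pos_iff_of_pos_right (sub_pos.2 hm)).1 hξp
    have h5 := hmax (Ioo_subset_Icc_self (hin _ ⟨hm.le, le_rfl⟩))
    simp only [mem_setOf_eq, Pi.add_apply] at h5
    linarith
  intro t ht
  refine le_of_forall_pos_le_add fun ε hε => ?_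
  nlinarith [key ε hε t ht, mul_nonneg hε.le (sq_nonneg t)]

/-- ODE comparison along a geodesic of length `d`. -/
theorem ode_side (hl : 0 ≤ l) {f f' f'' : ℝ → ℝ} {d a : ℝ} (hd : 0 ≤ d)
    (hf : ContinuousOn f (Icc 0 1)) (h1 : ∀ t ∈ Ioo (0 : ℝ) 1, HasDerivAt f (f' t) t)
    (h2 : ∀ t ∈ Ioo (0 : ℝ) 1, HasDerivAt f' (f'' t) t)
    (hle : ∀ t ∈ Ioo (0 : ℝ) 1, d ^ 2 * (1 + l * f t) ≤ f'' t) (h0 : f 0 = md l a)
    {t : ℝ} (ht : t ∈ Icc (0 : ℝ) 1) :
    sn l d * f t ≤ sn l d * md l (a - t * d) + sn l (t * d) * (f 1 - md l (a - d)) := by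
  have hs := Alm.sn_nonneg hl hd
  have da : ∀ t : ℝ, HasDerivAt (fun t => a - t * d) (-d) t := fun t => by
    simpa using ((hasDerivAt_id t).mul_const d).const_sub a
  have db : ∀ t : ℝ, HasDerivAt (fun t => t * d) d t := fun t => by
    simpa using (hasDerivAt_id t).mul_const d
  have m1 : ∀ t : ℝ, HasDerivAt (fun t => md l (a - t * d)) (sn l (a - t * d) * -d) t :=
    fun t => (Alm.hasDerivAt_md hl _).comp t (da t)
  have m2 : ∀ t : ℝ, HasDerivAt (fun t => sn l (a - t * d)) (Alm.cs l (a - t * d) * -d) t :=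
    fun t => (Alm.hasDerivAt_sn hl _).comp t (da t)
  have s1 : ∀ t : ℝ, HasDerivAt (fun t => sn l (t * d)) (Alm.cs l (t * d) * d) t :=
    fun t => (Alm.hasDerivAt_sn hl _).comp t (db t)
  have s2 : ∀ t : ℝ, HasDerivAt (fun t => Alm.cs l (t * d)) (l * sn l (t * d) * d) t :=
    fun t => (Alm.hasDerivAt_cs hl _).comp t (db t)
  have := nonpos_of_second (c := l * d ^ 2) (by positivity)
    (h := fun t => sn l d * f t - sn l d * md l (a - t * d) - sn l (t * d) * (f 1 - md l (a - d)))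
    (h' := fun t => sn l d * f' t - sn l d * (sn l (a - t * d) * -d) -
      Alm.cs l (t * d) * d * (f 1 - md l (a - d)))
    (h'' := fun t => sn l d * f'' t - sn l d * (Alm.cs l (a - t * d) * -d * -d) -
      l * sn l (t * d) * d * d * (f 1 - md l (a - d)))
    (((hf.const_mul _).sub (fun t _ => ((m1 t).continuousAt.continuousWithinAt).const_mul _)).sub
      fun t _ => ((s1 t).continuousAt.continuousWithinAt).mul_const _)
    (fun t ht => (((h1 t ht).const_mul _).sub ((m1 t).const_mul _)).sub ((s1 t).mul_const _))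
    (fun t ht => (((h2 t ht).const_mul _).sub (((m2 t).mul_const _).const_mul _)).sub
      (((s2 t).mul_const _).mul_const _))
    (fun t ht => by
      have := mul_le_mul_of_nonneg_left (hle t ht) hs
      rw [Alm.cs_eq hl]
      nlinarith)
    (by simp [h0, Alm.sn_zero]) (by simp only [one_mul]; nlinarith) t ht
  linarith

end Crest.Agent.R241
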