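import Crest.Agent.R244.Cat
import Crest.Agent.R241.KSide

/-! Row 241, block C: Rauch comparison for the exponential maps of an `R244.RAtlas`. -/

set_option autoImplicit false

open Set Filter
open scoped ContDiff Topology

namespace Crest.Agent.R241.Cm

open Crest.GeometryTopology.CoordMetric Crest.GeometryTopology.ChartCurvature
  Crest.GeometryTopology.Geodesic
open Crest.Agent.R244 Crest.Agent.R244.RAtlas

/-- scalar comparison: `√u / sn L` is increasing. -/
theorem rauch_ode {L : ℝ} (hL : 0 ≤ L) {u u₁ u₂ : ℝ → ℝ} (h1 : ∀ s, HasDerivAt u (u₁ s) s)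
    (h2 : ∀ s, HasDerivAt u₁ (u₂ s) s) (h0 : ∀ s, 0 ≤ u s) (h3 : ∀ s, 2 * L * u s ≤ u₂ s)
    (h4 : ∀ s, u₁ s ^ 2 ≤ 2 * u s * (u₂ s - 2 * L * u s)) (hz : u 0 = 0) {s : ℝ} (hs0 : 0 < s)
    (hs1 : s ≤ 1) : √(u s) * sn L 1 ≤ √(u 1) * sn L s := by
  have key : ∀ ε > 0, (√(u s + ε ^ 2) - ε) * sn L 1 ≤ (√(u 1 + ε ^ 2) - ε) * sn L s := by
    intro ε hε
    have hp : ∀ t, 0 < u t + ε ^ 2 := fun t => by linarith [h0 t, pow_pos hε 2]
    have hr : ∀ t, HasDerivAt (fun t => √(u t + ε ^ 2) - ε) (u₁ t / (2 * √(u t + ε ^ 2))) t :=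
      fun t => (((h1 t).add_const _).sqrt (hp t).ne').sub_const ε
    have hr0 : ∀ t, HasDerivAt (fun t => √(u t + ε ^ 2)) (u₁ t / (2 * √(u t + ε ^ 2))) t :=
      fun t => ((h1 t).add_const _).sqrt (hp t).ne'
    have hs : ∀ t, 0 < √(u t + ε ^ 2) := fun t => Real.sqrt_pos.2 (hp t)
    have hr' : ∀ t, HasDerivAt (fun t => u₁ t / (2 * √(u t + ε ^ 2)))
        ((u₂ t * (2 * √(u t + ε ^ 2)) - u₁ t * (2 * (u₁ t / (2 * √(u t + ε ^ 2))))) /
          (2 * √(u t + ε ^ 2)) ^ 2) t := fun t =>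
      (h2 t).div ((hr0 t).const_mul 2) (by have := hs t; positivity)
    have hineq : ∀ t, L * (√(u t + ε ^ 2) - ε) ≤
        (u₂ t * (2 * √(u t + ε ^ 2)) - u₁ t * (2 * (u₁ t / (2 * √(u t + ε ^ 2))))) /
          (2 * √(u t + ε ^ 2)) ^ 2 := by
      intro t
      have e := Real.sq_sqrt (hp t).le
      have hst := hs t
      have hεφ : ε ≤ √(u t + ε ^ 2) := Real.le_sqrt_of_sq_le (by linarith [h0 t])
      generalize √(u t + ε ^ 2) = φ at e hst hεφ
      have e1 : (u₂ t * (2 * φ) - u₁ t * (2 * (u₁ t / (2 * φ)))) / (2 * φ) ^ 2 =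
          (2 * φ ^ 2 * u₂ t - u₁ t ^ 2) / (4 * φ ^ 3) := by
        field_simp
        ring
      rw [e1, le_div_iff₀ (by positivity)]
      have a1 : 0 ≤ ε ^ 2 * (u₂ t - 2 * L * u t) := mul_nonneg (sq_nonneg _) (by linarith [h3 t])
      have a2 : 0 ≤ L * φ ^ 2 * (ε * (φ - ε)) :=
        mul_nonneg (mul_nonneg hL (sq_nonneg _)) (mul_nonneg hε.le (by linarith))
      have hu : u t = φ ^ 2 - ε ^ 2 := by linarith
      have a3 := h4 t
      rw [hu] at a1 a3
      nlinarith
    set ψ : ℝ → ℝ := fun t => √(u t + ε ^ 2) - ε with hψ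
    set ψ₁ : ℝ → ℝ := fun t => u₁ t / (2 * √(u t + ε ^ 2)) with hψ₁
    have hW : ∀ t, HasDerivAt (fun t => ψ₁ t * sn L t - ψ t * Alm.cs L t)
        (((u₂ t * (2 * √(u t + ε ^ 2)) - u₁ t * (2 * (u₁ t / (2 * √(u t + ε ^ 2))))) /
          (2 * √(u t + ε ^ 2)) ^ 2 - L * ψ t) * sn L t) t := fun t => by
      have := ((hr' t).mul (Alm.hasDerivAt_sn hL t)).sub ((hr t).mul (Alm.hasDerivAt_cs hL t))
      refine this.congr_deriv ?_
      simp only [hψ, hψ₁]
      ring
    have hψ0 : ψ 0 = 0 := by simp [hψ, hz, Real.sqrt_sq hε.le]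
    have hWm : MonotoneOn (fun t => ψ₁ t * sn L t - ψ t * Alm.cs L t) (Ici 0) := by
      refine monotoneOn_of_deriv_nonneg (convex_Ici 0)
        (fun t _ => (hW t).continuousAt.continuousWithinAt)
        (fun t _ => (hW t).differentiableAt.differentiableWithinAt) fun t ht => ?_
      rw [(hW t).deriv]
      exact mul_nonneg (sub_nonneg.2 (hineq t)) (Alm.sn_nonneg hL (le_of_lt (by simpa using ht)))
    have hW0 : ∀ t, 0 ≤ t → 0 ≤ ψ₁ t * sn L t - ψ t * Alm.cs L t := fun t ht => by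
      have := hWm (mem_Ici.2 le_rfl) (mem_Ici.2 ht) ht
      simpa [hψ0, Alm.sn_zero] using this
    have hQ : ∀ t, 0 < t → HasDerivAt (fun t => ψ t / sn L t)
        ((ψ₁ t * sn L t - ψ t * Alm.cs L t) / sn L t ^ 2) t := fun t ht =>
      (hr t).div (Alm.hasDerivAt_sn hL t) (Alm.sn_pos hL ht).ne'
    have hQm : MonotoneOn (fun t => ψ t / sn L t) (Ioi 0) := by
      refine monotoneOn_of_deriv_nonneg (convex_Ioi 0)
        (fun t ht => (hQ t ht).continuousAt.continuousWithinAt)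
        (fun t ht => (hQ t (by simpa using ht)).differentiableAt.differentiableWithinAt)
        fun t ht => ?_
      have ht' : 0 < t := by simpa using ht
      rw [(hQ t ht').deriv]
      exact div_nonneg (hW0 t ht'.le) (sq_nonneg _)
    have := hQm (mem_Ioi.2 hs0) (mem_Ioi.2 zero_lt_one) hs1
    rwa [div_le_div_iff₀ (Alm.sn_pos hL hs0) (Alm.sn_pos hL zero_lt_one)] at this
  have c1 : Continuous fun ε : ℝ => (√(u s + ε ^ 2) - ε) * sn L 1 := by fun_prop
  have c2 : Continuous fun ε : ℝ => (√(u 1 + ε ^ 2) - ε) * sn L s := by fun_prop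
  have := le_of_tendsto_of_tendsto ((c1.tendsto 0).mono_left (nhdsWithin_le_nhds (s := Ioi 0)))
    ((c2.tendsto 0).mono_left (nhdsWithin_le_nhds (s := Ioi 0)))
    (eventually_nhdsWithin_of_forall fun ε hε => key ε hε)
  simpa using this

theorem sn_scale {l r : ℝ} (hl : 0 ≤ l) (hr : 0 < r) : sn (l * r ^ 2) 1 = sn l r / r := by
  rcases hl.eq_or_lt with rfl | hl
  · simp [Alm.sn_zero_left, hr.ne']
  · rw [Alm.sn_of_pos hl, Alm.sn_of_pos (by positivity), Real.sqrt_mul hl.le,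
      Real.sqrt_sq hr.le, mul_one, div_div]

variable {n : ℕ} {M : Type} [TopologicalSpace M]

/-- sectional curvature at most `-l` (tested in one chart at each point). -/
def SecLe (A : RAtlas n M) (l : ℝ) : Prop :=
  ∀ x, ∃ i, x ∈ (A.chart i).source ∧ ∀ u v, secNumer (A.G i) (A.chart i x) u v ≤
    -l * (bil (A.G i (A.chart i x)) u u * bil (A.G i (A.chart i x)) v v -
      bil (A.G i (A.chart i x)) u v ^ 2)

variable {A : RAtlas n M} {l : ℝ} {i : A.ι} {x : M} {p : E n → M}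

theorem SecLe.npc (h : SecLe A l) (hl : 0 ≤ l) : A.NPC := fun x => by
  obtain ⟨i, hi, hs⟩ := h x
  refine ⟨i, hi, fun u v => (hs u v).trans ?_⟩
  have := bil_sq_le (A.posDef hi) u v
  nlinarith

/-- Rauch comparison for directions orthogonal to the radial one. -/
theorem rauch_perp (h : A.IsExp i x p) (hA : SecLe A l) (hl : 0 ≤ l) {j : A.ι} {v : E n}
    (hj : p v ∈ (A.chart j).source) (w : E n) (hvw : bil (A.G i (A.chart i x)) v w = 0)
    {r : ℝ} (hr : 0 < r) (hrv : bil (A.G i (A.chart i x)) v v = r ^ 2) :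
    (sn l r / r) ^ 2 * bil (A.G i (A.chart i x)) w w ≤
      bil (A.G j (A.chart j (p v))) (A.dp p j v w) (A.dp p j v w) := by
  have hγ := h.geo v
  have hξ := h.jac v w
  set γ : ℝ → M := fun s => p (s • v) with hγd
  set ξ : A.ι → ℝ → E n := fun j s => A.dp p j (s • v) (s • w) with hξd
  obtain ⟨u, hu⟩ := gauss_glue hγ.continuous
    (fun k s => bil (A.G k (A.crd k γ s)) (ξ k s) (ξ k s)) (fun k l s hk hl => by
      rw [hξ.compat k l s hk hl]
      exact A.isom k l _ hk hl _ _)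
  have hd : ∀ k s, γ s ∈ (A.chart k).source → HasDerivAt u
      (2 * bil (A.G k (A.crd k γ s)) (cov (A.G k) (A.crd k γ) (ξ k) s) (ξ k s)) s := by
    intro k s hk
    have := hasDerivAt_bil (A.riem k) (c := A.crd k γ) ((A.chart k).map_source hk)
      (hγ.gauss_c hk) (hξ.gauss_d hk) (hξ.gauss_d hk)
    rw [bil_comm (g := A.G k (A.crd k γ s)) (A.posDef hk) (ξ k s), ← two_mul] at this
    exact this.congr_of_eventuallyEq (hu k s hk)
  have hd2 : ∀ k s, γ s ∈ (A.chart k).source → HasDerivAt (deriv u)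
      (2 * (bil (A.G k (A.crd k γ s)) (cov (A.G k) (A.crd k γ) (ξ k) s)
        (cov (A.G k) (A.crd k γ) (ξ k) s) -
        secNumer (A.G k) (A.crd k γ s) (ξ k s) (deriv (A.crd k γ) s))) s := by
    intro k s hk
    have := (hasDerivAt_bil (A.riem k) (c := A.crd k γ) ((A.chart k).map_source hk)
      (hγ.gauss_c hk) (hξ.gauss_cov hγ hk) (hξ.gauss_d hk)).const_mul 2
    rw [sub_add_cancel, bil_neg_left, ← secNumer_eq, neg_add_eq_sub] at this
    exact this.congr_of_eventuallyEq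
      ((gauss_ev hγ.continuous hk).mono fun t ht => (hd k t ht).deriv)
  have h0 : γ 0 = x := by simp [hγd, h.zero]
  have hi0 : γ 0 ∈ (A.chart i).source := h0 ▸ h.mem
  have hξ0 : ξ i 0 = 0 := by simp [hξd]
  have hspeed : ∀ k t, γ t ∈ (A.chart k).source →
      bil (A.G k (A.chart k (γ t))) (deriv (A.crd k γ) t) (deriv (A.crd k γ) t) = r ^ 2 := by
    intro k t hk
    rw [GeoOn.speed hγ isOpen_univ isPreconnected_univ (mem_univ t) (mem_univ 0) hk hi0,
      show deriv (A.crd i γ) 0 = v from h.vel v, h0, hrv]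
  have hperp : ∀ k t, γ t ∈ (A.chart k).source →
      bil (A.G k (A.chart k (γ t))) (ξ k t) (deriv (A.crd k γ) t) = 0 := by
    intro k t hk
    rcases eq_or_ne t 0 with rfl | ht
    · simp [hξd, bil_zero_left]
    · have h1 := h.gauss hk (t • w)
      rw [bil_smul_left, bil_smul_right, hvw, mul_zero, mul_zero, map_smul, bil_smul_left] at h1
      rw [bil_comm (A.posDef hk), h.dp_self hk]
      exact (mul_eq_zero.1 h1).resolve_left ht
  have hsec : ∀ t, ∃ k, γ t ∈ (A.chart k).source ∧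
      secNumer (A.G k) (A.crd k γ t) (ξ k t) (deriv (A.crd k γ) t) ≤ -(l * r ^ 2) * u t := by
    intro t
    obtain ⟨k, hk, hs⟩ := hA (γ t)
    refine ⟨k, hk, ?_⟩
    have := hs (ξ k t) (deriv (A.crd k γ) t)
    rw [hspeed k t hk, hperp k t hk] at this
    rw [(hu k t hk).eq_of_nhds]
    simp only [crd] at this ⊢
    linarith
  have hun : ∀ t, 0 ≤ u t := fun t => by
    obtain ⟨k, hk⟩ := A.cover (γ t)
    rw [(hu k t hk).eq_of_nhds]
    exact bil_self_nonneg (A.posDef hk) _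
  have hle : ∀ s, 0 < s → s ≤ 1 →
      √(u s) * sn (l * r ^ 2) 1 ≤ √(u 1) * sn (l * r ^ 2) s := by
    intro s hs0 hs1
    refine rauch_ode (u₁ := deriv u) (u₂ := deriv (deriv u)) (by positivity) (fun t => ?_)
      (fun t => ?_) hun (fun t => ?_) (fun t => ?_) ?_ hs0 hs1
    · obtain ⟨k, hk⟩ := A.cover (γ t)
      exact (hd k t hk).differentiableAt.hasDerivAt
    · obtain ⟨k, hk⟩ := A.cover (γ t)
      exact (hd2 k t hk).differentiableAt.hasDerivAt
    · obtain ⟨k, hk, hs⟩ := hsec t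
      rw [(hd2 k t hk).deriv]
      have h1 := bil_self_nonneg (A.posDef hk) (cov (A.G k) (A.crd k γ) (ξ k) t)
      simp only [crd] at h1 hs ⊢
      linarith
    · obtain ⟨k, hk, hs⟩ := hsec t
      rw [(hd2 k t hk).deriv, (hd k t hk).deriv]
      have h1 := bil_sq_le (A.posDef hk) (cov (A.G k) (A.crd k γ) (ξ k) t) (ξ k t)
      have h3 := hun t
      have h4 := (hu k t hk).eq_of_nhds
      simp only [crd] at h1 hs h4 ⊢
      rw [← h4] at h1
      nlinarith [mul_le_mul_of_nonneg_left hs h3]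
    · rw [(hu i 0 hi0).eq_of_nhds, hξ0, bil_zero_left]
  have hj1 : γ 1 ∈ (A.chart j).source := by simpa [hγd] using hj
  have e1 : u 1 = bil (A.G j (A.chart j (p v))) (A.dp p j v w) (A.dp p j v w) := by
    rw [(hu j 1 hj1).eq_of_nhds]
    simp only [crd, hγd, hξd, one_smul]
  rw [← e1]
  have hw : HasDerivAt (ξ i) w 0 := by
    have := hξ.gauss_d hi0
    rwa [show deriv (ξ i) 0 = w from h.jac0 v w] at this
  have t1 : Tendsto (fun t : ℝ => t⁻¹ • ξ i t) (𝓝[>] 0) (𝓝 w) := by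
    have := hasDerivAt_iff_tendsto_slope_zero.1 hw
    simp only [zero_add, hξ0, sub_zero] at this
    exact this.mono_left (nhdsWithin_mono _ fun t ht => ne_of_gt ht)
  have t2 : Tendsto (A.crd i γ) (𝓝[>] 0) (𝓝 (A.chart i x)) := by
    have := (hγ.gauss_c hi0).continuousAt.tendsto
    rw [show A.crd i γ 0 = A.chart i x by rw [crd, h0]] at this
    exact this.mono_left nhdsWithin_le_nhds
  have t3 := ((contDiffAt_bil (A.riem i) (z := (A.chart i x, w, w))
    ((A.chart i).map_source h.mem)).continuousAt.tendsto).comp (t2.prodMk_nhds (t1.prodMk_nhds t1))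
  have t4 : Tendsto (fun t : ℝ => t⁻¹ * sn (l * r ^ 2) t) (𝓝[>] 0) (𝓝 1) := by
    have := hasDerivAt_iff_tendsto_slope_zero.1 (Alm.hasDerivAt_sn (l := l * r ^ 2)
      (by positivity) 0)
    simp only [zero_add, Alm.sn_zero, sub_zero, smul_eq_mul, Alm.cs, mul_zero,
      Real.cosh_zero] at this
    exact this.mono_left (nhdsWithin_mono _ fun t ht => ne_of_gt ht)
  have t5 := le_of_tendsto_of_tendsto (t3.const_mul (sn (l * r ^ 2) 1 ^ 2))
    ((t4.pow 2).const_mul (u 1)) (by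
      filter_upwards [(hu i 0 hi0).filter_mono nhdsWithin_le_nhds, self_mem_nhdsWithin,
        (eventually_le_nhds (zero_lt_one' ℝ)).filter_mono nhdsWithin_le_nhds] with t e ht0 ht1
      have ht : (0 : ℝ) < t := ht0
      simp only [Function.comp, bil_smul_left, bil_smul_right]
      rw [← e]
      have h1 := pow_le_pow_left₀ (mul_nonneg (Real.sqrt_nonneg _)
        (Alm.sn_nonneg (by positivity) zero_le_one)) (hle t ht ht1) 2
      rw [mul_pow, mul_pow, Real.sq_sqrt (hun _), Real.sq_sqrt (hun _)] at h1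
      have h2 := mul_le_mul_of_nonneg_left h1 (sq_nonneg t⁻¹)
      nlinarith)
  rw [sn_scale hl hr] at t5
  simpa using t5

/-- Rauch comparison. -/
theorem rauch (h : A.IsExp i x p) (hA : SecLe A l) (hl : 0 ≤ l) {j : A.ι} {v : E n}
    (hj : p v ∈ (A.chart j).source) (w : E n) {r : ℝ} (hr : 0 < r)
    (hrv : bil (A.G i (A.chart i x)) v v = r ^ 2) :
    bil (A.G i (A.chart i x)) v w ^ 2 / r ^ 2 + (sn l r / r) ^ 2 *
        (bil (A.G i (A.chart i x)) w w - bil (A.G i (A.chart i x)) v w ^ 2 / r ^ 2) ≤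
      bil (A.G j (A.chart j (p v))) (A.dp p j v w) (A.dp p j v w) := by
  set g := A.G i (A.chart i x) with hg
  have hgp : g.PosDef := A.posDef h.mem
  set c := bil g v w / r ^ 2 with hc
  have hr2 : r ^ 2 ≠ 0 := by positivity
  have hperp : bil g v (w - c • v) = 0 := by
    rw [bil_sub_right, bil_smul_right, hrv, hc, div_mul_cancel₀ _ hr2, sub_self]
  have h1 := rauch_perp h hA hl hj (w - c • v) hperp hr hrv
  have h2 := h.gauss hj (w - c • v)
  have h3 := h.gauss hj v
  rw [← hg, hperp] at h2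
  rw [← hg, hrv] at h3
  have e : A.dp p j v w = A.dp p j v (w - c • v) + c • A.dp p j v v := by
    rw [map_sub, map_smul, sub_add_cancel]
  have e2 : bil g (w - c • v) (w - c • v) = bil g w w - bil g v w ^ 2 / r ^ 2 := by
    rw [bil_sub_left, bil_smul_left, hperp, bil_sub_right, bil_smul_right, bil_comm hgp w v, hc]
    field_simp
    ring
  rw [← hg, e2] at h1
  rw [e, bil_add_left, bil_add_right, bil_add_right, bil_smul_left, bil_smul_left, bil_smul_right,
    bil_smul_right, bil_comm (A.posDef hj) _ (A.dp p j v v), h2, h3]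
  have e3 : c * (c * r ^ 2) = bil g v w ^ 2 / r ^ 2 := by
    rw [hc]
    field_simp
  linarith

end Crest.Agent.R241.Cm
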