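import Crest.Agent.R241.CGauss
import Crest.Agent.R241.CChart
import Crest.Agent.R241.CEmb
import Crest.Agent.R241.CRauch

/-! Row 241, block C (helper76): the Riemannian atlas of a submanifold. -/

set_option autoImplicit false

open Set Filter
open scoped ContDiff Topology RealInnerProductSpace

namespace Crest.Agent.R241.CG

open Crest.GeometryTopology.CoordMetric Crest.GeometryTopology.ChartCurvature
open Crest.GeometryTopology.Submanifold Crest.Agent.R244 Crest.Agent.R241.C

variable {n N : ℕ} {S : Set (Euc N)} {p : Euc N}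

theorem chart_param (c : Chart n N S p) (h0 : (0 : Euc n) ∈ c.V) :
    IsLocalParam n N S (c.f 0) c.f c.V where
  isOpen := c.oV
  zero_mem := h0
  map_zero := rfl
  contDiffOn := c.sf
  injOn := fun a ha b hb hab => by rw [← c.r_f a ha, hab, c.r_f b hb]
  injective_fderiv := fun _ hy => c.injective_fderiv hy
  image_open := fun W hW hWo => by
    refine ⟨c.U ∩ c.r ⁻¹' W, c.sr.continuousOn.isOpen_inter_preimage c.oU hWo, ?_⟩
    ext x
    constructor
    · rintro ⟨y, hy, rfl⟩
      exact ⟨(c.f_mem y (hW hy)).1, (c.f_mem y (hW hy)).2, by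
        rw [mem_preimage, c.r_f y (hW hy)]; exact hy⟩
    · rintro ⟨hx, hU, hr⟩
      exact ⟨c.r x, hr, c.f_r x hx hU⟩

open Classical in
/-- a chart as a partial homeomorphism on the subtype. -/
noncomputable def oph (c : Chart n N S p) (hp : p ∈ S) : OpenPartialHomeomorph S (E n) where
  toFun x := c.r x.1
  invFun y := if h : c.f y ∈ S then ⟨c.f y, h⟩ else ⟨p, hp⟩
  source := {x | x.1 ∈ c.U}
  target := c.V
  map_source' x hx := c.r_mem x.1 x.2 hx
  map_target' y hy := by
    rw [dif_pos (c.f_mem y hy).1]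
    exact (c.f_mem y hy).2
  left_inv' x hx := by
    have h := c.f_r x.1 x.2 hx
    rw [dif_pos (h.symm ▸ x.2)]
    exact Subtype.ext h
  right_inv' y hy := by
    rw [dif_pos (c.f_mem y hy).1]
    exact c.r_f y hy
  open_source := c.oU.preimage continuous_subtype_val
  open_target := c.oV
  continuousOn_toFun := c.sr.continuousOn.comp continuous_subtype_val.continuousOn fun _ hx => hx
  continuousOn_invFun := by
    rw [Topology.IsInducing.subtypeVal.continuousOn_iff]
    refine c.sf.continuousOn.congr fun y hy => ?_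
    simp only [Function.comp, dif_pos (c.f_mem y hy).1]

theorem oph_symm (c : Chart n N S p) (hp : p ∈ S) {y : Euc n} (hy : y ∈ c.V) :
    (((oph c hp).symm y : S) : Euc N) = c.f y := by
  exact congrArg Subtype.val (dif_pos (c.f_mem y hy).1)

theorem oph_symm_ev (c : Chart n N S p) (hp : p ∈ S) {y : Euc n} (hy : y ∈ c.V) :
    (fun y => (((oph c hp).symm y : S) : Euc N)) =ᶠ[𝓝 y] c.f := by
  filter_upwards [c.oV.mem_nhds hy] with z hz using oph_symm c hp hz

theorem oph_tr {q : Euc N} (c : Chart n N S p) (hp : p ∈ S) (c' : Chart n N S q) (hq : q ∈ S)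
    {y : Euc n} (hy : y ∈ c.V) :
    (oph c' hq ∘ (oph c hp).symm) =ᶠ[𝓝 y] fun z => c'.r (c.f z) := by
  filter_upwards [oph_symm_ev c hp hy] with z hz
  exact congrArg c'.r hz

/-- the Riemannian atlas given by a family of charts. -/
noncomputable def atlas (c : ∀ p : S, Chart n N S p.1) : RAtlas n S where
  ι := S
  chart p := oph (c p) p.2
  G p := metricMat (c p).f
  cover x := ⟨x, (c x).mem⟩
  riem p := riemOn (c p).oV (c p).sf fun _ hy => (c p).injective_fderiv hy
  smooth i j x hi hj := by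
    have hy : (c i).r x.1 ∈ (c i).V := (c i).r_mem x.1 x.2 hi
    refine ContDiffAt.congr_of_eventuallyEq ?_ (oph_tr (c i) i.2 (c j) j.2 hy)
    refine ContDiffAt.comp (g := (c j).r) _ ?_ ((c i).contDiffAt_f hy)
    exact ((c i).f_r x.1 x.2 hi).symm ▸ (c j).contDiffAt_r hj
  isom i j x hi hj u v := by
    have hy : (c i).r x.1 ∈ (c i).V := (c i).r_mem x.1 x.2 hi
    have e : (c i).f ((c i).r x.1) = x.1 := (c i).f_r x.1 x.2 hi
    have hf := ((c i).contDiffAt_f hy).differentiableAt (by simp)
    have hr : DifferentiableAt ℝ (c j).r ((c i).f ((c i).r x.1)) := by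
      rw [e]; exact ((c j).contDiffAt_r hj).differentiableAt (by simp)
    have h1 : fderiv ℝ (oph (c j) j.2 ∘ (oph (c i) i.2).symm) ((c i).r x.1) =
        fderiv ℝ (c j).r ((c i).f ((c i).r x.1)) ∘L fderiv ℝ (c i).f ((c i).r x.1) := by
      rw [(oph_tr (c i) i.2 (c j) j.2 hy).fderiv_eq]
      exact fderiv_comp _ hr hf
    have h2 := fun a => (c j).fderiv_eq hf
      (by filter_upwards [(c i).oV.mem_nhds hy] with z hz using ((c i).f_mem z hz).1)
      (by rw [e]; exact hj) a
    change bil (metricMat (c i).f ((c i).r x.1)) u v = bil (metricMat (c j).f ((c j).r x.1))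
      (fderiv ℝ (oph (c j) j.2 ∘ (oph (c i) i.2).symm) ((c i).r x.1) u)
      (fderiv ℝ (oph (c j) j.2 ∘ (oph (c i) i.2).symm) ((c i).r x.1) v)
    rw [h1, bil_metricMat, bil_metricMat, ← h2 u, ← h2 v, e]
    simp only [ContinuousLinearMap.comp_apply, e]

/-- item (1) of the `RAtlas` route: the fields of `Emb` and `SecLe`. -/
theorem exists_atlas (hS : IsSubmanifold n N S) {κ : ℝ}
    (hsec : ∀ p ∈ S, ∀ (f : Euc n → Euc N) (V : Set (Euc n)), IsLocalParam n N S p f V →
      ∀ u v : Euc n, secNum f 0 u v ≤ κ * Crest.GeometryTopology.Submanifold.gramDet f 0 u v) :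
    ∃ A : RAtlas n S,
      (∀ i, ∀ y ∈ (A.chart i).target,
        ContDiffAt ℝ ∞ (fun y => (((A.chart i).symm y : S) : Euc N)) y) ∧
      (∀ i, ∀ y ∈ (A.chart i).target, ∀ u v, bil (A.G i y) u v =
        ⟪fderiv ℝ (fun y => (((A.chart i).symm y : S) : Euc N)) y u,
          fderiv ℝ (fun y => (((A.chart i).symm y : S) : Euc N)) y v⟫) ∧
      (∀ i, ∀ y ∈ (A.chart i).target, ∀ u v, secNumer (A.G i) y u v ≤
        -(-κ) * (bil (A.G i y) u u * bil (A.G i y) v v - bil (A.G i y) u v ^ 2)) := by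
  have h : ∀ p : S, ∃ c : Chart n N S p.1, (0 : Euc n) ∈ c.V := fun p => by
    obtain ⟨f, V, hf⟩ := hS p.1 p.2
    obtain ⟨c, -, hc⟩ := exists_chart hf
    exact ⟨c, hc⟩
  choose c hc using h
  refine ⟨atlas c, fun i y hy => ?_, fun i y hy u v => ?_, fun i y hy u v => ?_⟩
  · exact ((c i).contDiffAt_f hy).congr_of_eventuallyEq (oph_symm_ev (c i) i.2 hy)
  · have := (oph_symm_ev (c i) i.2 hy).fderiv_eq (𝕜 := ℝ)
    exact (bil_metricMat (c i).f y u v).trans (by rw [← this]; rfl)
  · rw [neg_neg]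
    exact secNumer_le hsec (chart_param (c i) (hc i)) hy u v

theorem exists_emb (hS : IsSubmanifold n N S) (hc : IsClosed S) {κ : ℝ}
    (hsec : ∀ p ∈ S, ∀ (f : Euc n → Euc N) (V : Set (Euc n)), IsLocalParam n N S p f V →
      ∀ u v : Euc n, secNum f 0 u v ≤ κ * Crest.GeometryTopology.Submanifold.gramDet f 0 u v) :
    ∃ A : RAtlas n S, Sm.Emb A Subtype.val ∧ Cm.SecLe A (-κ) := by
  obtain ⟨A, h1, h2, h3⟩ := exists_atlas hS hsec
  refine ⟨A, ⟨hc.isClosedEmbedding_subtypeVal, h1, h2⟩, fun x => ?_⟩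
  obtain ⟨i, hi⟩ := A.cover x
  exact ⟨i, hi, h3 i _ ((A.chart i).map_source hi)⟩

/-- a space with a Riemannian atlas is locally path connected. -/
theorem locPathConnected {M : Type} [TopologicalSpace M] (A : RAtlas n M) :
    LocallyPathConnectedSpace M := by
  choose j hj using A.cover
  let _ : ChartedSpace (E n) M :=
    { atlas := range A.chart
      chartAt := fun x => A.chart (j x)
      mem_chart_source := hj
      chart_mem_atlas := fun x => ⟨j x, rfl⟩ }
  exact ChartedSpace.locallyPathConnectedSpace (E n) M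

end Crest.Agent.R241.CG
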