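import Crest.Agent.R241.CChart

/-! Row 241, block C: calculus of tangent fields. -/

set_option autoImplicit false

open Set Filter Topology
open scoped ContDiff InnerProductSpace

namespace Crest.Agent.R241.C

open Crest.GeometryTopology.Submanifold

variable {n N : ℕ} {S : Set (Euc N)}

namespace Pre
variable (D : Pre n N S)

theorem hasFDerivAt_P (x : Euc N) : HasFDerivAt D.P (fderiv ℝ D.P x) x :=
  (D.smooth.differentiable (by simp) x).hasFDerivAt

theorem inner_eq_zero {x u w : Euc N} (hu : D.P x u = u) (hw : D.P x w = 0) : ⟪u, w⟫_ℝ = 0 := by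
  rw [← hu, D.symm, hw, inner_zero_right]

theorem h31_P_curve {γ : ℝ → Euc N} {γ' : Euc N} {t : ℝ} (hγ : HasDerivAt γ γ' t) :
    HasDerivAt (fun s => D.P (γ s)) (fderiv ℝ D.P (γ t) γ') t :=
  (D.hasFDerivAt_P (γ t)).comp_hasDerivAt t hγ

theorem h31_line {W : Type*} [NormedAddCommGroup W] [NormedSpace ℝ W] (z a : W) :
    HasDerivAt (fun s : ℝ => z + s • a) a 0 := by
  simpa using ((hasDerivAt_id (0 : ℝ)).smul_const a).const_add z

theorem h31_comp_line {W G : Type*} [NormedAddCommGroup W] [NormedSpace ℝ W]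
    [NormedAddCommGroup G] [NormedSpace ℝ G] {F : W → G} {z : W} (hF : DifferentiableAt ℝ F z)
    (a : W) : HasDerivAt (fun s : ℝ => F (z + s • a)) (fderiv ℝ F z a) 0 :=
  HasFDerivAt.comp_hasDerivAt_of_eq (0 : ℝ) hF.hasFDerivAt (h31_line z a) (by simp)

theorem h31_line_tendsto {W : Type*} [NormedAddCommGroup W] [NormedSpace ℝ W] (z a : W) :
    Tendsto (fun s : ℝ => z + s • a) (𝓝 0) (𝓝 z) := by
  simpa using (h31_line z a).continuousAt.tendsto

/-- derivatives of maps into `S` are tangent (`Chart.fderiv_eq` + `tan`). -/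
theorem tan_fderiv {W : Type*} [NormedAddCommGroup W] [NormedSpace ℝ W] {F : W → Euc N} {z : W}
    (hF : DifferentiableAt ℝ F z) (hS : ∀ᶠ w in 𝓝 z, F w ∈ S) (a : W) :
    D.P (F z) (fderiv ℝ F z a) = fderiv ℝ F z a := by
  have hz : F z ∈ S := hS.self_of_nhds
  obtain ⟨c⟩ := D.chart _ hz
  have h := (D.tan _ c _ (c.r_mem _ hz c.mem) _).2 ⟨_, c.fderiv_eq hF hS c.mem a⟩
  rwa [c.f_r _ hz c.mem] at h

theorem tan_deriv {γ : ℝ → Euc N} {γ' : Euc N} {t : ℝ} (h : HasDerivAt γ γ' t)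
    (hS : ∀ᶠ s in 𝓝 t, γ s ∈ S) : D.P (γ t) γ' = γ' := by
  have h1 := D.tan_fderiv h.differentiableAt hS 1
  rw [h.hasFDerivAt.fderiv] at h1
  simpa using h1

/-- differentiate `symm`. -/
theorem II_symm (x u a b : Euc N) : ⟪D.II x u a, b⟫_ℝ = ⟪a, D.II x u b⟫_ℝ := by
  have h := D.h31_P_curve (h31_line x u)
  have h1 := (h.clm_apply (hasDerivAt_const (0 : ℝ) a)).inner ℝ (hasDerivAt_const (0 : ℝ) b)
  have h2 := (hasDerivAt_const (0 : ℝ) a).inner ℝ (h.clm_apply (hasDerivAt_const (0 : ℝ) b))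
  simp only [D.symm] at h1
  simpa [II] using h1.unique h2

/-- the derivative of a tangent field: differentiate `P (γ s) (ξ s) = ξ s`. -/
theorem deriv_tan {γ ξ : ℝ → Euc N} {γ' ξ' : Euc N} {t : ℝ} (hγ : HasDerivAt γ γ' t)
    (hξ : HasDerivAt ξ ξ' t) (h : ∀ᶠ s in 𝓝 t, D.P (γ s) (ξ s) = ξ s) :
    ξ' = D.II (γ t) γ' (ξ t) + D.P (γ t) ξ' := by
  exact hξ.unique (((D.h31_P_curve hγ).clm_apply hξ).congr_of_eventuallyEq
    (h.mono fun _ hs => hs.symm))

/-- every tangent vector is the velocity of a curve `s ↦ f (y + s a)` in `S`. -/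
theorem exists_curve {x u : Euc N} (hx : x ∈ S) (hu : D.P x u = u) :
    ∃ γ : ℝ → Euc N, γ 0 = x ∧ HasDerivAt γ u 0 ∧ ∀ᶠ s in 𝓝 (0 : ℝ), γ s ∈ S := by
  obtain ⟨c⟩ := D.chart _ hx
  have hy := c.r_mem _ hx c.mem
  have hfy := c.f_r _ hx c.mem
  obtain ⟨a, ha⟩ := (D.tan _ c _ hy u).1 (by rwa [hfy])
  refine ⟨fun s => c.f (c.r x + s • a), by simpa using hfy, ?_, ?_⟩
  · rw [← ha]
    exact h31_comp_line ((c.contDiffAt_f hy).differentiableAt (by simp)) a
  · filter_upwards [h31_line_tendsto (c.r x) a (c.oV.mem_nhds hy)] with s hs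
    exact (c.f_mem _ hs).1

/-- `deriv_tan` for `ξ s = P (γ s) v`. -/
theorem P_II {x u v : Euc N} (hx : x ∈ S) (hu : D.P x u = u) (hv : D.P x v = v) :
    D.P x (D.II x u v) = 0 := by
  obtain ⟨γ, h0, hγ, hS⟩ := D.exists_curve hx hu
  have h1 := (D.h31_P_curve hγ).clm_apply (hasDerivAt_const (0 : ℝ) v)
  have h2 := D.deriv_tan hγ h1 (hS.mono fun s hs => D.idem _ hs v)
  rw [h0, hv, map_zero, add_zero] at h2
  exact left_eq_add.1 h2

/-- the normal part of the second derivative of a map into `S`. -/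
theorem fderiv_two {W : Type*} [NormedAddCommGroup W] [NormedSpace ℝ W] {F : W → Euc N} {z : W}
    (hF : ContDiffAt ℝ 2 F z) (hS : ∀ᶠ w in 𝓝 z, F w ∈ S) (a b : W) :
    fderiv ℝ (fderiv ℝ F) z a b = D.II (F z) (fderiv ℝ F z a) (fderiv ℝ F z b) +
      D.P (F z) (fderiv ℝ (fderiv ℝ F) z a b) := by
  have h1 : ∀ᶠ w in 𝓝 z, D.P (F w) (fderiv ℝ F w b) = fderiv ℝ F w b := by
    filter_upwards [hF.eventually (by simp), hS.eventually_nhds] with w hw hw'
    exact D.tan_fderiv (hw.differentiableAt (by simp)) hw' b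
  have h2 : DifferentiableAt ℝ (fderiv ℝ F) z :=
    (hF.fderiv_right (m := 1) (by norm_num)).differentiableAt (by simp)
  have h3 := (h31_comp_line h2 a).clm_apply (hasDerivAt_const (0 : ℝ) b)
  have h4 := D.deriv_tan (h31_comp_line (hF.differentiableAt (by simp)) a) h3
    (h31_line_tendsto z a h1)
  simpa only [zero_smul, add_zero, map_zero] using h4

/-- `fderiv_two` for a chart + symmetry of the second derivative. -/
theorem II_comm {x u v : Euc N} (hx : x ∈ S) (hu : D.P x u = u) (hv : D.P x v = v) :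
    D.II x u v = D.II x v u := by
  obtain ⟨c⟩ := D.chart _ hx
  have hy := c.r_mem _ hx c.mem
  have hfy := c.f_r _ hx c.mem
  obtain ⟨a, ha⟩ := (D.tan _ c _ hy u).1 (by rwa [hfy])
  obtain ⟨b, hb⟩ := (D.tan _ c _ hy v).1 (by rwa [hfy])
  have hF : ContDiffAt ℝ 2 c.f (c.r x) :=
    (c.contDiffAt_f hy).of_le (WithTop.coe_le_coe.2 (le_top : (2 : ℕ∞) ≤ ⊤))
  have hS : ∀ᶠ w in 𝓝 (c.r x), c.f w ∈ S :=
    Filter.mem_of_superset (c.oV.mem_nhds hy) fun w hw => (c.f_mem w hw).1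
  have h1 := D.fderiv_two hF hS a b
  have h2 := D.fderiv_two hF hS b a
  rw [← (hF.isSymmSndFDerivAt (by simp)).eq a b] at h2
  rw [ha, hb, hfy] at h1 h2
  exact add_right_cancel (h1.symm.trans h2)

theorem h62_tan {p : Euc N} (hp : p ∈ S) : ∃ T : Submodule ℝ (Euc N), Module.finrank ℝ T = n ∧
    ∀ u, D.P p u = u ↔ u ∈ T := by
  obtain ⟨c⟩ := D.chart p hp
  have hy := c.r_mem p hp c.mem
  refine ⟨LinearMap.range (fderiv ℝ c.f (c.r p)).toLinearMap, ?_, fun u => ?_⟩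
  · rw [LinearMap.finrank_range_of_inj (c.injective_fderiv hy), finrank_euclideanSpace_fin]
  · have := D.tan p c _ hy u
    rwa [c.f_r p hp c.mem] at this

/-- an orthonormal frame of the tangent space (it is the range of an injective map from `Euc n`,
so has dimension `n`; `stdOrthonormalBasis`). -/
theorem exists_frame {p : Euc N} (hp : p ∈ S) :
    ∃ ι : Euc n →L[ℝ] Euc N, (∀ w, ‖ι w‖ = ‖w‖) ∧ ∀ u, D.P p u = u ↔ ∃ w, ι w = u := by
  obtain ⟨T, hT, hm⟩ := D.h62_tan hp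
  let b : OrthonormalBasis (Fin n) ℝ T := (stdOrthonormalBasis ℝ T).reindex (finCongr hT)
  refine ⟨T.subtypeL.comp b.repr.symm.toContinuousLinearEquiv.toContinuousLinearMap,
    fun w => b.repr.symm.norm_map w, fun u => (hm u).trans ⟨fun hu => ⟨b.repr ⟨u, hu⟩, by simp⟩, ?_⟩⟩
  rintro ⟨w, rfl⟩
  exact (b.repr.symm w).2

/-- an injective linear map from `Euc n` into the tangent space is onto it (dimension). -/
theorem onto_of_injective {p : Euc N} (hp : p ∈ S) {A : Euc n →L[ℝ] Euc N}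
    (hA : Function.Injective A) (ht : ∀ w, D.P p (A w) = A w) {u : Euc N} (hu : D.P p u = u) :
    ∃ w, A w = u := by
  obtain ⟨T, hT, hm⟩ := D.h62_tan hp
  have h1 : LinearMap.range A.toLinearMap ≤ T := by
    rintro _ ⟨w, rfl⟩
    exact (hm _).1 (ht w)
  have h2 : LinearMap.range A.toLinearMap = T := Submodule.eq_of_le_of_finrank_eq h1 (by
    rw [LinearMap.finrank_range_of_inj hA, finrank_euclideanSpace_fin, hT])
  have h3 : u ∈ LinearMap.range A.toLinearMap := h2 ▸ (hm u).1 hu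
  exact h3

end Pre

end Crest.Agent.R241.C
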