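import Crest.Agent.R241.Geo
import Crest.Agent.R241.KSide

/-! Row 241, block C: Rauch's ODE comparison, the model law of cosines, hinge ⇒ CAT. -/

set_option autoImplicit false

open Set Filter Topology
open scoped RealInnerProductSpace

namespace Crest.Agent.R241

open Crest.GeometryTopology.Submanifold

noncomputable section

universe u

variable {l : ℝ} {n : ℕ}

theorem rauch_ode {L : ℝ} (hL : 0 ≤ L) {u u₁ u₂ : ℝ → ℝ} (h1 : ∀ s, HasDerivAt u (u₁ s) s)
    (h2 : ∀ s, HasDerivAt u₁ (u₂ s) s) (h0 : ∀ s, 0 ≤ u s)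
    (h4 : ∀ s, u₁ s ^ 2 ≤ 2 * u s * (u₂ s - 2 * L * u s)) (h5 : ∀ s, 2 * L * u s ≤ u₂ s)
    (hz : u 0 = 0) {s t : ℝ} (hs : 0 < s) (hst : s ≤ t) :
    √(u s) * sn L t ≤ √(u t) * sn L s := by
  have key : ∀ c > (0 : ℝ),
      (√(u s + c ^ 2) - c) * sn L t ≤ (√(u t + c ^ 2) - c) * sn L s := by
    intro c hc
    set ψ : ℝ → ℝ := fun x => √(u x + c ^ 2) with hψ
    have hp : ∀ x, 0 < u x + c ^ 2 := fun x => by have := h0 x; positivity
    have hψp : ∀ x, 0 < ψ x := fun x => Real.sqrt_pos.2 (hp x)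
    have hψ2 : ∀ x, ψ x ^ 2 = u x + c ^ 2 := fun x => Real.sq_sqrt (hp x).le
    have hψc : ∀ x, c ≤ ψ x := fun x => Real.le_sqrt_of_sq_le (by linarith [h0 x])
    have d1 : ∀ x, HasDerivAt ψ (u₁ x / (2 * ψ x)) x := fun x =>
      ((h1 x).add_const (c ^ 2)).sqrt (hp x).ne'
    have d2 : ∀ x, HasDerivAt (fun x => u₁ x / (2 * ψ x))
        ((u₂ x * (2 * ψ x) - u₁ x * (2 * (u₁ x / (2 * ψ x)))) / (2 * ψ x) ^ 2) x := fun x =>
      (h2 x).div ((d1 x).const_mul 2) (by have := hψp x; positivity)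
    set W : ℝ → ℝ := fun x => u₁ x / (2 * ψ x) * sn L x - (ψ x - c) * (1 + L * md L x) with hW
    have dW : ∀ x, HasDerivAt W
        (sn L x * ((u₂ x * (2 * ψ x) - u₁ x * (2 * (u₁ x / (2 * ψ x)))) / (2 * ψ x) ^ 2 -
          L * (ψ x - c))) x := fun x => by
      have := ((d2 x).mul (hasDerivAt_sn hL x)).sub
        (((d1 x).sub_const c).mul (((hasDerivAt_md hL x).const_mul L).const_add 1))
      refine this.congr_deriv ?_
      ring
    have hW0 : ∀ x, 0 ≤ x → 0 ≤ W x := by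
      have hm : MonotoneOn W (Ici 0) := by
        refine monotoneOn_of_deriv_nonneg (convex_Ici 0)
          (fun x _ => (dW x).continuousAt.continuousWithinAt)
          (fun x _ => (dW x).differentiableAt.differentiableWithinAt) fun x hx => ?_
        rw [interior_Ici] at hx
        rw [(dW x).deriv]
        refine mul_nonneg (sn_nonneg hL (le_of_lt hx)) ?_
        have a := hψp x
        have b := hψ2 x
        have e : (u₂ x * (2 * ψ x) - u₁ x * (2 * (u₁ x / (2 * ψ x)))) / (2 * ψ x) ^ 2 -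
            L * (ψ x - c) = (2 * u₂ x * ψ x ^ 2 - u₁ x ^ 2 - 4 * L * (ψ x - c) * ψ x ^ 3) /
              (4 * ψ x ^ 3) := by
          field_simp
          ring
        rw [e]
        refine div_nonneg ?_ (by positivity)
        have f1 : u₁ x ^ 2 ≤ 2 * ψ x ^ 2 * (u₂ x - 2 * L * u x) := by
          refine (h4 x).trans (mul_le_mul_of_nonneg_right ?_ (sub_nonneg.2 (h5 x)))
          rw [b]; nlinarith [sq_nonneg c]
        have f2 : 0 ≤ L * ψ x ^ 2 * (c * (ψ x - c)) :=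
          mul_nonneg (by positivity) (mul_nonneg hc.le (sub_nonneg.2 (hψc x)))
        have f3 : u x = ψ x ^ 2 - c ^ 2 := by linarith
        rw [f3] at f1
        nlinarith
      intro x hx
      have := hm (mem_Ici.2 le_rfl) (mem_Ici.2 hx) hx
      have e : W 0 = 0 := by
        simp only [hW, hψ, sn_zero, hz, zero_add, Real.sqrt_sq hc.le]
        ring
      rwa [e] at this
    have hm : MonotoneOn (fun x => (ψ x - c) / sn L x) (Ioi 0) := by
      have dd : ∀ x, 0 < x → HasDerivAt (fun x => (ψ x - c) / sn L x) (W x / sn L x ^ 2) x :=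
        fun x hx => ((d1 x).sub_const c).div (hasDerivAt_sn hL x) (sn_pos hL hx).ne'
      refine monotoneOn_of_deriv_nonneg (convex_Ioi 0)
        (fun x hx => (dd x hx).continuousAt.continuousWithinAt)
        (fun x hx => (dd x (interior_subset hx)).differentiableAt.differentiableWithinAt)
        fun x hx => ?_
      rw [interior_Ioi] at hx
      rw [(dd x hx).deriv]
      exact div_nonneg (hW0 x (le_of_lt hx)) (sq_nonneg _)
    have := hm (mem_Ioi.2 hs) (mem_Ioi.2 (hs.trans_le hst)) hst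
    rwa [div_le_div_iff₀ (sn_pos hL hs) (sn_pos hL (hs.trans_le hst))] at this
  have t1 : Tendsto (fun c : ℝ => (√(u s + c ^ 2) - c) * sn L t) (𝓝[>] 0)
      (𝓝 ((√(u s + 0 ^ 2) - 0) * sn L t)) :=
    tendsto_nhdsWithin_of_tendsto_nhds (Continuous.tendsto (by fun_prop) 0)
  have t2 : Tendsto (fun c : ℝ => (√(u t + c ^ 2) - c) * sn L s) (𝓝[>] 0)
      (𝓝 ((√(u t + 0 ^ 2) - 0) * sn L s)) :=
    tendsto_nhdsWithin_of_tendsto_nhds (Continuous.tendsto (by fun_prop) 0)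
  have := le_of_tendsto_of_tendsto t1 t2 (eventually_nhdsWithin_of_forall fun c hc => key c hc)
  simpa using this

/-- Rauch: if moreover `u s / s² → b`, then `b sn² ≤ u`. -/
theorem rauch_ode' {L : ℝ} (hL : 0 ≤ L) {u u₁ u₂ : ℝ → ℝ} (h1 : ∀ s, HasDerivAt u (u₁ s) s)
    (h2 : ∀ s, HasDerivAt u₁ (u₂ s) s) (h0 : ∀ s, 0 ≤ u s)
    (h4 : ∀ s, u₁ s ^ 2 ≤ 2 * u s * (u₂ s - 2 * L * u s)) (h5 : ∀ s, 2 * L * u s ≤ u₂ s)
    (hz : u 0 = 0) {b : ℝ} (hb : Tendsto (fun s => u s / s ^ 2) (𝓝[>] 0) (𝓝 b)) {t : ℝ}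
    (ht : 0 < t) : b * sn L t ^ 2 ≤ u t := by
  have hsn : Tendsto (fun s => sn L s / s) (𝓝[>] 0) (𝓝 1) := by
    have := (hasDerivAt_iff_tendsto_slope.1 (hasDerivAt_sn hL 0)).mono_left
      (nhdsWithin_mono 0 fun s (hs : s ∈ Ioi (0 : ℝ)) => (ne_of_gt hs : s ≠ 0))
    simp only [md_zero, mul_zero, add_zero] at this
    refine this.congr fun s => ?_
    simp [slope_def_field, sn_zero]
  have t1 : Tendsto (fun s => u s / s ^ 2 * sn L t ^ 2) (𝓝[>] 0) (𝓝 (b * sn L t ^ 2)) :=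
    hb.mul_const _
  have t2 : Tendsto (fun s => u t * (sn L s / s) ^ 2) (𝓝[>] 0) (𝓝 (u t * 1 ^ 2)) :=
    (hsn.pow 2).const_mul _
  have := le_of_tendsto_of_tendsto t1 t2 (by
    filter_upwards [Ioc_mem_nhdsGT ht] with s hs
    have h := rauch_ode hL h1 h2 h0 h4 h5 hz hs.1 hs.2
    have h' := pow_le_pow_left₀ (mul_nonneg (Real.sqrt_nonneg _) (sn_nonneg hL ht.le)) h 2
    rw [mul_pow, mul_pow, Real.sq_sqrt (h0 s), Real.sq_sqrt (h0 t)] at h'
    have hs2 : 0 < s ^ 2 := pow_pos hs.1 2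
    rw [div_mul_eq_mul_div, div_pow, ← mul_div_assoc]
    exact div_le_div_of_nonneg_right h' hs2.le)
  simpa using this

theorem sn_scale (hl : 0 ≤ l) {a : ℝ} (ha : 0 < a) (t : ℝ) :
    sn (l * a ^ 2) t = sn l (a * t) / a := by
  rcases hl.eq_or_lt with rfl | hl
  · simp only [zero_mul, sn_zero_left]; field_simp
  · rw [Alm.sn_of_pos (by positivity), Alm.sn_of_pos hl, Real.sqrt_mul hl.le, Real.sqrt_sq ha.le,
      mul_assoc, div_div]

/-- `md` of the model distance of two points given in polar normal coordinates. -/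
def dl (l : ℝ) (a b : Euc n) : ℝ :=
  md l ‖a‖ + md l ‖b‖ + l * md l ‖a‖ * md l ‖b‖ - sn l ‖a‖ / ‖a‖ * (sn l ‖b‖ / ‖b‖) * ⟪a, b⟫

open Classical in
/-- the model metric in normal coordinates. -/
def msp (l : ℝ) (u v : Euc n) : ℝ :=
  if u = 0 then ‖v‖ ^ 2 else
    ⟪u, v⟫ ^ 2 / ‖u‖ ^ 2 + (sn l ‖u‖ / ‖u‖) ^ 2 * (‖v‖ ^ 2 - ⟪u, v⟫ ^ 2 / ‖u‖ ^ 2)

theorem hinge_cs {P q a2 v2 h ρ : ℝ} (ha : 0 ≤ a2) (hv : 0 ≤ v2) (hq : q ^ 2 ≤ a2 * v2) :
    (ρ * P - h * q) ^ 2 ≤ (P ^ 2 + a2) * (ρ ^ 2 + h ^ 2 * v2) := by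
  have h1 : 0 ≤ P ^ 2 * h ^ 2 * v2 + a2 * ρ ^ 2 + 2 * ρ * P * h * q := by
    rcases hv.eq_or_lt with h0 | h0
    · have : q = 0 := by
        rw [← h0, mul_zero] at hq
        exact pow_eq_zero_iff two_ne_zero |>.1 (le_antisymm hq (sq_nonneg q))
      rw [← h0, this]
      nlinarith [mul_nonneg ha (sq_nonneg ρ)]
    · refine le_of_mul_le_mul_left ?_ h0
      nlinarith [sq_nonneg (P * h * v2 + ρ * q), mul_nonneg (sq_nonneg ρ) (sub_nonneg.2 hq)]
  nlinarith [mul_nonneg (sq_nonneg h) (sub_nonneg.2 hq)]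

theorem perp_cs (A u v : Euc n) (hu : u ≠ 0) :
    0 ≤ ‖A‖ ^ 2 - (⟪A, u⟫ / ‖u‖) ^ 2 ∧ 0 ≤ ‖v‖ ^ 2 - (⟪u, v⟫ / ‖u‖) ^ 2 ∧
      (⟪A, v⟫ - ⟪A, u⟫ / ‖u‖ * (⟪u, v⟫ / ‖u‖)) ^ 2 ≤
        (‖A‖ ^ 2 - (⟪A, u⟫ / ‖u‖) ^ 2) * (‖v‖ ^ 2 - (⟪u, v⟫ / ‖u‖) ^ 2) := by
  have hr : ‖u‖ ≠ 0 := norm_ne_zero_iff.2 hu
  have e : ∀ x y : Euc n, ⟪x - (⟪x, u⟫ / ‖u‖ ^ 2) • u, y - (⟪y, u⟫ / ‖u‖ ^ 2) • u⟫ =
      ⟪x, y⟫ - ⟪x, u⟫ / ‖u‖ * (⟪y, u⟫ / ‖u‖) := fun x y => by
    simp only [inner_sub_left, inner_sub_right, real_inner_smul_left, real_inner_smul_right,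
      real_inner_self_eq_norm_sq, real_inner_comm y u]
    field_simp
    ring
  have h1 := e A A
  have h2 := e v v
  have h3 := e A v
  have h4 := real_inner_mul_inner_self_le (A - (⟪A, u⟫ / ‖u‖ ^ 2) • u) (v - (⟪v, u⟫ / ‖u‖ ^ 2) • u)
  have h5 : 0 ≤ ⟪A - (⟪A, u⟫ / ‖u‖ ^ 2) • u, A - (⟪A, u⟫ / ‖u‖ ^ 2) • u⟫ := real_inner_self_nonneg
  have h6 : 0 ≤ ⟪v - (⟪v, u⟫ / ‖u‖ ^ 2) • u, v - (⟪v, u⟫ / ‖u‖ ^ 2) • u⟫ := real_inner_self_nonneg
  rw [h1, h2, h3] at h4
  rw [h1] at h5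
  rw [h2] at h6
  rw [real_inner_self_eq_norm_sq] at h4 h5 h6
  rw [real_inner_self_eq_norm_sq] at h4
  rw [real_inner_comm v u]
  refine ⟨by nlinarith, by nlinarith, by nlinarith⟩

/-- derivative of `b ↦ dl l a b` along a curve, with the Minkowski Cauchy-Schwarz bound. -/
theorem dl_deriv (hl : 0 ≤ l) (a : Euc n) {L : ℝ → Euc n} {v : Euc n} {S : Set ℝ} {t : ℝ}
    (hL : HasDerivWithinAt L v S t) :
    ∃ g' : ℝ, HasDerivWithinAt (fun t => dl l a (L t)) g' S t ∧
      g' ^ 2 ≤ (2 * dl l a (L t) + l * dl l a (L t) ^ 2) * msp l (L t) v := by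
  set A : Euc n := (sn l ‖a‖ / ‖a‖) • a with hA
  have hA2 : ‖A‖ ^ 2 = 2 * md l ‖a‖ + l * md l ‖a‖ ^ 2 := by
    rw [← sn_sq hl, hA, norm_smul, mul_pow, Real.norm_eq_abs, sq_abs]
    by_cases h : a = 0
    · simp [h, sn_zero]
    · have := norm_ne_zero_iff.2 h
      field_simp
  have hdl : ∀ b : Euc n, dl l a b = md l ‖a‖ + (1 + l * md l ‖a‖) * md l ‖b‖ -
      sn l ‖b‖ / ‖b‖ * ⟪A, b⟫ := fun b => by
    simp only [dl, hA, real_inner_smul_left]; ring
  simp only [hdl]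
  have hin : HasDerivWithinAt (fun t => ⟪A, L t⟫) ⟪A, v⟫ S t := by
    simpa using (hasDerivWithinAt_const t S A).inner ℝ hL
  by_cases hu : L t = 0
  · refine ⟨-⟪A, v⟫, ?_, ?_⟩
    · have hsn : Tendsto (fun s => sn l s / s) (𝓝[≠] 0) (𝓝 1) := by
        have := hasDerivAt_iff_tendsto_slope.1 (hasDerivAt_sn hl 0)
        simp only [md_zero, mul_zero, add_zero] at this
        refine this.congr fun s => ?_
        simp [slope_def_field, sn_zero]
      have hmd : HasFDerivAt (fun b : Euc n => md l ‖b‖) (0 : Euc n →L[ℝ] ℝ) 0 := by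
        rw [hasFDerivAt_iff_isLittleO_nhds_zero]
        have h1 := (hasDerivAt_md hl 0).isLittleO
        simp only [md_zero, sn_zero, sub_zero, smul_zero] at h1
        have h2 := h1.comp_tendsto (tendsto_norm_zero (E := Euc n))
        simpa [md_zero, Function.comp_def] using h2.of_norm_right
      have hY : HasFDerivAt (fun b : Euc n => sn l ‖b‖ / ‖b‖ * ⟪A, b⟫) (innerSL ℝ A) 0 := by
        rw [hasFDerivAt_iff_isLittleO_nhds_zero]
        simp only [zero_add, inner_zero_right, mul_zero, sub_zero, innerSL_apply_apply]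
        refine Asymptotics.IsLittleO.of_bound fun c hc => ?_
        have h1 : ∀ᶠ s in 𝓝[≠] (0 : ℝ), |sn l s / s - 1| * ‖A‖ ≤ c := by
          have : Tendsto (fun s => |sn l s / s - 1| * ‖A‖) (𝓝[≠] 0) (𝓝 (|(1 : ℝ) - 1| * ‖A‖)) :=
            ((hsn.sub_const 1).abs).mul_const _
          simp only [sub_self, abs_zero, zero_mul] at this
          exact this.eventually (ge_mem_nhds hc)
        rw [eventually_nhdsWithin_iff] at h1
        filter_upwards [(tendsto_norm_zero (E := Euc n)).eventually h1] with b hb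
        by_cases hb0 : b = 0
        · simp [hb0]
        · have h2 := hb (norm_ne_zero_iff.2 hb0)
          rw [← sub_one_mul, Real.norm_eq_abs, abs_mul]
          calc _ ≤ |sn l ‖b‖ / ‖b‖ - 1| * (‖A‖ * ‖b‖) :=
                mul_le_mul_of_nonneg_left (abs_real_inner_le_norm A b) (abs_nonneg _)
            _ ≤ c * ‖b‖ := by rw [← mul_assoc]; exact mul_le_mul_of_nonneg_right h2 (norm_nonneg _)
      rw [← hu] at hmd hY
      have h1 := hmd.comp_hasDerivWithinAt t hL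
      have h2 := hY.comp_hasDerivWithinAt t hL
      have := ((h1.const_mul (1 + l * md l ‖a‖)).const_add (md l ‖a‖)).sub h2
      refine this.congr_deriv ?_
      simp
    · simp only [hu, msp, if_true, norm_zero, md_zero, mul_zero, add_zero, inner_zero_right,
        sub_zero, neg_sq, ← hA2]
      have := real_inner_mul_inner_self_le A v
      rw [real_inner_self_eq_norm_sq, real_inner_self_eq_norm_sq] at this
      nlinarith
  · have hr : ‖L t‖ ≠ 0 := norm_ne_zero_iff.2 hu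
    have hn : HasDerivWithinAt (fun t => ‖L t‖) (⟪L t, v⟫ / ‖L t‖) S t := by
      have h1 := hL.norm_sq.sqrt (pow_ne_zero 2 hr)
      simp only [Real.sqrt_sq (norm_nonneg _)] at h1
      convert h1 using 1
      field_simp
    have h1 := (hasDerivAt_md hl ‖L t‖).comp_hasDerivWithinAt t hn
    have h2 := (((hasDerivAt_sn hl ‖L t‖).comp_hasDerivWithinAt t hn).div hn hr).mul hin
    have h3 := ((h1.const_mul (1 + l * md l ‖a‖)).const_add (md l ‖a‖)).sub h2
    refine ⟨_, h3, ?_⟩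
    obtain ⟨p1, p2, p3⟩ := perp_cs A (L t) v hu
    have h4 := hinge_cs (P := (1 + l * md l ‖a‖) * sn l ‖L t‖ -
      (1 + l * md l ‖L t‖) * (⟪A, L t⟫ / ‖L t‖)) (h := sn l ‖L t‖ / ‖L t‖)
      (ρ := ⟪L t, v⟫ / ‖L t‖) p1 p2 p3
    have h5 := sn_sq hl ‖L t‖
    simp only [msp, hu, if_false, Function.comp_def, Pi.div_apply]
    convert h4 using 2
    · field_simp
      ring
    · rw [hA2, div_mul_eq_mul_div, mul_div_assoc]
      set α := ⟪A, L t⟫ / ‖L t‖
      linear_combination (l * α ^ 2 - (1 + l * md l ‖a‖) ^ 2) * h5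
    · rw [div_pow ⟪L t, v⟫]

theorem dl_self (hl : 0 ≤ l) (a : Euc n) : dl l a a = 0 := by
  have h := sn_sq hl ‖a‖
  by_cases h0 : a = 0
  · simp [dl, h0, md_zero]
  · have := norm_ne_zero_iff.2 h0
    rw [dl, real_inner_self_eq_norm_sq]
    have e : sn l ‖a‖ / ‖a‖ * (sn l ‖a‖ / ‖a‖) * ‖a‖ ^ 2 = sn l ‖a‖ ^ 2 := by field_simp
    rw [e, h]; ring

/-- a curve of model speed at most `d` on `[0,1]` joins points at model distance at most `d`. -/
theorem dl_le_md (hl : 0 ≤ l) {L L' : ℝ → Euc n} {d : ℝ} (hd : 0 ≤ d)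
    (hL : ∀ t ∈ Icc (0 : ℝ) 1, HasDerivAt L (L' t) t)
    (hs : ∀ t ∈ Icc (0 : ℝ) 1, msp l (L t) (L' t) ≤ d ^ 2) : dl l (L 0) (L 1) ≤ md l d := by
  classical
  have hex : ∀ t ∈ Icc (0 : ℝ) 1, ∃ g' : ℝ, HasDerivAt (fun t => dl l (L 0) (L t)) g' t ∧
      g' ^ 2 ≤ (2 * dl l (L 0) (L t) + l * dl l (L 0) (L t) ^ 2) * msp l (L t) (L' t) :=
    fun t ht => by
      obtain ⟨g', h1, h2⟩ := dl_deriv hl (L 0) (hL t ht).hasDerivWithinAt (S := univ)
      exact ⟨g', hasDerivWithinAt_univ.1 h1, h2⟩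
  choose! g' hg hg2 using hex
  have key : ∀ ε > (0 : ℝ), dl l (L 0) (L 1) ≤ md l ((d + ε) * 1 + ε) := by
    intro ε hε
    have hB : ∀ t, HasDerivAt (fun t => md l ((d + ε) * t + ε))
        (sn l ((d + ε) * t + ε) * (d + ε)) t := fun t => by
      have := (hasDerivAt_md hl ((d + ε) * t + ε)).comp t
        (((hasDerivAt_id t).const_mul (d + ε)).add_const ε)
      simpa [Function.comp_def] using this
    refine image_le_of_deriv_right_lt_deriv_boundary (f := fun t => dl l (L 0) (L t)) (f' := g')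
      (a := 0) (b := 1) (fun t ht => (hg t ht).continuousAt.continuousWithinAt)
      (fun t ht => (hg t (Ico_subset_Icc_self ht)).hasDerivWithinAt) (by
        rw [dl_self hl]; exact md_nonneg hl _) hB ?_ (right_mem_Icc.2 zero_le_one)
    intro t ht he
    have h1 := hg2 t (Ico_subset_Icc_self ht)
    have h2 := hs t (Ico_subset_Icc_self ht)
    rw [he, ← sn_sq hl] at h1
    have hp : 0 < sn l ((d + ε) * t + ε) := sn_pos hl (by have := ht.1; positivity)
    have h3 : g' t ^ 2 ≤ (sn l ((d + ε) * t + ε) * d) ^ 2 := by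
      rw [mul_pow]; exact h1.trans (mul_le_mul_of_nonneg_left h2 (sq_nonneg _))
    have h4 := (abs_le_of_sq_le_sq' h3 (mul_nonneg hp.le hd)).2
    nlinarith
  have t1 : Tendsto (fun ε : ℝ => md l ((d + ε) * 1 + ε)) (𝓝[>] 0) (𝓝 (md l ((d + 0) * 1 + 0))) :=
    tendsto_nhdsWithin_of_tendsto_nhds
      (((Alm.continuous_md hl).comp (by fun_prop : Continuous fun ε : ℝ => (d + ε) * 1 + ε)).tendsto 0)
  have := ge_of_tendsto t1 (eventually_nhdsWithin_of_forall fun c hc => key c hc)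
  simpa using this

theorem dl_smul (l : ℝ) (w z : Euc n) (c : ℝ) :
    dl l (c • w) z = md l (c * ‖w‖) + md l ‖z‖ + l * md l (c * ‖w‖) * md l ‖z‖ -
      sn l (|c| * ‖w‖) * (SignType.sign c : ℝ) * (sn l ‖z‖ / ‖z‖ * ⟪w, z⟫ / ‖w‖) := by
  have e : md l ‖c • w‖ = md l (c * ‖w‖) := by
    rw [norm_smul, Real.norm_eq_abs, ← Alm.md_abs l (c * ‖w‖), abs_mul, abs_norm]
  rw [dl, e, real_inner_smul_left, norm_smul, Real.norm_eq_abs]
  congr 1
  rcases lt_trichotomy c 0 with h | h | h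
  · rw [sign_neg h, abs_of_neg h]
    by_cases hw : ‖w‖ = 0
    · simp [hw]
    · have := h.ne
      simp only [SignType.coe_neg_one]
      field_simp
  · simp [h]
  · rw [sign_pos h, abs_of_pos h]
    by_cases hw : ‖w‖ = 0
    · simp [hw]
    · have := h.ne'
      simp only [SignType.coe_one]
      field_simp

/-- the hinge comparison at every point gives the CAT comparison. -/
theorem catSp_of_hinge {X : Type u} [MetricSpace X] (hl : 0 ≤ l) (ex : X → Euc n → X)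
    (surj : ∀ o, Function.Surjective (ex o)) (rad : ∀ o w, dist o (ex o w) = ‖w‖)
    (line : ∀ o w (s : ℝ), ∃ w' : Euc n, ‖w'‖ = ‖w‖ ∧
      ∀ t : ℝ, ex (ex o (s • w)) (t • w') = ex o ((s + t) • w))
    (hinge : ∀ m w w', dl l w w' ≤ md l (dist (ex m w) (ex m w'))) : Nonempty (CatSp l X) := by
  choose lg hlg using surj
  have h0 : ∀ o, ex o 0 = o := fun o => by
    have := rad o 0
    rw [norm_zero, dist_eq_zero] at this
    exact this.symm
  have hd : ∀ x p, dist x p = ‖lg x p‖ := fun x p => by rw [← rad x, hlg]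
  obtain ⟨c, -⟩ := catSp_of_side hl (fun x p t => ex x (t • lg x p))
    (fun x p => by simp [h0]) (fun x p => by simp [hlg])
    (fun x p s _ t _ => by
      obtain ⟨w', hw, h⟩ := line x (lg x p) s
      have := h (t - s)
      rw [add_sub_cancel] at this
      rw [← this, rad, norm_smul, hw, hd, Real.norm_eq_abs, abs_sub_comm])
    (fun x p q t ht => by
      obtain ⟨w', hw, h⟩ := line x (lg x q) t
      set m := ex x (t • lg x q) with hm
      have e1 := h (-t)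
      have e2 := h (1 - t)
      rw [add_neg_cancel, zero_smul, h0] at e1
      rw [add_sub_cancel, one_smul, hlg] at e2
      have k1 := hinge m ((-t) • w') (lg m p)
      have k2 := hinge m ((1 - t) • w') (lg m p)
      rw [e1, hlg, dl_smul] at k1
      rw [e2, hlg, dl_smul] at k2
      rw [dist_comm p m, hd m p, dist_comm p q, md_sub hl, md_sub hl]
      rw [hw, ← hd x q] at k1 k2
      set b := dist x q
      have hb : 0 ≤ b := dist_nonneg
      set κ := sn l ‖lg m p‖ / ‖lg m p‖ * ⟪w', lg m p⟫ / b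
      have f1 : sn l (|-t| * b) * (SignType.sign (-t) : ℝ) = -sn l (t * b) := by
        rcases ht.1.eq_or_lt with h | h
        · simp [← h, sn_zero]
        · rw [sign_neg (by linarith), abs_neg, abs_of_pos h]; simp
      have f2 : sn l (|1 - t| * b) * (SignType.sign (1 - t) : ℝ) = sn l ((1 - t) * b) := by
        rcases ht.2.eq_or_lt with h | h
        · simp [h, sn_zero]
        · rw [sign_pos (by linarith), abs_of_pos (by linarith)]; simp
      rw [f1, neg_mul, Alm.md_neg] at k1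
      rw [f2] at k2
      have g1 := sn_add hl (t * b) ((1 - t) * b)
      have g2 := md_add hl (t * b) ((1 - t) * b)
      rw [show t * b + (1 - t) * b = b by ring] at g1 g2
      have g3 := sn_sq hl (t * b)
      have p1 := sn_nonneg hl (mul_nonneg ht.1 hb)
      have p2 := sn_nonneg hl (mul_nonneg (sub_nonneg.2 ht.2) hb)
      have q1 := mul_le_mul_of_nonneg_left k1 p2
      have q2 := mul_le_mul_of_nonneg_left k2 p1
      rw [g1, g2]
      set su := sn l (t * b)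
      set sv := sn l ((1 - t) * b)
      set U := md l (t * b)
      set V := md l ((1 - t) * b)
      set A := md l (dist x p)
      nlinarith [congrArg (fun y => y * sv * (1 + l * A)) g3])
  exact ⟨c⟩

end

end Crest.Agent.R241
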