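import Crest.Agent.R241.CRauch
import Crest.Agent.R241.CHinge
import Crest.Agent.R244.Bridge1b

/-! Row 241, block C: a simply connected, geodesically complete `R244.RAtlas` with curvature
`≤ -l` is a `CAT(-l)` space. -/

set_option autoImplicit false

open Set Filter
open scoped ContDiff Topology InnerProductSpace

namespace Crest.Agent.R241.Cm

open Crest.GeometryTopology.CoordMetric Crest.GeometryTopology.ChartCurvature
  Crest.GeometryTopology.Geodesic
open Crest.Agent.R244 Crest.Agent.R244.RAtlas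

variable {n : ℕ} {M : Type} [TopologicalSpace M]

/-- the curve `c` is differentiable on `[0,1]` with speed at most `L`. -/
def SpeedLe (A : RAtlas n M) (c : ℝ → M) (L : ℝ) : Prop :=
  ∀ s ∈ Icc (0 : ℝ) 1, ∃ (k : A.ι) (c' : E n), c s ∈ (A.chart k).source ∧
    HasDerivAt (A.crd k c) c' s ∧ bil (A.G k (A.chart k (c s))) c' c' ≤ L ^ 2

theorem exists_frameL {g : Matrix (Fin n) (Fin n) ℝ} (hg : g.PosDef) :
    ∃ L : E n →L[ℝ] E n, ∀ u v, bil g (L u) (L v) = ⟪u, v⟫_ℝ := by
  classical
  set e := hg.isHermitian.eigenvectorBasis with he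
  set lam := hg.isHermitian.eigenvalues with hlam
  have hpos : ∀ j, 0 < lam j := hg.eigenvalues_pos
  have hb : ∀ j k, bil g (e j) (e k) = if j = k then lam k else 0 := fun j k => by
    rw [bil_eq_dot_coord, he, hg.isHermitian.mulVec_eigenvectorBasis, dotProduct_smul, ← he]
    have h1 : (e j).ofLp ⬝ᵥ (e k).ofLp = ⟪e j, e k⟫_ℝ := by
      simp [PiLp.inner_apply, dotProduct, mul_comm]
    rw [h1, orthonormal_iff_ite.1 e.orthonormal]
    split_ifs <;> simp [hlam]
  refine ⟨∑ j, (EuclideanSpace.proj j : E n →L[ℝ] ℝ).smulRight ((Real.sqrt (lam j))⁻¹ • e j),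
    fun u v => ?_⟩
  rw [← bridge1b_B_apply]
  simp only [ContinuousLinearMap.sum_apply, ContinuousLinearMap.smulRight_apply, map_sum, map_smul,
    ContinuousLinearMap.smul_apply, bridge1b_B_apply, hb, smul_eq_mul, PiLp.inner_apply]
  refine Finset.sum_congr rfl fun k _ => ?_
  rw [Finset.sum_eq_single k (fun j _ hj => by simp [hj]) (by simp)]
  have h2 : Real.sqrt (lam k) * Real.sqrt (lam k) = lam k := Real.mul_self_sqrt (hpos k).le
  have h3 : Real.sqrt (lam k) ≠ 0 := (Real.sqrt_pos.2 (hpos k)).ne'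
  simp only [if_true, PiLp.proj_apply, EuclideanSpace.proj, RCLike.inner_apply, conj_trivial]
  field_simp
  rw [sq, h2]; ring

/-- an orthonormal frame. -/
theorem exists_frame {g : Matrix (Fin n) (Fin n) ℝ} (hg : g.PosDef) :
    ∃ T : E n ≃L[ℝ] E n, ∀ u v, bil g (T u) (T v) = ⟪u, v⟫_ℝ := by
  obtain ⟨L, hL⟩ := exists_frameL hg
  have hinj : Function.Injective L := (injective_iff_map_eq_zero _).2 fun w hw => by
    have := hL w w
    rw [hw, bil_zero_left] at this
    exact inner_self_eq_zero.1 this.symm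
  exact ⟨(LinearEquiv.ofInjectiveEndo (L : E n →ₗ[ℝ] E n) hinj).toContinuousLinearEquiv, hL⟩

theorem dl_zero_left (a b : E n) : dl 0 a b = ‖a - b‖ ^ 2 / 2 := by
  rw [norm_sub_sq_real, dl]
  simp only [Alm.md_zero_left, Alm.sn_zero_left, zero_mul, add_zero]
  by_cases ha : a = 0
  · simp [ha]
  by_cases hb : b = 0
  · simp [hb]
  rw [div_self (norm_ne_zero_iff.2 ha), div_self (norm_ne_zero_iff.2 hb)]
  ring

variable {A : RAtlas n M} {l : ℝ}

theorem SecLe.zero (h : SecLe A l) (hl : 0 ≤ l) : SecLe A 0 := fun x => by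
  obtain ⟨i, hi, hs⟩ := h.npc hl x
  exact ⟨i, hi, fun u v => by simpa using hs u v⟩

/-- the hinge inequality for a lifted curve. -/
theorem lift_dl {i : A.ι} {x : M} {p : E n → M} (h : A.IsExp i x p) (hA : SecLe A l) (hl : 0 ≤ l)
    {T : E n ≃L[ℝ] E n} (hT : ∀ u v, bil (A.G i (A.chart i x)) (T u) (T v) = ⟪u, v⟫_ℝ)
    {L : ℝ → E n} (hL : Continuous L) {d : ℝ} (hd : 0 ≤ d) (hc : SpeedLe A (fun s => p (L s)) d) :
    dl l (T.symm (L 0)) (T.symm (L 1)) ≤ md l d := by
  have hder : ∀ s ∈ Icc (0 : ℝ) 1, ∃ w, HasDerivAt (fun s => T.symm (L s)) w s ∧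
      msp l (T.symm (L s)) w ≤ d ^ 2 := by
    intro s hs
    obtain ⟨k, c', hk, h1, h2⟩ := hc s hs
    obtain ⟨w, hw, hw'⟩ := h.hasDerivWithinAt_lift (h.inj_of_npc (hA.npc hl)) (mem_univ s)
      hL.continuousWithinAt hk h1.hasDerivWithinAt
    have hw2 : HasDerivAt (fun s => T.symm (L s)) (T.symm w) s :=
      (T.symm : E n →L[ℝ] E n).hasFDerivAt.comp_hasDerivAt s (hasDerivWithinAt_univ.1 hw)
    refine ⟨T.symm w, hw2, le_trans ?_ h2⟩
    have e : ∀ u v, ⟪T.symm u, T.symm v⟫_ℝ = bil (A.G i (A.chart i x)) u v := fun u v => by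
      rw [← hT, T.apply_symm_apply, T.apply_symm_apply]
    rw [← hw', msp]
    split_ifs with h0
    · rw [← real_inner_self_eq_norm_sq, e]
      exact h.expand (hA.npc hl) hk w
    · rw [← real_inner_self_eq_norm_sq (T.symm w), e, e]
      exact rauch h hA hl hk w (norm_pos_iff.2 h0) (by rw [← e, real_inner_self_eq_norm_sq])
  choose! w hw hwd using hder
  exact dl_le_md (L := fun s => T.symm (L s)) hl hd hw hwd

theorem speedLe_geo {i : A.ι} {x : M} {p : E n → M} (h : A.IsExp i x p) (v : E n) :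
    SpeedLe A (fun s : ℝ => p (s • v)) √(bil (A.G i (A.chart i x)) v v) := by
  intro s _
  obtain ⟨k, hk⟩ := A.cover (p (s • v))
  refine ⟨k, _, hk, (h.geo v).gauss_c hk, le_of_eq ?_⟩
  have h0 : p ((0 : ℝ) • v) = x := by rw [zero_smul, h.zero]
  rw [Real.sq_sqrt (bil_self_nonneg (A.posDef h.mem) v),
    GeoOn.speed (h.geo v) isOpen_univ isPreconnected_univ (mem_univ s) (mem_univ 0) hk
      (j := i) (by rw [h0]; exact h.mem), h.vel v, h0]

theorem exists_cat [T2Space M] [SimplyConnectedSpace M] [LocallyPathConnectedSpace M]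
    (A : RAtlas n M) {l : ℝ} (hl : 0 ≤ l) (hA : SecLe A l) (j : M → A.ι) (q : M → E n → M)
    (hq : ∀ x, A.IsExp (j x) x (q x)) :
    ∃ m : MetricSpace M, Nonempty (@CatSp l M m) ∧ (∀ x, Function.Bijective (q x)) ∧
      (∀ x v, @dist M m.toDist x (q x v) = √(bil (A.G (j x) (A.chart (j x) x)) v v)) ∧
      (∀ x v w, √(bil (A.G (j x) (A.chart (j x) x)) (v - w) (v - w)) ≤
        @dist M m.toDist (q x v) (q x w)) ∧
      ∀ (c : ℝ → M) (L : ℝ), 0 ≤ L → Continuous c → SpeedLe A c L →
        @dist M m.toDist (c 0) (c 1) ≤ L := by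
  have hj : ∀ x, x ∈ (A.chart (j x)).source := fun x => (hq x).mem
  have hcov : ∀ y, IsCoveringMap (q y) := fun y =>
    (hq y).isCoveringMap ((hq y).inj_of_npc (hA.npc hl))
  choose Lg hLg using fun x : M =>
    ((hcov x).existsUnique_continuousMap_lifts (ContinuousMap.id M) x 0 (hq x).zero).exists
  have hLg0 : ∀ x, Lg x x = 0 := fun x => (hLg x).1
  have hEL : ∀ x y, q x (Lg x y) = y := fun x y => congrFun (hLg x).2 y
  have hLE : ∀ x v, Lg x (q x v) = v := by
    intro x v
    have := (hcov x).eq_of_comp_eq (g₁ := fun v => Lg x (q x v)) (g₂ := id)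
      ((Lg x).continuous.comp (hq x).cont) continuous_id
      (funext fun v => by simp only [Function.comp, hEL, id]) 0
      (by simp only [(hq x).zero, hLg0, id])
    exact congrFun this v
  choose T hT using fun x : M => exists_frame (A.posDef (hj x))
  have hN : ∀ x v, √(bil (A.G (j x) (A.chart (j x) x)) v v) = ‖(T x).symm v‖ := fun x v => by
    conv_lhs => rw [← (T x).apply_symm_apply v, hT, real_inner_self_eq_norm_sq,
      Real.sqrt_sq (norm_nonneg _)]
  set d : M → M → ℝ := fun x y => ‖(T x).symm (Lg x y)‖ with hd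
  have P0 : ∀ {l' : ℝ}, 0 ≤ l' → SecLe A l' → ∀ (m : M) (c : ℝ → M) (L : ℝ), 0 ≤ L →
      Continuous c → SpeedLe A c L →
      dl l' ((T m).symm (Lg m (c 0))) ((T m).symm (Lg m (c 1))) ≤ md l' L :=
    fun hl' hA' m c L hL hc hs => lift_dl (hq m) hA' hl' (hT m) (L := fun s => Lg m (c s))
      ((Lg m).continuous.comp hc) hL (by simpa only [hEL] using hs)
  have P1 : ∀ {l' : ℝ}, 0 ≤ l' → SecLe A l' → ∀ m y z : M,
      dl l' ((T m).symm (Lg m y)) ((T m).symm (Lg m z)) ≤ md l' (d y z) := by
    intro l' hl' hA' m y z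
    have := P0 hl' hA' m (fun s : ℝ => q y (s • Lg y z)) _ (Real.sqrt_nonneg _)
      ((hq y).cont.comp (continuous_id.smul continuous_const)) (speedLe_geo (hq y) (Lg y z))
    simpa only [zero_smul, one_smul, (hq y).zero, hEL, hN] using this
  have hsq : ∀ {a b : E n} {L : ℝ}, 0 ≤ L → dl 0 a b ≤ md 0 L → ‖a - b‖ ≤ L := fun hL h => by
    rw [dl_zero_left, Alm.md_zero_left] at h
    exact (abs_le_of_sq_le_sq' (by linarith) hL).2
  have P2 : ∀ m y z : M, ‖(T m).symm (Lg m y) - (T m).symm (Lg m z)‖ ≤ d y z := fun m y z =>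
    hsq (norm_nonneg _) (P1 le_rfl (hA.zero hl) m y z)
  have hcomm : ∀ x y, d x y = d y x := by
    have h1 : ∀ x y, d y x ≤ d x y := by
      intro x y
      have := P2 y x y
      rwa [hLg0, map_zero, sub_zero] at this
    exact fun x y => le_antisymm (h1 y x) (h1 x y)
  let m : MetricSpace M :=
    { dist := d
      dist_self := fun x => by simp only [hd, hLg0, map_zero, norm_zero]
      dist_comm := hcomm
      dist_triangle := fun x y z => by
        have h1 := norm_le_norm_add_norm_sub ((T x).symm (Lg x y)) ((T x).symm (Lg x z))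
        exact h1.trans (add_le_add le_rfl (P2 x y z))
      eq_of_dist_eq_zero := fun {x y} h => by
        have h1 : Lg x y = 0 := (T x).symm.injective (by
          rw [map_zero]; exact norm_eq_zero.1 h)
        rw [← hEL x y, h1, (hq x).zero] }
  refine ⟨m, ?_, fun x => ⟨Function.LeftInverse.injective (hLE x),
    Function.RightInverse.surjective (hEL x)⟩, fun x v => ?_, fun x v w => ?_,
    fun c L hL hc hs => ?_⟩
  · refine @catSp_of_hinge l n M m hl (fun x w => q x (T x w))
      (fun o y => ⟨(T o).symm (Lg o y), by simp only [(T o).apply_symm_apply, hEL]⟩)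
      (fun o w => ?_) (fun o w s => ?_) (fun o w w' => ?_)
    · change d o (q o (T o w)) = ‖w‖
      simp only [hd, hLE, (T o).symm_apply_apply]
    · set W := T o w with hW
      set y := q o (T o (s • w)) with hy
      have hy' : q o (s • W) = y := by rw [hy, map_smul]
      have hgeo := (hq o).geo W
      set V := deriv (A.crd (j y) fun s : ℝ => q o (s • W)) s with hV
      have hgeo2 : A.Geo fun t : ℝ => q o ((1 * t + s) • W) :=
        RAtlas.GeoOn.comp_affine hgeo isOpen_univ 1 s
      have heq : ∀ t : ℝ, q y (t • V) = q o ((1 * t + s) • W) := by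
        intro t
        refine RAtlas.GeoOn.unique ((hq y).geo V) hgeo2 isOpen_univ isPreconnected_univ
          (mem_univ (0 : ℝ)) (i := j y) ?_ ?_ ?_ (mem_univ t)
        · simp only [zero_smul, (hq y).zero]
          exact hj _
        · simp only [zero_smul, (hq y).zero, mul_zero, zero_add, hy']
        · rw [(hq y).vel V]
          have := RAtlas.GeoOn.deriv_comp_affine hgeo 1 s 0 (mem_univ _) (i := j y)
            (by simp only [mul_zero, zero_add, hy']; exact hj _)
          rw [this, mul_zero, zero_add, one_smul]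
      have hspeed : bil (A.G (j y) (A.chart (j y) y)) V V =
          bil (A.G (j o) (A.chart (j o) o)) W W := by
        have := RAtlas.GeoOn.speed hgeo isOpen_univ isPreconnected_univ (mem_univ s)
          (mem_univ (0 : ℝ)) (i := j y) (j := j o) (by simp only [hy']; exact hj _)
          (by simp only [zero_smul, (hq o).zero]; exact hj _)
        rw [(hq o).vel W] at this
        simp only [hy', zero_smul, (hq o).zero] at this
        exact this
      refine ⟨(T y).symm V, ?_, fun t => ?_⟩
      · rw [← hN, hspeed, hN, hW, (T o).symm_apply_apply]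
      · simp only [map_smul, (T y).apply_symm_apply, heq, one_mul, add_comm t s, hW]
    · have := P1 hl hA o (q o (T o w)) (q o (T o w'))
      simp only [hLE, (T o).symm_apply_apply] at this
      exact this
  · change d x (q x v) = _
    simp only [hd, hLE, hN]
  · have := P2 x (q x v) (q x w)
    rwa [hLE, hLE, ← map_sub, ← hN] at this
  · have := hsq hL (P0 le_rfl (hA.zero hl) (c 0) c L hL hc hs)
    rwa [hLg0, map_zero, zero_sub, norm_neg] at this

end Crest.Agent.R241.Cm
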