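import Crest.Agent.R241.CMet

/-! Row 241, block C: the comparison inequality. -/

set_option autoImplicit false

open Set Filter Topology
open scoped ContDiff InnerProductSpace

namespace Crest.Agent.R241.C

open Crest.GeometryTopology.Submanifold

open Alm

variable {n N : ℕ} {S : Set (Euc N)}

namespace Pre.Had
variable {D : Pre n N S} {l : ℝ} (H : D.Had l)

/-- Hessian comparison along a geodesic avoiding `y`.  `c = lg y ∘ γ` is differentiable
(`lift_deriv`), `fderiv E (c s) (c' s) = γ' s`; `g = ‖c‖²/2` has `g' = ⟪c, c'⟫ = ⟪fderiv E c c, γ'⟫`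
(`IsEx.gauss`), `g'' = ⟪fderiv (fderiv E) c c' c + fderiv E c c', γ'⟫ + ⟪fderiv E c c, γ''⟫`, the last term
vanishes (`tan_fderiv`, `nor`); with `ρ = ‖c‖`, `ρ' = g'/ρ`, `f' = sn ρ g'/ρ`; conclude by `IsEx.hess`. -/
theorem hess_md {γ : ℝ → Euc N} (hγ : D.Geod γ) {y : Euc N} (hy : y ∈ S)
    (hne : ∀ s ∈ Icc (0 : ℝ) 1, γ s ≠ y) :
    ∃ f' f'' : ℝ → ℝ, ∀ s ∈ Icc (0 : ℝ) 1,
      HasDerivAt (fun s => md l (H.d y (γ s))) (f' s) s ∧ HasDerivAt f' (f'' s) s ∧
        ‖deriv γ 0‖ ^ 2 * (1 + l * md l (H.d y (γ s))) ≤ f'' s := by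
  have hl := H.hl
  have hex := H.ex y hy
  obtain ⟨c, hc⟩ : ∃ c : ℝ → Euc n, c = fun s => H.lg y (γ s) := ⟨_, rfl⟩
  have hEc : ∀ s, H.E y (c s) = γ s := fun s => by rw [hc]; exact H.E_lg y hy _ (hγ.mem s)
  have hcc : Continuous c := by
    rw [hc]; exact (H.cont y hy).comp_continuous hγ.smooth.continuous hγ.mem
  have hder : ∀ s, ∃ w, HasDerivAt c w s ∧ fderiv ℝ (H.E y) (c s) w = deriv γ s := by
    intro s
    have hinj : Function.Injective (fderiv ℝ (H.E y) (c s)) := by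
      refine (injective_iff_map_eq_zero _).mpr fun w hw => ?_
      have h1 := H.expand hy (c s) w
      rw [hw, norm_zero] at h1
      exact norm_le_zero_iff.mp h1
    obtain ⟨w, hw1, hw2⟩ := lift_deriv (E := H.E y) (c := c) (T := univ) (t := s)
      (hex.smooth.contDiffAt.of_le (by exact_mod_cast le_top)) hinj (mem_univ s)
      uniqueDiffWithinAt_univ hcc.continuousWithinAt (γ' := deriv γ s) (by
        simp only [hEc]
        exact (hγ.hasDerivAt s).hasDerivWithinAt)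
    exact ⟨w, hasDerivWithinAt_univ.mp hw1, hw2⟩
  choose c' hc1 hc2 using hder
  obtain ⟨G, hG⟩ : ∃ G : ℝ → ℝ, G = fun s => ⟪fderiv ℝ (H.E y) (c s) (c s), deriv γ s⟫_ℝ :=
    ⟨_, rfl⟩
  have hG1 : ∀ s, G s = ⟪c s, c' s⟫_ℝ := fun s => by
    rw [hG, ← hex.gauss, hc2]
  obtain ⟨Q, hQ⟩ : ∃ Q : ℝ → ℝ, ∀ s, Q s = ⟪fderiv ℝ (H.E y) (c s) (c' s),
      fderiv ℝ (H.E y) (c s) (c' s) + fderiv ℝ (fderiv ℝ (H.E y)) (c s) (c' s) (c s)⟫_ℝ :=
    ⟨_, fun _ => rfl⟩
  have hE1 : Differentiable ℝ (H.E y) := hex.smooth.differentiable (by simp)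
  have hE2 : Differentiable ℝ (fderiv ℝ (H.E y)) :=
    (hex.smooth.fderiv_right (m := ∞) (by simp)).differentiable (by simp)
  have hG2 : ∀ s, HasDerivAt G (Q s) s := by
    intro s
    have d1 : HasDerivAt (fun s => fderiv ℝ (H.E y) (c s))
        (fderiv ℝ (fderiv ℝ (H.E y)) (c s) (c' s)) s :=
      (hE2 (c s)).hasFDerivAt.comp_hasDerivAt s (hc1 s)
    have d2 := (d1.clm_apply (hc1 s)).inner ℝ (hγ.hasDerivAt_deriv s)
    have z : ⟪fderiv ℝ (H.E y) (c s) (c s), deriv (deriv γ) s⟫_ℝ = 0 := by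
      refine D.inner_eq_zero (x := γ s) ?_ (hγ.nor s)
      rw [← hEc]
      exact D.tan_fderiv (hE1 (c s)) (Eventually.of_forall hex.mem) (c s)
    rw [hG]
    refine d2.congr_deriv ?_
    rw [z, zero_add, hQ, hc2, real_inner_comm, add_comm]
  refine ⟨fun s => sn l ‖c s‖ * (G s / ‖c s‖), fun s =>
    cs l ‖c s‖ * (G s / ‖c s‖) * (G s / ‖c s‖) +
      sn l ‖c s‖ * ((Q s * ‖c s‖ - G s * (G s / ‖c s‖)) / ‖c s‖ ^ 2), fun s hs => ?_⟩
  have hc0 : c s ≠ 0 := fun h => hne s hs (by rw [← hEc, h, hex.zero])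
  have hρ : 0 < ‖c s‖ := norm_pos_iff.mpr hc0
  have dρ : HasDerivAt (fun s => ‖c s‖) (G s / ‖c s‖) s := by
    have d1 := (hc1 s).norm_sq.sqrt (pow_ne_zero 2 hρ.ne')
    simp only [Real.sqrt_sq (norm_nonneg _)] at d1
    refine d1.congr_deriv ?_
    rw [hG1]
    field_simp
  have hd : ∀ s, H.d y (γ s) = ‖c s‖ := fun s => by rw [hc]; rfl
  refine ⟨?_, ?_, ?_⟩
  · simp only [hd]
    exact (hasDerivAt_md hl ‖c s‖).comp s dρ
  · exact ((hasDerivAt_sn hl ‖c s‖).comp s dρ).mul ((hG2 s).div dρ hρ.ne')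
  · have h1 := hex.hess hl H.curv (c s) (c' s)
    rw [← hG1, ← hQ, hc2, hγ.speed] at h1
    rw [hd, ← cs_eq hl]
    refine le_of_mul_le_mul_left ?_ (pow_pos hρ 3)
    have e : ‖c s‖ ^ 3 * (cs l ‖c s‖ * (G s / ‖c s‖) * (G s / ‖c s‖) +
        sn l ‖c s‖ * ((Q s * ‖c s‖ - G s * (G s / ‖c s‖)) / ‖c s‖ ^ 2)) =
        ‖c s‖ * cs l ‖c s‖ * G s ^ 2 + sn l ‖c s‖ * (Q s * ‖c s‖ ^ 2 - G s ^ 2) := by
      field_simp
    simp only
    rw [e]
    linarith

/-- `maxp` for `φ s = sn a (f s - md (s a - β)) - sn (s a) (f 1 - md (a - β))`; if `γ s₀ = y` for some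
`s₀ ∈ [0,1]` both sides vanish (`d_geod`, `md_abs`). -/
theorem side {γ : ℝ → Euc N} (hγ : D.Geod γ) {y : Euc N} (hy : y ∈ S) {s : ℝ}
    (hs : s ∈ Icc (0 : ℝ) 1) :
    sn l ‖deriv γ 0‖ * (md l (H.d (γ s) y) - md l (s * ‖deriv γ 0‖ - H.d (γ 0) y)) ≤
      sn l (s * ‖deriv γ 0‖) * (md l (H.d (γ 1) y) - md l (‖deriv γ 0‖ - H.d (γ 0) y)) := by
  have hl := H.hl
  by_cases hne : ∀ s ∈ Icc (0 : ℝ) 1, γ s ≠ y
  · obtain ⟨f', f'', hf⟩ := H.hess_md hγ hy hne
    simp only [fun s => H.d_comm (hγ.mem s) hy]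
    have ha := sn_nonneg hl (norm_nonneg (deriv γ 0))
    generalize ‖deriv γ 0‖ = a at hf ha ⊢
    have d1 : ∀ u : ℝ, HasDerivAt (fun u : ℝ => u * a) a u := fun u => hasDerivAt_mul_const a
    have key := maxp (lam := l * a ^ 2) (by positivity)
      (φ := fun u => sn l a * (md l (H.d y (γ u)) - md l (u * a - H.d y (γ 0))) -
        sn l (u * a) * (md l (H.d y (γ 1)) - md l (a - H.d y (γ 0))))
      (φ' := fun u => sn l a * (f' u - sn l (u * a - H.d y (γ 0)) * a) -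
        cs l (u * a) * a * (md l (H.d y (γ 1)) - md l (a - H.d y (γ 0))))
      (φ'' := fun u => sn l a * (f'' u - cs l (u * a - H.d y (γ 0)) * a * a) -
        l * sn l (u * a) * a * a * (md l (H.d y (γ 1)) - md l (a - H.d y (γ 0))))
      (fun u hu => (((hf u hu).1.sub
        ((hasDerivAt_md hl _).comp u ((d1 u).sub_const _))).const_mul _).sub
          (((hasDerivAt_sn hl _).comp u (d1 u)).mul_const _))
      (fun u hu => (((hf u hu).2.1.sub
        (((hasDerivAt_sn hl _).comp u ((d1 u).sub_const _)).mul_const _)).const_mul _).sub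
          ((((hasDerivAt_cs hl _).comp u (d1 u)).mul_const _).mul_const _))
      (fun u hu => by
        have := mul_le_mul_of_nonneg_left (hf u hu).2.2 ha
        rw [cs_eq hl]
        linarith)
      (by simp [md_neg, sn_zero]) (by simp) s hs
    exact sub_nonpos.1 key
  · push Not at hne
    obtain ⟨s₀, hs₀, rfl⟩ := hne
    have e : ∀ u, md l (H.d (γ u) (γ s₀)) = md l (u * ‖deriv γ 0‖ - H.d (γ 0) (γ s₀)) := by
      intro u
      rw [H.d_geod hγ, H.d_geod hγ, zero_sub, abs_neg, abs_of_nonneg hs₀.1, ← sub_mul,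
        ← md_abs l ((u - s₀) * _), abs_mul, abs_norm]
    have e1 := e 1
    rw [one_mul] at e1
    rw [e s, e1, sub_self, sub_self, mul_zero, mul_zero]

/-- `side` twice. -/
theorem cmp {x p q : Euc N} (hx : x ∈ S) (hp : p ∈ S) (hq : q ∈ S) {s t : ℝ}
    (hs : s ∈ Icc (0 : ℝ) 1) (ht : t ∈ Icc (0 : ℝ) 1) :
    sn l (H.d x p) * sn l (H.d x q) * md l (H.d (H.geo x p s) (H.geo x q t)) ≤
      sn l (H.d x p) * sn l (H.d x q) * md l (s * H.d x p - t * H.d x q) +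
        sn l (s * H.d x p) * sn l (t * H.d x q) * (md l (H.d p q) - md l (H.d x p - H.d x q)) := by
  have hl := H.hl
  have hQ := (H.geo_geod hx q).mem t
  have e1 : H.d x (H.geo x q t) = t * H.d x q := by
    have := H.d_geo (y := q) hx 0 t
    rwa [H.geo_zero hx, zero_sub, abs_neg, abs_of_nonneg ht.1] at this
  have h1 := H.side (H.geo_geod hx p) hQ hs
  have h2 := H.side (H.geo_geod hx q) hp ht
  rw [H.geo_speed hx, H.geo_zero hx, H.geo_one hx hp, e1] at h1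
  rw [H.geo_speed hx, H.geo_zero hx, H.geo_one hx hq, H.d_comm hQ hp, H.d_comm hq hp,
    ← md_neg l (t * H.d x q - H.d x p), ← md_neg l (H.d x q - H.d x p), neg_sub, neg_sub] at h2
  have h3 := mul_le_mul_of_nonneg_left h1 (sn_nonneg hl (r := H.d x q) (norm_nonneg _))
  have h4 := mul_le_mul_of_nonneg_left h2
    (sn_nonneg hl (r := s * H.d x p) (mul_nonneg hs.1 (norm_nonneg _)))
  linarith

end Pre.Had

end Crest.Agent.R241.C
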