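import Crest.Agent.R241.CDefs

/-! Row 241, block C: two comparison lemmas for ODEs, and lifting of derivatives. -/

set_option autoImplicit false

open Set Filter Topology
open scoped ContDiff InnerProductSpace

namespace Crest.Agent.R241.C

open Crest.GeometryTopology.Submanifold

open Alm

theorem h54_cs {u a m p q : ℝ} (hu : 0 ≤ u) (ha : 0 ≤ a) (h : m ^ 2 ≤ u * a) :
    2 * (m * p * q) ≤ u * q ^ 2 + a * p ^ 2 := by
  refine (le_abs_self _).trans (abs_le_of_sq_le_sq' ?_ (by positivity) |> abs_le.2)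
  have h1 := mul_le_mul_of_nonneg_right h (sq_nonneg (p * q))
  nlinarith [sq_nonneg (u * q ^ 2 - a * p ^ 2)]

theorem h54_wr {k : ℝ} {U M M' A σ σ' : ℝ → ℝ} (hU : ∀ t, HasDerivAt U (2 * M t) t)
    (hM : ∀ t, HasDerivAt M (M' t) t) (h1 : ∀ t, A t + k * U t ≤ M' t)
    (h2 : ∀ t, M t ^ 2 ≤ U t * A t) (hp : ∀ t, 0 < U t) (hσ : ∀ t, HasDerivAt σ (σ' t) t)
    (hσ' : ∀ t, HasDerivAt σ' (k * σ t) t) (hσ0 : ∀ t, 0 ≤ t → 0 ≤ σ t) :
    MonotoneOn (fun t => M t / √(U t) * σ t - √(U t) * σ' t) (Ici 0) := by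
  have hd : ∀ t, HasDerivAt (fun t => M t / √(U t) * σ t - √(U t) * σ' t)
      (σ t * (M' t * U t - M t ^ 2 - k * U t ^ 2) / √(U t) ^ 3) t := by
    intro t
    have hs : 0 < √(U t) := Real.sqrt_pos.2 (hp t)
    have d1 := (hU t).sqrt (hp t).ne'
    have d2 := (((hM t).div d1 hs.ne').mul (hσ t)).sub (d1.mul (hσ' t))
    refine d2.congr_deriv ?_
    obtain ⟨h, hh⟩ : ∃ h, h = √(U t) := ⟨_, rfl⟩
    have e : U t = h ^ 2 := by rw [hh, Real.sq_sqrt (hp t).le]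
    simp only [Pi.div_apply]
    rw [← hh] at hs ⊢
    rw [e]
    field_simp
    ring
  refine monotoneOn_of_deriv_nonneg (convex_Ici 0)
    (fun t _ => (hd t).continuousAt.continuousWithinAt)
    (fun t _ => (hd t).differentiableAt.differentiableWithinAt) fun t ht => ?_
  rw [interior_Ici] at ht
  rw [(hd t).deriv]
  refine div_nonneg (mul_nonneg (hσ0 t (le_of_lt ht)) ?_) (by positivity)
  have h3 := mul_le_mul_of_nonneg_right (h1 t) (hp t).le
  nlinarith [h2 t]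

/-- Rauch comparison in Wronskian form.  With `φ t = cs l (ρ t)`, `U = u + ε² φ²`,
`M = m + ε² φ φ'`, `A = a + ε² φ'²` one has `U' = 2 M`, `M' ≥ A + l ρ² U`, `M² ≤ U A` (Cauchy-Schwarz), so
`h = √U > 0` has `h' = M / h`, `h'' ≥ l ρ² h`; the Wronskian `h' σ - h σ'` (`σ t = sn l (ρ t)`) is
monotone, equal to `-ε ρ` at `0`; multiply by `h` and let `ε → 0`. -/
theorem wronsk {l ρ : ℝ} (hl : 0 ≤ l) (hρ : 0 ≤ ρ) {u m m' a : ℝ → ℝ}
    (hu : ∀ t, HasDerivAt u (2 * m t) t) (hm : ∀ t, HasDerivAt m (m' t) t)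
    (h1 : ∀ t, a t + l * ρ ^ 2 * u t ≤ m' t) (h2 : ∀ t, m t ^ 2 ≤ u t * a t)
    (hu0 : ∀ t, 0 ≤ u t) (ha0 : ∀ t, 0 ≤ a t) (h0 : u 0 = 0) {t : ℝ} (ht : 0 ≤ t) :
    u t * (ρ * cs l (ρ * t)) ≤ m t * sn l (ρ * t) := by
  have hlin : ∀ s : ℝ, HasDerivAt (fun s => ρ * s) ρ s := fun s => by
    simpa using (hasDerivAt_id s).const_mul ρ
  have dσ : ∀ s, HasDerivAt (fun s => sn l (ρ * s)) (cs l (ρ * s) * ρ) s := fun s =>
    (hasDerivAt_sn hl (ρ * s)).comp s (hlin s)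
  have dφ : ∀ s, HasDerivAt (fun s => cs l (ρ * s)) (l * sn l (ρ * s) * ρ) s := fun s =>
    (hasDerivAt_cs hl (ρ * s)).comp s (hlin s)
  have key : ∀ ε : ℝ, 0 < ε → 0 ≤
      (m t + ε ^ 2 * (cs l (ρ * t) * (l * sn l (ρ * t) * ρ))) * sn l (ρ * t) -
        (u t + ε ^ 2 * cs l (ρ * t) ^ 2) * (cs l (ρ * t) * ρ) +
        ε * ρ * √(u t + ε ^ 2 * cs l (ρ * t) ^ 2) := by
    intro ε hε
    have hp : ∀ s, 0 < u s + ε ^ 2 * cs l (ρ * s) ^ 2 := fun s =>
      add_pos_of_nonneg_of_pos (hu0 s) (mul_pos (pow_pos hε 2) (pow_pos (cs_pos _ _) 2))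
    have hmono := h54_wr (k := l * ρ ^ 2) (U := fun s => u s + ε ^ 2 * cs l (ρ * s) ^ 2)
      (M := fun s => m s + ε ^ 2 * (cs l (ρ * s) * (l * sn l (ρ * s) * ρ)))
      (M' := fun s => m' s + ε ^ 2 * ((l * sn l (ρ * s) * ρ) ^ 2 + l * ρ ^ 2 * cs l (ρ * s) ^ 2))
      (A := fun s => a s + ε ^ 2 * (l * sn l (ρ * s) * ρ) ^ 2)
      (σ := fun s => sn l (ρ * s)) (σ' := fun s => cs l (ρ * s) * ρ)
      (fun s => ((hu s).add (((dφ s).pow 2).const_mul (ε ^ 2))).congr_deriv (by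
        simp only [Nat.cast_ofNat, Nat.add_one_sub_one, pow_one]
        ring))
      (fun s => ((hm s).add (((dφ s).mul (((dσ s).const_mul l).mul_const ρ)).const_mul
        (ε ^ 2))).congr_deriv (by ring))
      (fun s => by nlinarith [h1 s])
      (fun s => by
        have h3 := mul_le_mul_of_nonneg_left (h54_cs (p := cs l (ρ * s))
          (q := l * sn l (ρ * s) * ρ) (hu0 s) (ha0 s) (h2 s)) (sq_nonneg ε)
        nlinarith [h2 s])
      hp dσ (fun s => ((dφ s).mul_const ρ).congr_deriv (by ring))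
      (fun s hs => sn_nonneg hl (mul_nonneg hρ hs))
    have h4 := hmono (mem_Ici.2 le_rfl) (mem_Ici.2 ht) ht
    have c0 : cs l 0 = 1 := by simp [cs]
    simp only [mul_zero, sn_zero, c0, h0, one_pow, mul_one, zero_add, one_mul, zero_sub,
      Real.sqrt_sq hε.le] at h4
    have hs : 0 < √(u t + ε ^ 2 * cs l (ρ * t) ^ 2) := Real.sqrt_pos.2 (hp t)
    have h5 := mul_le_mul_of_nonneg_left h4 hs.le
    have e := Real.mul_self_sqrt (hp t).le
    obtain ⟨h, hh⟩ : ∃ h, h = √(u t + ε ^ 2 * cs l (ρ * t) ^ 2) := ⟨_, rfl⟩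
    rw [← hh] at hs h5 e ⊢
    rw [← e]
    rw [mul_sub, ← mul_assoc h, mul_div_cancel₀ _ hs.ne'] at h5
    linarith
  have hc : Continuous fun ε : ℝ =>
      (m t + ε ^ 2 * (cs l (ρ * t) * (l * sn l (ρ * t) * ρ))) * sn l (ρ * t) -
        (u t + ε ^ 2 * cs l (ρ * t) ^ 2) * (cs l (ρ * t) * ρ) +
        ε * ρ * √(u t + ε ^ 2 * cs l (ρ * t) ^ 2) := by fun_prop
  have h6 := ge_of_tendsto ((hc.tendsto 0).mono_left (nhdsWithin_le_nhds (s := Ioi 0)))
    (eventually_mem_nhdsWithin.mono fun ε hε => key ε hε)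
  simp only [ne_eq, OfNat.ofNat_ne_zero, not_false_eq_true, zero_pow, zero_mul, add_zero] at h6
  linarith

/-- maximum principle (on a component of `{φ > 0}` the function is convex; or perturb by
`ε s (s - 1)`...). -/
theorem maxp {lam : ℝ} (hlam : 0 ≤ lam) {φ φ' φ'' : ℝ → ℝ}
    (h1 : ∀ s ∈ Icc (0 : ℝ) 1, HasDerivAt φ (φ' s) s)
    (h2 : ∀ s ∈ Icc (0 : ℝ) 1, HasDerivAt φ' (φ'' s) s)
    (h : ∀ s ∈ Icc (0 : ℝ) 1, lam * φ s ≤ φ'' s) (h0 : φ 0 ≤ 0) (h1' : φ 1 ≤ 0) :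
    ∀ s ∈ Icc (0 : ℝ) 1, φ s ≤ 0 := by
  intro s1 hs1
  by_contra hpos
  have hpos : 0 < φ s1 := not_le.1 hpos
  set ε : ℝ := φ s1 with hε
  set ψ : ℝ → ℝ := fun s => φ s + ε * (s ^ 2 - s) with hψ
  set ψ' : ℝ → ℝ := fun s => φ' s + ε * (2 * s - 1) with hψ'
  have d1 : ∀ s ∈ Icc (0 : ℝ) 1, HasDerivAt ψ (ψ' s) s := by
    intro s hs
    have e : HasDerivAt (fun s : ℝ => s ^ 2 - s) (2 * s - 1) s := by
      have := (hasDerivAt_pow 2 s).fun_sub (hasDerivAt_id' s)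
      simpa using this
    exact (h1 s hs).add (e.const_mul ε)
  have d2 : ∀ s ∈ Icc (0 : ℝ) 1, HasDerivAt ψ' (φ'' s + ε * 2) s := by
    intro s hs
    have e : HasDerivAt (fun s : ℝ => 2 * s - 1) 2 s := by
      simpa using ((hasDerivAt_id s).const_mul 2).sub_const 1
    exact (h2 s hs).add (e.const_mul ε)
  have hcont : ContinuousOn ψ (Icc 0 1) := fun s hs => (d1 s hs).continuousAt.continuousWithinAt
  obtain ⟨s0, hs0, hmax⟩ := isCompact_Icc.exists_isMaxOn ⟨s1, hs1⟩ hcont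
  have hψ1 : 0 < ψ s1 := by
    have : -(1 / 4 : ℝ) ≤ s1 ^ 2 - s1 := by nlinarith [sq_nonneg (s1 - 1 / 2)]
    simp only [hψ]
    nlinarith
  have hψ0 : 0 < ψ s0 := lt_of_lt_of_le hψ1 (hmax hs1)
  have hne0 : s0 ≠ 0 := by
    rintro rfl
    simp only [hψ] at hψ0
    norm_num at hψ0
    linarith
  have hne1 : s0 ≠ 1 := by
    rintro rfl
    simp only [hψ] at hψ0
    norm_num at hψ0
    linarith
  have hlo : 0 < s0 := lt_of_le_of_ne hs0.1 (Ne.symm hne0)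
  have hhi : s0 < 1 := lt_of_le_of_ne hs0.2 hne1
  have hloc : IsLocalMax ψ s0 := hmax.isLocalMax (Icc_mem_nhds hlo hhi)
  have hd0 : ψ' s0 = 0 := hloc.hasDerivAt_eq_zero (d1 s0 hs0)
  have hφ0 : 0 ≤ φ s0 := by
    have : s0 ^ 2 - s0 ≤ 0 := by nlinarith
    simp only [hψ] at hψ0
    nlinarith
  have hdd : 0 < φ'' s0 + ε * 2 := by
    have := h s0 hs0
    have := mul_nonneg hlam hφ0
    linarith
  have hsl := hasDerivAt_iff_tendsto_slope.1 (d2 s0 hs0)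
  have hev : ∀ᶠ s in 𝓝[>] s0, 0 < slope ψ' s0 s :=
    (hsl.mono_left (nhdsWithin_mono _ fun x hx => ne_of_gt hx)).eventually (lt_mem_nhds hdd)
  obtain ⟨b, hb, hbs⟩ := (nhdsGT_basis s0).eventually_iff.1 hev
  set e : ℝ := min ((s0 + b) / 2) 1 with he
  have he0 : s0 < e := lt_min (by linarith) hhi
  have he1 : e ≤ 1 := min_le_right _ _
  have heb : e < b := lt_of_le_of_lt (min_le_left _ _) (by linarith)
  have hsub : Icc s0 e ⊆ Icc 0 1 := Icc_subset_Icc hs0.1 he1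
  have hmono : StrictMonoOn ψ (Icc s0 e) := by
    refine strictMonoOn_of_deriv_pos (convex_Icc _ _) (hcont.mono hsub) ?_
    intro x hx
    rw [interior_Icc] at hx
    rw [(d1 x (hsub (Ioo_subset_Icc_self hx))).deriv]
    have h3 := hbs (show x ∈ Ioo s0 b from ⟨hx.1, hx.2.trans heb⟩)
    rw [slope_def_field, hd0, sub_zero] at h3
    exact (div_pos_iff_of_pos_right (sub_pos.2 hx.1)).1 h3
  have h4 := hmono (left_mem_Icc.2 he0.le) (right_mem_Icc.2 he0.le) he0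
  have h5 : ψ e ≤ ψ s0 := hmax (hsub (right_mem_Icc.2 he0.le))
  linarith

/-- a continuous lift of a differentiable curve through an immersion is differentiable
(`L` = left inverse of `fderiv E (c t)`, `HasStrictFDerivAt.localInverse` of `L ∘ E`; see
`R244.RAtlas.IsExp.hasDerivWithinAt_lift`). -/
theorem lift_deriv {n N : ℕ} {E : Euc n → Euc N} {c : ℝ → Euc n} {T : Set ℝ} {t : ℝ}
    (hE : ContDiffAt ℝ 1 E (c t)) (hi : Function.Injective (fderiv ℝ E (c t))) (ht : t ∈ T)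
    (hT : UniqueDiffWithinAt ℝ T t) (hc : ContinuousWithinAt c T t) {γ' : Euc N}
    (hγ : HasDerivWithinAt (fun s => E (c s)) γ' T t) :
    ∃ w, HasDerivWithinAt c w T t ∧ fderiv ℝ E (c t) w = γ' := by
  obtain ⟨L0, hL0⟩ := LinearMap.exists_leftInverse_of_injective
    (fderiv ℝ E (c t) : Euc n →ₗ[ℝ] Euc N) (LinearMap.ker_eq_bot.2 hi)
  set L : Euc N →L[ℝ] Euc n := LinearMap.toContinuousLinearMap L0 with hL
  have hLA : L.comp (fderiv ℝ E (c t)) = ((ContinuousLinearEquiv.refl ℝ (Euc n) :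
      Euc n ≃L[ℝ] Euc n) : Euc n →L[ℝ] Euc n) := by
    ext1 v
    simpa [hL] using LinearMap.congr_fun hL0 v
  have hs : HasStrictFDerivAt E (fderiv ℝ E (c t)) (c t) := hE.hasStrictFDerivAt (by simp)
  have hG : HasStrictFDerivAt (fun x => L (E x)) ((ContinuousLinearEquiv.refl ℝ (Euc n) :
      Euc n ≃L[ℝ] Euc n) : Euc n →L[ℝ] Euc n) (c t) := by
    rw [← hLA]
    exact L.hasStrictFDerivAt.comp (c t) hs
  have hinv := hG.to_localInverse
  have hleft := hG.eventually_left_inverse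
  have h1 : HasDerivWithinAt (fun s => L (E (c s))) (L γ') T t :=
    L.hasFDerivAt.comp_hasDerivWithinAt t hγ
  have h2 := hinv.hasFDerivAt.comp_hasDerivWithinAt t h1
  have hev : ∀ᶠ s in 𝓝[T] t, hG.localInverse _ _ _ (L (E (c s))) = c s := hc.eventually hleft
  have h3 : HasDerivWithinAt c (L γ') T t := by
    have h4 := h2.congr_of_eventuallyEq (f₁ := c) (hev.mono fun s hs => hs.symm)
      (hleft.self_of_nhds.symm)
    simpa using h4
  refine ⟨L γ', h3, ?_⟩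
  have h5 : HasDerivWithinAt (fun s => E (c s)) (fderiv ℝ E (c t) (L γ')) T t :=
    hs.hasFDerivAt.comp_hasDerivWithinAt t h3
  exact hT.eq_deriv _ h5 hγ

end Crest.Agent.R241.C
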