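import Crest.Agent.R241.CCalc
import Crest.Agent.R241.COde
import Crest.Agent.R244.CoverTop
import Crest.Agent.R244.CoverAux

/-! Row 241, block C: an expanding smooth map `E : Euc n → S` is a covering map (copy the proofs of
`R244/Cover.lean`: `isLocalHomeomorph`, `lift_bound`, `exists_lift`, `isCoveringMap`), hence a
homeomorphism when `S` is simply connected. -/

set_option autoImplicit false

open Set Filter Topology
open scoped ContDiff InnerProductSpace

namespace Crest.Agent.R241.C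

open Crest.GeometryTopology.Submanifold

variable {n N : ℕ} {S : Set (Euc N)}

namespace Chart
variable {p : Euc N} (c : Chart n N S p)

open Classical in
/-- the chart as an open partial homeomorphism of the subtype `S`. -/
noncomputable def oph (x₀ : S) : OpenPartialHomeomorph S (Euc n) where
  toFun x := c.r x
  invFun y := if h : c.f y ∈ S then ⟨c.f y, h⟩ else x₀
  source := Subtype.val ⁻¹' c.U
  target := c.V
  map_source' := fun x hx => c.r_mem x x.2 hx
  map_target' := fun y hy => by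
    simp only [dif_pos (c.f_mem y hy).1]
    exact (c.f_mem y hy).2
  left_inv' := fun x hx => by
    have h1 : c.f (c.r x) = x := c.f_r x x.2 hx
    have h2 : c.f (c.r x) ∈ S := by rw [h1]; exact x.2
    simp only [dif_pos h2]
    exact Subtype.ext h1
  right_inv' := fun y hy => by
    simp only [dif_pos (c.f_mem y hy).1]
    exact c.r_f y hy
  open_source := c.oU.preimage continuous_subtype_val
  open_target := c.oV
  continuousOn_toFun :=
    c.sr.continuousOn.comp continuous_subtype_val.continuousOn fun _ hx => hx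
  continuousOn_invFun := by
    rw [Topology.IsInducing.subtypeVal.continuousOn_iff]
    refine c.sf.continuousOn.congr fun y hy => ?_
    simp only [Function.comp_apply, dif_pos (c.f_mem y hy).1]

theorem oph_symm_val (x₀ : S) {y : Euc n} (hy : y ∈ c.V) : ((c.oph x₀).symm y : Euc N) = c.f y := by
  have h : (c.oph x₀).symm y = ⟨c.f y, (c.f_mem y hy).1⟩ := dif_pos (c.f_mem y hy).1
  rw [h]

end Chart

namespace Pre
variable {E : Euc n → Euc N}

/-- `r ∘ E` has injective, hence invertible, derivative (`Chart.fderiv_eq`); inverse function theorem. -/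
theorem isLocalHomeomorph (D : Pre n N S) (hE : ContDiff ℝ ∞ E) (hm : ∀ w, E w ∈ S)
    (hx : ∀ v w, ‖w‖ ≤ ‖fderiv ℝ E v w‖) :
    IsLocalHomeomorph fun w => (⟨E w, hm w⟩ : S) := by
  refine IsLocalHomeomorph.mk _ fun v => ?_
  obtain ⟨c⟩ := D.chart (E v) (hm v)
  have hEd : DifferentiableAt ℝ E v := hE.differentiable (by simp) v
  have hrd : DifferentiableAt ℝ c.r (E v) := (c.contDiffAt_r c.mem).differentiableAt (by simp)
  have hg : ContDiffAt ℝ ∞ (c.r ∘ E) v := (c.contDiffAt_r c.mem).comp v hE.contDiffAt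
  set A : Euc n →L[ℝ] Euc n := (fderiv ℝ c.r (E v)).comp (fderiv ℝ E v) with hA
  have hAd : HasFDerivAt (c.r ∘ E) A v := hrd.hasFDerivAt.comp v hEd.hasFDerivAt
  have hAi : Function.Injective A := by
    rw [injective_iff_map_eq_zero]
    intro a ha
    have h1 := c.fderiv_eq hEd (Eventually.of_forall hm) c.mem a
    have h2 : fderiv ℝ c.r (E v) (fderiv ℝ E v a) = 0 := ha
    rw [h2, map_zero] at h1
    have h3 := hx v a
    rw [← h1, norm_zero] at h3
    exact norm_le_zero_iff.1 h3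
  have hAs : Function.Surjective A := LinearMap.injective_iff_surjective.1 hAi
  let A' : Euc n ≃L[ℝ] Euc n :=
    (LinearEquiv.ofBijective (A : Euc n →ₗ[ℝ] Euc n) ⟨hAi, hAs⟩).toContinuousLinearEquiv
  have hA' : HasFDerivAt (c.r ∘ E) (A' : Euc n →L[ℝ] Euc n) v := by
    have : (A' : Euc n →L[ℝ] Euc n) = A := by ext1 a; rfl
    rw [this]; exact hAd
  let e := hg.toOpenPartialHomeomorph (c.r ∘ E) hA' (by simp)
  have he : ∀ w, e w = c.r (E w) := fun _ => rfl
  have hve : v ∈ e.source := hg.mem_toOpenPartialHomeomorph_source hA' (by simp)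
  have hO : IsOpen (E ⁻¹' c.U) := c.oU.preimage hE.continuous
  refine ⟨(e.restrOpen _ hO).trans (c.oph ⟨E v, hm v⟩).symm, ?_, fun w hw => ?_⟩
  · refine ⟨⟨hve, c.mem⟩, ?_⟩
    exact c.r_mem _ (hm v) c.mem
  · have hwU : E w ∈ c.U := hw.1.2
    exact ((c.oph ⟨E v, hm v⟩).left_inv (x := ⟨E w, hm w⟩) hwU).symm

/-- a partial lift `L` of a curve with speed `≤ C` has speed `≤ C` (`lift_deriv`). -/
theorem lift_bound (hE : ContDiff ℝ ∞ E) (hx : ∀ v w, ‖w‖ ≤ ‖fderiv ℝ E v w‖)
    {γ γ' : ℝ → Euc N} {T C : ℝ} (hT : 0 ≤ T) (hγ : ∀ s ∈ Icc 0 T, HasDerivAt γ (γ' s) s)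
    (hC : ∀ s ∈ Icc 0 T, ‖γ' s‖ ≤ C) {L : ℝ → Euc n} (hL : ContinuousOn L (Icc 0 T))
    (hEL : ∀ s ∈ Icc 0 T, E (L s) = γ s) : ‖L T - L 0‖ ≤ C * T := by
  rcases hT.eq_or_lt with rfl | hT'
  · simp
  have hinj : ∀ v, Function.Injective (fderiv ℝ E v) := fun v => by
    rw [injective_iff_map_eq_zero]
    intro a ha
    have h3 := hx v a
    rw [ha, norm_zero] at h3
    exact norm_le_zero_iff.1 h3
  have key : ∀ s ∈ Icc 0 T, ∃ w, HasDerivWithinAt L w (Icc 0 T) s ∧ fderiv ℝ E (L s) w = γ' s :=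
    fun s hs => lift_deriv (hE.contDiffAt.of_le (by simp)) (hinj _) hs (uniqueDiffOn_Icc hT' s hs)
      (hL s hs) ((hγ s hs).hasDerivWithinAt.congr (fun t ht => hEL t ht) (hEL s hs))
  choose! w hw1 hw2 using key
  have := norm_image_sub_le_of_norm_deriv_le_segment' hw1 (C := C) (fun s hs => by
    have hs' : s ∈ Icc 0 T := Ico_subset_Icc_self hs
    exact (hx (L s) (w s)).trans (by rw [hw2 s hs']; exact hC s hs')) T ⟨hT, le_rfl⟩
  simpa using this

/-- a local homeomorphism along which all coordinate segments lift is a covering map. -/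
theorem h93_cov {M : Type} [TopologicalSpace M] [T2Space M] {p : Euc n → M}
    (hp : IsLocalHomeomorph p)
    (hch : ∀ y : M, ∃ e : OpenPartialHomeomorph M (Euc n), y ∈ e.source ∧
      ∀ y₀ d : Euc n, (∀ s ∈ Icc (0 : ℝ) 1, y₀ + s • d ∈ e.target) → ∀ x₀ : Euc n,
        p x₀ = e.symm y₀ → ∃ L, R244.LiftOn p (fun s => e.symm (y₀ + s • d)) x₀ 1 L) :
    IsCoveringMap p := by
  classical
  have sep : IsSeparatedMap p := T2Space.isSeparatedMap p
  refine R244.isCoveringMap_of_sections hp fun y => ?_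
  obtain ⟨e, hj, hlift⟩ := hch y
  obtain ⟨ε, hε, hball⟩ := Metric.isOpen_iff.1 e.open_target _ (e.map_source hj)
  set U : Set M := e.source ∩ e ⁻¹' Metric.ball (e y) ε with hU
  refine ⟨U, e.isOpen_inter_preimage Metric.isOpen_ball, ⟨hj, Metric.mem_ball_self hε⟩,
    ?_, fun x₀ hx₀ => ?_⟩
  · rw [hU, ← e.symm_image_eq_source_inter_preimage hball]
    exact (convex_ball _ _).isPreconnected.image _ (e.continuousOn_symm.mono hball)
  set y₀ : Euc n := e (p x₀) with hy₀
  have hseg : ∀ z ∈ U, ∀ s ∈ Icc (0 : ℝ) 1, y₀ + s • (e z - y₀) ∈ e.target :=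
    fun z hz s hs => hball ((convex_ball _ _).add_smul_sub_mem hx₀.2 hz.2 hs)
  have h0 : p x₀ = e.symm y₀ := (e.left_inv hx₀.1).symm
  have hex : ∀ z : U, ∃ L, R244.LiftOn p (fun s => e.symm (y₀ + s • (e z - y₀))) x₀ 1 L :=
    fun z => hlift _ _ (hseg z z.2) _ h0
  choose Λ hΛ using hex
  have hcz : Continuous fun z : U => e z :=
    (e.continuousOn.mono inter_subset_left).domRestrict
  let f : C(unitInterval × U, M) :=
    ⟨fun q => e.symm (y₀ + (q.1 : ℝ) • (e q.2 - y₀)),
      e.continuousOn_symm.comp_continuous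
        (continuous_const.add ((continuous_subtype_val.comp continuous_fst).smul
          ((hcz.comp continuous_snd).sub continuous_const)))
        fun q => hseg q.2 q.2.2 q.1 q.1.2⟩
  have hg : Continuous fun q : unitInterval × U => Λ q.2 q.1 := by
    refine hp.continuous_lift sep f ?_ ?_ ?_
    · funext q
      exact (hΛ q.2).2.2 q.1 q.1.2
    · have : (fun a : U => Λ a ((0 : unitInterval) : ℝ)) = fun _ => x₀ :=
        funext fun a => (hΛ a).2.1
      exact this ▸ continuous_const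
    · exact fun a => (hΛ a).1.domRestrict
  refine ⟨fun z => if hz : z ∈ U then Λ ⟨z, hz⟩ 1 else x₀, ?_, ?_, ?_⟩
  · rw [continuousOn_iff_continuous_domRestrict]
    have h1 : Continuous fun z : U => Λ z 1 :=
      hg.comp (Continuous.prodMk_right (1 : unitInterval))
    refine h1.congr fun z => ?_
    simp [Set.domRestrict, z.2]
  · simp only [dif_pos hx₀]
    have hL := hΛ ⟨p x₀, hx₀⟩
    refine Eq.trans ?_ hL.2.1
    refine sep.constOn_of_comp hp.isLocallyInjective isPreconnected_Icc hL.1 ?_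
      ⟨zero_le_one, le_rfl⟩ ⟨le_rfl, zero_le_one⟩
    intro a ha a' ha'
    rw [hL.2.2 a ha, hL.2.2 a' ha']
    simp [hy₀]
  · intro z hz
    simp only [dif_pos hz]
    rw [(hΛ ⟨z, hz⟩).2.2 1 ⟨zero_le_one, le_rfl⟩]
    simp [e.left_inv hz.1]

/-- coordinate segments lift. -/
theorem h93_lift (D : Pre n N S) (hE : ContDiff ℝ ∞ E) (hm : ∀ w, E w ∈ S)
    (hx : ∀ v w, ‖w‖ ≤ ‖fderiv ℝ E v w‖) {q : Euc N} (c : Chart n N S q) (y : S)
    {y₀ d : Euc n} (hseg : ∀ s ∈ Icc (0 : ℝ) 1, y₀ + s • d ∈ (c.oph y).target) {x₀ : Euc n}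
    (h0 : (⟨E x₀, hm x₀⟩ : S) = (c.oph y).symm y₀) :
    ∃ L, R244.LiftOn (fun w => (⟨E w, hm w⟩ : S)) (fun s => (c.oph y).symm (y₀ + s • d)) x₀ 1 L := by
  have hV : ∀ s ∈ Icc (0 : ℝ) 1, y₀ + s • d ∈ c.V := hseg
  have hline : Continuous fun s : ℝ => y₀ + s • d := by fun_prop
  have hcont : ContinuousOn (fun s : ℝ => ‖fderiv ℝ c.f (y₀ + s • d) d‖) (Icc 0 1) := by
    have h1 : ContinuousOn (fderiv ℝ c.f) c.V :=
      c.sf.continuousOn_fderiv_of_isOpen c.oV (by simp)
    exact ((h1.comp hline.continuousOn hV).clm_apply continuousOn_const).norm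
  obtain ⟨C, hC⟩ := isCompact_Icc.bddAbove_image hcont
  have hC' : ∀ s ∈ Icc (0 : ℝ) 1, ‖fderiv ℝ c.f (y₀ + s • d) d‖ ≤ C := fun s hs => hC ⟨s, hs, rfl⟩
  have hC0 : 0 ≤ C := (norm_nonneg _).trans (hC' 0 ⟨le_rfl, zero_le_one⟩)
  refine R244.exists_liftOn (D.isLocalHomeomorph hE hm hx) ?_ (by simpa using h0)
    (isCompact_closedBall x₀ C) ?_
  · exact (c.oph y).continuousOn_symm.comp hline.continuousOn hseg
  · intro T hT L hL
    have hsub : Icc 0 T ⊆ Icc (0 : ℝ) 1 := Icc_subset_Icc_right hT.2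
    have h1 := lift_bound hE hx (γ := fun s => c.f (y₀ + s • d))
      (γ' := fun s => fderiv ℝ c.f (y₀ + s • d) d) (C := C) hT.1 (fun s hs => ?_)
      (fun s hs => hC' s (hsub hs)) hL.1 (fun s hs => ?_)
    · rw [Metric.mem_closedBall, dist_eq_norm, ← hL.2.1]
      exact h1.trans (mul_le_of_le_one_right hC0 hT.2)
    · have h2 : HasDerivAt (fun s : ℝ => y₀ + s • d) d s := by
        simpa using ((hasDerivAt_id s).smul_const d).const_add y₀
      exact ((c.contDiffAt_f (hV s (hsub hs))).differentiableAt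
        (by simp)).hasFDerivAt.comp_hasDerivAt s h2
    · rw [← c.oph_symm_val y (hV s (hsub hs))]
      exact congrArg Subtype.val (hL.2.2 s hs)

theorem isCoveringMap (D : Pre n N S) (hE : ContDiff ℝ ∞ E) (hm : ∀ w, E w ∈ S)
    (hx : ∀ v w, ‖w‖ ≤ ‖fderiv ℝ E v w‖) :
    IsCoveringMap fun w => (⟨E w, hm w⟩ : S) := by
  refine h93_cov (D.isLocalHomeomorph hE hm hx) fun y => ?_
  obtain ⟨c⟩ := D.chart y y.2
  exact ⟨c.oph y, c.mem, fun y₀ d hseg x₀ h0 => h93_lift D hE hm hx c y hseg h0⟩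

theorem h93_surj {X M : Type} [TopologicalSpace X] [TopologicalSpace M] {p : X → M} [Nonempty X]
    [PreconnectedSpace M] (hp : IsCoveringMap p) : Function.Surjective p := by
  rw [← range_eq_univ]
  refine IsClopen.eq_univ ⟨?_, hp.isOpenMap.isOpen_range⟩ (range_nonempty p)
  rw [← isOpen_compl_iff, isOpen_iff_mem_nhds]
  intro y hy
  obtain ⟨-, U, hyU, hU, -, H, -⟩ := hp y
  refine mem_of_superset (hU.mem_nhds hyU) ?_
  rintro _ hz ⟨z, rfl⟩
  exact hy ⟨(H ⟨z, hz⟩).2.1, (H ⟨z, hz⟩).2.2⟩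

/-- surjective (clopen range, cf. `R244.covering_surjective`), so `S` is locally path connected
(`IsQuotientMap.locallyPathConnectedSpace`); lift the identity
(`IsCoveringMap.existsUnique_continuousMap_lifts`), `IsCoveringMap.eq_of_comp_eq`. -/
theorem exists_log (D : Pre n N S) (hE : ContDiff ℝ ∞ E) (hm : ∀ w, E w ∈ S)
    (hx : ∀ v w, ‖w‖ ≤ ‖fderiv ℝ E v w‖) (hsc : SimplyConnectedSpace S) :
    ∃ lg : Euc N → Euc n, ContinuousOn lg S ∧ (∀ w, lg (E w) = w) ∧ ∀ x ∈ S, E (lg x) = x := by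
  classical
  have hp := D.isCoveringMap hE hm hx
  have hs := h93_surj hp
  have : LocallyPathConnectedSpace S :=
    (hp.isOpenMap.isQuotientMap hp.continuous hs).locallyPathConnectedSpace
  obtain ⟨F, ⟨hF0, hF⟩, -⟩ :=
    hp.existsUnique_continuousMap_lifts (ContinuousMap.id S) ⟨E 0, hm 0⟩ 0 rfl
  have hF' : ∀ x : S, E (F x) = x := fun x => congrArg Subtype.val (congrFun hF x)
  have hid : (fun w => F ⟨E w, hm w⟩) = id :=
    hp.eq_of_comp_eq (F.continuous.comp hp.continuous) continuous_id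
      (funext fun w => Subtype.ext (hF' _)) 0 hF0
  refine ⟨fun x => if h : x ∈ S then F ⟨x, h⟩ else 0, ?_, fun w => ?_, fun x hx' => ?_⟩
  · rw [continuousOn_iff_continuous_domRestrict]
    refine F.continuous.congr fun z => ?_
    simp [Set.domRestrict, z.2]
  · simp only [dif_pos (hm w)]
    exact congrFun hid w
  · simp only [dif_pos hx']
    exact hF' _

end Pre

end Crest.Agent.R241.C
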