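import Crest.Agent.R241.CCalc

/-! Row 241, block C: the Gauss equation of the statement gives `Curv`.
At `p ∈ S` take a local parametrisation `f` and `exists_chart`; `u = fderiv f 0 a`, `v = fderiv f 0 b`
(`tan`); `(tangentAt f 0).starProjection = P p` (symmetric, idempotent, same fixed vectors);
`hess f 0 i j = fderiv (fderiv f) 0 e_i e_j`, so `sff f 0 i j = II p (pd i) (pd j)` by `fderiv_two`;
`II p` is bilinear, expand `a = ∑ a i e_i`: `secNum f 0 a b = ⟪II u u, II v v⟫ - ⟪II u v, II v u⟫`;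
`II_comm`. -/

set_option autoImplicit false

open Set Filter Topology
open scoped ContDiff InnerProductSpace

namespace Crest.Agent.R241.C

open Crest.GeometryTopology.Submanifold

variable {n N : ℕ} {S : Set (Euc N)}

private theorem h67_four (s : Fin n → Fin n → Euc N) (a b : Fin n → ℝ) :
    ∑ i, ∑ j, ∑ k, ∑ l, a i * b j * b k * a l * (⟪s i l, s j k⟫_ℝ - ⟪s i k, s j l⟫_ℝ) =
      ⟪∑ i, ∑ l, (a i * a l) • s i l, ∑ j, ∑ k, (b j * b k) • s j k⟫_ℝ -
        ⟪∑ i, ∑ k, (a i * b k) • s i k, ∑ j, ∑ l, (b j * a l) • s j l⟫_ℝ := by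
  simp only [sum_inner]
  simp only [inner_sum, real_inner_smul_left, real_inner_smul_right, mul_sub,
    Finset.sum_sub_distrib]
  congr 1
  · refine Finset.sum_congr rfl fun i _ => ?_
    rw [Finset.sum_comm (γ := Fin n) (α := Fin n) (s := Finset.univ) (t := Finset.univ)
      (f := fun l j => ∑ k, b j * b k * (a i * a l * ⟪s i l, s j k⟫_ℝ))]
    refine Finset.sum_congr rfl fun j _ => ?_
    rw [Finset.sum_comm]
    exact Finset.sum_congr rfl fun l _ => Finset.sum_congr rfl fun k _ => by ring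
  · refine Finset.sum_congr rfl fun i _ => ?_
    rw [Finset.sum_comm]
    exact Finset.sum_congr rfl fun k _ => Finset.sum_congr rfl fun j _ =>
      Finset.sum_congr rfl fun l _ => by ring

private theorem h67_expand (f : Euc n → Euc N) (z a : Euc n) :
    fderiv ℝ f z a = ∑ i, a i • pd f z i := by
  have h : a = ∑ i, a i • stdVec n i := by
    ext i
    simp [stdVec, Finset.sum_apply, Pi.single_apply]
  conv_lhs => rw [h]
  simp only [map_sum, map_smul, pd]

theorem Pre.curv_of_sec (D : Pre n N S) (hS : IsSubmanifold n N S) {κ : ℝ}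
    (hsec : ∀ p ∈ S, ∀ (f : Euc n → Euc N) (V : Set (Euc n)), IsLocalParam n N S p f V →
      ∀ u v : Euc n, secNum f 0 u v ≤ κ * gramDet f 0 u v) : D.Curv (-κ) := by
  intro x hx u v hu hv
  obtain ⟨f, V, hf⟩ := hS x hx
  obtain ⟨c, hcf, hc0⟩ := exists_chart hf
  have htan : ∀ w, D.P x w = w ↔ ∃ a, fderiv ℝ f 0 a = w := fun w => by
    have h := D.tan x c 0 hc0 w
    rwa [hcf, hf.map_zero] at h
  have hmem : ∀ w, w ∈ tangentAt f 0 ↔ D.P x w = w := fun w => by
    rw [htan, tangentAt, Submodule.mem_span_range_iff_exists_fun]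
    constructor
    · rintro ⟨a, rfl⟩
      exact ⟨WithLp.toLp 2 a, h67_expand f 0 _⟩
    · rintro ⟨a, rfl⟩
      exact ⟨fun i => a i, (h67_expand f 0 a).symm⟩
  have hproj : ∀ w, (tangentAt f 0).starProjection w = D.P x w := fun w => by
    refine Submodule.eq_starProjection_of_mem_of_inner_eq_zero ((hmem _).2 (D.idem x hx w))
      fun y hy => ?_
    rw [inner_sub_left, D.symm, (hmem y).1 hy, sub_self]
  have h2 : ContDiffAt ℝ 2 f 0 :=
    (hf.contDiffOn.contDiffAt (hf.isOpen.mem_nhds hf.zero_mem)).of_le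
      (WithTop.coe_le_coe.2 (le_top : (2 : ℕ∞) ≤ ⊤))
  have hev : ∀ᶠ w in 𝓝 (0 : Euc n), f w ∈ S := by
    filter_upwards [c.oV.mem_nhds hc0] with w hw
    rw [← hcf]
    exact (c.f_mem w hw).1
  have hd : DifferentiableAt ℝ (fderiv ℝ f) 0 :=
    (h2.fderiv_right (m := 1) (by norm_num)).differentiableAt one_ne_zero
  have hsff : ∀ i j, sff f 0 i j = D.II x (pd f 0 i) (pd f 0 j) := fun i j => by
    have h3 : hess f 0 i j = fderiv ℝ (fderiv ℝ f) 0 (stdVec n i) (stdVec n j) := by
      unfold hess pd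
      rw [fderiv_clm_apply hd (differentiableAt_const _)]
      simp
    have h4 := D.fderiv_two h2 hev (stdVec n i) (stdVec n j)
    rw [hf.map_zero] at h4
    rw [sff, normalPart, hproj, h3]
    exact sub_eq_of_eq_add h4
  have hII : ∀ a b : Euc n, D.II x (fderiv ℝ f 0 a) (fderiv ℝ f 0 b) =
      ∑ i, ∑ j, (a i * b j) • sff f 0 i j := fun a b => by
    rw [h67_expand f 0 a, h67_expand f 0 b]
    simp only [hsff, Pre.II, map_sum, map_smul, _root_.sum_apply, _root_.smul_apply,
      Finset.smul_sum, smul_smul]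
    rw [Finset.sum_comm]
    exact Finset.sum_congr rfl fun i _ => Finset.sum_congr rfl fun j _ => by rw [mul_comm]
  obtain ⟨a, rfl⟩ := (htan u).1 hu
  obtain ⟨b, rfl⟩ := (htan v).1 hv
  have h := hsec x hx f V hf a b
  unfold secNum riem gramDet at h
  rw [h67_four (sff f 0) (fun i => a i) (fun i => b i), ← hII, ← hII, ← hII, ← hII,
    ← D.II_comm hx hu hv, real_inner_self_eq_norm_sq, real_inner_self_eq_norm_sq,
    real_inner_self_eq_norm_sq] at h
  rwa [neg_neg]

end Crest.Agent.R241.C
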