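import Crest.Agent.R241.AlmF

/-! Row 241, block C (helper3): extrinsic Riemannian geometry of a closed submanifold
`S ⊆ Euc N`.  `P x` is a smooth field of symmetric operators, equal to the orthogonal projection on
the tangent space at points of `S`; `II x u v = (D P)(x)[u] v` is the second fundamental form on
tangent vectors.  Geodesics are curves in `S` with normal acceleration. -/

set_option autoImplicit false

open Set Filter Topology
open scoped ContDiff InnerProductSpace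

namespace Crest.Agent.R241.C

open Crest.GeometryTopology.Submanifold

noncomputable section

/-- a chart of `S` near `p` with a smooth ambient left inverse. -/
structure Chart (n N : ℕ) (S : Set (Euc N)) (p : Euc N) where
  f : Euc n → Euc N
  r : Euc N → Euc n
  V : Set (Euc n)
  U : Set (Euc N)
  oV : IsOpen V
  oU : IsOpen U
  mem : p ∈ U
  sf : ContDiffOn ℝ ∞ f V
  sr : ContDiffOn ℝ ∞ r U
  f_mem : ∀ y ∈ V, f y ∈ S ∧ f y ∈ U
  r_f : ∀ y ∈ V, r (f y) = y
  r_mem : ∀ x ∈ S, x ∈ U → r x ∈ V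
  f_r : ∀ x ∈ S, x ∈ U → f (r x) = x

/-- a closed submanifold with a smooth extension of the tangent projections. -/
structure Pre (n N : ℕ) (S : Set (Euc N)) where
  P : Euc N → Euc N →L[ℝ] Euc N
  smooth : ContDiff ℝ ∞ P
  symm : ∀ x u v, ⟪P x u, v⟫_ℝ = ⟪u, P x v⟫_ℝ
  idem : ∀ x ∈ S, ∀ u, P x (P x u) = P x u
  closed : IsClosed S
  chart : ∀ p ∈ S, Nonempty (Chart n N S p)
  tan : ∀ (p : Euc N) (c : Chart n N S p), ∀ y ∈ c.V, ∀ u,
    P (c.f y) u = u ↔ ∃ a, fderiv ℝ c.f y a = u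

namespace Pre

variable {n N : ℕ} {S : Set (Euc N)} (D : Pre n N S)

/-- second fundamental form (on tangent vectors). -/
def II (x u v : Euc N) : Euc N := fderiv ℝ D.P x u v

/-- sectional curvature `≤ -l` (Gauss equation). -/
def Curv (l : ℝ) : Prop :=
  ∀ x ∈ S, ∀ u v, D.P x u = u → D.P x v = v →
    ⟪D.II x u u, D.II x v v⟫_ℝ - ‖D.II x u v‖ ^ 2 ≤ -l * (‖u‖ ^ 2 * ‖v‖ ^ 2 - ⟪u, v⟫_ℝ ^ 2)

/-- geodesics. -/
structure Geod (γ : ℝ → Euc N) : Prop where
  smooth : ContDiff ℝ ∞ γ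
  mem : ∀ t, γ t ∈ S
  nor : ∀ t, D.P (γ t) (deriv (deriv γ) t) = 0

/-- `E` is the exponential map at `p`, read in an orthonormal frame. -/
structure IsEx (p : Euc N) (E : Euc n → Euc N) : Prop where
  smooth : ContDiff ℝ ∞ E
  mem : ∀ w, E w ∈ S
  zero : E 0 = p
  iso : ∀ w, ‖fderiv ℝ E 0 w‖ = ‖w‖
  onto : ∀ u, D.P p u = u → ∃ w, fderiv ℝ E 0 w = u
  geo : ∀ v, D.Geod fun t : ℝ => E (t • v)

/-- exponential maps with their continuous inverses. -/
structure Had (l : ℝ) where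
  hl : 0 ≤ l
  curv : D.Curv l
  E : Euc N → Euc n → Euc N
  lg : Euc N → Euc N → Euc n
  ex : ∀ p ∈ S, D.IsEx p (E p)
  lg_E : ∀ p ∈ S, ∀ w, lg p (E p w) = w
  E_lg : ∀ p ∈ S, ∀ x ∈ S, E p (lg p x) = x
  cont : ∀ p ∈ S, ContinuousOn (lg p) S

/-- the intrinsic distance. -/
def Had.d {D : Pre n N S} {l : ℝ} (H : D.Had l) (x y : Euc N) : ℝ := ‖H.lg x y‖

/-- the geodesic from `x` to `y`. -/
def Had.geo {D : Pre n N S} {l : ℝ} (H : D.Had l) (x y : Euc N) (s : ℝ) : Euc N :=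
  H.E x (s • H.lg x y)

end Pre

end

end Crest.Agent.R241.C
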