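import Crest.Agent.R241.CFlow

/-! Row 241, block C: geodesics and the exponential map. -/

set_option autoImplicit false

open Set Filter Topology
open scoped ContDiff InnerProductSpace

namespace Crest.Agent.R241.C

open Crest.GeometryTopology.Submanifold

variable {n N : ℕ} {S : Set (Euc N)}

namespace Pre
variable {D : Pre n N S} {γ : ℝ → Euc N}

theorem Geod.hasDerivAt (h : D.Geod γ) (t : ℝ) : HasDerivAt γ (deriv γ t) t := by
  exact (h.smooth.differentiable (by simp) t).hasDerivAt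

theorem Geod.hasDerivAt_deriv (h : D.Geod γ) (t : ℝ) :
    HasDerivAt (deriv γ) (deriv (deriv γ) t) t := by
  have h1 : ContDiff ℝ ∞ (deriv γ) := (contDiff_infty_iff_deriv.1 h.smooth).2
  exact (h1.differentiable (by simp) t).hasDerivAt

theorem Geod.tan (h : D.Geod γ) (t : ℝ) : D.P (γ t) (deriv γ t) = deriv γ t :=
  D.tan_deriv (h.hasDerivAt t) (.of_forall h.mem)

/-- `deriv_tan`, `spray_tan`. -/
theorem Geod.sol (h : D.Geod γ) (t : ℝ) :
    HasDerivAt (fun s => (γ s, deriv γ s)) (D.spray (γ t, deriv γ t)) t := by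
  rw [D.spray_tan (h.mem t) (h.tan t)]
  have h1 := D.deriv_tan (h.hasDerivAt t) (h.hasDerivAt_deriv t) (.of_forall h.tan)
  rw [h.nor t, add_zero] at h1
  rw [← h1]
  exact (h.hasDerivAt t).prodMk (h.hasDerivAt_deriv t)

theorem Geod.unique {γ' : ℝ → Euc N} (h : D.Geod γ) (h' : D.Geod γ') (h0 : γ 0 = γ' 0)
    (h1 : deriv γ 0 = deriv γ' 0) : γ = γ' := by
  funext t
  have hs : 0 < |t| + 1 := by positivity
  have := Crest.Agent.R106.sfl_uniq (D.contDiff_spray.of_le (by exact_mod_cast le_top))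
    (f := fun s => (γ s, deriv γ s)) (g := fun s => (γ' s, deriv γ' s))
    (a := -(|t| + 1)) (c := |t| + 1) (t₀ := 0) ⟨by linarith, hs⟩ (fun s _ => h.sol s)
    (fun s _ => h'.sol s) (by simp [h0, h1]) (abs_lt.1 (lt_add_one _))
  exact congrArg Prod.fst this

theorem Geod.deriv_affine (h : D.Geod γ) (a b t : ℝ) :
    deriv (fun s => γ (a * s + b)) t = a • deriv γ (a * t + b) := by
  have h1 : HasDerivAt (fun s : ℝ => a * s + b) a t := by
    simpa using ((hasDerivAt_id t).const_mul a).add_const b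
  exact ((h.hasDerivAt (a * t + b)).scomp t h1).deriv

theorem Geod.affine (h : D.Geod γ) (a b : ℝ) : D.Geod fun s => γ (a * s + b) := by
  refine ⟨h.smooth.comp (by fun_prop), fun t => h.mem _, fun t => ?_⟩
  have e : deriv (fun s => γ (a * s + b)) = fun s => a • deriv γ (a * s + b) :=
    funext fun s => h.deriv_affine a b s
  have h1 : HasDerivAt (fun s : ℝ => a * s + b) a t := by
    simpa using ((hasDerivAt_id t).const_mul a).add_const b
  have h2 : HasDerivAt (fun s => a • deriv γ (a * s + b))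
      (a • a • deriv (deriv γ) (a * t + b)) t :=
    ((h.hasDerivAt_deriv (a * t + b)).scomp t h1).const_smul a
  rw [e, h2.deriv, map_smul, map_smul, h.nor, smul_zero, smul_zero]

theorem Geod.speed (h : D.Geod γ) (t : ℝ) : ‖deriv γ t‖ = ‖deriv γ 0‖ := by
  have h1 : ∀ s, HasDerivAt (fun s => ⟪deriv γ s, deriv γ s⟫_ℝ) 0 s := by
    intro s
    have h2 := (h.hasDerivAt_deriv s).inner ℝ (h.hasDerivAt_deriv s)
    have h3 := D.inner_eq_zero (h.tan s) (h.nor s)
    rw [h3, real_inner_comm, h3, add_zero] at h2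
    exact h2
  have h4 := is_const_of_deriv_eq_zero (fun s => (h1 s).differentiableAt)
    (fun s => (h1 s).deriv) t 0
  rw [real_inner_self_eq_norm_sq, real_inner_self_eq_norm_sq] at h4
  exact (pow_left_inj₀ (norm_nonneg _) (norm_nonneg _) two_ne_zero).1 h4

theorem h49_fst {A B : Type*} [NormedAddCommGroup A] [NormedSpace ℝ A] [NormedAddCommGroup B]
    [NormedSpace ℝ B] {α : ℝ → A × B} {a : A × B} {t : ℝ} (h : HasDerivAt α a t) :
    HasDerivAt (fun s => (α s).1) a.1 t :=
  (ContinuousLinearMap.fst ℝ A B).hasFDerivAt.comp_hasDerivAt t h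

theorem h49_snd {A B : Type*} [NormedAddCommGroup A] [NormedSpace ℝ A] [NormedAddCommGroup B]
    [NormedSpace ℝ B] {α : ℝ → A × B} {a : A × B} {t : ℝ} (h : HasDerivAt α a t) :
    HasDerivAt (fun s => (α s).2) a.2 t :=
  (ContinuousLinearMap.snd ℝ A B).hasFDerivAt.comp_hasDerivAt t h

theorem h49_spray_smul (D : Pre n N S) (s : ℝ) (z : Euc N × Euc N) :
    D.spray (z.1, s • z.2) = (s • (D.spray z).1, s • s • (D.spray z).2) := by
  simp only [spray, II, map_smul, smul_apply, smul_sub]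

theorem h49_scale (D : Pre n N S) {α β : ℝ → Euc N × Euc N}
    (hα : ∀ t, HasDerivAt α (D.spray (α t)) t) (hβ : ∀ t, HasDerivAt β (D.spray (β t)) t) {s : ℝ}
    (h0 : β 0 = ((α 0).1, s • (α 0).2)) (t : ℝ) :
    β t = ((α (s * t)).1, s • (α (s * t)).2) := by
  have hg : ∀ τ, HasDerivAt (fun τ => ((α (s * τ)).1, s • (α (s * τ)).2))
      (D.spray ((α (s * τ)).1, s • (α (s * τ)).2)) τ := by
    intro τ
    have h1 : HasDerivAt (fun τ => α (s * τ)) (s • D.spray (α (s * τ))) τ := by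
      have := (hα (s * τ)).scomp τ ((hasDerivAt_id τ).const_mul s)
      simpa [Function.comp_def] using this
    rw [D.h49_spray_smul]
    exact (h49_fst h1).prodMk ((h49_snd h1).const_smul s)
  have ht : t ∈ Ioo (-(|t| + 1)) (|t| + 1) :=
    ⟨by linarith [neg_abs_le t], by linarith [le_abs_self t]⟩
  have h00 : (0 : ℝ) ∈ Ioo (-(|t| + 1)) (|t| + 1) :=
    ⟨by linarith [abs_nonneg t], by linarith [abs_nonneg t]⟩
  exact R106.sfl_uniq (D.contDiff_spray.of_le (by simp)) h00 (fun τ _ => hβ τ) (fun τ _ => hg τ)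
    (by simpa using h0) ht

/-- `φ` = global flow (`exists_sol`, `R106.flow_contDiff`), `ι` = frame (`exists_frame`),
`E w = (φ (1, (p, ι w))).1`; scaling `φ (t, (p, s • v)) = ((φ (s t, (p, v))).1, s • (φ (s t, (p, v))).2)` by
`R106.sfl_uniq` (`spray` is quadratic in the velocity); `fderiv E 0 w = ι w`. -/
theorem exists_isEx (D : Pre n N S) {p : Euc N} (hp : p ∈ S) : ∃ E, D.IsEx p E := by
  choose α hα0 hα using D.exists_sol
  have hφ : ContDiff ℝ ∞ fun q : ℝ × (Euc N × Euc N) => α q.2 q.1 :=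
    R106.flow_contDiff D.contDiff_spray hα0 (fun t x => hα x t)
  obtain ⟨ι, hι, hιP⟩ := D.exists_frame hp
  have htan : ∀ w t, (α (p, ι w) t).1 ∈ S ∧
      D.P (α (p, ι w) t).1 (α (p, ι w) t).2 = (α (p, ι w) t).2 := fun w t =>
    D.sol_tan (hα _) (by rw [hα0]; exact hp) (by rw [hα0]; exact (hιP _).2 ⟨w, rfl⟩) t
  set E : Euc n → Euc N := fun w => (α (p, ι w) 1).1 with hEdef
  have hE : ∀ v, (fun t : ℝ => E (t • v)) = fun t => (α (p, ι v) t).1 := by
    intro v
    funext t
    have := D.h49_scale (hα (p, ι v)) (hα (p, ι (t • v))) (s := t)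
      (by rw [hα0, hα0, map_smul]) 1
    simp only [hEdef]
    rw [this, mul_one]
  have hsm : ContDiff ℝ ∞ E :=
    (hφ.comp (contDiff_const.prodMk (contDiff_const.prodMk ι.contDiff))).fst
  have hd1 : ∀ v t, HasDerivAt (fun t => (α (p, ι v) t).1) (α (p, ι v) t).2 t :=
    fun v t => h49_fst (hα (p, ι v) t)
  have hfd : ∀ w, fderiv ℝ E 0 w = ι w := by
    intro w
    have h1 := h31_comp_line (F := E) (z := 0) (hsm.differentiable (by simp) 0) w
    simp only [zero_add] at h1
    rw [hE w] at h1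
    have h2 := hd1 w 0
    rw [hα0] at h2
    exact h1.unique h2
  refine ⟨E, hsm, fun w => (htan w 1).1, ?_, fun w => by rw [hfd, hι], fun u hu => ?_,
    fun v => ⟨hsm.comp (contDiff_id.smul contDiff_const), fun t => (htan _ 1).1, fun t => ?_⟩⟩
  · have := congrFun (hE 0) 0
    simp only [smul_zero] at this
    rw [this, hα0]
  · obtain ⟨w, hw⟩ := (hιP u).1 hu
    exact ⟨w, by rw [hfd, hw]⟩
  · have e0 : E (t • v) = (α (p, ι v) t).1 := congrFun (hE v) t
    have e1 : deriv (fun t => (α (p, ι v) t).1) = fun t => (α (p, ι v) t).2 :=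
      funext fun t => (hd1 v t).deriv
    have e2 : deriv (fun t => (α (p, ι v) t).2) t = (D.spray (α (p, ι v) t)).2 :=
      (h49_snd (hα (p, ι v) t)).deriv
    have e3 := D.spray_tan (htan v t).1 (htan v t).2
    rw [hE v, e1, e2, e0, show α (p, ι v) t = ((α (p, ι v) t).1, (α (p, ι v) t).2) from rfl, e3]
    exact D.P_II (htan v t).1 (htan v t).2 (htan v t).2

variable {p : Euc N} {E : Euc n → Euc N}

theorem IsEx.hasDerivAt (h : D.IsEx p E) (v : Euc n) (t : ℝ) :
    HasDerivAt (fun s : ℝ => E (s • v)) (fderiv ℝ E (t • v) v) t := by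
  have h1 : HasDerivAt (fun s : ℝ => s • v) v t := by
    simpa using (hasDerivAt_id t).smul_const v
  exact (h.smooth.differentiable (by simp) (t • v)).hasFDerivAt.comp_hasDerivAt t h1

/-- every geodesic from `p` is radial. -/
theorem IsEx.geod_eq (h : D.IsEx p E) (hγ : D.Geod γ) (h0 : γ 0 = p) :
    ∃ w, ‖w‖ = ‖deriv γ 0‖ ∧ ∀ t, γ t = E (t • w) := by
  have ht := hγ.tan 0
  rw [h0] at ht
  obtain ⟨w, hw⟩ := h.onto _ ht
  refine ⟨w, by rw [← hw, h.iso], fun t => ?_⟩
  have h1 := (h.hasDerivAt w 0).deriv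
  rw [zero_smul, hw] at h1
  have := hγ.unique (h.geo w) (by simp [h0, h.zero]) h1.symm
  exact congrFun this t

end Pre

end Crest.Agent.R241.C
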