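import Crest.Agent.R241.CCalc
import Crest.Agent.R106.SFlow

/-! Row 241, block C: the geodesic flow as a global smooth flow on `Euc N × Euc N`. -/

set_option autoImplicit false

open Set Filter Topology
open scoped ContDiff InnerProductSpace

namespace Crest.Agent.R241.C

open Crest.GeometryTopology.Submanifold

variable {n N : ℕ} {S : Set (Euc N)}

namespace Pre
variable (D : Pre n N S)

/-- the geodesic spray; the second component is `[DP v, P] v`, a skew operator applied to `v`. -/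
noncomputable def spray (z : Euc N × Euc N) : Euc N × Euc N :=
  (z.2, D.II z.1 z.2 (D.P z.1 z.2) - D.P z.1 (D.II z.1 z.2 z.2))

theorem contDiff_spray : ContDiff ℝ ∞ D.spray := by
  have h1 : ContDiff ℝ ∞ (fderiv ℝ D.P) := D.smooth.fderiv_right (m := ∞) (by simp)
  have h2 : ContDiff ℝ ∞ fun z : Euc N × Euc N => fderiv ℝ D.P z.1 z.2 :=
    (h1.comp contDiff_fst).clm_apply contDiff_snd
  have h3 : ContDiff ℝ ∞ fun z : Euc N × Euc N => D.P z.1 := D.smooth.comp contDiff_fst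
  exact contDiff_snd.prodMk ((h2.clm_apply (h3.clm_apply contDiff_snd)).sub
    (h3.clm_apply (h2.clm_apply contDiff_snd)))

/-- `symm` and `II_symm`. -/
theorem inner_spray (z : Euc N × Euc N) : ⟪(D.spray z).2, z.2⟫_ℝ = 0 := by
  simp only [spray]
  rw [inner_sub_left, D.II_symm, D.symm z.1 (D.II z.1 z.2 z.2), real_inner_comm, sub_self]

theorem spray_tan {x v : Euc N} (hx : x ∈ S) (hv : D.P x v = v) :
    D.spray (x, v) = (v, D.II x v v) := by
  simp only [spray]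
  rw [hv, D.P_II hx hv hv, sub_zero]

private theorem helper40_sol (z₀ : Euc N × Euc N) {m : ℝ} (hm : 0 < m) :
    ∃ α : ℝ → Euc N × Euc N, α 0 = z₀ ∧ ∀ t ∈ Ioo (-m) m, HasDerivAt α (D.spray (α t)) t := by
  have hR : 0 < ‖z₀.1‖ + ‖z₀.2‖ * m + ‖z₀.2‖ + 1 := by positivity
  let χ : ContDiffBump (0 : Euc N × Euc N) := ⟨_, _, hR, lt_add_one _⟩
  have hb : ContDiff ℝ 1 fun z => χ z • D.spray z :=
    χ.contDiff.smul (D.contDiff_spray.of_le (by exact_mod_cast le_top))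
  obtain ⟨M, hM⟩ := hb.continuous.bounded_above_of_compact_support χ.hasCompactSupport.smul_right
  obtain ⟨α, h0, hα⟩ := R106.sfl_global hb hM z₀
  have h1 : ∀ t, HasDerivAt (fun s => (α s).1) (χ (α t) • (α t).2) t := fun t => (hα t).fst
  have h2 : ∀ t, HasDerivAt (fun s => (α s).2) (χ (α t) • (D.spray (α t)).2) t := fun t =>
    (hα t).snd
  have h3 : ∀ t, HasDerivAt (fun s => ‖(α s).2‖ ^ 2) 0 t := fun t => by
    have := (h2 t).norm_sq
    rwa [inner_smul_right, real_inner_comm, D.inner_spray, mul_zero, mul_zero] at this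
  have h4 : ∀ t, ‖(α t).2‖ = ‖z₀.2‖ := fun t => by
    have := is_const_of_deriv_eq_zero (fun s => (h3 s).differentiableAt) (fun s => (h3 s).deriv) t 0
    rw [h0] at this
    exact (pow_left_inj₀ (norm_nonneg _) (norm_nonneg _) two_ne_zero).1 this
  have h5 : ∀ t, ‖(α t).1 - z₀.1‖ ≤ ‖z₀.2‖ * |t| := fun t => by
    have := convex_univ.norm_image_sub_le_of_norm_hasDerivWithin_le (C := ‖z₀.2‖)
      (fun s _ => (h1 s).hasDerivWithinAt) (fun s _ => by
        rw [norm_smul, h4, Real.norm_of_nonneg χ.nonneg]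
        exact mul_le_of_le_one_left (norm_nonneg _) χ.le_one) (mem_univ 0) (mem_univ t)
    rwa [h0, sub_zero, Real.norm_eq_abs] at this
  refine ⟨α, h0, fun t ht => ?_⟩
  have h6 : χ (α t) = 1 := by
    refine χ.one_of_mem_closedBall (mem_closedBall_zero_iff.2 ?_)
    have h7 := mul_le_mul_of_nonneg_left (abs_lt.2 ht).le (norm_nonneg z₀.2)
    have h8 := norm_le_insert' (α t).1 z₀.1
    have h9 := h5 t
    have h10 : 0 ≤ ‖z₀.2‖ * m := by positivity
    change ‖α t‖ ≤ ‖z₀.1‖ + ‖z₀.2‖ * m + ‖z₀.2‖ + 1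
    rw [Prod.norm_def, h4]
    exact max_le (by linarith [norm_nonneg z₀.2]) (by linarith [norm_nonneg z₀.1])
  simpa only [h6, one_smul] using hα t

/-- global solutions: for a bump `χ` equal to `1` on a big ball solve `z' = χ z • spray z`
(`R106.sfl_global`); `‖z.2‖` is constant (`inner_spray`), `‖z.1 t - z.1 0‖ ≤ |t| ‖z.2‖`, so `χ = 1` along
the solution for `|t| < m`; glue the solutions on `(-m, m)` by `R106.sfl_uniq` (as in
`R236.ode_global`). -/
theorem exists_sol (z₀ : Euc N × Euc N) :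
    ∃ α : ℝ → Euc N × Euc N, α 0 = z₀ ∧ ∀ t, HasDerivAt α (D.spray (α t)) t := by
  have hb : ContDiff ℝ 1 D.spray := D.contDiff_spray.of_le (by exact_mod_cast le_top)
  choose α h0 hα using fun k : ℕ => D.helper40_sol z₀ (m := k + 1) (by positivity)
  have h2 : ∀ m k : ℕ, m ≤ k → EqOn (α m) (α k) (Ioo (-(m + 1 : ℝ)) (m + 1)) := by
    intro m k hmk
    have hm : (0 : ℝ) < m + 1 := by positivity
    have hmk' : (m : ℝ) ≤ k := by exact_mod_cast hmk
    exact R106.sfl_uniq hb (t₀ := 0) ⟨by linarith, hm⟩ (hα m)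
      (fun t ht => hα k t ⟨by linarith [ht.1], by linarith [ht.2]⟩) ((h0 m).trans (h0 k).symm)
  have h3 : ∀ t : ℝ, t ∈ Ioo (-((⌊|t|⌋₊ : ℝ) + 1)) (⌊|t|⌋₊ + 1) := fun t =>
    abs_lt.1 (Nat.lt_floor_add_one _)
  refine ⟨fun t => α ⌊|t|⌋₊ t, h0 _, fun t => (hα _ t (h3 t)).congr_of_eventuallyEq ?_⟩
  filter_upwards [Ioo_mem_nhds (h3 t).1 (h3 t).2] with s hs
  rcases le_total ⌊|s|⌋₊ ⌊|t|⌋₊ with h | h
  · exact h2 _ _ h (h3 s)
  · exact (h2 _ _ h hs).symm

/-- a solution of the geodesic equation in a chart gives a solution of the spray equation -/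
theorem h31_chart_sol {p : Euc N} (c : Chart n N S p) {β : ℝ → Euc n × Euc n} {t : ℝ}
    (hV : (β t).1 ∈ c.V)
    (hβ : HasDerivAt β ((β t).2, -fderiv ℝ c.r (c.f (β t).1) (D.P (c.f (β t).1)
      (fderiv ℝ (fderiv ℝ c.f) (β t).1 (β t).2 (β t).2))) t) :
    HasDerivAt (fun s => (c.f (β s).1, fderiv ℝ c.f (β s).1 (β s).2))
      (D.spray (c.f (β t).1, fderiv ℝ c.f (β t).1 (β t).2)) t := by
  have hS := (c.f_mem _ hV).1
  have hf : ContDiffAt ℝ 2 c.f (β t).1 :=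
    (c.contDiffAt_f hV).of_le (WithTop.coe_le_coe.2 (le_top : (2 : ℕ∞) ≤ ⊤))
  have hf' : DifferentiableAt ℝ (fderiv ℝ c.f) (β t).1 :=
    (hf.fderiv_right (m := 1) (by norm_num)).differentiableAt (by simp)
  have hy0 := (ContinuousLinearMap.fst ℝ (Euc n) (Euc n)).hasFDerivAt.comp_hasDerivAt t hβ
  have hw0 := (ContinuousLinearMap.snd ℝ (Euc n) (Euc n)).hasFDerivAt.comp_hasDerivAt t hβ
  have hy : HasDerivAt (fun s => (β s).1) (β t).2 t := hy0
  have hw : HasDerivAt (fun s => (β s).2) (-fderiv ℝ c.r (c.f (β t).1) (D.P (c.f (β t).1)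
      (fderiv ℝ (fderiv ℝ c.f) (β t).1 (β t).2 (β t).2))) t := hw0
  have h1 : HasDerivAt (fun s => c.f (β s).1) (fderiv ℝ c.f (β t).1 (β t).2) t :=
    (hf.differentiableAt (by simp)).hasFDerivAt.comp_hasDerivAt t hy
  have h2 := (hf'.hasFDerivAt.comp_hasDerivAt t hy).clm_apply hw
  obtain ⟨a, ha⟩ := (D.tan _ c _ hV _).1
    (D.idem _ hS (fderiv ℝ (fderiv ℝ c.f) (β t).1 (β t).2 (β t).2))
  have h3 := D.fderiv_two hf
    (Filter.mem_of_superset (c.oV.mem_nhds hV) fun w hw => (c.f_mem w hw).1) (β t).2 (β t).2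
  rw [D.spray_tan hS ((D.tan _ c _ hV _).2 ⟨_, rfl⟩)]
  refine h1.prodMk (h2.congr_deriv ?_)
  rw [← ha, c.fderiv_r_f hV, map_neg]
  simp only [Function.comp_apply]
  rw [ha, ← sub_eq_add_neg, sub_eq_iff_eq_add]
  exact h3

/-- local invariance of the tangent bundle: in a chart `f` solve
`(y, w)' = (w, - fderiv r (f y) (P (f y) (fderiv (fderiv f) y w w)))` locally
(`R244.local_flow` or `exists_forall_mem_closedBall_eq_hasDerivWithinAt`-type lemmas),
`(f y, fderiv f y w)` solves the spray equation (`fderiv_two`, `tan`, `Chart.fderiv_r_f`, `spray_tan`);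
conclude with `R106.sfl_uniq`. -/
theorem sol_local {α : ℝ → Euc N × Euc N} (hα : ∀ t, HasDerivAt α (D.spray (α t)) t) {t₀ : ℝ}
    (h1 : (α t₀).1 ∈ S) (h2 : D.P (α t₀).1 (α t₀).2 = (α t₀).2) :
    ∀ᶠ t in 𝓝 t₀, (α t).1 ∈ S ∧ D.P (α t).1 (α t).2 = (α t).2 := by
  obtain ⟨c⟩ := D.chart _ h1
  have hy := c.r_mem _ h1 c.mem
  have hfy := c.f_r _ h1 c.mem
  obtain ⟨w₀, hw₀⟩ := (D.tan _ c _ hy (α t₀).2).1 (by rwa [hfy])
  obtain ⟨y₀, hy₀⟩ : ∃ y₀, y₀ = c.r (α t₀).1 := ⟨_, rfl⟩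
  rw [← hy₀] at hy hfy hw₀
  have hf := c.contDiffAt_f hy
  have hf2 : ContDiffAt ℝ 1 (fderiv ℝ (fderiv ℝ c.f)) y₀ :=
    (hf.fderiv_right (m := 2) (WithTop.coe_le_coe.2 (le_top : (3 : ℕ∞) ≤ ⊤))).fderiv_right
      (by norm_num)
  have hr : ContDiffAt ℝ 1 (fderiv ℝ c.r) (c.f y₀) :=
    (c.contDiffAt_r (c.f_mem _ hy).2).fderiv_right
      (WithTop.coe_le_coe.2 (le_top : (2 : ℕ∞) ≤ ⊤))
  have hf1 : ContDiffAt ℝ 1 (fun z : Euc n × Euc n => c.f z.1) (y₀, w₀) :=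
    (hf.of_le (by simp)).comp (y₀, w₀) contDiffAt_fst
  have hG : ContDiffAt ℝ 1 (fun z : Euc n × Euc n => (z.2, -fderiv ℝ c.r (c.f z.1)
      (D.P (c.f z.1) (fderiv ℝ (fderiv ℝ c.f) z.1 z.2 z.2)))) (y₀, w₀) := by
    refine contDiffAt_snd.prodMk (ContDiffAt.neg ?_)
    refine (hr.comp (y₀, w₀) hf1).clm_apply ?_
    refine (((D.smooth.of_le (by simp)).contDiffAt).comp (y₀, w₀) hf1).clm_apply ?_
    exact ((hf2.comp (y₀, w₀) contDiffAt_fst).clm_apply contDiffAt_snd).clm_apply contDiffAt_snd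
  obtain ⟨β, hβ0, ε, hε, hβ⟩ :=
    hG.exists_forall_mem_closedBall_exists_eq_forall_mem_Ioo_hasDerivAt₀ t₀
  have ht₀ : t₀ ∈ Ioo (t₀ - ε) (t₀ + ε) := ⟨by linarith, by linarith⟩
  have hV : ∀ᶠ t in 𝓝 t₀, (β t).1 ∈ c.V :=
    (hβ t₀ ht₀).continuousAt.fst.eventually_mem (c.oV.mem_nhds (by rwa [hβ0]))
  obtain ⟨a, b, hab, hsub⟩ := mem_nhds_iff_exists_Ioo_subset.1
    (hV.and (isOpen_Ioo.eventually_mem ht₀))
  have heq := R106.sfl_uniq (D.contDiff_spray.of_le (by simp)) hab (fun t _ => hα t)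
    (g := fun s => (c.f (β s).1, fderiv ℝ c.f (β s).1 (β s).2))
    (fun t ht => D.h31_chart_sol c (hsub ht).1 (hβ t (hsub ht).2)) (by rw [hβ0, hfy, hw₀])
  filter_upwards [isOpen_Ioo.eventually_mem hab] with t ht
  rw [heq ht]
  exact ⟨(c.f_mem _ (hsub ht).1).1, (D.tan _ c _ (hsub ht).1 _).2 ⟨_, rfl⟩⟩

/-- clopen argument (`closed`). -/
theorem sol_tan {α : ℝ → Euc N × Euc N} (hα : ∀ t, HasDerivAt α (D.spray (α t)) t)
    (h1 : (α 0).1 ∈ S) (h2 : D.P (α 0).1 (α 0).2 = (α 0).2) (t : ℝ) :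
    (α t).1 ∈ S ∧ D.P (α t).1 (α t).2 = (α t).2 := by
  have hc : Continuous α := continuous_iff_continuousAt.2 fun s => (hα s).continuousAt
  have hcl : IsClopen {s | (α s).1 ∈ S ∧ D.P (α s).1 (α s).2 = (α s).2} := by
    refine ⟨(D.closed.preimage hc.fst).inter (isClosed_eq ?_ hc.snd),
      isOpen_iff_mem_nhds.2 fun s hs => D.sol_local hα hs.1 hs.2⟩
    exact (D.smooth.continuous.comp hc.fst).clm_apply hc.snd
  exact (hcl.eq_univ ⟨0, h1, h2⟩).symm.subset (mem_univ t)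

end Pre

end Crest.Agent.R241.C
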