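import Crest.Agent.R244.Coord2
import Crest.Prelude.Def_Submanifold

/-! Row 241, block C (helper76): the induced metric of a parametrisation, Gauss formula and
theorema egregium. -/

set_option autoImplicit false

open Set Filter
open scoped ContDiff Topology RealInnerProductSpace

namespace Crest.Agent.R241.CG

open Crest.GeometryTopology.CoordMetric Crest.GeometryTopology.ChartCurvature
open Crest.GeometryTopology.Submanifold Crest.Agent.R244 Crest.Agent.R244.C2

variable {n N : ℕ} {f : Euc n → Euc N} {V : Set (Euc n)} {x : Euc n}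

theorem clm_eq_sum {F : Type*} [NormedAddCommGroup F] [NormedSpace ℝ F] (A : Euc n →L[ℝ] F)
    (u : Euc n) : A u = ∑ i, u i • A (stdVec n i) := by
  have : u = ∑ j, u j • stdVec n j := by
    ext i
    simp [stdVec, Finset.sum_apply, Pi.single_apply]
  conv_lhs => rw [this]
  simp

theorem bil_metricMat (f : Euc n → Euc N) (x u v : Euc n) :
    bil (metricMat f x) u v = ⟪fderiv ℝ f x u, fderiv ℝ f x v⟫ := by
  rw [clm_eq_sum _ u, clm_eq_sum _ v, sum_inner]
  refine Finset.sum_congr rfl fun i _ => ?_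
  rw [inner_sum]
  refine Finset.sum_congr rfl fun j _ => ?_
  rw [real_inner_smul_left, real_inner_smul_right]
  simp only [metricMat, pd, Matrix.of_apply]
  ring

/-- the second derivative. -/
noncomputable def D2 (f : Euc n → Euc N) (x a b : Euc n) : Euc N := fderiv ℝ (fderiv ℝ f) x a b

theorem cd_fderiv (hf : ContDiffAt ℝ ∞ f x) : ContDiffAt ℝ ∞ (fderiv ℝ f) x :=
  hf.fderiv_right (m := ∞) le_rfl

theorem hasFDerivAt_D (hf : ContDiffAt ℝ ∞ f x) (b : Euc n) :
    HasFDerivAt (fun y => fderiv ℝ f y b) ((fderiv ℝ (fderiv ℝ f) x).flip b) x := by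
  have := ((cd_fderiv hf).differentiableAt (by simp)).hasFDerivAt.clm_apply (hasFDerivAt_const b x)
  simpa using this

theorem fderiv_D (hf : ContDiffAt ℝ ∞ f x) (a b : Euc n) :
    fderiv ℝ (fun y => fderiv ℝ f y b) x a = D2 f x a b := by
  rw [(hasFDerivAt_D hf b).fderiv]; rfl

theorem D2_symm (hf : ContDiffAt ℝ ∞ f x) (a b : Euc n) : D2 f x a b = D2 f x b a :=
  (hf.isSymmSndFDerivAt (by simp; exact WithTop.coe_le_coe.2 le_top)).eq a b

theorem riemOn (hV : IsOpen V) (hf : ContDiffOn ℝ ∞ f V)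
    (hi : ∀ x ∈ V, Function.Injective (fderiv ℝ f x)) : IsRiemannianOn (metricMat f) V := by
  refine ⟨hV, fun i j x hx => ?_, fun x hx => ?_⟩
  · have h := cd_fderiv (hf.contDiffAt (hV.mem_nhds hx))
    exact ((h.clm_apply contDiffAt_const).inner ℝ
      (h.clm_apply contDiffAt_const)).contDiffWithinAt
  · refine Matrix.PosDef.of_dotProduct_mulVec_pos ?_ fun v hv => ?_
    · ext i j
      simp [metricMat, real_inner_comm]
    · have h1 := bil_eq_dot_coord (g := metricMat f x) (WithLp.toLp 2 v) (WithLp.toLp 2 v)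
      rw [bil_metricMat] at h1
      rw [star_trivial, ← h1, real_inner_self_pos]
      intro h0
      have := hi x hx (h0.trans (map_zero _).symm)
      exact hv (by simpa using congrArg WithLp.ofLp this)

/-- Gauss formula, weak form. -/
theorem bil_Gam (hV : IsOpen V) (hf : ContDiffOn ℝ ∞ f V)
    (hi : ∀ x ∈ V, Function.Injective (fderiv ℝ f x)) (hx : x ∈ V) (u v w : Euc n) :
    bil (metricMat f x) (Gam (metricMat f) x u v) w = ⟪D2 f x u v, fderiv ℝ f x w⟫ := by
  have hg := riemOn hV hf hi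
  have hfx := hf.contDiffAt (hV.mem_nhds hx)
  have hp := hg.posDef x hx
  have key : ∀ a b c : Euc n, bil (metricMat f x) (Gam (metricMat f) x a b) c +
      bil (metricMat f x) (Gam (metricMat f) x a c) b =
      ⟪D2 f x a b, fderiv ℝ f x c⟫ + ⟪D2 f x a c, fderiv ℝ f x b⟫ := by
    intro a b c
    have h1 := fderiv_bil hg hx b c a
    simp only [bil_metricMat f _ b c] at h1
    rw [((hasFDerivAt_D hfx b).inner ℝ (hasFDerivAt_D hfx c)).fderiv] at h1
    rw [bil_comm hp _ b, ← h1]
    simp [D2, real_inner_comm, add_comm]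
  have h1 := key u v w
  have h2 := key v u w
  have h3 := key w u v
  rw [Gam_comm hg hx v u, D2_symm hfx v u] at h2
  rw [Gam_comm hg hx w u, Gam_comm hg hx w v, D2_symm hfx w u, D2_symm hfx w v] at h3
  linarith

/-- the second fundamental form. -/
noncomputable def II (f : Euc n → Euc N) (x a b : Euc n) : Euc N :=
  D2 f x a b - fderiv ℝ f x (Gam (metricMat f) x a b)

theorem inner_II (hV : IsOpen V) (hf : ContDiffOn ℝ ∞ f V)
    (hi : ∀ x ∈ V, Function.Injective (fderiv ℝ f x)) (hx : x ∈ V) (a b w : Euc n) :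
    ⟪II f x a b, fderiv ℝ f x w⟫ = 0 := by
  rw [II, inner_sub_left, ← bil_metricMat, bil_Gam hV hf hi hx, sub_self]

theorem inner_II_II (hV : IsOpen V) (hf : ContDiffOn ℝ ∞ f V)
    (hi : ∀ x ∈ V, Function.Injective (fderiv ℝ f x)) (hx : x ∈ V) (a b c d : Euc n) :
    ⟪II f x a b, II f x c d⟫ = ⟪D2 f x a b, D2 f x c d⟫ -
      bil (metricMat f x) (Gam (metricMat f) x a b) (Gam (metricMat f) x c d) := by
  conv_lhs => rw [II, II, inner_sub_right, ← II, inner_II hV hf hi hx, sub_zero, II, inner_sub_left]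
  rw [real_inner_comm (D2 f x c d) (fderiv ℝ f x _), ← bil_Gam hV hf hi hx,
    bil_comm ((riemOn hV hf hi).posDef x hx)]

theorem mem_tangentAt (f : Euc n → Euc N) (x u : Euc n) : fderiv ℝ f x u ∈ tangentAt f x := by
  rw [clm_eq_sum]
  exact Submodule.sum_mem _ fun i _ =>
    Submodule.smul_mem _ _ (Submodule.subset_span ⟨i, rfl⟩)

theorem normalPart_D2 (hV : IsOpen V) (hf : ContDiffOn ℝ ∞ f V)
    (hi : ∀ x ∈ V, Function.Injective (fderiv ℝ f x)) (hx : x ∈ V) (a b : Euc n) :
    normalPart f x (D2 f x a b) = II f x a b := by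
  unfold normalPart II
  congr 1
  refine Submodule.eq_starProjection_of_mem_of_inner_eq_zero (mem_tangentAt f x _) fun w hw => ?_
  refine Submodule.span_induction (p := fun w _ => ⟪II f x a b, w⟫ = 0) ?_ (inner_zero_right _)
    (fun _ _ _ _ h1 h2 => by rw [inner_add_right, h1, h2, add_zero])
    (fun c _ _ h => by rw [real_inner_smul_right, h, mul_zero]) hw
  rintro _ ⟨i, rfl⟩
  exact inner_II hV hf hi hx a b _

theorem sum_sff (hf : ContDiffAt ℝ ∞ f x) (a b : Euc n) :
    ∑ i, ∑ j, (a i * b j) • sff f x i j = normalPart f x (D2 f x a b) := by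
  have h1 : ∀ i j, hess f x i j = D2 f x (stdVec n i) (stdVec n j) := fun i j => fderiv_D hf _ _
  have h2 : D2 f x a b = ∑ i, ∑ j, (a i * b j) • D2 f x (stdVec n i) (stdVec n j) := by
    unfold D2
    rw [clm_eq_sum (fderiv ℝ (fderiv ℝ f) x) a, sum_apply]
    refine Finset.sum_congr rfl fun i _ => ?_
    rw [smul_apply, clm_eq_sum _ b, Finset.smul_sum]
    exact Finset.sum_congr rfl fun j _ => by rw [smul_smul]
  rw [h2]
  simp only [sff, normalPart, h1, map_sum, map_smul, smul_sub, Finset.sum_sub_distrib]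

theorem secNum_eq (hf : ContDiffAt ℝ ∞ f x) (u v : Euc n) :
    secNum f x u v = ⟪normalPart f x (D2 f x u u), normalPart f x (D2 f x v v)⟫ -
      ⟪normalPart f x (D2 f x u v), normalPart f x (D2 f x v u)⟫ := by
  simp only [← sum_sff hf, sum_inner, inner_sum, real_inner_smul_left, real_inner_smul_right,
    secNum, riem, mul_sub, Finset.sum_sub_distrib]
  congr 1
  · calc ∑ i, ∑ j, ∑ k, ∑ l, u i * v j * v k * u l * ⟪sff f x i l, sff f x j k⟫
        = ∑ j, ∑ i, ∑ k, ∑ l, u i * v j * v k * u l * ⟪sff f x i l, sff f x j k⟫ :=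
          Finset.sum_comm
      _ = _ := by
          refine Finset.sum_congr rfl fun j _ => ?_
          rw [Finset.sum_comm]
          refine Finset.sum_congr rfl fun k _ => ?_
          simp only [Finset.mul_sum]
          exact Finset.sum_congr rfl fun i _ => Finset.sum_congr rfl fun l _ => by ring
  · calc ∑ i, ∑ j, ∑ k, ∑ l, u i * v j * v k * u l * ⟪sff f x i k, sff f x j l⟫
        = ∑ j, ∑ i, ∑ k, ∑ l, u i * v j * v k * u l * ⟪sff f x i k, sff f x j l⟫ :=
          Finset.sum_comm
      _ = ∑ j, ∑ i, ∑ l, ∑ k, u i * v j * v k * u l * ⟪sff f x i k, sff f x j l⟫ :=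
          Finset.sum_congr rfl fun j _ => Finset.sum_congr rfl fun i _ => Finset.sum_comm
      _ = _ := by
          refine Finset.sum_congr rfl fun j _ => ?_
          rw [Finset.sum_comm]
          refine Finset.sum_congr rfl fun l _ => ?_
          simp only [Finset.mul_sum]
          exact Finset.sum_congr rfl fun i _ => Finset.sum_congr rfl fun k _ => by ring

theorem line_inner (hfx : ContDiffAt ℝ ∞ f x) (a u v w : Euc n) :
    HasDerivAt (fun t : ℝ => ⟪fderiv ℝ (fun y => fderiv ℝ f y v) (x + t • a) u,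
        fderiv ℝ f (x + t • a) w⟫)
      (⟪fderiv ℝ (fderiv ℝ fun y => fderiv ℝ f y v) x a u, fderiv ℝ f x w⟫ +
        ⟪D2 f x u v, D2 f x a w⟫) 0 := by
  have hl := hasDerivAt_line x a
  have h0 : x + (0 : ℝ) • a = x := by simp
  have hv : ContDiffAt ℝ ∞ (fun y => fderiv ℝ f y v) x :=
    (cd_fderiv hfx).clm_apply contDiffAt_const
  have h1 := hasFDerivAt_D hv u
  have h2 := hasFDerivAt_D hfx w
  have h1' := HasFDerivAt.comp_hasDerivAt_of_eq (0 : ℝ) h1 hl h0.symm
  have h2' := HasFDerivAt.comp_hasDerivAt_of_eq (0 : ℝ) h2 hl h0.symm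
  have h3 := h1'.inner ℝ h2'
  simp only [Function.comp, h0, ContinuousLinearMap.flip_apply] at h3
  rw [fderiv_D hfx u v, add_comm] at h3
  exact h3

theorem bil_dG (hV : IsOpen V) (hf : ContDiffOn ℝ ∞ f V)
    (hi : ∀ x ∈ V, Function.Injective (fderiv ℝ f x)) (hx : x ∈ V) (a u v w : Euc n) :
    bil (metricMat f x) (dG (metricMat f) x a u v +
        Gam (metricMat f) x a (Gam (metricMat f) x u v)) w +
      bil (metricMat f x) (Gam (metricMat f) x u v) (Gam (metricMat f) x a w) =
    ⟪fderiv ℝ (fderiv ℝ fun y => fderiv ℝ f y v) x a u, fderiv ℝ f x w⟫ +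
      ⟪D2 f x u v, D2 f x a w⟫ := by
  have hg := riemOn hV hf hi
  have hfx := hf.contDiffAt (hV.mem_nhds hx)
  have hl := hasDerivAt_line x a
  have h0 : x + (0 : ℝ) • a = x := by simp
  have hx0 : x + (0 : ℝ) • a ∈ V := h0.symm ▸ hx
  have h1 := hasDerivAt_Gam hg (c := fun t : ℝ => x + t • a) hx0 hl (hasDerivAt_const 0 u)
    (hasDerivAt_const 0 v)
  have h2 := hasDerivAt_bil hg (c := fun t : ℝ => x + t • a) hx0 hl h1 (hasDerivAt_const 0 w)
  have h4 := line_inner hfx a u v w
  have h5 : (fun t : ℝ => bil (metricMat f (x + t • a)) (Gam (metricMat f) (x + t • a) u v) w)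
      =ᶠ[𝓝 0] fun t : ℝ => ⟪fderiv ℝ (fun y => fderiv ℝ f y v) (x + t • a) u,
        fderiv ℝ f (x + t • a) w⟫ := by
    filter_upwards [hl.continuousAt.eventually (hV.mem_nhds hx0)] with t ht
    rw [bil_Gam hV hf hi ht, fderiv_D (hf.contDiffAt (hV.mem_nhds ht))]
  have h6 := (h2.congr_of_eventuallyEq h5.symm).unique h4
  have z1 : Gam (metricMat f) x 0 v = 0 := by simp
  have z2 : Gam (metricMat f) x u 0 = 0 := by simp
  simp only [h0, z1, z2, add_zero, zero_add] at h6
  exact h6

/-- theorema egregium. -/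
theorem secNumer_eq_secNum (hV : IsOpen V) (hf : ContDiffOn ℝ ∞ f V)
    (hi : ∀ x ∈ V, Function.Injective (fderiv ℝ f x)) (hx : x ∈ V) (u v : Euc n) :
    secNumer (metricMat f) x u v = secNum f x u v := by
  have hfx := hf.contDiffAt (hV.mem_nhds hx)
  have hv : ContDiffAt ℝ ∞ (fun y => fderiv ℝ f y v) x :=
    (cd_fderiv hfx).clm_apply contDiffAt_const
  have h1 := bil_dG hV hf hi hx u v v u
  have h2 := bil_dG hV hf hi hx v u v u
  have h3 : fderiv ℝ (fderiv ℝ fun y => fderiv ℝ f y v) x u v =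
      fderiv ℝ (fderiv ℝ fun y => fderiv ℝ f y v) x v u := D2_symm hv u v
  rw [secNumer_eq, Rv_eq, secNum_eq hfx, normalPart_D2 hV hf hi hx, normalPart_D2 hV hf hi hx,
    normalPart_D2 hV hf hi hx, normalPart_D2 hV hf hi hx, inner_II_II hV hf hi hx,
    inner_II_II hV hf hi hx, bil_comm ((riemOn hV hf hi).posDef x hx) (Gam _ x u u),
    real_inner_comm (D2 f x v v)]
  rw [h3] at h1
  simp only [bil_add_left, bil_sub_left] at h1 h2 ⊢
  linarith

/-- a local parametrisation is a local parametrisation at each of its points. -/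
theorem shift {S : Set (Euc N)} {p : Euc N} (h : IsLocalParam n N S p f V) (hx : x ∈ V) :
    IsLocalParam n N S (f x) (fun y => f (x + y)) ((fun y => x + y) ⁻¹' V) where
  isOpen := h.isOpen.preimage (continuous_const.add continuous_id)
  zero_mem := by simpa using hx
  map_zero := by simp
  contDiffOn := h.contDiffOn.comp (contDiff_const.add contDiff_id).contDiffOn fun _ hy => hy
  injOn := fun _ ha _ hb hab => add_left_cancel (h.injOn ha hb hab)
  injective_fderiv := fun y hy => by
    rw [fderiv_comp_add_left]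
    exact h.injective_fderiv _ hy
  image_open := fun W hW hWo => by
    obtain ⟨U, hU, e⟩ := h.image_open ((fun y => x + y) '' W)
      (by rintro _ ⟨y, hy, rfl⟩; exact hW hy) ((Homeomorph.addLeft x).isOpenMap W hWo)
    exact ⟨U, hU, by rw [← e, image_image]⟩

theorem secNum_shift (f : Euc n → Euc N) (x u v : Euc n) :
    secNum (fun y => f (x + y)) 0 u v = secNum f x u v := by
  have h1 : ∀ y i, pd (fun y => f (x + y)) y i = pd f (x + y) i := fun y i => by
    simp only [pd, fderiv_comp_add_left]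
  have h2 : tangentAt (fun y => f (x + y)) 0 = tangentAt f x := by
    unfold tangentAt
    congr 2
    funext i
    rw [h1, add_zero]
  have h3 : ∀ i j, hess (fun y => f (x + y)) 0 i j = hess f x i j := fun i j => by
    simp only [hess, h1]
    rw [fderiv_comp_add_left (f := fun y => pd f y j), add_zero]
  simp only [secNum, riem, sff, normalPart, h2, h3]

/-- the curvature hypothesis of the statements in terms of the coordinate metric. -/
theorem secNumer_le {S : Set (Euc N)} {κ : ℝ}
    (hsec : ∀ p ∈ S, ∀ (f : Euc n → Euc N) (V : Set (Euc n)), IsLocalParam n N S p f V →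
      ∀ u v : Euc n, secNum f 0 u v ≤ κ * Crest.GeometryTopology.Submanifold.gramDet f 0 u v)
    {p : Euc N} (h : IsLocalParam n N S p f V) (hx : x ∈ V) (u v : Euc n) :
    secNumer (metricMat f) x u v ≤
      κ * (bil (metricMat f x) u u * bil (metricMat f x) v v - bil (metricMat f x) u v ^ 2) := by
  have hS : f x ∈ S := by
    obtain ⟨U, -, e⟩ := h.image_open V subset_rfl h.isOpen
    exact (e ▸ mem_image_of_mem f hx : f x ∈ S ∩ U).1
  have h1 := hsec _ hS _ _ (shift h hx) u v
  rw [secNum_shift] at h1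
  rw [secNumer_eq_secNum h.isOpen h.contDiffOn h.injective_fderiv hx]
  simpa only [bil_metricMat, Crest.GeometryTopology.Submanifold.gramDet, fderiv_comp_add_left,
    add_zero] using h1

end Crest.Agent.R241.CG
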