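import Crest.Agent.R241.Geo
import Crest.Agent.R241.CAsm
import Crest.Agent.R241.CAtlas

/-! Row 241 (Cartan-Hadamard): block C: the Cartan-Hadamard theorem and the CAT comparison
(through the Riemannian atlases of row 244). -/

set_option autoImplicit false

open MeasureTheory Set Filter Topology
open scoped ENNReal NNReal Matrix ContDiff

namespace Crest.Agent.R241

open Crest.GeometryTopology.Submanifold

universe u v

theorem exists_CH (n N : ℕ) (_hn : 2 ≤ n) (κ : ℝ) (hκ : κ ≤ 0) (S : Set (Euc N))
    (hS : IsSubmanifold n N S) (hclosed : IsClosed S) (_hconn : IsConnected S)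
    (hsc : SimplyConnectedSpace S)
    (hsec : ∀ p ∈ S, ∀ (f : Euc n → Euc N) (V : Set (Euc n)), IsLocalParam n N S p f V →
      ∀ u v : Euc n, secNum f 0 u v ≤ κ * gramDet f 0 u v) :
    ∃ (X : Type) (_ : MetricSpace X), Nonempty (CH n N (-κ) S X) := by
  obtain ⟨A, hJ, hA⟩ := CG.exists_emb hS hclosed hsec
  haveI := CG.locPathConnected A
  obtain ⟨m, h⟩ := hJ.exists_CH (by linarith) hA
  rw [Subtype.range_coe] at h
  exact ⟨S, m, h⟩

end Crest.Agent.R241
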