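import Crest.Agent.R241.CAtlas
import Crest.Agent.R241.CAsm

/-! Row 241, block C (helper76): `exists_CH` along the `RAtlas` route. -/

set_option autoImplicit false

open Set

namespace Crest.Agent.R241

open Crest.GeometryTopology.Submanifold

theorem exists_CH_atlas (n N : ℕ) (κ : ℝ) (hκ : κ ≤ 0) (S : Set (Euc N))
    (hS : IsSubmanifold n N S) (hclosed : IsClosed S) (hsc : SimplyConnectedSpace S)
    (hsec : ∀ p ∈ S, ∀ (f : Euc n → Euc N) (V : Set (Euc n)), IsLocalParam n N S p f V →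
      ∀ u v : Euc n, secNum f 0 u v ≤ κ * gramDet f 0 u v) :
    ∃ (X : Type) (_ : MetricSpace X), Nonempty (CH n N (-κ) S X) := by
  obtain ⟨A, hJ, hA⟩ := CG.exists_emb hS hclosed hsec
  have := CG.locPathConnected A
  obtain ⟨m, hm⟩ := hJ.exists_CH (neg_nonneg.2 hκ) hA
  rw [Subtype.range_coe] at hm
  exact ⟨S, m, hm⟩

end Crest.Agent.R241
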