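import Crest.Agent.R241.CExp
import Crest.Agent.R241.COde

/-! Row 241, block C: Gauss lemma and Rauch comparison. -/

set_option autoImplicit false

open Set Filter Topology
open scoped ContDiff InnerProductSpace

namespace Crest.Agent.R241.C

open Crest.GeometryTopology.Submanifold

open Alm

variable {n N : ℕ} {S : Set (Euc N)}

namespace Pre
variable {D : Pre n N S} {p : Euc N} {E : Euc n → Euc N} {l : ℝ}

theorem IsEx.gauss (h : D.IsEx p E) (v w : Euc n) :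
    ⟪fderiv ℝ E v v, fderiv ℝ E v w⟫_ℝ = ⟪v, w⟫_ℝ := by
  sorry

theorem IsEx.expand (h : D.IsEx p E) (hl : 0 ≤ l) (hc : D.Curv l) (v w : Euc n) :
    ‖w‖ ≤ ‖fderiv ℝ E v w‖ := by
  sorry

theorem IsEx.hess (h : D.IsEx p E) (hl : 0 ≤ l) (hc : D.Curv l) (v w : Euc n) :
    sn l ‖v‖ * ⟪v, w⟫_ℝ ^ 2 +
        ‖v‖ * cs l ‖v‖ * (‖v‖ ^ 2 * ‖fderiv ℝ E v w‖ ^ 2 - ⟪v, w⟫_ℝ ^ 2) ≤
      sn l ‖v‖ * ‖v‖ ^ 2 *
        ⟪fderiv ℝ E v w, fderiv ℝ E v w + fderiv ℝ (fderiv ℝ E) v w v⟫_ℝ := by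
  sorry

end Pre

end Crest.Agent.R241.C
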