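import Crest.Agent.R241.CJac
import Crest.Agent.R241.CCov

/-! Row 241, block C: the intrinsic distance `d x y = ‖log_x y‖`. -/

set_option autoImplicit false

open Set Filter Topology
open scoped ContDiff InnerProductSpace

namespace Crest.Agent.R241.C

open Crest.GeometryTopology.Submanifold

variable {n N : ℕ} {S : Set (Euc N)}

namespace Pre.Had
variable {D : Pre n N S} {l : ℝ} (H : D.Had l)

theorem expand {p : Euc N} (hp : p ∈ S) (v w : Euc n) : ‖w‖ ≤ ‖fderiv ℝ (H.E p) v w‖ :=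
  (H.ex p hp).expand H.hl H.curv v w

theorem lg_self {p : Euc N} (hp : p ∈ S) : H.lg p p = 0 := by
  have := H.lg_E p hp 0
  rwa [(H.ex p hp).zero] at this

/-- `Pre.lift_bound` for `L = lg p ∘ γ`. -/
theorem lg_sub_le {p : Euc N} (hp : p ∈ S) {γ γ' : ℝ → Euc N} {C : ℝ}
    (hm : ∀ s ∈ Icc (0 : ℝ) 1, γ s ∈ S) (hγ : ∀ s ∈ Icc (0 : ℝ) 1, HasDerivAt γ (γ' s) s)
    (hC : ∀ s ∈ Icc (0 : ℝ) 1, ‖γ' s‖ ≤ C) : ‖H.lg p (γ 1) - H.lg p (γ 0)‖ ≤ C := by
  have hc : ContinuousOn γ (Icc 0 1) := fun s hs => (hγ s hs).continuousAt.continuousWithinAt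
  have h := lift_bound (H.ex p hp).smooth (H.expand hp) zero_le_one hγ hC
    (L := fun s => H.lg p (γ s)) ((H.cont p hp).comp hc hm) fun s hs => H.E_lg p hp _ (hm s hs)
  simpa using h

theorem geo_geod {x : Euc N} (hx : x ∈ S) (y : Euc N) : D.Geod (H.geo x y) :=
  (H.ex x hx).geo _

theorem geo_zero {x : Euc N} (hx : x ∈ S) (y : Euc N) : H.geo x y 0 = x := by
  rw [Had.geo, zero_smul, (H.ex x hx).zero]

theorem geo_one {x y : Euc N} (hx : x ∈ S) (hy : y ∈ S) : H.geo x y 1 = y := by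
  rw [Had.geo, one_smul, H.E_lg x hx y hy]

theorem geo_speed {x : Euc N} (hx : x ∈ S) (y : Euc N) (t : ℝ) :
    ‖deriv (H.geo x y) t‖ = H.d x y := by
  rw [(H.geo_geod hx y).speed t]
  have h := ((H.ex x hx).hasDerivAt (H.lg x y) 0).deriv
  rw [zero_smul] at h
  rw [show H.geo x y = fun s : ℝ => H.E x (s • H.lg x y) from rfl, h, (H.ex x hx).iso, Had.d]

/-- `IsEx.geod_eq` for `u ↦ γ ((t - s) u + s)`. -/
theorem d_geod {γ : ℝ → Euc N} (hγ : D.Geod γ) (s t : ℝ) :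
    H.d (γ s) (γ t) = |s - t| * ‖deriv γ 0‖ := by
  have hs := hγ.mem s
  obtain ⟨w, hw, h⟩ := (H.ex (γ s) hs).geod_eq (hγ.affine (t - s) s) (by simp)
  have h1 := h 1
  rw [mul_one, sub_add_cancel, one_smul] at h1
  rw [h1, Had.d, H.lg_E _ hs, hw, hγ.deriv_affine, norm_smul, hγ.speed, Real.norm_eq_abs,
    abs_sub_comm]

theorem d_E {p : Euc N} (hp : p ∈ S) (w : Euc n) : H.d p (H.E p w) = ‖w‖ := by
  rw [Had.d, H.lg_E p hp]

theorem lg_sub_le_d {p x y : Euc N} (hp : p ∈ S) (hx : x ∈ S) (hy : y ∈ S) :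
    ‖H.lg p x - H.lg p y‖ ≤ H.d x y := by
  have hg := H.geo_geod hx y
  have h := H.lg_sub_le hp (γ := H.geo x y) (γ' := deriv (H.geo x y)) (C := H.d x y)
    (fun s _ => hg.mem s) (fun s _ => hg.hasDerivAt s) fun s _ => (H.geo_speed hx y s).le
  rwa [H.geo_one hx hy, H.geo_zero hx, norm_sub_rev] at h

theorem d_self {x : Euc N} (hx : x ∈ S) : H.d x x = 0 := by
  rw [Had.d, H.lg_self hx, norm_zero]

theorem d_comm {x y : Euc N} (hx : x ∈ S) (hy : y ∈ S) : H.d x y = H.d y x := by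
  have h := H.d_geod (H.geo_geod hx y) 1 0
  rw [H.geo_one hx hy, H.geo_zero hx, H.geo_speed hx] at h
  rw [h]
  simp

theorem d_triangle {x y z : Euc N} (hx : x ∈ S) (hy : y ∈ S) (hz : z ∈ S) :
    H.d x z ≤ H.d x y + H.d y z := by
  have h := H.lg_sub_le_d hx hz hy
  rw [H.d_comm hz hy] at h
  have h1 : ‖H.lg x z‖ ≤ ‖H.lg x y‖ + ‖H.lg x z - H.lg x y‖ := norm_le_insert' _ _
  rw [Had.d, Had.d]
  linarith

theorem norm_sub_le_d {x y : Euc N} (hx : x ∈ S) (hy : y ∈ S) : ‖x - y‖ ≤ H.d x y := by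
  have hg := H.geo_geod hx y
  have h := norm_image_sub_le_of_norm_deriv_le_segment_01' (f := H.geo x y)
    (f' := deriv (H.geo x y)) (C := H.d x y)
    (fun s _ => (hg.hasDerivAt s).hasDerivWithinAt) fun s _ => (H.geo_speed hx y s).le
  rwa [H.geo_one hx hy, H.geo_zero hx, norm_sub_rev] at h

theorem d_geo {x y : Euc N} (hx : x ∈ S) (s t : ℝ) :
    H.d (H.geo x y s) (H.geo x y t) = |s - t| * H.d x y := by
  rw [H.d_geod (H.geo_geod hx y), H.geo_speed hx]

/-- `lg o` is continuous on `S` (`continuousOn_iff'`). -/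
theorem opn {o : Euc N} (ho : o ∈ S) {W : Set (Euc n)} (hW : IsOpen W) :
    ∃ U : Set (Euc N), IsOpen U ∧ H.E o '' W = S ∩ U := by
  obtain ⟨U, hU, h⟩ := continuousOn_iff'.1 (H.cont o ho) W hW
  refine ⟨U, hU, ?_⟩
  rw [inter_comm, ← h]
  ext x
  constructor
  · rintro ⟨w, hw, rfl⟩
    exact ⟨by rw [mem_preimage, H.lg_E o ho]; exact hw, (H.ex o ho).mem w⟩
  · rintro ⟨h1, h2⟩
    exact ⟨H.lg o x, h1, H.E_lg o ho x h2⟩

/-- upper bound: `lg_sub_le` along `s ↦ E o (q.1 + s (q.2 - q.1))` with base point `E o q.1`, continuity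
of `fderiv (E o)`; lower bound: `norm_sub_le_d` and `HasStrictFDerivAt`. -/
theorem inf {o : Euc N} (ho : o ∈ S) (y : Euc n) {ε : ℝ} (hε : 0 < ε) :
    ∀ᶠ q : Euc n × Euc n in 𝓝 (y, y),
      |H.d (H.E o q.1) (H.E o q.2) - ‖fderiv ℝ (H.E o) y (q.1 - q.2)‖| ≤ ε * ‖q.1 - q.2‖ := by
  have hE := H.ex o ho
  have hs : ContDiff ℝ 1 (H.E o) := hE.smooth.of_le (by exact_mod_cast le_top)
  have hd : Differentiable ℝ (H.E o) := hs.differentiable one_ne_zero
  have hst : HasStrictFDerivAt (H.E o) (fderiv ℝ (H.E o) y) y :=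
    hs.contDiffAt.hasStrictFDerivAt one_ne_zero
  have h1 := hst.isLittleO.bound hε
  have hc : Continuous (fderiv ℝ (H.E o)) := hs.continuous_fderiv one_ne_zero
  obtain ⟨δ, hδ, hb⟩ := Metric.continuousAt_iff.1 (hc.continuousAt (x := y)) ε hε
  have h2 : ∀ᶠ q : Euc n × Euc n in 𝓝 (y, y), q.1 ∈ Metric.ball y δ ∧ q.2 ∈ Metric.ball y δ :=
    prod_mem_nhds (Metric.ball_mem_nhds y hδ) (Metric.ball_mem_nhds y hδ)
  filter_upwards [h1, h2] with q hq1 hq2
  rw [abs_le]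
  constructor
  · have a1 := H.norm_sub_le_d (hE.mem q.1) (hE.mem q.2)
    have a2 := norm_sub_norm_le (fderiv ℝ (H.E o) y (q.1 - q.2)) (H.E o q.1 - H.E o q.2)
    rw [norm_sub_rev (fderiv ℝ (H.E o) y (q.1 - q.2))] at a2
    linarith
  · have key := H.lg_sub_le (hE.mem q.1) (γ := fun s => H.E o (q.1 + s • (q.2 - q.1)))
      (γ' := fun s => fderiv ℝ (H.E o) (q.1 + s • (q.2 - q.1)) (q.2 - q.1))
      (C := ‖fderiv ℝ (H.E o) y (q.1 - q.2)‖ + ε * ‖q.1 - q.2‖) (fun s _ => hE.mem _)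
      (fun s _ => by
        have hl : HasDerivAt (fun s : ℝ => q.1 + s • (q.2 - q.1)) (q.2 - q.1) s := by
          simpa using ((hasDerivAt_id s).smul_const (q.2 - q.1)).const_add q.1
        exact (hd _).hasFDerivAt.comp_hasDerivAt s hl)
      (fun s hs => by
        have hz : q.1 + s • (q.2 - q.1) ∈ Metric.ball y δ :=
          (convex_ball y δ).add_smul_sub_mem hq2.1 hq2.2 hs
        have b1 := (hb hz).le
        rw [dist_eq_norm] at b1
        have e : fderiv ℝ (H.E o) (q.1 + s • (q.2 - q.1)) (q.2 - q.1) =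
            -(fderiv ℝ (H.E o) y (q.1 - q.2) +
              (fderiv ℝ (H.E o) (q.1 + s • (q.2 - q.1)) - fderiv ℝ (H.E o) y) (q.1 - q.2)) := by
          rw [sub_apply, add_sub_cancel, ← map_neg, neg_sub]
        rw [e, norm_neg]
        refine (norm_add_le _ _).trans (add_le_add le_rfl ?_)
        exact (ContinuousLinearMap.le_opNorm _ _).trans
          (mul_le_mul_of_nonneg_right b1 (norm_nonneg _)))
    simp only [one_smul, zero_smul, add_zero, add_sub_cancel] at key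
    rw [H.lg_self (hE.mem q.1), sub_zero] at key
    rw [Had.d]
    linarith

end Pre.Had

end Crest.Agent.R241.C
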