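import Crest.Agent.R241.CChart

/-! Row 241, block C: the smooth field of tangent projections.
`projR A = A (A†A)⁻¹ A†` (`ContinuousLinearMap.inverse` or `Ring.inverse`; smooth at injective `A` by
`contDiffAt_ringInverse`, adjoint is a continuous linear map over `ℝ`).
`exists_pre`: `exists_contMDiffMap_forall_mem_convex_of_local` (model `𝓘(ℝ, Euc N)`) with the convex sets
`t x = {A | (∀ u v, ⟪A u, v⟫ = ⟪u, A v⟫) ∧ ∀ p (c : Chart n N S p), ∀ y ∈ c.V, c.f y = x → A = projR (fderiv ℝ c.f y)}`;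
local sections: `0` off the closed set `S`; `x ↦ projR (fderiv c.f (c.r x))` on `c.U ∩ c.r ⁻¹' c.V`
(`projR_unique` + `Chart.range_eq`). -/

set_option autoImplicit false

open Set Filter Topology
open scoped ContDiff InnerProductSpace

namespace Crest.Agent.R241.C

open Crest.GeometryTopology.Submanifold

variable {n N : ℕ} {S : Set (Euc N)}

/-- orthogonal projection on the range of an injective map. -/
noncomputable def projR (A : Euc n →L[ℝ] Euc N) : Euc N →L[ℝ] Euc N :=
  A ∘L Ring.inverse (ContinuousLinearMap.adjoint A ∘L A) ∘L ContinuousLinearMap.adjoint A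

theorem isUnit_adj_comp {A : Euc n →L[ℝ] Euc N} (hA : Function.Injective A) :
    IsUnit (ContinuousLinearMap.adjoint A ∘L A) := by
  rw [ContinuousLinearMap.isUnit_iff_bijective]
  have hi : Function.Injective (ContinuousLinearMap.adjoint A ∘L A) := by
    rw [injective_iff_map_eq_zero]
    intro a ha
    have h1 : ⟪A a, A a⟫_ℝ = 0 := by
      rw [← ContinuousLinearMap.adjoint_inner_left, ← ContinuousLinearMap.comp_apply, ha,
        inner_zero_left]
    exact hA (by rw [inner_self_eq_zero.1 h1, map_zero])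
  exact ⟨hi, (LinearMap.injective_iff_surjective
    (f := ((ContinuousLinearMap.adjoint A ∘L A : Euc n →L[ℝ] Euc n) : Euc n →ₗ[ℝ] Euc n))).1 hi⟩

theorem contDiffAt_projR {A : Euc n →L[ℝ] Euc N} (hA : Function.Injective A) :
    ContDiffAt ℝ ∞ (projR : (Euc n →L[ℝ] Euc N) → Euc N →L[ℝ] Euc N) A := by
  have h1 : ContDiff ℝ ∞ fun B : Euc n →L[ℝ] Euc N => ContinuousLinearMap.adjoint B :=
    IsBoundedLinearMap.contDiff
      { map_add := fun B C => map_add _ B C
        map_smul := fun c B => by simp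
        bound := ⟨1, one_pos, fun B => by simp⟩ }
  obtain ⟨u, hu⟩ := isUnit_adj_comp hA
  have h2 : ContDiffAt ℝ ∞ (Ring.inverse : (Euc n →L[ℝ] Euc n) → Euc n →L[ℝ] Euc n)
      (ContinuousLinearMap.adjoint A ∘L A) := hu ▸ contDiffAt_ringInverse ℝ u
  have h3 : ContDiffAt ℝ ∞
      (fun B : Euc n →L[ℝ] Euc N => Ring.inverse (ContinuousLinearMap.adjoint B ∘L B)) A :=
    h2.comp (f := fun B : Euc n →L[ℝ] Euc N => ContinuousLinearMap.adjoint B ∘L B) A
      (h1.contDiffAt.clm_comp contDiffAt_id)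
  exact contDiffAt_id.clm_comp (h3.clm_comp h1.contDiffAt)

theorem projR_symm (A : Euc n →L[ℝ] Euc N) (u v : Euc N) :
    ⟪projR A u, v⟫_ℝ = ⟪u, projR A v⟫_ℝ := by
  have h1 : ContinuousLinearMap.adjoint (Ring.inverse (ContinuousLinearMap.adjoint A ∘L A)) =
      Ring.inverse (ContinuousLinearMap.adjoint A ∘L A) := by
    rw [← ContinuousLinearMap.star_eq_adjoint, ← Ring.inverse_star,
      ContinuousLinearMap.star_eq_adjoint, ContinuousLinearMap.adjoint_comp,
      ContinuousLinearMap.adjoint_adjoint]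
  have h2 : ContinuousLinearMap.adjoint (projR A) = projR A := by
    rw [projR, ContinuousLinearMap.adjoint_comp, ContinuousLinearMap.adjoint_comp, h1,
      ContinuousLinearMap.adjoint_adjoint, ContinuousLinearMap.comp_assoc]
  rw [← ContinuousLinearMap.adjoint_inner_right, h2]

theorem projR_apply {A : Euc n →L[ℝ] Euc N} (hA : Function.Injective A) (a : Euc n) :
    projR A (A a) = A a := by
  have h := congrArg (fun B : Euc n →L[ℝ] Euc n => A (B a))
    (Ring.inverse_mul_cancel _ (isUnit_adj_comp hA))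
  exact h

theorem projR_fix {A : Euc n →L[ℝ] Euc N} (hA : Function.Injective A) (u : Euc N) :
    projR A u = u ↔ ∃ a, A a = u := by
  refine ⟨fun h => ⟨_, h⟩, ?_⟩
  rintro ⟨a, rfl⟩
  exact projR_apply hA a

theorem projR_unique {A B : Euc n →L[ℝ] Euc N} (hA : Function.Injective A)
    (hB : Function.Injective B) (h : ∀ u, (∃ a, A a = u) ↔ ∃ a, B a = u) : projR A = projR B := by
  have h1 : ∀ u, projR B (projR A u) = projR A u := fun u =>
    (projR_fix hB _).2 ((h _).1 ⟨_, rfl⟩)
  have h2 : ∀ u, projR A (projR B u) = projR B u := fun u =>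
    (projR_fix hA _).2 ((h _).2 ⟨_, rfl⟩)
  ext1 u
  refine ext_inner_right ℝ fun v => ?_
  rw [← h1 u, projR_symm B, projR_symm A, h2, projR_symm B]

theorem exists_pre (hS : IsSubmanifold n N S) (hc : IsClosed S) : Nonempty (Pre n N S) := by
  have hch : ∀ p ∈ S, Nonempty (Chart n N S p) := by
    intro p hp
    obtain ⟨f, V₀, h⟩ := hS p hp
    obtain ⟨c, -, -⟩ := exists_chart h
    exact ⟨c⟩
  set t : Euc N → Set (Euc N →L[ℝ] Euc N) := fun x =>
    {A | (∀ u v, ⟪A u, v⟫_ℝ = ⟪u, A v⟫_ℝ) ∧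
      ∀ (p : Euc N) (c : Chart n N S p), ∀ y ∈ c.V, c.f y = x → A = projR (fderiv ℝ c.f y)} with ht
  have hconv : ∀ x, Convex ℝ (t x) := by
    intro x A hA B hB a b _ _ hab
    refine ⟨fun u v => ?_, fun p c y hy hx => ?_⟩
    · simp only [add_apply, smul_apply, inner_add_left,
        inner_add_right, real_inner_smul_left, real_inner_smul_right, hA.1 u v, hB.1 u v]
    · rw [hA.2 p c y hy hx, hB.2 p c y hy hx]
      exact Convex.combo_self hab _
  have hloc : ∀ x : Euc N, ∃ U ∈ 𝓝 x, ∃ g : Euc N → Euc N →L[ℝ] Euc N,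
      ContDiffOn ℝ ∞ g U ∧ ∀ y ∈ U, g y ∈ t y := by
    intro x
    by_cases hx : x ∈ S
    · obtain ⟨c⟩ := hch x hx
      have hop : IsOpen (c.U ∩ c.r ⁻¹' c.V) :=
        c.sr.continuousOn.isOpen_inter_preimage c.oU c.oV
      refine ⟨c.U ∩ c.r ⁻¹' c.V, hop.mem_nhds ⟨c.mem, c.r_mem x hx c.mem⟩,
        fun z => projR (fderiv ℝ c.f (c.r z)), fun z hz => ?_, fun z hz => ⟨?_, ?_⟩⟩
      · have h1 : ContDiffAt ℝ ∞ (fderiv ℝ c.f) (c.r z) :=
          (c.contDiffAt_f hz.2).fderiv_right (by simp)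
        exact ((contDiffAt_projR (c.injective_fderiv hz.2)).comp z
          (h1.comp z (c.contDiffAt_r hz.1))).contDiffWithinAt
      · exact projR_symm _
      · intro p c' y hy hyz
        have hzS : z ∈ S := hyz ▸ (c'.f_mem y hy).1
        refine projR_unique (c.injective_fderiv hz.2) (c'.injective_fderiv hy) ?_
        exact c.range_eq c' hz.2 hy (by rw [c.f_r z hzS hz.1, hyz])
    · refine ⟨Sᶜ, hc.isOpen_compl.mem_nhds hx, fun _ => 0, contDiffOn_const, fun z hz => ⟨?_, ?_⟩⟩
      · intro u v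
        simp
      · intro p c y hy hyz
        exact absurd (hyz ▸ (c.f_mem y hy).1) hz
  obtain ⟨g, hg⟩ := exists_contMDiffMap_forall_mem_convex_of_local (n := ⊤)
    (modelWithCornersSelf ℝ (Euc N)) hconv (fun x => by
      obtain ⟨U, hU, g, h1, h2⟩ := hloc x
      exact ⟨U, hU, g, h1.contMDiffOn, h2⟩)
  have htan : ∀ (p : Euc N) (c : Chart n N S p), ∀ y ∈ c.V,
      g (c.f y) = projR (fderiv ℝ c.f y) := fun p c y hy => (hg (c.f y)).2 p c y hy rfl
  refine ⟨⟨g, g.contMDiff.contDiff, fun x => (hg x).1, fun x hx u => ?_, hc, hch,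
    fun p c y hy u => ?_⟩⟩
  · obtain ⟨c⟩ := hch x hx
    have hy := c.r_mem x hx c.mem
    have e := htan x c _ hy
    rw [c.f_r x hx c.mem] at e
    rw [e]
    exact (projR_fix (c.injective_fderiv hy) _).2 ⟨_, rfl⟩
  · rw [htan p c y hy]
    exact projR_fix (c.injective_fderiv hy) u

end Crest.Agent.R241.C
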