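import Crest.Agent.R244.Exp
import Crest.Agent.R106.SFlow

/-! Row 241, block C: the exponential map of an `R244.RAtlas` is smooth (port of `R226/GSm`). -/

set_option autoImplicit false

open Set Filter Metric
open scoped ContDiff Topology InnerProductSpace

namespace Crest.Agent.R241.Sm

open Crest.Agent.R244 Crest.Agent.R244.RAtlas
open Crest.GeometryTopology.CoordMetric Crest.GeometryTopology.ChartCurvature

/-- smooth local flow of a smooth vector field. -/
theorem local_flow_smooth {F : Type} [NormedAddCommGroup F] [NormedSpace ℝ F]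
    [FiniteDimensional ℝ F] {f : F → F} {O : Set F} (hO : IsOpen O) (hf : ContDiffOn ℝ ∞ f O)
    {z₀ : F} (hz₀ : z₀ ∈ O) :
    ∃ ε > 0, ∃ U : Set F, IsOpen U ∧ z₀ ∈ U ∧ ∃ φ : ℝ × F → F, ContDiff ℝ ∞ φ ∧
      ∀ z ∈ U, φ (0, z) = z ∧ ∀ s ∈ Ioo (-ε) ε,
        φ (s, z) ∈ O ∧ HasDerivAt (fun t => φ (t, z)) (f (φ (s, z))) s := by
  obtain ⟨r, hr, hrO⟩ := Metric.nhds_basis_closedBall.mem_iff.mp (hO.mem_nhds hz₀)
  let χ : ContDiffBump z₀ := ⟨r / 2, r, by linarith, by linarith⟩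
  have hts : tsupport χ = closedBall z₀ r := χ.tsupport_eq
  have hb : ContDiff ℝ ∞ fun z => χ z • f z := by
    refine contDiff_iff_contDiffAt.2 fun z => ?_
    by_cases hz : z ∈ O
    · exact χ.contDiff.contDiffAt.smul (hf.contDiffAt (hO.mem_nhds hz))
    · have hz' : z ∉ tsupport χ := fun h => hz (hrO (hts ▸ h))
      refine (contDiffAt_const (c := (0 : F))).congr_of_eventuallyEq ?_
      filter_upwards [notMem_tsupport_iff_eventuallyEq.mp hz'] with w hw
      simp [hw]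
  have hcs : HasCompactSupport fun z => χ z • f z := χ.hasCompactSupport.smul_right
  obtain ⟨C, hC⟩ := hb.continuous.bounded_above_of_compact_support hcs
  obtain ⟨φ, hφ, h0, hd, -⟩ := Crest.Agent.R106.smooth_flow hb hC
  have hop : IsOpen (φ ⁻¹' ball z₀ (r / 2)) := isOpen_ball.preimage hφ.continuous
  have hmem : ((0 : ℝ), z₀) ∈ φ ⁻¹' ball z₀ (r / 2) := by
    rw [mem_preimage, h0]
    exact mem_ball_self (by linarith)
  obtain ⟨ε, hε, hsub⟩ := Metric.isOpen_iff.mp hop _ hmem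
  refine ⟨ε, hε, ball z₀ ε, isOpen_ball, mem_ball_self hε, φ, hφ, fun z hz => ⟨h0 z, ?_⟩⟩
  intro s hs
  have h1 : φ (s, z) ∈ ball z₀ (r / 2) := by
    apply hsub
    rw [← ball_prod_same]
    refine ⟨?_, hz⟩
    rw [Real.ball_eq_Ioo]
    simpa using hs
  refine ⟨hrO (ball_subset_closedBall (ball_subset_ball (by linarith) h1)), ?_⟩
  have h2 : χ (φ (s, z)) = 1 := χ.one_of_mem_closedBall (ball_subset_closedBall h1)
  have h3 := hd s z
  rwa [h2, one_smul] at h3

variable {n : ℕ} {M : Type} [TopologicalSpace M]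
variable {Q : Type} [NormedAddCommGroup Q] [NormedSpace ℝ Q]

/-- a family of curves depends smoothly on the parameter at time `s`, read in the chart `j`. -/
def FamS (A : RAtlas n M) (gam : Q → ℝ → M) (q₀ : Q) (j : A.ι) (s : ℝ) : Prop :=
  gam q₀ s ∈ (A.chart j).source ∧ ContinuousAt (fun q => gam q s) q₀ ∧
    ContDiffAt ℝ ∞ (fun q => jet (A.crd j (gam q)) s) q₀

theorem FamS.change {A : RAtlas n M} {gam : Q → ℝ → M} (hg : ∀ q, A.Geo (gam q)) {q₀ : Q}
    {j k : A.ι} {s : ℝ} (h : FamS A gam q₀ j s) (hk : gam q₀ s ∈ (A.chart k).source) :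
    FamS A gam q₀ k s := by
  obtain ⟨hj, hc, hL⟩ := h
  refine ⟨hk, hc, ?_⟩
  have hT : ContDiffAt ℝ ∞ (tmap (A.tr j k)) (jet (A.crd j (gam q₀)) s) :=
    A.contDiffAt_tmap hj hk _
  refine (hT.comp q₀ hL).congr_of_eventuallyEq ?_
  have e1 : ∀ᶠ v in 𝓝 q₀, gam v s ∈ (A.chart j).source :=
    hc.eventually ((A.chart j).open_source.mem_nhds hj)
  have e2 : ∀ᶠ v in 𝓝 q₀, gam v s ∈ (A.chart k).source :=
    hc.eventually ((A.chart k).open_source.mem_nhds hk)
  filter_upwards [e1, e2] with v h1 h2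
  have hd : DifferentiableAt ℝ (A.crd j (gam v)) s :=
    (jet_fst ((hg v).2 s (mem_univ _) j h1)).1.differentiableAt
  exact A.jet_tr (hg v).continuous.continuousAt h1 h2 hd

theorem famS_step [T2Space M] {A : RAtlas n M} {gam : Q → ℝ → M} (hg : ∀ q, A.Geo (gam q))
    (q₀ : Q) {j : A.ι} {t : ℝ} (hj : gam q₀ t ∈ (A.chart j).source) :
    ∃ ε > 0, ∀ᶠ s₀ in 𝓝 t, FamS A gam q₀ j s₀ →
      ∀ s ∈ Ioo (s₀ - ε) (s₀ + ε), FamS A gam q₀ j s := by
  have hO : IsOpen ((A.chart j).target ×ˢ (univ : Set (E n))) :=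
    (A.chart j).open_target.prod isOpen_univ
  have hf : ContDiffOn ℝ ∞ (spray (A.G j)) ((A.chart j).target ×ˢ (univ : Set (E n))) :=
    fun z hz => (contDiffAt_spray (A.riem j) hz.1).contDiffWithinAt
  have hz₀ : jet (A.crd j (gam q₀)) t ∈ (A.chart j).target ×ˢ (univ : Set (E n)) :=
    ⟨(A.chart j).map_source hj, mem_univ _⟩
  obtain ⟨ε, hε, U, hU, hzU, φ, hφc, hφ⟩ := local_flow_smooth hO hf hz₀
  refine ⟨ε, hε, ?_⟩
  have hcZ : ContinuousAt (jet (A.crd j (gam q₀))) t :=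
    ((hg q₀).2 t (mem_univ _) j hj).continuousAt
  filter_upwards [hcZ.eventually (hU.mem_nhds hzU)] with s₀ hs₀U hP
  obtain ⟨hj₀, hc₀, hL⟩ := hP
  have key : ∀ᶠ v in 𝓝 q₀, ∀ s ∈ Ioo (s₀ - ε) (s₀ + ε),
      gam v s = (A.chart j).symm (φ (s - s₀, jet (A.crd j (gam v)) s₀)).1 ∧
      jet (A.crd j (gam v)) s = φ (s - s₀, jet (A.crd j (gam v)) s₀) := by
    have e1 : ∀ᶠ v in 𝓝 q₀, gam v s₀ ∈ (A.chart j).source :=
      hc₀.eventually ((A.chart j).open_source.mem_nhds hj₀)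
    have e2 : ∀ᶠ v in 𝓝 q₀, jet (A.crd j (gam v)) s₀ ∈ U :=
      hL.continuousAt.eventually (hU.mem_nhds hs₀U)
    filter_upwards [e1, e2] with v h1 h2
    obtain ⟨hφ0, hφs⟩ := hφ _ h2
    set z := jet (A.crd j (gam v)) s₀ with hz
    have hsol : ∀ s ∈ Ioo (s₀ - ε) (s₀ + ε), (φ (s - s₀, z)).1 ∈ (A.chart j).target ∧
        HasDerivAt (fun s => φ (s - s₀, z)) (spray (A.G j) (φ (s - s₀, z))) s := by
      intro s hs
      have hs' : s - s₀ ∈ Ioo (-ε) ε := ⟨by linarith [hs.1], by linarith [hs.2]⟩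
      obtain ⟨h3, h4⟩ := hφs _ hs'
      exact ⟨h3.1, h4.comp_sub_const s s₀⟩
    obtain ⟨hgeo, hjet⟩ := geoOn_symm (A := A) j (z := fun s => φ (s - s₀, z)) isOpen_Ioo hsol
    have hs₀ : s₀ ∈ Ioo (s₀ - ε) (s₀ + ε) := ⟨by linarith, by linarith⟩
    have hjet0 := hjet s₀ hs₀
    simp only [sub_self, hφ0] at hjet0
    have heq : EqOn (gam v) (fun s => (A.chart j).symm (φ (s - s₀, z)).1)
        (Ioo (s₀ - ε) (s₀ + ε)) := by
      refine GeoOn.unique ((hg v).mono (subset_univ _)) hgeo isOpen_Ioo isPreconnected_Ioo hs₀ h1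
        ?_ ?_
      · simp only [sub_self, hφ0]
        exact ((A.chart j).left_inv h1).symm
      · exact (congrArg Prod.snd hjet0).symm
    intro s hs
    refine ⟨heq hs, ?_⟩
    rw [← hjet s hs]
    have hev : A.crd j (gam v) =ᶠ[𝓝 s]
        A.crd j (fun s => (A.chart j).symm (φ (s - s₀, z)).1) := by
      filter_upwards [isOpen_Ioo.mem_nhds hs] with s' hs'
      simp only [crd, heq hs']
    simp only [jet, hev.eq_of_nhds, hev.deriv_eq]
  obtain ⟨-, hφs⟩ := hφ _ hs₀U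
  intro s hs
  have hs' : s - s₀ ∈ Ioo (-ε) ε := ⟨by linarith [hs.1], by linarith [hs.2]⟩
  have hsm : ContDiffAt ℝ ∞ (fun v => φ (s - s₀, jet (A.crd j (gam v)) s₀)) q₀ :=
    hφc.contDiffAt.comp q₀ (contDiffAt_const.prodMk hL)
  have hmem : (φ (s - s₀, jet (A.crd j (gam q₀)) s₀)).1 ∈ (A.chart j).target :=
    (hφs _ hs').1.1
  refine ⟨?_, ?_, ?_⟩
  · rw [(key.self_of_nhds s hs).1]
    exact (A.chart j).map_target hmem
  · have h1 : ContinuousAt
        (fun v => (A.chart j).symm (φ (s - s₀, jet (A.crd j (gam v)) s₀)).1) q₀ :=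
      ContinuousAt.comp (f := fun v => (φ (s - s₀, jet (A.crd j (gam v)) s₀)).1)
        ((A.chart j).continuousAt_symm hmem) hsm.continuousAt.fst
    refine h1.congr ?_
    filter_upwards [key] with v hv
    exact (hv s hs).1.symm
  · refine hsm.congr_of_eventuallyEq ?_
    filter_upwards [key] with v hv
    exact (hv s hs).2

theorem famS_all [T2Space M] {A : RAtlas n M} {gam : Q → ℝ → M} (hg : ∀ q, A.Geo (gam q))
    {q₀ : Q} {i : A.ι} (h0 : FamS A gam q₀ i 0) (s : ℝ) {j : A.ι}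
    (hj : gam q₀ s ∈ (A.chart j).source) : FamS A gam q₀ j s := by
  have hclopen : IsClopen {s | ∃ j, FamS A gam q₀ j s} := by
    constructor
    · refine isClosed_iff_frequently.2 fun t ht => ?_
      obtain ⟨k, hk⟩ := A.cover (gam q₀ t)
      obtain ⟨ε, hε, hev⟩ := famS_step hg q₀ hk
      have e1 : ∀ᶠ s in 𝓝 t, gam q₀ s ∈ (A.chart k).source :=
        (hg q₀).continuous.continuousAt.eventually ((A.chart k).open_source.mem_nhds hk)
      have e2 : ∀ᶠ s in 𝓝 t, s ∈ Ioo (t - ε) (t + ε) :=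
        isOpen_Ioo.mem_nhds ⟨by linarith, by linarith⟩
      obtain ⟨s₀, ⟨l, hl⟩, h1, h2, h3⟩ := (ht.and_eventually (hev.and (e1.and e2))).exists
      exact ⟨k, h1 (hl.change hg h2) t ⟨by linarith [h3.2], by linarith [h3.1]⟩⟩
    · refine isOpen_iff_mem_nhds.2 fun t ⟨k, hk⟩ => ?_
      obtain ⟨ε, hε, hev⟩ := famS_step hg q₀ hk.1
      have h1 := hev.self_of_nhds hk
      filter_upwards [isOpen_Ioo.mem_nhds (show t ∈ Ioo (t - ε) (t + ε) from
        ⟨by linarith, by linarith⟩)] with s hs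
      exact ⟨k, h1 s hs⟩
  have huniv := hclopen.eq_univ ⟨0, i, h0⟩
  obtain ⟨k, hk⟩ : s ∈ {s | ∃ j, FamS A gam q₀ j s} := huniv ▸ mem_univ s
  exact hk.change hg hj

/-- the exponential map is smooth in every chart. -/
theorem isExp_contDiffAt [T2Space M] {A : RAtlas n M} {i : A.ι} {x : M} {p : E n → M}
    (hp : A.IsExp i x p) (v : E n) {j : A.ι} (hj : p v ∈ (A.chart j).source) :
    ContDiffAt ℝ ∞ (fun w => A.chart j (p w)) v := by
  have hZ0 : (fun w : E n => jet (A.crd i fun s : ℝ => p (s • w)) 0) = fun w => (A.chart i x, w) := by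
    funext w
    simp only [jet, hp.vel w]
    simp only [crd, zero_smul, hp.zero]
  have h0 : FamS A (fun (w : E n) (s : ℝ) => p (s • w)) v i 0 := by
    refine ⟨by simpa [hp.zero] using hp.mem, ?_, ?_⟩
    · simp only [zero_smul]
      exact continuousAt_const
    · rw [hZ0]
      exact contDiffAt_const.prodMk contDiffAt_id
  have h1 := (famS_all (gam := fun (w : E n) (s : ℝ) => p (s • w)) hp.geo h0 1 (j := j)
    (by simpa using hj)).2.2.fst
  simpa only [jet, crd, one_smul] using h1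

end Crest.Agent.R241.Sm
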