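import Crest.Agent.R241.MConv

/-! Row 241 (Cartan-Hadamard): block K2/K3: conversion between the currents of the Prelude and chains. -/

set_option autoImplicit false

open MeasureTheory Set Filter Topology
open scoped ENNReal NNReal Matrix ContDiff

namespace Crest.Agent.R241

open Crest.GeometryTopology.Submanifold

universe u v

open Crest.GeometryTopology.MetricCurrent

variable {X : Type u} [MetricSpace X] [MeasurableSpace X] [BorelSpace X] [ProperSpace X] {k : ℕ}

/-- uses Kirchheim's theorem (`MDField`, block K1) and near-equality in Hadamard's inequality for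
tuples of distance functions. -/
theorem chain_of_current (hX : IsCATZero X) (T : Functional X k) (hc : IsCurrent T)
    (hr : IsIntegerRectifiable T) :
    ∃ C : Chain X k, (∀ f π, IsTestPair f π → C.act f π = T f π) ∧
      C.mass ≤ Crest.GeometryTopology.MetricCurrent.mass T := by
  obtain ⟨C, -, h⟩ := Cv.exists_chain (quad_of_cat hX) hc hr isClosed_univ fun f π h h0 => by
    have e : f = (0 : ℝ) • f := funext fun x => by simp [h0 x trivial]
    rw [e, hc.smul_left 0 f π h, zero_mul]
  exact ⟨C, h⟩

theorem current_of_chain [Nonempty X] (hX : IsCATZero X) (C : Chain X k) {K : Set X}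
    (hC : C.In K) :
    ∃ S : Functional X k, IsCurrent S ∧ IsIntegerRectifiable S ∧
      Crest.GeometryTopology.MetricCurrent.mass S ≤ C.mass ∧ IsSupportedIn K S ∧
      ∀ f π, IsTestPair f π → S f π = C.act f π := by
  obtain ⟨S, h1, h2, h3, h4, h5⟩ := Cv.exists_current (quad_of_cat hX) C
  exact ⟨S, h1, h2, h4, h5 K hC, h3⟩

end Crest.Agent.R241
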