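import Crest.Agent.R241.DDefs

/-! Row 241, block D (helper74): the shadow lemma (sharp directional perimeter bound). -/

set_option autoImplicit false

open MeasureTheory Set Filter Topology Metric
open scoped ENNReal NNReal Matrix ContDiff

namespace Crest.Agent.R241.D

open Crest.GeometryTopology.Submanifold

/-- Lipschitz maps and `μHE` (`LipschitzOnWith.hausdorffMeasure_image_le`,
`euclideanHausdorffMeasure_def`). -/
theorem muHE_image_le {X Y : Type*} [MetricSpace X] [MeasurableSpace X] [BorelSpace X]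
    [MetricSpace Y] [MeasurableSpace Y] [BorelSpace Y] {f : X → Y} {c : ℝ≥0} {s : Set X}
    (hf : LipschitzOnWith c f s) (d : ℕ) :
    (μHE[d] : Measure Y) (f '' s) ≤ (c : ℝ≥0∞) ^ d * (μHE[d] : Measure X) s := by
  have h := hf.hausdorffMeasure_image_le (Nat.cast_nonneg (α := ℝ) d)
  rw [ENNReal.rpow_natCast] at h
  simp only [Measure.euclideanHausdorffMeasure_def, Measure.smul_apply, ENNReal.smul_def,
    smul_eq_mul]
  rw [mul_left_comm]
  exact mul_le_mul_right h _

/-- a segment joining `W` to its complement meets the frontier (preconnectedness of the image of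
`Icc 0 1`). -/
theorem mem_shadow_frontier {V : Type*} [NormedAddCommGroup V] [NormedSpace ℝ V] {W : Set V}
    {y v : V} (h : ¬(y ∈ W ↔ y + v ∈ W)) : y ∈ shadow (frontier W ∩ closedBall y ‖v‖) v := by
  by_contra hcon
  have hpc : IsPreconnected ((fun t : ℝ => y + t • v) '' Icc 0 1) :=
    isPreconnected_Icc.image _ (by fun_prop)
  have hsub : (fun t : ℝ => y + t • v) '' Icc 0 1 ⊆ interior W ∪ interior Wᶜ := by
    rw [← compl_frontier_eq_union_interior]
    rintro _ ⟨t, ht, rfl⟩ hf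
    refine hcon ⟨t, ht, hf, ?_⟩
    rw [mem_closedBall, dist_eq_norm, add_sub_cancel_left, norm_smul, Real.norm_eq_abs,
      abs_of_nonneg ht.1]
    exact mul_le_of_le_one_left (norm_nonneg _) ht.2
  have h0 : y ∈ (fun t : ℝ => y + t • v) '' Icc 0 1 := ⟨0, ⟨le_rfl, zero_le_one⟩, by simp⟩
  have h1 : y + v ∈ (fun t : ℝ => y + t • v) '' Icc 0 1 := ⟨1, ⟨zero_le_one, le_rfl⟩, by simp⟩
  rcases hpc.subset_or_subset isOpen_interior isOpen_interior
    (disjoint_compl_right.mono interior_subset interior_subset) hsub with h2 | h2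
  · exact h ⟨fun _ => interior_subset (h2 h1), fun _ => interior_subset (h2 h0)⟩
  · exact h ⟨fun h3 => absurd h3 (interior_subset (h2 h0)),
      fun h3 => absurd h3 (interior_subset (h2 h1))⟩

/-- Fubini along a unit vector (copy of `R230.shadow_fubini` for a general space):
a set lying over `P ⊆ u^⊥` and inside a slab of width `b - a`. -/
theorem muHE_slab_le {V : Type*} [NormedAddCommGroup V] [InnerProductSpace ℝ V]
    [FiniteDimensional ℝ V] [MeasurableSpace V] [BorelSpace V] {m : ℕ}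
    (hV : Module.finrank ℝ V = m + 1) {u : V} (hu : ‖u‖ = 1) (P : Set (ℝ ∙ u)ᗮ) (a b : ℝ) :
    (μHE[m + 1] : Measure V)
        {x | (ℝ ∙ u)ᗮ.orthogonalProjectionOnto x ∈ P ∧ inner ℝ u x ∈ Icc a b} ≤
      ENNReal.ofReal (b - a) * (μHE[m] : Measure (ℝ ∙ u)ᗮ) P := by
  have h0 : u ≠ 0 := by
    rintro rfl
    simp at hu
  have hr : Module.finrank ℝ (ℝ ∙ u)ᗮ = m := by
    have := (ℝ ∙ u).finrank_add_finrank_orthogonal
    rw [finrank_span_singleton h0, hV] at this
    omega
  have h1 := (ℝ ∙ u).measurePreserving_measurableEquivProd (0 : V)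
  rw [hV] at h1
  have e : {x : V | (ℝ ∙ u)ᗮ.orthogonalProjectionOnto x ∈ P ∧ inner ℝ u x ∈ Icc a b} =
      (ℝ ∙ u).measurableEquivProd (0 : V) ⁻¹'
        ({s : ℝ ∙ u | inner ℝ u (s : V) ∈ Icc a b} ×ˢ P) := by
    ext x
    have huu : inner ℝ u u = (1 : ℝ) := by rw [real_inner_self_eq_norm_sq, hu, one_pow]
    have e1 : inner ℝ u (((ℝ ∙ u).orthogonalProjectionOnto x : ℝ ∙ u) : V) = inner ℝ u x := by
      rw [← Submodule.starProjection_apply, Submodule.starProjection_unit_singleton ℝ hu,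
        real_inner_smul_right, huu, mul_one]
    simp only [mem_ofPred_eq, mem_preimage, Submodule.measurableEquivProd_apply, vsub_eq_sub,
      sub_zero, mem_prod, e1]
    exact and_comm
  rw [e, h1.measure_preimage_equiv, Measure.volume_eq_prod, Measure.prod_prod, ← hr,
    InnerProductSpace.euclideanHausdorffMeasure_eq_volume]
  refine mul_le_mul_left (le_of_eq ?_) _
  have hm : MeasurableSet {s : ℝ ∙ u | inner ℝ u (s : V) ∈ Icc a b} :=
    (isClosed_Icc.preimage (by fun_prop)).measurableSet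
  rw [← (LinearIsometryEquiv.toSpanUnitSingleton (𝕜 := ℝ) u hu).measurePreserving.measure_preimage
    hm.nullMeasurableSet, ← Real.volume_Icc]
  congr 1
  ext t
  simp [real_inner_smul_right, hu]

/-- **Shadow lemma.**  Cut the space into measurable pieces `Q i` of diameter `≤ δ`
(`SeparableSpace.exists_measurable_partition_diam_le`); the shadow of `A ∩ Q i` lies over the
projection of `A ∩ Q i` (a `1`-Lipschitz image) in a slab of width `‖v‖ + 2 δ`;
`∑ μ (A ∩ Q i) = μ A` (use `μ.restrict A`); let `δ → 0`. -/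
theorem shadow_le {V : Type*} [NormedAddCommGroup V] [InnerProductSpace ℝ V]
    [FiniteDimensional ℝ V] [MeasurableSpace V] [BorelSpace V] {m : ℕ}
    (hV : Module.finrank ℝ V = m + 1) (A : Set V) {v : V} (hv : v ≠ 0) :
    (μHE[m + 1] : Measure V) (shadow A v) ≤ ENNReal.ofReal ‖v‖ * (μHE[m] : Measure V) A := by
  have hn : 0 < ‖v‖ := norm_pos_iff.2 hv
  obtain ⟨u, hu⟩ : ∃ u : V, u = ‖v‖⁻¹ • v := ⟨_, rfl⟩
  have hu1 : ‖u‖ = 1 := by
    rw [hu, norm_smul, norm_inv, norm_norm, inv_mul_cancel₀ hn.ne']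
  have hvu : v = ‖v‖ • u := by rw [hu, smul_smul, mul_inv_cancel₀ hn.ne', one_smul]
  have huv : inner ℝ u v = ‖v‖ := by
    conv_lhs => rw [hvu]
    rw [real_inner_smul_right, real_inner_self_eq_norm_sq, hu1]
    ring
  have hpv : (ℝ ∙ u)ᗮ.orthogonalProjectionOnto v = 0 := by
    refine Submodule.orthogonalProjectionOnto_orthogonal_apply_eq_zero ?_
    rw [hvu]
    exact Submodule.smul_mem _ _ (Submodule.mem_span_singleton_self u)
  have hlip : LipschitzWith 1 ((ℝ ∙ u)ᗮ.orthogonalProjectionOnto : V → (ℝ ∙ u)ᗮ) :=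
    LipschitzWith.of_dist_le_mul fun x y => by
      rw [dist_eq_norm, dist_eq_norm, ← map_sub, NNReal.coe_one, one_mul]
      exact Submodule.norm_orthogonalProjectionOnto_apply_le _ _
  have key : ∀ δ : ℝ, 0 < δ → (μHE[m + 1] : Measure V) (shadow A v) ≤
      ENNReal.ofReal (‖v‖ + 2 * δ) * (μHE[m] : Measure V) A := by
    intro δ hδ
    obtain ⟨Q, hQm, hQb, hQd, hQU, hQp⟩ :=
      SeparableSpace.exists_measurable_partition_diam_le V hδ
    have hcov : shadow A v ⊆ ⋃ i, shadow (Q i ∩ A) v := by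
      rintro x ⟨t, ht, hx⟩
      obtain ⟨i, hi⟩ := mem_iUnion.1 (hQU.symm ▸ mem_univ (x + t • v))
      exact mem_iUnion.2 ⟨i, t, ht, hi, hx⟩
    have hpiece : ∀ i, (μHE[m + 1] : Measure V) (shadow (Q i ∩ A) v) ≤
        ENNReal.ofReal (‖v‖ + 2 * δ) * (μHE[m] : Measure V) (Q i ∩ A) := by
      intro i
      rcases (Q i ∩ A).eq_empty_or_nonempty with he | ⟨z, hz⟩
      · simp [he, shadow]
      have h1 := muHE_slab_le hV hu1 ((ℝ ∙ u)ᗮ.orthogonalProjectionOnto '' (Q i ∩ A))
        (inner ℝ u z - δ - ‖v‖) (inner ℝ u z + δ)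
      have h2 := muHE_image_le (hlip.lipschitzOnWith (s := Q i ∩ A)) m
      have e : inner ℝ u z + δ - (inner ℝ u z - δ - ‖v‖) = ‖v‖ + 2 * δ := by ring
      rw [e] at h1
      simp only [ENNReal.coe_one, one_pow, one_mul] at h2
      refine le_trans (measure_mono ?_) (h1.trans (mul_le_mul_right h2 _))
      rintro x ⟨t, ht, hx⟩
      refine ⟨⟨_, hx, ?_⟩, ?_⟩
      · rw [map_add, map_smul, hpv, smul_zero, add_zero]
      · have h3 : dist (x + t • v) z ≤ δ := (dist_le_diam_of_mem (hQb i) hx.1 hz.1).trans (hQd i)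
        have h4 := abs_real_inner_le_norm u (x + t • v - z)
        rw [hu1, one_mul, ← dist_eq_norm, inner_sub_right, inner_add_right, real_inner_smul_right,
          huv] at h4
        have h5 := abs_le.1 (h4.trans h3)
        have h6 : t * ‖v‖ ≤ ‖v‖ := mul_le_of_le_one_left hn.le ht.2
        have h7 : 0 ≤ t * ‖v‖ := mul_nonneg ht.1 hn.le
        constructor <;> linarith [h5.1, h5.2]
    refine (measure_mono hcov).trans ((measure_iUnion_le _).trans
      ((ENNReal.tsum_le_tsum hpiece).trans (le_of_eq ?_)))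
    rw [ENNReal.tsum_mul_left]
    congr 1
    rw [← Measure.restrict_apply_univ A, ← hQU, measure_iUnion hQp hQm]
    exact tsum_congr fun i => (Measure.restrict_apply (hQm i)).symm
  have hlim : Tendsto (fun δ : ℝ => ENNReal.ofReal (‖v‖ + 2 * δ) * (μHE[m] : Measure V) A)
      (𝓝[>] 0) (𝓝 (ENNReal.ofReal ‖v‖ * (μHE[m] : Measure V) A)) := by
    refine ENNReal.Tendsto.mul_const ?_ (Or.inl (ENNReal.ofReal_pos.2 hn).ne')
    refine (ENNReal.continuous_ofReal.tendsto _).comp (Tendsto.mono_left ?_ nhdsWithin_le_nhds)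
    have : Continuous fun δ : ℝ => ‖v‖ + 2 * δ := by fun_prop
    simpa using this.tendsto 0
  exact ge_of_tendsto hlim (eventually_mem_nhdsWithin.mono fun δ hδ => key δ hδ)

/-- the shadow lemma in a chart: apply `shadow_le` in `V = range L` to `L' = L.rangeRestrict`
(`LinearMap.euclideanHausdorffMeasure_image_eq_normDet_mul_volume`, `normDet_codRestrict`); the
map `L' ∘ invFunOn F A` is `c`-Lipschitz on `F '' A`. -/
theorem shadow_lin_le {m N : ℕ} (L : Euc (m + 1) →L[ℝ] Euc N) (hL : Function.Injective L)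
    {F : Euc (m + 1) → Euc N} {A : Set (Euc (m + 1))} {c : ℝ≥0}
    (hc : ∀ a ∈ A, ∀ a' ∈ A, ‖L (a - a')‖ ≤ c * ‖F a - F a'‖) {v : Euc (m + 1)} (hv : v ≠ 0) :
    ENNReal.ofReal (L : Euc (m + 1) →ₗ[ℝ] Euc N).normDet * volume (shadow A v) ≤
      ENNReal.ofReal ‖L v‖ * ((c : ℝ≥0∞) ^ m * (μHE[m] : Measure (Euc N)) (F '' A)) := by
  obtain ⟨L0, hL0⟩ : ∃ L0 : Euc (m + 1) →ₗ[ℝ] Euc N, L0 = (L : Euc (m + 1) →ₗ[ℝ] Euc N) :=
    ⟨_, rfl⟩
  have hL0a : ∀ x, L0 x = L x := fun x => by rw [hL0]; rfl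
  have hinj : Function.Injective L0 := fun x y h => hL (by rwa [hL0a, hL0a] at h)
  have hE : Module.finrank ℝ (Euc (m + 1)) = m + 1 := finrank_euclideanSpace_fin
  have hV : Module.finrank ℝ (LinearMap.range L0) = m + 1 := by
    rw [LinearMap.finrank_range_of_inj hinj, hE]
  have hnorm : ∀ x, ‖L0.rangeRestrict x‖ = ‖L x‖ := fun x => by rw [← hL0a]; rfl
  have h1 := L0.rangeRestrict.euclideanHausdorffMeasure_image_eq_normDet_mul_volume (shadow A v)
  rw [hE, LinearMap.rangeRestrict, LinearMap.normDet_codRestrict] at h1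
  rw [← hL0, ← h1]
  have hv' : L0.rangeRestrict v ≠ 0 := by
    intro h
    have h2 := hnorm v
    rw [h, norm_zero, eq_comm, norm_eq_zero] at h2
    exact hv (hL (by rw [h2, map_zero]))
  have h2 := shadow_le hV (L0.rangeRestrict '' A) hv'
  rw [hnorm] at h2
  have hFinj : InjOn F A := fun a ha a' ha' h => by
    have h3 := hc a ha a' ha'
    rw [h, sub_self, norm_zero, mul_zero, norm_le_zero_iff] at h3
    exact sub_eq_zero.1 (hL (by rw [h3, map_zero]))
  have hlip : LipschitzOnWith c (fun y => L0.rangeRestrict (Function.invFunOn F A y)) (F '' A) := by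
    refine LipschitzOnWith.of_dist_le_mul ?_
    rintro _ ⟨a, ha, rfl⟩ _ ⟨a', ha', rfl⟩
    rw [hFinj.leftInvOn_invFunOn ha, hFinj.leftInvOn_invFunOn ha', dist_eq_norm, dist_eq_norm,
      ← map_sub, hnorm]
    exact hc a ha a' ha'
  have h3 := muHE_image_le hlip m
  have e : (fun y => L0.rangeRestrict (Function.invFunOn F A y)) '' (F '' A) =
      L0.rangeRestrict '' A := by
    rw [image_image]
    exact image_congr fun a ha => by rw [hFinj.leftInvOn_invFunOn ha]
  rw [e] at h3
  refine le_trans (measure_mono ?_) (h2.trans (mul_le_mul_right h3 _))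
  rintro _ ⟨x, ⟨t, ht, hx⟩, rfl⟩
  exact ⟨t, ht, _, hx, by rw [map_add, map_smul]⟩

end Crest.Agent.R241.D
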