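import Crest.Agent.R241.DMetric
import Crest.Agent.R241.DShadow

/-! Row 241, block D (helper74): the area formula for the chart. -/

set_option autoImplicit false

open MeasureTheory Set Filter Topology Metric
open scoped ENNReal NNReal Matrix ContDiff

namespace Crest.Agent.R241.D

open Crest.GeometryTopology.Submanifold

variable {n N : ℕ} {F : Euc n → Euc N}

/-- local comparison of measures is enough (Lindelöf: countably many neighbourhoods cover,
`disjointed`). -/
theorem measure_le_of_local {μ ν : Measure (Euc n)}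
    (h : ∀ x, ∃ U ∈ 𝓝 x, ∀ A ⊆ U, MeasurableSet A → μ A ≤ ν A) {A : Set (Euc n)}
    (hA : MeasurableSet A) : μ A ≤ ν A := by
  choose U hU hle using h
  obtain ⟨s, hs, hcov⟩ := countable_cover_nhds_interior hU
  have hne : s.Nonempty := by
    by_contra hs0
    rw [not_nonempty_iff_eq_empty] at hs0
    have : (0 : Euc n) ∈ ⋃ x ∈ s, interior (U x) := hcov ▸ mem_univ _
    simp [hs0] at this
  obtain ⟨e, he⟩ := hs.exists_eq_range hne
  set V : ℕ → Set (Euc n) := fun i => interior (U (e i)) with hV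
  have hVm : ∀ i, MeasurableSet (V i) := fun i => isOpen_interior.measurableSet
  have hVu : ⋃ i, V i = univ := by
    rw [← hcov, he, biUnion_range]
  have hBm : ∀ i, MeasurableSet (disjointed V i) := MeasurableSet.disjointed hVm
  have hAu : A = ⋃ i, A ∩ disjointed V i := by
    rw [← inter_iUnion, iUnion_disjointed, hVu, inter_univ]
  have hdis : Pairwise (Function.onFun Disjoint fun i => A ∩ disjointed V i) :=
    fun i j hij => ((disjoint_disjointed V) hij).mono inter_subset_right inter_subset_right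
  have hm : ∀ i, MeasurableSet (A ∩ disjointed V i) := fun i => hA.inter (hBm i)
  rw [hAu, measure_iUnion hdis hm, measure_iUnion hdis hm]
  refine ENNReal.tsum_le_tsum fun i => hle (e i) _ ?_ (hm i)
  exact inter_subset_right.trans ((disjointed_subset V i).trans interior_subset)

theorem DArea_img_le {f g : Euc n → Euc N} {A : Set (Euc n)} {c : ℝ≥0}
    (h : ∀ a ∈ A, ∀ a' ∈ A, ‖f a - f a'‖ ≤ c * ‖g a - g a'‖) (d : ℕ) :
    (μHE[d] : Measure (Euc N)) (f '' A) ≤ (c : ℝ≥0∞) ^ d * (μHE[d] : Measure (Euc N)) (g '' A) := by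
  have hk : ∀ a ∈ A, f (Function.invFunOn g A (g a)) = f a := by
    intro a ha
    have hex : ∃ b ∈ A, g b = g a := ⟨a, ha, rfl⟩
    have h1 := h _ (Function.invFunOn_mem hex) a ha
    rw [Function.invFunOn_eq hex, sub_self, norm_zero, mul_zero] at h1
    exact sub_eq_zero.1 (norm_le_zero_iff.1 h1)
  have himg : f '' A = (f ∘ Function.invFunOn g A) '' (g '' A) := by
    rw [image_image]
    exact image_congr fun a ha => (hk a ha).symm
  rw [himg]
  refine muHE_image_le ?_ d
  refine LipschitzOnWith.of_dist_le_mul ?_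
  rintro _ ⟨a, ha, rfl⟩ _ ⟨a', ha', rfl⟩
  simp only [Function.comp_apply]
  rw [hk a ha, hk a' ha', dist_eq_norm, dist_eq_norm]
  exact h a ha a' ha'

theorem DArea_exists_root (k : ℕ) {c : ℝ≥0} (hc : 1 < c) : ∃ c' : ℝ≥0, 1 < c' ∧ c' ^ k ≤ c := by
  have h1 : ∀ᶠ t in 𝓝 (1 : ℝ≥0), t ^ k < c := by
    have : Tendsto (fun t : ℝ≥0 => t ^ k) (𝓝 1) (𝓝 (1 ^ k)) := (continuous_pow k).tendsto 1
    rw [one_pow] at this
    exact this.eventually (gt_mem_nhds hc)
  obtain ⟨t, ht1, ht2⟩ := ((h1.filter_mono nhdsWithin_le_nhds).and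
    (self_mem_nhdsWithin : Ioi (1 : ℝ≥0) ∈ 𝓝[>] 1)).exists
  exact ⟨t, ht2, ht1.le⟩

theorem DArea_lin (F : Euc n → Euc N) (x : Euc n) (A : Set (Euc n)) :
    (μHE[n] : Measure (Euc N)) (fderiv ℝ F x '' A) = ENNReal.ofReal (hh F x) * volume A := by
  have := (fderiv ℝ F x : Euc n →ₗ[ℝ] Euc N).euclideanHausdorffMeasure_image_eq_normDet_mul_volume A
  rw [finrank_euclideanSpace_fin] at this
  rw [hh_eq_normDet]
  exact this

/-- local two-sided comparison: `F '' A` and `L '' A`, `L = fderiv F x`, are `c`-Lipschitz images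
of each other (`muHE_image_le` with `invFunOn`), `μHE (L '' A) = normDet L * volume A`, and
`hh F` is continuous and `≥ 1`. -/
theorem Imm.area_local (hF : Imm F) (x : Euc n) {c : ℝ≥0} (hc : 1 < c) :
    ∃ U ∈ 𝓝 x, ∀ A ⊆ U, MeasurableSet A →
      (μHE[n] : Measure (Euc N)) (F '' A) ≤ c * ∫⁻ y in A, ENNReal.ofReal (hh F y) ∧
      ∫⁻ y in A, ENNReal.ofReal (hh F y) ≤ c * (μHE[n] : Measure (Euc N)) (F '' A) := by
  obtain ⟨c', hc', hcc⟩ := DArea_exists_root (n + 1) hc
  obtain ⟨δ, hδ, hcmp⟩ := hF.unif_cmp ‖x‖ hc'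
  have hx : x ∈ closedBall (0 : Euc n) ‖x‖ := by simp
  have hc'r : (1 : ℝ) < c' := by exact_mod_cast hc'
  have hpos : 0 < hh F x := lt_of_lt_of_le one_pos (hF.one_le_hh x)
  have hcont : Continuous (hh F) := hF.contDiff_hh.continuous
  have e1 : ∀ᶠ y in 𝓝 x, hh F y < c' * hh F x :=
    (hcont.tendsto x).eventually (gt_mem_nhds (by nlinarith))
  have e2 : ∀ᶠ y in 𝓝 x, hh F x < c' * hh F y :=
    ((hcont.tendsto x).const_mul (c' : ℝ)).eventually (lt_mem_nhds (by nlinarith))
  refine ⟨{y | y ∈ closedBall x δ ∧ hh F y < c' * hh F x ∧ hh F x < c' * hh F y},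
    (Eventually.and (closedBall_mem_nhds x hδ) (e1.and e2)), fun A hAU hA => ?_⟩
  have hcc' : (c' : ℝ≥0∞) ^ n * c' ≤ c := by
    rw [← pow_succ]
    exact_mod_cast hcc
  have hof : ∀ t : ℝ, ENNReal.ofReal (c' * t) = c' * ENNReal.ofReal t := fun t => by
    rw [ENNReal.ofReal_mul c'.coe_nonneg, ENNReal.ofReal_coe_nnreal]
  constructor
  · have h1 := DArea_img_le (f := F) (g := fderiv ℝ F x) (A := A) (c := c') (fun a ha a' ha' => by
      rw [← map_sub]
      exact (hcmp x hx a (hAU ha).1 a' (hAU ha').1).2) n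
    rw [DArea_lin] at h1
    have h2 : ENNReal.ofReal (hh F x) * volume A ≤ c' * ∫⁻ y in A, ENNReal.ofReal (hh F y) := by
      rw [← lintegral_const_mul' _ _ ENNReal.coe_ne_top, ← setLIntegral_const]
      refine setLIntegral_mono' hA fun y hy => ?_
      rw [← hof]
      exact ENNReal.ofReal_le_ofReal (hAU hy).2.2.le
    calc _ ≤ _ := h1
      _ ≤ (c' : ℝ≥0∞) ^ n * (c' * ∫⁻ y in A, ENNReal.ofReal (hh F y)) := by gcongr
      _ = ((c' : ℝ≥0∞) ^ n * c') * ∫⁻ y in A, ENNReal.ofReal (hh F y) := by rw [mul_assoc]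
      _ ≤ _ := by gcongr
  · have h1 := DArea_img_le (f := fderiv ℝ F x) (g := F) (A := A) (c := c') (fun a ha a' ha' => by
      rw [← map_sub]
      exact (hcmp x hx a (hAU ha).1 a' (hAU ha').1).1) n
    rw [DArea_lin] at h1
    have h2 : ∫⁻ y in A, ENNReal.ofReal (hh F y) ≤ c' * (ENNReal.ofReal (hh F x) * volume A) := by
      rw [← mul_assoc, ← setLIntegral_const]
      refine setLIntegral_mono' hA fun y hy => ?_
      rw [← hof]
      exact ENNReal.ofReal_le_ofReal (hAU hy).2.1.le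
    calc _ ≤ _ := h2
      _ ≤ (c' : ℝ≥0∞) * ((c' : ℝ≥0∞) ^ n * (μHE[n] : Measure (Euc N)) (F '' A)) := by gcongr
      _ = ((c' : ℝ≥0∞) ^ n * c') * (μHE[n] : Measure (Euc N)) (F '' A) := by ring
      _ ≤ _ := by gcongr

theorem DArea_le_of_forall {a b : ℝ≥0∞} (h : ∀ c : ℝ≥0, 1 < c → a ≤ c * b) : a ≤ b := by
  refine ENNReal.le_of_forall_lt_one_mul_le fun t ht => ?_
  by_cases ht0 : t = 0
  · simp [ht0]
  have htt : t ≠ ⊤ := ne_top_of_lt ht
  lift t to ℝ≥0 using htt
  have ht0' : t ≠ 0 := by simpa using ht0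
  have ht1 : t < 1 := by exact_mod_cast ht
  have := h t⁻¹ (one_lt_inv_iff₀.2 ⟨pos_iff_ne_zero.2 ht0', ht1⟩)
  calc (t : ℝ≥0∞) * a ≤ t * ((t⁻¹ : ℝ≥0) * b) := by gcongr
    _ = b := by
      rw [← mul_assoc, ← ENNReal.coe_mul, mul_inv_cancel₀ ht0', ENNReal.coe_one, one_mul]

/-- **Area formula** (`measure_le_of_local` for `comap F μHE` and `volume.withDensity`, then
`c → 1`). -/
theorem Imm.area (hF : Imm F) {A : Set (Euc n)} (hA : MeasurableSet A) :
    (μHE[n] : Measure (Euc N)) (F '' A) = ∫⁻ y in A, ENNReal.ofReal (hh F y) := by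
  have hme := hF.measurableEmbedding
  set μ : Measure (Euc n) := Measure.comap F (μHE[n] : Measure (Euc N)) with hμ
  set ν : Measure (Euc n) := volume.withDensity fun y => ENNReal.ofReal (hh F y) with hν
  have hμa : ∀ B, μ B = (μHE[n] : Measure (Euc N)) (F '' B) := fun B => hme.comap_apply _ B
  have hνa : ∀ B, MeasurableSet B → ν B = ∫⁻ y in B, ENNReal.ofReal (hh F y) :=
    fun B hB => withDensity_apply _ hB
  rw [← hμa, ← hνa A hA]
  refine le_antisymm (DArea_le_of_forall fun c hc => ?_) (DArea_le_of_forall fun c hc => ?_)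
  · have := measure_le_of_local (μ := μ) (ν := (c : ℝ≥0∞) • ν) (fun x => by
      obtain ⟨U, hU, hle⟩ := hF.area_local x hc
      refine ⟨U, hU, fun B hBU hB => ?_⟩
      rw [Measure.smul_apply, smul_eq_mul, hμa, hνa B hB]
      exact (hle B hBU hB).1) hA
    rwa [Measure.smul_apply, smul_eq_mul] at this
  · have := measure_le_of_local (μ := ν) (ν := (c : ℝ≥0∞) • μ) (fun x => by
      obtain ⟨U, hU, hle⟩ := hF.area_local x hc
      refine ⟨U, hU, fun B hBU hB => ?_⟩
      rw [Measure.smul_apply, smul_eq_mul, hμa, hνa B hB]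
      exact (hle B hBU hB).2) hA
    rwa [Measure.smul_apply, smul_eq_mul] at this

theorem Imm.volume_le (hF : Imm F) {A : Set (Euc n)} (hA : MeasurableSet A) :
    volume A ≤ (μHE[n] : Measure (Euc N)) (F '' A) := by
  rw [hF.area hA, ← setLIntegral_one]
  refine lintegral_mono fun y => ?_
  exact ENNReal.one_le_ofReal.2 (hF.one_le_hh y)

theorem Imm.image_null (hF : Imm F) {A : Set (Euc n)} (hA : volume A = 0) :
    (μHE[n] : Measure (Euc N)) (F '' A) = 0 := by
  obtain ⟨B, hAB, hB, hB0⟩ := exists_measurable_superset_of_null hA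
  refine measure_mono_null (image_mono hAB) ?_
  rw [hF.area hB]
  exact setLIntegral_measure_zero _ _ hB0

/-- `euclideanHausdorffMeasure_zero_or_top`. -/
theorem Imm.null_of_ne_top {m : ℕ} {F : Euc (m + 1) → Euc N} (hF : Imm F) {A : Set (Euc (m + 1))}
    (hA : MeasurableSet A) (h : (μHE[m] : Measure (Euc N)) (F '' A) ≠ ⊤) : volume A = 0 := by
  rcases Measure.euclideanHausdorffMeasure_zero_or_top (Nat.lt_succ_self m) (F '' A) with h0 | h0
  · exact le_antisymm ((hF.volume_le hA).trans h0.le) zero_le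
  · exact absurd h0 h

/-- rigidity of the flat ball: `hh ≥ 1` is continuous with integral at most the volume. -/
theorem Imm.metric_eq_one (hF : Imm F) {r : ℝ}
    (h : (μHE[n] : Measure (Euc N)) (F '' ball 0 r) ≤ volume (ball (0 : Euc n) r)) :
    ∀ x ∈ ball (0 : Euc n) r, metricMat F x = 1 := by
  intro x hx
  rw [hF.area measurableSet_ball, ← setLIntegral_one] at h
  have hcont : Continuous fun y => ENNReal.ofReal (hh F y) :=
    ENNReal.continuous_ofReal.comp hF.contDiff_hh.continuous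
  have hae := ae_eq_of_ae_le_of_lintegral_le (μ := volume.restrict (ball (0 : Euc n) r))
    (f := fun _ => (1 : ℝ≥0∞)) (g := fun y => ENNReal.ofReal (hh F y))
    (Eventually.of_forall fun y => ENNReal.one_le_ofReal.2 (hF.one_le_hh y))
    (by rw [setLIntegral_one]; exact measure_ball_lt_top.ne) hcont.measurable.aemeasurable h
  have heq := Measure.eqOn_open_of_ae_eq hae isOpen_ball continuousOn_const hcont.continuousOn hx
  have h1 : hh F x ≤ 1 := ENNReal.ofReal_le_one.1 (le_of_eq heq.symm)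
  refine eq_one_of_det_le (metricMat_psd F x) (fun v => ?_) ?_
  · have h2 := qf_metricMat F x (WithLp.toLp 2 v)
    have h3 := hF.exp x (WithLp.toLp 2 v)
    have h4 : ‖(WithLp.toLp 2 v : Euc n)‖ ^ 2 = v ⬝ᵥ v := by
      rw [EuclideanSpace.real_norm_sq_eq]
      simp [dotProduct, sq]
    simp only [WithLp.ofLp_toLp] at h2
    rw [h2, ← h4]
    exact pow_le_pow_left₀ (norm_nonneg _) h3 2
  · exact Real.sqrt_le_one.1 h1

end Crest.Agent.R241.D
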