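import Crest.Agent.R241.DDefs

/-! Row 241, block D (helper74): charts of a Cartan-Hadamard manifold. -/

set_option autoImplicit false

open MeasureTheory Set Filter Topology Metric
open scoped ENNReal NNReal Matrix ContDiff

namespace Crest.Agent.R241.D

open Crest.GeometryTopology.Submanifold

variable {n N : ℕ} {l : ℝ} {S : Set (Euc N)} {X : Type} [MetricSpace X]

/-- `‖v‖ ≤ ‖dF v‖` from `exp_le` and `inf` at the pairs `(y + t • v, y)`. -/
theorem _root_.Crest.Agent.R241.CH.imm (H : CH n N l S X) (o : X) :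
    Imm fun w => H.J (H.ex o w) := by
  refine ⟨H.smooth o, H.inj_J.comp (H.bij o).1, fun y v => ?_⟩
  have key : ∀ ε > (0 : ℝ), ‖v‖ ≤ ‖fderiv ℝ (fun w => H.J (H.ex o w)) y v‖ + ε * ‖v‖ := by
    intro ε hε
    have hc : Continuous fun t : ℝ => ((y + t • v, y) : Euc n × Euc n) := by fun_prop
    have ht : Tendsto (fun t : ℝ => ((y + t • v, y) : Euc n × Euc n)) (𝓝[>] 0) (𝓝 (y, y)) := by
      have := hc.tendsto 0
      simp only [zero_smul, add_zero] at this
      exact this.mono_left nhdsWithin_le_nhds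
    obtain ⟨t, h1, h2⟩ := ((ht.eventually (H.inf o y ε hε)).and self_mem_nhdsWithin).exists
    have h2' : (0 : ℝ) < t := h2
    have h3 := H.exp_le o (y + t • v) y
    simp only [add_sub_cancel_left, map_smul, norm_smul, Real.norm_eq_abs, abs_of_pos h2'] at h1 h3
    have h4 := (abs_le.1 h1).2
    refine le_of_mul_le_mul_left ?_ h2'
    nlinarith
  refine le_of_forall_pos_le_add fun δ hδ => ?_
  have hv : 0 < ‖v‖ + 1 := by positivity
  refine (key (δ / (‖v‖ + 1)) (by positivity)).trans ?_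
  have : δ / (‖v‖ + 1) * ‖v‖ ≤ δ := by
    rw [div_mul_eq_mul_div, div_le_iff₀ hv]
    nlinarith
  linarith

/-- by `inf` with `ε = 1`: `dist ≤ (‖dF y‖ + 1) ‖p.1 - p.2‖` near `(y, y)`. -/
theorem _root_.Crest.Agent.R241.CH.locallyLipschitz (H : CH n N l S X) (o : X) :
    LocallyLipschitz (H.ex o) := by
  intro y
  have h := H.inf o y 1 one_pos
  rw [nhds_prod_eq] at h
  obtain ⟨t, ht, h⟩ := Filter.mem_prod_self_iff.1 h
  refine ⟨‖fderiv ℝ (fun w => H.J (H.ex o w)) y‖₊ + 1, t, ht,
    LipschitzOnWith.of_dist_le_mul fun a ha b hb => ?_⟩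
  have h0 : |dist (H.ex o a) (H.ex o b) - ‖fderiv ℝ (fun w => H.J (H.ex o w)) y (a - b)‖| ≤
      1 * ‖a - b‖ := h (mk_mem_prod ha hb)
  have h1 := (abs_le.1 h0).2
  have h2 := (fderiv ℝ (fun w => H.J (H.ex o w)) y).le_opNorm (a - b)
  simp only [NNReal.coe_add, coe_nnnorm, NNReal.coe_one, dist_eq_norm a b]
  linarith

theorem _root_.Crest.Agent.R241.CH.continuous_ex (H : CH n N l S X) (o : X) :
    Continuous (H.ex o) := (H.locallyLipschitz o).continuous

/-- the inverse of `ex o`. -/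
theorem _root_.Crest.Agent.R241.CH.exists_log (H : CH n N l S X) (o : X) :
    ∃ lg : X → Euc n, LipschitzWith 1 lg ∧ (∀ w, lg (H.ex o w) = w) ∧ (∀ p, H.ex o (lg p) = p) ∧
      ∀ p, ‖lg p‖ = dist o p := by
  have hs := (H.bij o).2
  have he : ∀ p, H.ex o (Function.surjInv hs p) = p := Function.surjInv_eq hs
  refine ⟨Function.surjInv hs, LipschitzWith.of_dist_le_mul fun p q => ?_,
    fun w => (H.bij o).1 (he _), he, fun p => ?_⟩
  · have := H.exp_le o (Function.surjInv hs p) (Function.surjInv hs q)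
    rw [he, he] at this
    simpa [dist_eq_norm] using this
  · rw [← H.rad o, he]

/-- `closedBall o R = ex o '' closedBall 0 R`. -/
theorem _root_.Crest.Agent.R241.CH.compact_ball (H : CH n N l S X) (o : X) (R : ℝ) :
    CompactSpace (closedBall o R) := by
  have h : closedBall o R = H.ex o '' closedBall (0 : Euc n) R := by
    ext p
    obtain ⟨w, rfl⟩ := (H.bij o).2 p
    rw [(H.bij o).1.mem_set_image, mem_closedBall', H.rad, mem_closedBall_zero_iff]
  refine isCompact_iff_compactSpace.1 ?_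
  rw [h]
  exact (isCompact_closedBall _ _).image (H.continuous_ex o)

/-- `φ w = ⟨ex o w, _⟩` on the ball (`⟨o, _⟩` outside), `π = lg`;
`LocallyLipschitzOn.exists_lipschitzOnWith_of_compact`. -/
theorem _root_.Crest.Agent.R241.CH.exists_chB (H : CH n N l S X) (o : X) {R : ℝ} (hR : 0 ≤ R) :
    ∃ B : ChB (fun w => H.J (H.ex o w)) (closedBall o R) R,
      ∀ w ∈ closedBall (0 : Euc n) R, (B.φ w : X) = H.ex o w := by
  classical
  obtain ⟨lg, hlip, hl1, hl2, hl3⟩ := H.exists_log o
  have hm : ∀ w ∈ closedBall (0 : Euc n) R, H.ex o w ∈ closedBall o R := fun w hw => by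
    rw [mem_closedBall', H.rad]
    exact mem_closedBall_zero_iff.1 hw
  let φ : Euc n → closedBall o R := fun w =>
    if hw : w ∈ closedBall (0 : Euc n) R then ⟨H.ex o w, hm w hw⟩ else ⟨o, mem_closedBall_self hR⟩
  have hφ : ∀ w ∈ closedBall (0 : Euc n) R, (φ w : X) = H.ex o w := fun w hw => by
    simp only [φ, dif_pos hw]
  have hmem : ∀ p : closedBall o R, lg p ∈ closedBall (0 : Euc n) R := fun p => by
    rw [mem_closedBall_zero_iff, hl3]
    exact mem_closedBall'.1 p.2
  obtain ⟨L, hL⟩ := LocallyLipschitzOn.exists_lipschitzOnWith_of_compact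
    (isCompact_closedBall (0 : Euc n) R) (H.locallyLipschitz o).locallyLipschitzOn
  refine ⟨⟨φ, fun p => lg p, fun w hw => by rw [hφ w hw, hl1], fun p => Subtype.ext ?_, hmem,
    ?_, ⟨L, ?_⟩, fun y hy ε hε => ?_⟩, hφ⟩
  · rw [hφ _ (hmem p), hl2]
  · exact LipschitzWith.of_dist_le_mul fun p q => hlip.dist_le_mul p q
  · refine LipschitzOnWith.of_dist_le_mul fun a ha b hb => ?_
    rw [Subtype.dist_eq, hφ a ha, hφ b hb]
    exact hL.dist_le_mul a ha b hb
  · have hc : Continuous fun w : Euc n => ((w, y) : Euc n × Euc n) := by fun_prop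
    have h1 := ((hc.tendsto y).eventually (H.inf o y ε hε)).filter_mono
      (nhdsWithin_le_nhds (s := closedBall (0 : Euc n) R))
    filter_upwards [h1, self_mem_nhdsWithin] with w hw hw'
    rw [Subtype.dist_eq, hφ w hw', hφ y hy]
    exact hw

/-- pull-back of a relatively open set. -/
theorem _root_.Crest.Agent.R241.CH.preimage (H : CH n N l S X) (o : X) {E : Set (Euc N)}
    (hopen : ∃ U : Set (Euc N), IsOpen U ∧ E = S ∩ U) :
    IsOpen ((fun w => H.J (H.ex o w)) ⁻¹' E) ∧
      (fun w => H.J (H.ex o w)) '' ((fun w => H.J (H.ex o w)) ⁻¹' E) = E ∧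
      (fun w => H.J (H.ex o w)) '' frontier ((fun w => H.J (H.ex o w)) ⁻¹' E) ⊆
        relBoundary S E := by
  obtain ⟨U, hU, rfl⟩ := hopen
  have hc : Continuous fun w => H.J (H.ex o w) := (H.smooth o).continuous
  have hS : ∀ w, H.J (H.ex o w) ∈ S := fun w => H.range_J.subset (mem_range_self _)
  have hsurj : ∀ z ∈ S, ∃ w, H.J (H.ex o w) = z := fun z hz => by
    rw [← H.range_J] at hz
    obtain ⟨p, rfl⟩ := hz
    obtain ⟨w, rfl⟩ := (H.bij o).2 p
    exact ⟨w, rfl⟩
  refine ⟨?_, ?_, ?_⟩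
  · have : (fun w => H.J (H.ex o w)) ⁻¹' (S ∩ U) = (fun w => H.J (H.ex o w)) ⁻¹' U := by
      ext w
      simp [hS w]
    rw [this]
    exact hU.preimage hc
  · exact image_preimage_eq_of_subset fun z hz => hsurj z hz.1
  · rw [frontier_eq_closure_inter_closure]
    refine (image_inter_subset _ _ _).trans (inter_subset_inter ?_ ?_)
    · exact (image_closure_subset_closure_image hc).trans
        (closure_mono (image_preimage_subset _ _))
    · refine (image_closure_subset_closure_image hc).trans (closure_mono ?_)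
      rintro _ ⟨w, hw, rfl⟩
      exact ⟨hS w, hw⟩

/-- a set with compact closure is bounded in the chart: `closure E ⊆ S` is covered by the
relatively open sets `F '' ball 0 j = S ∩ U j` (`opn`), which increase; use injectivity. -/
theorem _root_.Crest.Agent.R241.CH.bounded_preimage (H : CH n N l S X) (o : X) {E : Set (Euc N)}
    (hES : E ⊆ S) (hE : IsCompact (closure E)) (hclosed : IsClosed S) :
    ∃ R : ℝ, 0 < R ∧ (fun w => H.J (H.ex o w)) ⁻¹' E ⊆ ball 0 R := by
  choose U hU hUe using fun j : ℕ => H.opn o (ball (0 : Euc n) j) isOpen_ball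
  have hinj : Function.Injective fun w => H.J (H.ex o w) := H.inj_J.comp (H.bij o).1
  have hcov : closure E ⊆ ⋃ j, U j := by
    intro z hz
    have hzS : z ∈ S := closure_minimal hES hclosed hz
    rw [← H.range_J] at hzS
    obtain ⟨p, rfl⟩ := hzS
    obtain ⟨w, rfl⟩ := (H.bij o).2 p
    obtain ⟨j, hj⟩ := exists_nat_gt ‖w‖
    have : H.J (H.ex o w) ∈ S ∩ U j := by
      rw [← hUe j]
      exact ⟨w, mem_ball_zero_iff.2 hj, rfl⟩
    exact mem_iUnion.2 ⟨j, this.2⟩
  obtain ⟨t, ht⟩ := hE.elim_finite_subcover U hU hcov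
  refine ⟨((t.sup id : ℕ) : ℝ) + 1, by positivity, fun w hw => ?_⟩
  obtain ⟨j, hj, hz⟩ := mem_iUnion₂.1 (ht (subset_closure hw))
  have h1 : H.J (H.ex o w) ∈ (fun w => H.J (H.ex o w)) '' ball (0 : Euc n) j := by
    rw [hUe j]
    exact ⟨hES hw, hz⟩
  have h2 : w ∈ ball (0 : Euc n) j := hinj.mem_set_image.1 h1
  have h3 : (j : ℝ) ≤ ((t.sup id : ℕ) : ℝ) := by exact_mod_cast Finset.le_sup (f := id) hj
  exact ball_subset_ball (by linarith) h2

end Crest.Agent.R241.D
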