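import Crest.Agent.R241.DPrim
import Crest.Agent.R241.MDet

/-! Row 241, block D (helper74): the volume form is a calibration. -/

set_option autoImplicit false

open MeasureTheory Set Filter Topology Metric
open scoped ENNReal NNReal Matrix ContDiff

namespace Crest.Agent.R241.D

open Crest.GeometryTopology.Submanifold

variable {m N : ℕ} {F : Euc (m + 1) → Euc N} {Y : Type} [MetricSpace Y] {R : ℝ}

theorem ChB.lip_coord (B : ChB F Y R) (i : Fin (m + 1)) : LipschitzWith 1 fun p => B.π p i := by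
  refine LipschitzWith.of_dist_le_mul fun p q => ?_
  exact (PiLp.dist_apply_le (B.π p) (B.π q) i).trans (B.lipπ.dist_le_mul p q)

theorem ChB.lip_comp (B : ChB F Y R) {H : Euc (m + 1) → ℝ} {L : ℝ≥0}
    (hH : LipschitzOnWith L H (closedBall 0 R)) : LipschitzWith L fun p => H (B.π p) := by
  refine LipschitzWith.of_dist_le_mul fun p q => ?_
  refine (hH.dist_le_mul _ (B.mem p) _ (B.mem q)).trans ?_
  exact mul_le_mul_of_nonneg_left (by simpa using B.lipπ.dist_le_mul p q) L.coe_nonneg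

/-- chain rule: if `ψ = π ∘ φ` has the derivative `A` within `E` at a point of unique
differentiability, the rows are `cv (dH) ᵥ* A` and the rows of `A` (`det_cons_vecMul`). -/
theorem ChB.jdet_eq (B : ChB F Y R) {E : Set (Euc (m + 1))} {φ : Euc (m + 1) → Y}
    {z : Euc (m + 1)} (hz : UniqueDiffWithinAt ℝ E z) {A : Euc (m + 1) →L[ℝ] Euc (m + 1)}
    (hA : HasFDerivWithinAt (fun w => B.π (φ w)) A E z) {H : Euc (m + 1) → ℝ}
    (hH : DifferentiableAt ℝ H (B.π (φ z))) (i : Fin (m + 1)) :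
    jdet E φ (Fin.cons (fun p => H (B.π p)) fun a p => B.π p (i.succAbove a)) z =
      (-1) ^ (i : ℕ) * fderiv ℝ H (B.π (φ z)) (EuclideanSpace.single i 1) *
        (Matrix.of fun a b => A (EuclideanSpace.single b 1) a).det := by
  have h1 : dv E φ (fun p => H (B.π p)) z = cv (fderiv ℝ H (B.π (φ z))) ᵥ*
      (Matrix.of fun a b => A (EuclideanSpace.single b 1) a) := by
    refine (congrArg cv ((hH.hasFDerivAt.comp_hasFDerivWithinAt z hA).fderivWithin hz)).trans ?_
    funext j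
    change fderiv ℝ H (B.π (φ z)) (A (EuclideanSpace.single j 1)) = _
    rw [clm_apply_eq]
    rfl
  have h2 : ∀ a, dv E φ (fun p => B.π p a) z =
      (Matrix.of fun a b => A (EuclideanSpace.single b 1) a) a := by
    intro a
    exact congrArg cv
      (((EuclideanSpace.proj (𝕜 := ℝ) a).hasFDerivAt.comp_hasFDerivWithinAt z hA).fderivWithin hz)
  refine Eq.trans ?_ (det_cons_vecMul (Matrix.of fun a b => A (EuclideanSpace.single b 1) a)
    (cv (fderiv ℝ H (B.π (φ z)))) i)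
  unfold jdet
  congr 2
  funext a
  refine Fin.cases ?_ (fun a => ?_) a
  · exact h1
  · exact h2 _

/-- in the chart itself `ψ = id` on the ball (`R > 0`: `uniqueDiffOn_convex`). -/
theorem ChB.jdet_coord (B : ChB F Y R) (hR : 0 < R) {z : Euc (m + 1)}
    (hz : z ∈ closedBall (0 : Euc (m + 1)) R) {H : Euc (m + 1) → ℝ} (hH : DifferentiableAt ℝ H z)
    (i : Fin (m + 1)) :
    jdet (closedBall 0 R) B.φ (Fin.cons (fun p => H (B.π p)) fun a p => B.π p (i.succAbove a)) z =
      (-1) ^ (i : ℕ) * fderiv ℝ H z (EuclideanSpace.single i 1) := by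
  have hu : UniqueDiffWithinAt ℝ (closedBall (0 : Euc (m + 1)) R) z :=
    uniqueDiffOn_convex (convex_closedBall 0 R)
      ⟨0, mem_interior_iff_mem_nhds.2 (closedBall_mem_nhds 0 hR)⟩ z hz
  have hA : HasFDerivWithinAt (fun w => B.π (B.φ w)) (ContinuousLinearMap.id ℝ (Euc (m + 1)))
      (closedBall 0 R) z :=
    (hasFDerivWithinAt_id z _).congr (fun w hw => B.π_φ w hw) (B.π_φ z hz)
  rw [B.jdet_eq hu hA (by rwa [B.π_φ z hz]) i, B.π_φ z hz]
  have e : (Matrix.of fun a b => (ContinuousLinearMap.id ℝ (Euc (m + 1)))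
      (EuclideanSpace.single b 1) a) = (1 : Matrix (Fin (m + 1)) (Fin (m + 1)) ℝ) := by
    ext a b
    simp [Matrix.one_apply]
  rw [e, Matrix.det_one, mul_one]

/-- the pull-back of the Riemannian metric is below every majorant: along a blow-up sequence
`w n` (`Dens.blow`, `Blow.maj`, `Blow.fderiv`) use `φ w = B.φ (ψ w)`, `ψ = π ∘ φ`, and `B.inf` at
`ψ z`. -/
theorem ChB.norm_le_maj (B : ChB F Y R) {k : ℕ} {E : Set (Euc k)} {φ : Euc k → Y} {z : Euc k}
    (hz : Dens E z) {g : Matrix (Fin k) (Fin k) ℝ} (hg : MajAt E φ g z)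
    {A : Euc k →L[ℝ] Euc (m + 1)} (hA : HasFDerivWithinAt (fun w => B.π (φ w)) A E z) (v : Euc k) :
    ‖fderiv ℝ F (B.π (φ z)) (A v)‖ ≤ √(qf g v.ofLp) := by
  obtain ⟨w, hw⟩ := hz.blow v
  have h2 : Blow (closedBall (0 : Euc (m + 1)) R) (B.π (φ z)) (A v) fun n => B.π (φ (w n)) :=
    hw.map hA fun x _ => B.mem _
  have key : ∀ ε > (0 : ℝ), ‖fderiv ℝ F (B.π (φ z)) (A v)‖ - ε * ‖A v‖ ≤ √(qf g v.ofLp) + ε := by
    intro ε hε
    have hc : Continuous fun u : Euc (m + 1) => ‖fderiv ℝ F (B.π (φ z)) u‖ - ε * ‖u‖ :=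
      (fderiv ℝ F (B.π (φ z))).continuous.norm.sub (continuous_const.mul continuous_norm)
    refine le_of_tendsto ((hc.tendsto _).comp h2.2) ?_
    have h3 : Tendsto (fun n => B.π (φ (w n))) atTop (𝓝[closedBall 0 R] (B.π (φ z))) :=
      tendsto_nhdsWithin_iff.2 ⟨h2.tendsto, Eventually.of_forall h2.1⟩
    filter_upwards [h3.eventually (B.inf _ (B.mem _) ε hε),
      hw.maj hg (lt_add_of_pos_right _ hε)] with n h4 h5
    have hn : (0 : ℝ) ≤ (n : ℝ) + 1 := by positivity
    rw [B.φ_π, B.φ_π] at h4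
    have h6 := mul_le_mul_of_nonneg_left (abs_le.1 h4).1 hn
    simp only [Function.comp, map_smul, norm_smul, Real.norm_of_nonneg hn]
    nlinarith
  refine le_of_forall_pos_le_add fun ε hε => ?_
  have h1 : (0 : ℝ) < 1 + ‖A v‖ := by positivity
  have h3 := key (ε / (1 + ‖A v‖)) (div_pos hε h1)
  have h4 : ε / (1 + ‖A v‖) * (1 + ‖A v‖) = ε := div_mul_cancel₀ _ h1.ne'
  nlinarith

/-- pointwise calibration inequality (`ae_dens`, `ae_hasFDerivWithinAt` for the Lipschitz map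
`π ∘ φ i`, `jdet_eq`, `norm_le_maj`, `qf_metricMat`, `sqrt_det_mul_abs_det_le`). -/
theorem ChB.ae_abs_jdet_le (B : ChB F Y R) {H : Euc (m + 1) → ℝ} (hH : Differentiable ℝ H)
    (h0 : ∀ x, fderiv ℝ H x (EuclideanSpace.single 0 1) = hh F x) (S : Chain Y (m + 1)) (i : S.ι) :
    ∀ᵐ z ∂(volume.restrict (S.E i)),
      |jdet (S.E i) (S.φ i) (Fin.cons (fun p => H (B.π p)) fun a p => B.π p (Fin.succ a)) z| ≤
        √(S.g i z).det := by
  obtain ⟨L, hL⟩ := S.lip i
  have hψ : LipschitzOnWith (1 * L) (fun w => B.π (S.φ i w)) (S.E i) :=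
    B.lipπ.comp_lipschitzOnWith hL
  filter_upwards [ae_dens (S.mE i), S.maj i, ae_hasFDerivWithinAt (S.mE i) hψ] with z hz hg hA
  generalize fderivWithin ℝ (fun w => B.π (S.φ i w)) (S.E i) z = A at hA
  have h1 := B.jdet_eq hz.uniqueDiff hA (hH _) 0
  simp only [Fin.succAbove_zero, Fin.val_zero, pow_zero, one_mul] at h1
  rw [h1, h0, abs_mul, abs_of_nonneg (hh_nonneg F _)]
  refine sqrt_det_mul_abs_det_le (metricMat_psd F _) (S.psd i z) fun v => ?_
  have e : (Matrix.of fun a b => A (EuclideanSpace.single b 1) a) *ᵥ v =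
      (A (WithLp.toLp 2 v)).ofLp := by
    have : (WithLp.toLp 2 v : Euc (m + 1)) =
        ∑ j, v j • (EuclideanSpace.single j (1 : ℝ) : Euc (m + 1)) := by
      ext a
      simp [Finset.sum_apply, Pi.single_apply]
    rw [this, map_sum]
    funext a
    simp [Matrix.mulVec, dotProduct, Finset.sum_apply, mul_comm]
  rw [e, qf_metricMat]
  have h2 := B.norm_le_maj hz hg hA (WithLp.toLp 2 v)
  have h3 : 0 ≤ qf (S.g i z) v := by
    simpa [qf] using (S.psd i z).dotProduct_mulVec_nonneg v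
  exact (Real.le_sqrt (norm_nonneg _) h3).1 h2

/-- an a.e. bound of the Jacobian by the area factor bounds the action by the mass
(`norm_integral_le_lintegral_norm`, `ENNReal.tsum_toReal_eq`, `tsum_of_norm_bounded`). -/
theorem abs_act_one_le_mass {k : ℕ} (S : Chain Y k) {π : Fin k → Y → ℝ}
    (h : ∀ i, ∀ᵐ z ∂(volume.restrict (S.E i)), |jdet (S.E i) (S.φ i) π z| ≤ √(S.g i z).det) :
    |S.act (fun _ => 1) π| ≤ S.mass := by
  have hfin : ∑' i, ∫⁻ z in S.E i, ENNReal.ofReal (S.wt i z) ≠ ⊤ := S.fin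
  have hne : ∀ i, ∫⁻ z in S.E i, ENNReal.ofReal (S.wt i z) ≠ ⊤ := ENNReal.ne_top_of_tsum_ne_top hfin
  rw [Chain.mass, ENNReal.tsum_toReal_eq hne, ← Real.norm_eq_abs]
  refine tsum_of_norm_bounded (ENNReal.summable_toReal hfin).hasSum fun i => ?_
  refine (norm_integral_le_lintegral_norm _).trans (ENNReal.toReal_mono (hne i) ?_)
  refine lintegral_mono_ae ?_
  filter_upwards [h i] with z hz
  refine ENNReal.ofReal_le_ofReal ?_
  rw [mul_one, Real.norm_eq_abs, abs_mul]
  exact mul_le_mul_of_nonneg_left hz (abs_nonneg _)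

/-- **Calibration.**  Every filling of the boundary of `U` has at least the volume of `U`. -/
theorem ChB.fillGe (B : ChB F Y R) (hF : Imm F) (hR : 0 < R) {U : Set (Euc (m + 1))}
    (hU : MeasurableSet U) (hUR : U ⊆ closedBall 0 R) {T : Chain Y m} (hT : B.IsBd U T) :
    T.FillGe (∫ z in U, hh F z) := by
  intro S hS
  obtain ⟨H, hH, hL, h0⟩ := exists_prim hF.contDiff_hh
  obtain ⟨L, hL⟩ := hL R
  have hf : Lip fun p => H (B.π p) := ⟨L, B.lip_comp hL⟩
  have hπ : ∀ a : Fin m, Lip fun p => B.π p (Fin.succ a) := fun a => ⟨1, B.lip_coord _⟩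
  have h1 := abs_act_one_le_mass S (B.ae_abs_jdet_le hH h0 S)
  rw [hS _ _ hf hπ, hT _ _ hf hπ] at h1
  refine le_trans (le_of_eq ?_) ((le_abs_self _).trans h1)
  refine setIntegral_congr_fun hU fun z hz => ?_
  have h2 := B.jdet_coord hR (hUR hz) (hH z) 0
  simp only [Fin.succAbove_zero, Fin.val_zero, pow_zero, one_mul, h0] at h2
  exact h2.symm

end Crest.Agent.R241.D
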