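import Crest.Agent.R241.DMetric
import Crest.Agent.R241.MDet

/-! Row 241, block D (helper74): the chain of the closed ball. -/

set_option autoImplicit false

open MeasureTheory Set Filter Topology Metric
open scoped ENNReal NNReal Matrix ContDiff

namespace Crest.Agent.R241.D

open Crest.GeometryTopology.Submanifold

variable {n N : ℕ} {F : Euc n → Euc N} {Y : Type} [MetricSpace Y] {R : ℝ}

theorem ChB.majAt (B : ChB F Y R) {z : Euc n} (hz : z ∈ closedBall (0 : Euc n) R) :
    MajAt (closedBall 0 R) B.φ (metricMat F z) z := by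
  intro ε hε
  filter_upwards [B.inf z hz ε hε] with w hw
  rw [qf_metricMat, Real.sqrt_sq (norm_nonneg _)]
  linarith [(abs_le.1 hw).2]

theorem Imm.lintegral_ball_ne_top (hF : Imm F) (R : ℝ) :
    ∫⁻ z in closedBall (0 : Euc n) R, ENNReal.ofReal (hh F z) ≠ ⊤ := by
  exact (hF.contDiff_hh.continuous.continuousOn.integrableOn_compact
    (isCompact_closedBall (0 : Euc n) R)).lintegral_lt_top.ne

/-- the fundamental chain of the ball. -/
noncomputable def ChB.chain (B : ChB F Y R) (hF : Imm F) : Chain Y n where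
  ι := Unit
  cnt := inferInstance
  E := fun _ => closedBall 0 R
  φ := fun _ => B.φ
  θ := fun _ _ => 1
  g := fun _ z => metricMat F z
  mE := fun _ => measurableSet_closedBall
  bE := fun _ => isBounded_closedBall
  lip := fun _ => B.lipφ
  mθ := fun _ => measurable_const
  iθ := fun _ => integrableOn_const measure_closedBall_lt_top.ne
  mg := fun _ a b => (hF.contDiff_metricMat a b).continuous.measurable
  psd := fun _ z => metricMat_psd F z
  maj := fun _ => (ae_restrict_mem measurableSet_closedBall).mono fun _ hz => B.majAt hz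
  fin := by simpa [hh] using hF.lintegral_ball_ne_top R

theorem ChB.chain_act (B : ChB F Y R) (hF : Imm F) (f : Y → ℝ) (π : Fin n → Y → ℝ) :
    (B.chain hF).act f π =
      ∫ z in closedBall (0 : Euc n) R, f (B.φ z) * jdet (closedBall 0 R) B.φ π z := by
  simp [Chain.act, ChB.chain]

theorem ChB.chain_I (B : ChB F Y R) (hF : Imm F) (Φ : Y → ℝ → ℝ) (f h : Y → ℝ) :
    (B.chain hF).I Φ f h = ∫ z in closedBall (0 : Euc n) R, hh F z * Φ (B.φ z)
      (gam (metricMat F z) (dv (closedBall 0 R) B.φ f z) (dv (closedBall 0 R) B.φ h z)) := by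
  simp [Chain.I, Chain.wt, Chain.G, ChB.chain, hh]

/-- the ball has no boundary in its interior.  Extend the rows `π a ∘ φ` to Lipschitz functions on
`Euc n` (`LipschitzOnWith.extend_real`); the row `a₀` is extended by zero: it vanishes for
`R - 1 ≤ ‖w‖` and is bounded on the ball, so the extension is Lipschitz with compact support.
Then `ae_jdW_eq`, `null_lagrangian`; off the ball the row `a₀` vanishes near the point. -/
theorem ChB.relcyc (B : ChB F Y R) (hF : Imm F) {π : Fin n → Y → ℝ} (hπ : ∀ a, Lip (π a))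
    (a₀ : Fin n) (h0 : ∀ p, R - 1 ≤ ‖B.π p‖ → π a₀ p = 0) :
    (B.chain hF).act (fun _ => 1) π = 0 := by
  obtain ⟨L, hL⟩ := B.lipφ
  have hu : ∀ a, ∃ C, LipschitzOnWith C (fun w => π a (B.φ w)) (closedBall (0 : Euc n) R) := by
    intro a
    obtain ⟨K, hK⟩ := hπ a
    exact ⟨_, hK.comp_lipschitzOnWith hL⟩
  choose C hC using hu
  choose v hv huv using fun a => (hC a).extend_real
  obtain ⟨M, hM⟩ := (isCompact_closedBall (0 : Euc n) R).exists_bound_of_continuousOn
    (hC a₀).continuousOn
  have hd : LipschitzWith (‖M‖₊ * 1) fun w : Euc n => |M| * max 0 (R - ‖w‖) := by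
    have h1 : LipschitzWith 1 fun w : Euc n => max 0 (R - ‖w‖) := by
      refine LipschitzWith.const_max (LipschitzWith.of_dist_le_mul fun x y => ?_) 0
      rw [dist_sub_left, NNReal.coe_one, one_mul, dist_eq_norm x y]
      exact dist_norm_norm_le x y
    refine LipschitzWith.of_dist_le_mul fun x y => ?_
    have h2 := h1.dist_le_mul x y
    rw [Real.dist_eq, ← mul_sub, abs_mul, abs_abs, ← Real.dist_eq, NNReal.coe_mul, mul_assoc]
    exact mul_le_mul_of_nonneg_left h2 (abs_nonneg _)
  obtain ⟨d, hdd⟩ : ∃ d : Euc n → ℝ, d = fun w => |M| * max 0 (R - ‖w‖) := ⟨_, rfl⟩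
  rw [← hdd] at hd
  have hd0 : ∀ w, 0 ≤ d w := fun w => by rw [hdd]; positivity
  have hd1 : ∀ w, R ≤ ‖w‖ → d w = 0 := fun w hw => by
    rw [hdd]; beta_reduce; rw [max_eq_left (by linarith), mul_zero]
  obtain ⟨v₀, hv₀⟩ : ∃ v₀ : Euc n → ℝ, v₀ = fun w => max (-d w) (min (d w) (v a₀ w)) := ⟨_, rfl⟩
  have hl₀ : ∃ K, LipschitzWith K v₀ := ⟨_, hv₀ ▸ hd.neg.max (hd.min (hv a₀))⟩
  have hz₀ : ∀ w, R ≤ ‖w‖ → v₀ w = 0 := fun w hw => by
    rw [hv₀]; beta_reduce
    rw [hd1 w hw, neg_zero, max_eq_left (min_le_left _ _)]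
  have he₀ : EqOn (fun w => π a₀ (B.φ w)) v₀ (closedBall 0 R) := by
    intro w hw
    have h1 : |π a₀ (B.φ w)| ≤ d w := by
      rcases le_or_gt (R - 1) ‖w‖ with h | h
      · rw [h0 _ (by rwa [B.π_φ w hw]), abs_zero]
        exact hd0 w
      · have h2 : |π a₀ (B.φ w)| ≤ |M| := (hM w hw).trans (le_abs_self M)
        have h3 : 1 ≤ max 0 (R - ‖w‖) := le_max_of_le_right (by linarith)
        rw [hdd]
        exact h2.trans (le_mul_of_one_le_right (abs_nonneg _) h3)
    have h4 : v a₀ w = π a₀ (B.φ w) := (huv a₀ hw).symm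
    rw [hv₀]
    beta_reduce
    rw [h4, min_eq_right (abs_le.1 h1).2, max_eq_right (abs_le.1 h1).1]
  have hVl : ∀ a, ∃ K, LipschitzWith K (Function.update v a₀ v₀ a) := by
    intro a
    by_cases h : a = a₀
    · subst h; rwa [Function.update_self]
    · rw [Function.update_of_ne h]; exact ⟨_, hv a⟩
  have hVe : ∀ a, EqOn (fun w => π a (B.φ w)) (Function.update v a₀ v₀ a) (closedBall 0 R) := by
    intro a
    by_cases h : a = a₀
    · subst h; rwa [Function.update_self]
    · rw [Function.update_of_ne h]; exact huv a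
  have hcs : HasCompactSupport (Function.update v a₀ v₀ a₀) := by
    rw [Function.update_self]
    refine HasCompactSupport.intro (isCompact_closedBall (0 : Euc n) R) fun w hw => hz₀ w ?_
    rw [mem_closedBall_zero_iff, not_le] at hw
    exact hw.le
  rw [B.chain_act hF, ← null_lagrangian hVl hcs,
    ← setIntegral_eq_integral_of_forall_compl_eq_zero (s := closedBall (0 : Euc n) R)
      (f := jd (Function.update v a₀ v₀))]
  · refine integral_congr_ae ?_
    filter_upwards [ae_jdW_eq measurableSet_closedBall hVl hVe] with z hz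
    rw [one_mul, ← hz]
    rfl
  · intro z hz
    rw [mem_closedBall_zero_iff, not_le] at hz
    have h1 : v₀ =ᶠ[𝓝 z] fun _ => 0 := by
      filter_upwards [(isOpen_lt continuous_const continuous_norm).mem_nhds hz] with w hw
      exact hz₀ w (le_of_lt hw)
    refine Matrix.det_eq_zero_of_row_eq_zero a₀ fun j => ?_
    simp [cv, h1.fderiv_eq]

/-- a slope bound for `v` bounds the Riemannian gradient of `ρ = -v ∘ π`: for a.e. `z` of the ball
(the sphere is null, `Measure.addHaar_sphere`; or use density points) `v` is differentiable at `z`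
with `hh * |dv w| ≤ b * ‖dF w‖`; then `inv_form_le` and `qf_metricMat`. -/
theorem ChB.ae_grad_le (B : ChB F Y R) (hF : Imm F) {v b : Euc n → ℝ} {L : ℝ≥0}
    (hv : LipschitzOnWith L v (closedBall 0 R)) (hb : ∀ x, 0 ≤ b x)
    (h : ∀ x ∈ closedBall (0 : Euc n) R, ∀ᶠ w in 𝓝 (0 : Euc n),
      hh F x * |v (x + w) - v x| ≤ b x * ‖fderiv ℝ F x w‖) :
    ∀ᵐ z ∂(volume.restrict (closedBall (0 : Euc n) R)),
      hh F z * √(gam (metricMat F z) (dv (closedBall 0 R) B.φ (fun p => -v (B.π p)) z)
        (dv (closedBall 0 R) B.φ (fun p => -v (B.π p)) z)) ≤ b z := by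
  obtain ⟨u, hu, huv⟩ := hv.extend_real
  have he : EqOn (fun w => -v (B.π (B.φ w))) (fun w => -u w) (closedBall 0 R) := by
    intro w hw
    beta_reduce
    rw [B.π_φ w hw, huv hw]
  have hfr : ∀ᵐ z ∂(volume : Measure (Euc n)), z ∉ frontier (closedBall (0 : Euc n) R) :=
    measure_eq_zero_iff_ae_notMem.1 ((convex_closedBall _ _).addHaar_frontier volume)
  filter_upwards [ae_fderivWithin_eq measurableSet_closedBall hu.neg he,
    ae_restrict_of_ae (hu.ae_differentiableAt (μ := volume)), ae_restrict_of_ae hfr,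
    ae_restrict_mem measurableSet_closedBall] with z h1 h2 h3 hz
  have hin : closedBall (0 : Euc n) R ∈ 𝓝 z := by
    rw [← mem_interior_iff_mem_nhds]
    by_contra h4
    exact h3 ⟨subset_closure hz, h4⟩
  have hD : HasFDerivAt v (fderiv ℝ u z) z :=
    h2.hasFDerivAt.congr_of_eventuallyEq (eventually_of_mem hin huv)
  have hh1 := hF.one_le_hh z
  have hh0 : 0 < hh F z := by linarith
  have key : ∀ w : Euc n, hh F z * |fderiv ℝ u z w| ≤ b z * ‖fderiv ℝ F z w‖ := by
    intro w
    have l1 := hD.lim w (c := fun m : ℕ => (m : ℝ)) (l := atTop)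
      (by simpa using tendsto_natCast_atTop_atTop (R := ℝ))
    have l2 : Tendsto (fun m : ℕ => (m : ℝ)⁻¹ • w) atTop (𝓝 0) := by
      simpa using (tendsto_inv_atTop_nhds_zero_nat (𝕜 := ℝ)).smul_const w
    refine le_of_tendsto (l1.abs.const_mul (hh F z)) ?_
    filter_upwards [l2.eventually (h z hz), eventually_gt_atTop 0] with m hm hm0
    have hm' : (0 : ℝ) < m := Nat.cast_pos.2 hm0
    rw [map_smul, norm_smul, norm_inv, Real.norm_natCast] at hm
    rw [smul_eq_mul, abs_mul, abs_of_pos hm']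
    have := mul_le_mul_of_nonneg_left hm hm'.le
    calc _ = m * (hh F z * |v (z + (m : ℝ)⁻¹ • w) - v z|) := by ring
      _ ≤ _ := this
      _ = _ := by field_simp
  have e1 : dv (closedBall 0 R) B.φ (fun p => -v (B.π p)) z = cv (-fderiv ℝ u z) := by
    have : fderiv ℝ (-u) z = -fderiv ℝ u z := fderiv_neg
    rw [← this, ← h1.2]
    rfl
  have h5 := inv_form_le (metricMat_psd F z) (a := cv (-fderiv ℝ u z)) (C := (b z / hh F z) ^ 2)
    (sq_nonneg _) fun w => by
      have h6 := clm_apply_eq (-fderiv ℝ u z) (WithLp.toLp 2 w)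
      have h7 := qf_metricMat F z (WithLp.toLp 2 w)
      have h8 := key (WithLp.toLp 2 w)
      rw [WithLp.ofLp_toLp] at h6 h7
      rw [← h6, h7, ← mul_pow, _root_.neg_apply, neg_sq, ← sq_abs]
      refine pow_le_pow_left₀ (abs_nonneg _) ?_ 2
      rw [div_mul_eq_mul_div, le_div_iff₀' hh0]
      exact h8
  rw [e1, ← le_div_iff₀' hh0]
  exact Real.sqrt_le_iff.2 ⟨div_nonneg (hb z) hh0.le, h5⟩

end Crest.Agent.R241.D
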