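import Crest.Agent.R241.DDefs

/-! Row 241, block D (helper74): the constancy theorem for open sets. -/

set_option autoImplicit false

open MeasureTheory Set Filter Topology Metric
open scoped ENNReal NNReal Matrix ContDiff

namespace Crest.Agent.R241.D

open Crest.GeometryTopology.Submanifold

variable {n : ℕ}

/-- no perimeter of `W` inside `O`. -/
def NoPer (W O : Set (Euc n)) : Prop :=
  ∀ f : Euc n → ℝ, ContDiff ℝ ∞ f → HasCompactSupport f → tsupport f ⊆ O →
    ∀ i, ∫ z in W, fderiv ℝ f z (EuclideanSpace.single i 1) = 0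

theorem DConst_cs {x : Euc n} {r : ℝ} {f : Euc n → ℝ} (hs : tsupport f ⊆ ball x r) :
    HasCompactSupport f :=
  (isCompact_closedBall x r).of_isClosed_subset (isClosed_tsupport f)
    (hs.trans ball_subset_closedBall)

theorem DConst_shift {x : Euc n} {r : ℝ} {f : Euc n → ℝ} (hs : tsupport f ⊆ ball x r)
    (v : Euc n) {r' : ℝ} (hr : r + ‖v‖ ≤ r') : tsupport (fun z => f (z + v)) ⊆ ball x r' := by
  have h1 : tsupport (fun z => f (z + v)) ⊆ (fun z => z + v) ⁻¹' tsupport f :=
    closure_minimal (fun z hz => subset_tsupport f hz)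
      ((isClosed_tsupport f).preimage (by fun_prop))
  intro z hz
  have h2 := hs (h1 hz)
  rw [mem_ball, dist_eq_norm] at h2 ⊢
  have h3 : z - x = (z + v - x) - v := by abel
  rw [h3]
  linarith [norm_sub_le (z + v - x) v]

/-- `t ↦ ∫_W f (z + t • w)` has zero derivative, or Fubini for
`f (z + w) - f z = ∫ t in 0..1, fderiv f (z + t • w) w`; expand `w` in the basis and apply the
hypothesis to the translates `f (· + t • w)`. -/
theorem NoPer.transl {W : Set (Euc n)} {x : Euc n} {ρ : ℝ} (h : NoPer W (ball x (2 * ρ)))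
    {f : Euc n → ℝ} (hf : ContDiff ℝ ∞ f) (hs : tsupport f ⊆ ball x ρ) {w : Euc n}
    (hw : ‖w‖ < ρ) : ∫ z in W, f (z + w) = ∫ z in W, f z := by
  have hfc := DConst_cs hs
  have hfd : Differentiable ℝ f := hf.differentiable (by simp)
  have hdc : Continuous (fderiv ℝ f) := hf.continuous_fderiv (by simp)
  obtain ⟨C, hC⟩ := hdc.bounded_above_of_compact_support (hfc.fderiv ℝ)
  have key : ∀ t : ℝ, HasDerivAt (fun t : ℝ => ∫ z in W, f (z + t • w))
      (∫ z in W, fderiv ℝ f (z + t • w) w) t := by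
    intro t
    refine (hasDerivAt_integral_of_dominated_loc_of_deriv_le (μ := volume.restrict W)
      (F := fun (t : ℝ) z => f (z + t • w)) (F' := fun (t : ℝ) z => fderiv ℝ f (z + t • w) w)
      (bound := (closedBall x (ρ + (|t| + 1) * ‖w‖)).indicator fun _ => C * ‖w‖)
      (ball_mem_nhds t one_pos) (Eventually.of_forall fun s => ?_) ?_ ?_
      (Eventually.of_forall fun z s hs' => ?_) ?_ (Eventually.of_forall fun z s _ => ?_)).2
    · exact (hf.continuous.comp (by fun_prop)).aestronglyMeasurable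
    · exact (Continuous.integrable_of_hasCompactSupport (hf.continuous.comp (by fun_prop))
        (DConst_cs (DConst_shift hs (t • w) le_rfl))).integrableOn
    · exact ((hdc.comp (by fun_prop)).clm_apply continuous_const).aestronglyMeasurable
    · by_cases hz : z + s • w ∈ tsupport f
      · have h1 := hs hz
        have h2 : z ∈ closedBall x (ρ + (|t| + 1) * ‖w‖) := by
          rw [mem_ball, dist_eq_norm] at h1
          rw [mem_closedBall, dist_eq_norm]
          have h3 : z - x = (z + s • w - x) - s • w := by abel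
          have h4 : |s| ≤ |t| + 1 := by
            rw [mem_ball, Real.dist_eq] at hs'
            have := abs_sub_abs_le_abs_sub s t
            linarith
          have h5 : ‖s • w‖ ≤ (|t| + 1) * ‖w‖ := by
            rw [norm_smul, Real.norm_eq_abs]
            exact mul_le_mul_of_nonneg_right h4 (norm_nonneg _)
          rw [h3]
          linarith [norm_sub_le (z + s • w - x) (s • w)]
        rw [indicator_of_mem h2]
        exact ((fderiv ℝ f (z + s • w)).le_opNorm w).trans
          (mul_le_mul_of_nonneg_right (hC _) (norm_nonneg _))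
      · rw [fderiv_of_notMem_tsupport ℝ hz]
        have hC0 : 0 ≤ C := (norm_nonneg _).trans (hC 0)
        simp only [zero_apply, norm_zero]
        exact indicator_nonneg (fun _ _ => by positivity) z
    · exact ((integrable_indicator_iff measurableSet_closedBall).2
        (integrableOn_const measure_closedBall_lt_top.ne)).integrableOn
    · have h1 : HasDerivAt (fun s : ℝ => z + s • w) w s := by
        simpa using ((hasDerivAt_id s).smul_const w).const_add z
      exact (hfd _).hasFDerivAt.comp_hasDerivAt s h1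
  have hzero : ∀ t ∈ Icc (0 : ℝ) 1, ∫ z in W, fderiv ℝ f (z + t • w) w = 0 := by
    intro t ht
    have h1 : ‖t • w‖ ≤ ρ := by
      rw [norm_smul, Real.norm_eq_abs, abs_of_nonneg ht.1]
      nlinarith [norm_nonneg w, ht.1, ht.2]
    have h2 := DConst_shift hs (t • w) (r' := 2 * ρ) (by linarith)
    have h3 : ContDiff ℝ ∞ fun z => f (z + t • w) := hf.comp (contDiff_id.add contDiff_const)
    have h4 := h _ h3 (DConst_cs h2) h2
    have h5 : ∀ z, fderiv ℝ f (z + t • w) w =
        ∑ i, w i * fderiv ℝ (fun z => f (z + t • w)) z (EuclideanSpace.single i 1) := by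
      intro z
      rw [fderiv_comp_add_right, clm_apply_eq]
      simp [cv, dotProduct, mul_comm]
    simp only [h5]
    rw [integral_finsetSum]
    · refine Finset.sum_eq_zero fun i _ => ?_
      rw [integral_const_mul, h4 i, mul_zero]
    · intro i _
      refine Integrable.const_mul (Integrable.integrableOn ?_) _
      refine Continuous.integrable_of_hasCompactSupport
        ((h3.continuous_fderiv (by simp)).clm_apply continuous_const) ?_
      exact (DConst_cs h2).fderiv_apply ℝ _
  have h6 := constant_of_has_deriv_right_zero (f := fun t : ℝ => ∫ z in W, f (z + t • w))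
    (a := 0) (b := 1) (fun t _ => (key t).continuousAt.continuousWithinAt)
    (fun t ht => by
      have := key t
      rw [hzero t (Ico_subset_Icc_self ht)] at this
      exact this.hasDerivWithinAt) 1 ⟨zero_le_one, le_rfl⟩
  simpa using h6

/-- `IsOpen.ae_eq_zero_of_integral_contDiff_smul_eq_zero` for
`indicator W 1 (z - w) - indicator W 1 z` on `ball x ρ`. -/
theorem NoPer.ae_iff {W : Set (Euc n)} (hW : MeasurableSet W) {x : Euc n} {ρ : ℝ}
    (h : NoPer W (ball x (2 * ρ))) {w : Euc n} (hw : ‖w‖ < ρ) :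
    ∀ᵐ z : Euc n, z ∈ ball x ρ → (z - w ∈ W ↔ z ∈ W) := by
  have hm1 : Measurable (W.indicator (fun _ => (1 : ℝ))) := measurable_const.indicator hW
  have hb : ∀ z, ‖W.indicator (fun _ => (1 : ℝ)) z‖ ≤ 1 := fun z => by
    by_cases hz : z ∈ W <;> simp [hz]
  have hli : ∀ v : Euc n, LocallyIntegrable (fun z => W.indicator (fun _ => (1 : ℝ)) (z - v)) := by
    intro v
    exact (locallyIntegrable_const (1 : ℝ)).mono
      (hm1.comp (by fun_prop)).aestronglyMeasurable
      (Eventually.of_forall fun z => by simpa using hb (z - v))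
  have hli0 : LocallyIntegrable (W.indicator (fun _ => (1 : ℝ))) := by simpa using hli 0
  have h1 := isOpen_ball.ae_eq_zero_of_integral_contDiff_smul_eq_zero (μ := volume)
    (U := ball x ρ)
    (f := fun z => W.indicator (fun _ => (1 : ℝ)) (z - w) - W.indicator (fun _ => (1 : ℝ)) z)
    (((hli w).sub hli0).locallyIntegrableOn _) fun g hg hgc hgs => by
      simp only [smul_sub]
      rw [integral_sub ((hli w).integrable_smul_left_of_hasCompactSupport hg.continuous hgc)
        (hli0.integrable_smul_left_of_hasCompactSupport hg.continuous hgc), sub_eq_zero,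
        ← integral_add_right_eq_self _ w]
      have e : ∀ u : Euc n → ℝ, ∫ z, u z • W.indicator (fun _ => (1 : ℝ)) z = ∫ z in W, u z := by
        intro u
        rw [← integral_indicator hW]
        refine integral_congr_ae (Eventually.of_forall fun z => ?_)
        by_cases hz : z ∈ W <;> simp [hz]
      simp only [add_sub_cancel_right]
      rw [e (fun z => g (z + w)), e g]
      exact h.transl hg hgs hw
  filter_upwards [h1] with z hz hzb
  have h2 := hz hzb
  by_cases a1 : z - w ∈ W <;> by_cases a2 : z ∈ W <;> simp_all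

/-- for `p ∈ W ∩ ball`, `q ∈ ball` translate a small ball around `p` by `w = q - p`;
`measure_null_of_locally_null`. -/
theorem NoPer.null_ball {W : Set (Euc n)} (hW : IsOpen W) {x : Euc n} {ρ : ℝ}
    (h : NoPer W (ball x (2 * ρ))) (hne : (W ∩ ball x (ρ / 2)).Nonempty) :
    volume (ball x (ρ / 2) \ W) = 0 := by
  obtain ⟨p, hpW, hp⟩ := hne
  obtain ⟨δ, hδ, hδW⟩ := Metric.isOpen_iff.1 hW p hpW
  refine measure_null_of_locally_null _ fun q hq => ?_
  have hw : ‖q - p‖ < ρ := by
    rw [← dist_eq_norm]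
    have h1 := hq.1
    rw [mem_ball] at h1 hp
    linarith [dist_triangle_right q p x]
  have hρ : 0 < ρ := (norm_nonneg _).trans_lt hw
  refine ⟨(ball x (ρ / 2) \ W) ∩ ball q δ, inter_mem_nhdsWithin _ (ball_mem_nhds q hδ), ?_⟩
  refine measure_mono_null (fun z hz => ?_) (h.ae_iff hW.measurableSet hw)
  intro hz'
  have h1 : z - (q - p) ∈ W := by
    apply hδW
    have h2 := hz.2
    rw [mem_ball, dist_eq_norm] at h2 ⊢
    rwa [show z - (q - p) - p = z - q by abel]
  exact hz.1.2 ((hz' (ball_subset_ball (by linarith) hz.1.1)).1 h1)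

/-- **Constancy.**  The open set `G = {q | ∃ δ > 0, volume (ball q δ \ W) = 0}` contains `W`, every
ball around a point of `G` meets `W`, so `G ∩ O` is relatively closed in `O` by `null_ball`. -/
theorem const_of_noPer {W O : Set (Euc n)} (hW : IsOpen W) (hc : IsPreconnected O)
    (h : ∀ x ∈ O, ∃ ρ > (0 : ℝ), NoPer W (ball x ρ)) :
    W ∩ O = ∅ ∨ ∀ x ∈ O, ∃ δ > (0 : ℝ), volume (ball x δ \ W) = 0 := by
  set G : Set (Euc n) := {q | ∃ δ > (0 : ℝ), volume (ball q δ \ W) = 0} with hG
  have hGo : IsOpen G := by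
    rw [Metric.isOpen_iff]
    rintro q ⟨δ, hδ, hq⟩
    refine ⟨δ, hδ, fun q' hq' => ⟨δ - dist q' q, sub_pos.2 (mem_ball.1 hq'), ?_⟩⟩
    refine measure_mono_null (diff_subset_diff_left ?_) hq
    exact ball_subset_ball' (by linarith)
  have hWG : W ⊆ G := by
    intro q hq
    obtain ⟨δ, hδ, hsub⟩ := Metric.isOpen_iff.1 hW q hq
    exact ⟨δ, hδ, by rw [diff_eq_empty.2 hsub, measure_empty]⟩
  have hcov : O ⊆ G ∪ (closure G)ᶜ := by
    intro x hx
    by_cases hxc : x ∈ closure G
    · left
      obtain ⟨ρ, hρ, hN⟩ := h x hx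
      have hN' : NoPer W (ball x (2 * (ρ / 2))) := by
        rw [show 2 * (ρ / 2) = ρ by ring]; exact hN
      have h4 : 0 < ρ / 2 / 2 := by positivity
      obtain ⟨q, ⟨δ, hδ, hq⟩, hqx⟩ := Metric.mem_closure_iff.1 hxc _ h4
      refine ⟨ρ / 2 / 2, h4, hN'.null_ball hW ?_⟩
      by_contra hcon
      rw [not_nonempty_iff_eq_empty] at hcon
      have hpos : 0 < min δ (ρ / 2 / 2 - dist q x) := by
        refine lt_min hδ ?_
        rw [dist_comm] at hqx
        linarith
      have hsub : ball q (min δ (ρ / 2 / 2 - dist q x)) ⊆ ball q δ \ W := by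
        intro z hz
        refine ⟨ball_subset_ball (min_le_left _ _) hz, fun hzW => ?_⟩
        have hz2 : z ∈ ball x (ρ / 2 / 2) :=
          ball_subset_ball' (by linarith [min_le_right δ (ρ / 2 / 2 - dist q x)]) hz
        have : z ∈ W ∩ ball x (ρ / 2 / 2) := ⟨hzW, hz2⟩
        rw [hcon] at this
        exact this
      exact (measure_ball_pos volume q hpos).ne' (measure_mono_null hsub hq)
    · exact Or.inr hxc
  rcases hc.subset_or_subset hGo isClosed_closure.isOpen_compl
      (disjoint_compl_right_iff_subset.2 subset_closure) hcov with h1 | h1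
  · exact Or.inr fun x hx => h1 hx
  · left
    rw [eq_empty_iff_forall_notMem]
    rintro x ⟨hxW, hxO⟩
    exact h1 hxO (subset_closure (hWG hxW))

theorem NoPer.of_disjoint {W O : Set (Euc n)} (hW : MeasurableSet W) (h : Disjoint W O) :
    NoPer W O := by
  intro f _ _ hs i
  refine setIntegral_eq_zero_of_forall_eq_zero fun z hz => ?_
  rw [fderiv_of_notMem_tsupport ℝ fun hz' => disjoint_left.1 h hz (hs hz')]
  rfl

/-- the exterior of a ball is connected in dimension `≥ 2` (image of `Ioi r ×ˢ sphere 0 1` under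
`(t, u) ↦ t • u`, `isConnected_sphere`). -/
theorem isPreconnected_ext {m : ℕ} (hm : 1 ≤ m) {r : ℝ} (hr : 0 < r) :
    IsPreconnected {y : Euc (m + 1) | r < ‖y‖} := by
  have hrank : 1 < Module.rank ℝ (Euc (m + 1)) := by
    rw [← Module.finrank_eq_rank, finrank_euclideanSpace_fin]
    exact_mod_cast Nat.lt_succ_of_le hm
  have hS : IsPreconnected (sphere (0 : Euc (m + 1)) 1) :=
    (isConnected_sphere hrank 0 zero_le_one).isPreconnected
  have hP : IsPreconnected (Ioi r ×ˢ sphere (0 : Euc (m + 1)) 1) :=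
    isPreconnected_Ioi.prod hS
  have hc : Continuous fun p : ℝ × Euc (m + 1) => p.1 • p.2 := by fun_prop
  have heq : (fun p : ℝ × Euc (m + 1) => p.1 • p.2) '' (Ioi r ×ˢ sphere (0 : Euc (m + 1)) 1) =
      {y : Euc (m + 1) | r < ‖y‖} := by
    ext y
    constructor
    · rintro ⟨⟨t, u⟩, ⟨ht, hu⟩, rfl⟩
      have ht' : r < t := ht
      have hu' : ‖u‖ = 1 := by simpa using hu
      show r < ‖t • u‖
      rw [norm_smul, hu', mul_one, Real.norm_eq_abs, abs_of_pos (hr.trans ht')]
      exact ht'
    · intro hy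
      have hy' : r < ‖y‖ := hy
      have hy0 : 0 < ‖y‖ := hr.trans hy'
      refine ⟨(‖y‖, ‖y‖⁻¹ • y), ⟨hy', ?_⟩, ?_⟩
      · simp [norm_smul, inv_mul_cancel₀ hy0.ne']
      · simp [smul_smul, mul_inv_cancel₀ hy0.ne']
  rw [← heq]
  exact hP.image _ hc.continuousOn

/-- **Rigidity of the shape.**  `ψ` is the change of normal coordinates, `ρ` the distance to the
second centre.  `O₁ = {ρ < r} = ψ '' ball`, `O₂ = {r < ρ} = ψ '' exterior` are preconnected;
`O₂` contains a point outside `closure W`, so `W ∩ O₂ = ∅`; points of `{ρ = r}` are limits of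
`ψ ((1 + t) • y) ∈ O₂`, so `W ⊆ O₁`; `W` is nonempty, so it fills `O₁` up to a null set
(`measure_null_of_locally_null`). -/
theorem shape {m : ℕ} (hm : 1 ≤ m) {W : Set (Euc (m + 1))} (hW : IsOpen W) (hne : W.Nonempty)
    {ψ : Euc (m + 1) → Euc (m + 1)} (hψ : Continuous ψ) (hs : Function.Surjective ψ)
    {ρ : Euc (m + 1) → ℝ} (hρψ : ∀ y, ρ (ψ y) = ‖y‖) {r : ℝ} (hr : 0 < r)
    (hfar : ∃ x, r < ρ x ∧ x ∉ closure W)
    (h : ∀ x, ρ x ≠ r → ∃ δ > (0 : ℝ), NoPer W (ball x δ)) :
    W ⊆ ψ '' ball 0 r ∧ volume (ψ '' ball 0 r \ W) = 0 := by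
  have h1c : IsPreconnected (ψ '' ball 0 r) :=
    (convex_ball (0 : Euc (m + 1)) r).isPreconnected.image _ hψ.continuousOn
  have h2c : IsPreconnected (ψ '' {y : Euc (m + 1) | r < ‖y‖}) :=
    (isPreconnected_ext hm hr).image _ hψ.continuousOn
  have h2 : W ∩ ψ '' {y : Euc (m + 1) | r < ‖y‖} = ∅ := by
    rcases const_of_noPer hW h2c (by
      rintro x ⟨y, hy, rfl⟩
      refine h _ ?_
      rw [hρψ]
      exact ne_of_gt hy) with h0 | h0
    · exact h0
    · exfalso
      obtain ⟨x, hx, hxW⟩ := hfar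
      obtain ⟨y, rfl⟩ := hs x
      rw [hρψ] at hx
      obtain ⟨δ, hδ, hnull⟩ := h0 (ψ y) ⟨y, hx, rfl⟩
      obtain ⟨ε, hε, hsub⟩ := Metric.isOpen_iff.1 isClosed_closure.isOpen_compl _ hxW
      have hsub' : ball (ψ y) (min δ ε) ⊆ ball (ψ y) δ \ W := fun z hz =>
        ⟨ball_subset_ball (min_le_left _ _) hz, fun hzW =>
          hsub (ball_subset_ball (min_le_right _ _) hz) (subset_closure hzW)⟩
      exact (measure_ball_pos volume _ (lt_min hδ hε)).ne' (measure_mono_null hsub' hnull)
  have h2' : ∀ y, ψ y ∈ W → ‖y‖ ≤ r := by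
    intro y hy
    by_contra hcon
    have : ψ y ∈ W ∩ ψ '' {y : Euc (m + 1) | r < ‖y‖} := ⟨hy, y, not_le.1 hcon, rfl⟩
    rw [h2] at this
    exact this
  have hsub : W ⊆ ψ '' ball 0 r := by
    intro x hx
    obtain ⟨y, rfl⟩ := hs x
    refine ⟨y, ?_, rfl⟩
    rw [mem_ball_zero_iff]
    refine lt_of_le_of_ne (h2' y hx) fun hyr => ?_
    have hc : Continuous fun t : ℝ => ψ ((1 + t) • y) := by fun_prop
    have hev : ∀ᶠ t in 𝓝 (0 : ℝ), ψ ((1 + t) • y) ∈ W := by
      apply hc.continuousAt.eventually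
      apply hW.mem_nhds
      simpa using hx
    have hev' : ∀ᶠ t in 𝓝[>] (0 : ℝ), ψ ((1 + t) • y) ∈ W := hev.filter_mono nhdsWithin_le_nhds
    obtain ⟨t, ht, ht0⟩ := (hev'.and self_mem_nhdsWithin).exists
    have ht0' : (0 : ℝ) < t := ht0
    have := h2' _ ht
    rw [norm_smul, hyr, Real.norm_eq_abs, abs_of_pos (by linarith)] at this
    nlinarith
  refine ⟨hsub, ?_⟩
  rcases const_of_noPer hW h1c (by
    rintro x ⟨y, hy, rfl⟩
    refine h _ ?_
    rw [hρψ]
    exact ne_of_lt (mem_ball_zero_iff.1 hy)) with h0 | h0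
  · exfalso
    obtain ⟨x, hx⟩ := hne
    have : x ∈ W ∩ ψ '' ball 0 r := ⟨hx, hsub hx⟩
    rw [h0] at this
    exact this
  · refine measure_null_of_locally_null _ fun x hx => ?_
    obtain ⟨δ, hδ, hnull⟩ := h0 x hx.1
    refine ⟨ball x δ \ W, ?_, hnull⟩
    refine mem_of_superset (inter_mem_nhdsWithin _ (ball_mem_nhds x hδ)) ?_
    rintro z ⟨hz1, hz2⟩
    exact ⟨hz2, hz1.2⟩

end Crest.Agent.R241.D
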