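import Crest.Agent.R241.KMaj

/-! Row 241, block D (helper74): from open subsets of the manifold to cycles.  Definitions. -/

set_option autoImplicit false

open MeasureTheory Set Filter Topology Metric
open scoped ENNReal NNReal Matrix ContDiff

namespace Crest.Agent.R241.D

open Crest.GeometryTopology.Submanifold

noncomputable section

/-- smooth, injective, infinitesimally expanding map (global normal coordinates). -/
structure Imm {n N : ℕ} (F : Euc n → Euc N) : Prop where
  smooth : ContDiff ℝ ∞ F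
  inj : Function.Injective F
  exp : ∀ x v, ‖v‖ ≤ ‖fderiv ℝ F x v‖

/-- the volume density `√det g`. -/
def hh {n N : ℕ} (F : Euc n → Euc N) (x : Euc n) : ℝ := √(metricMat F x).det

/-- the points from which the segment in direction `v` hits `A`. -/
def shadow {V : Type*} [AddCommGroup V] [Module ℝ V] (A : Set V) (v : V) : Set V :=
  {x | ∃ t ∈ Icc (0 : ℝ) 1, x + t • v ∈ A}

/-- the boundary measure of `W`, pulled back to the chart. -/
def bsig {n N : ℕ} (m : ℕ) (F : Euc n → Euc N) (W : Set (Euc n)) : Measure (Euc n) :=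
  (Measure.comap F (μHE[m] : Measure (Euc N))).restrict (frontier W)

/-- the average of the indicator of `W` over the ball of radius `ε`. -/
def uav {n : ℕ} (W : Set (Euc n)) (ε : ℝ) (x : Euc n) : ℝ :=
  volume.real (W ∩ closedBall x ε) / volume.real (closedBall (0 : Euc n) ε)

/-- cut-off: `1` on the ball of radius `R`, `0` outside the ball of radius `R + 1`. -/
def cut {n : ℕ} (R : ℝ) (x : Euc n) : ℝ := max 0 (min 1 (R + 1 - ‖x‖))

/-- the closed ball of radius `R` of the manifold, as a metric space `Y`, in the chart `F`. -/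
structure ChB {n N : ℕ} (F : Euc n → Euc N) (Y : Type) [MetricSpace Y] (R : ℝ) where
  φ : Euc n → Y
  π : Y → Euc n
  π_φ : ∀ w ∈ closedBall (0 : Euc n) R, π (φ w) = w
  φ_π : ∀ p, φ (π p) = p
  mem : ∀ p, π p ∈ closedBall (0 : Euc n) R
  lipπ : LipschitzWith 1 π
  lipφ : ∃ L : ℝ≥0, LipschitzOnWith L φ (closedBall (0 : Euc n) R)
  inf : ∀ y ∈ closedBall (0 : Euc n) R, ∀ ε > (0 : ℝ), ∀ᶠ w in 𝓝[closedBall (0 : Euc n) R] y,
    |dist (φ w) (φ y) - ‖fderiv ℝ F y (w - y)‖| ≤ ε * ‖w - y‖

/-- `T` is the boundary of the region `U` of the ball. -/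
def ChB.IsBd {m N : ℕ} {F : Euc (m + 1) → Euc N} {Y : Type} [MetricSpace Y] {R : ℝ}
    (B : ChB F Y R) (U : Set (Euc (m + 1))) (T : Chain Y m) : Prop :=
  ∀ (f : Y → ℝ) (π : Fin m → Y → ℝ), Lip f → (∀ a, Lip (π a)) →
    T.act f π = ∫ z in U, jdet (closedBall (0 : Euc (m + 1)) R) B.φ (Fin.cons f π) z

end

end Crest.Agent.R241.D
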