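import Crest.Agent.R241.DDefs

/-! Row 241, block D (helper74): the induced metric in the chart. -/

set_option autoImplicit false

open MeasureTheory Set Filter Topology Metric
open scoped ENNReal NNReal Matrix ContDiff

namespace Crest.Agent.R241.D

open Crest.GeometryTopology.Submanifold

variable {n N : ℕ} {F : Euc n → Euc N}

theorem qf_metricMat (F : Euc n → Euc N) (x v : Euc n) :
    qf (metricMat F x) v.ofLp = ‖fderiv ℝ F x v‖ ^ 2 := by
  have h : fderiv ℝ F x v = ∑ j, v j • pd F x j := by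
    have : v = ∑ j, v j • stdVec n j := by
      ext i
      simp [stdVec, Finset.sum_apply, Pi.single_apply]
    conv_lhs => rw [this]
    simp [pd]
  rw [← real_inner_self_eq_norm_sq, h, sum_inner]
  simp only [inner_sum, real_inner_smul_left, real_inner_smul_right, qf, dotProduct, Matrix.mulVec,
    metricMat, Matrix.of_apply, Finset.mul_sum]
  refine Finset.sum_congr rfl fun i _ => Finset.sum_congr rfl fun j _ => ?_
  ring

theorem metricMat_psd (F : Euc n → Euc N) (x : Euc n) : (metricMat F x).PosSemidef := by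
  refine posSemidef_of_qf (fun i j => ?_) fun v => ?_
  · simp [metricMat, real_inner_comm]
  · have := qf_metricMat F x (WithLp.toLp 2 v)
    rw [this]
    positivity

/-- `LinearMap.normDet_sq_eq_det_gram` with `EuclideanSpace.basisFun`. -/
theorem hh_eq_normDet (F : Euc n → Euc N) (x : Euc n) :
    hh F x = (fderiv ℝ F x : Euc n →ₗ[ℝ] Euc N).normDet := by
  have h := LinearMap.normDet_sq_eq_det_gram (fderiv ℝ F x : Euc n →ₗ[ℝ] Euc N)
    (EuclideanSpace.basisFun (Fin n) ℝ)
  have e : Matrix.gram ℝ (fun i => (fderiv ℝ F x : Euc n →ₗ[ℝ] Euc N)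
      (EuclideanSpace.basisFun (Fin n) ℝ i)) = metricMat F x := by
    ext i j
    simp [Matrix.gram, metricMat, pd, stdVec]
  rw [e] at h
  unfold hh
  rw [← h]
  exact Real.sqrt_sq (LinearMap.normDet_nonneg _)

theorem hh_nonneg (F : Euc n → Euc N) (x : Euc n) : 0 ≤ hh F x := Real.sqrt_nonneg _

theorem Imm.injective_fderiv (hF : Imm F) (x : Euc n) : Function.Injective (fderiv ℝ F x) := by
  refine (injective_iff_map_eq_zero _).2 fun v hv => ?_
  have := hF.exp x v
  rw [hv, norm_zero] at this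
  exact norm_le_zero_iff.1 this

/-- `det_mono` with the identity matrix. -/
theorem Imm.one_le_det (hF : Imm F) (x : Euc n) : 1 ≤ (metricMat F x).det := by
  have h := det_mono (g := 1) (g' := metricMat F x) Matrix.PosSemidef.one (metricMat_psd F x)
    fun v => by
      have h1 := qf_metricMat F x (WithLp.toLp 2 v)
      have h2 := hF.exp x (WithLp.toLp 2 v)
      have h3 : qf 1 v = ‖(WithLp.toLp 2 v : Euc n)‖ ^ 2 := by
        rw [EuclideanSpace.real_norm_sq_eq]
        simp [qf, dotProduct, sq]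
      rw [h1, h3]
      exact pow_le_pow_left₀ (norm_nonneg _) h2 2
  simpa using h

theorem Imm.one_le_hh (hF : Imm F) (x : Euc n) : 1 ≤ hh F x := by
  exact Real.one_le_sqrt.2 (hF.one_le_det x)

theorem Imm.contDiff_metricMat (hF : Imm F) (i j : Fin n) :
    ContDiff ℝ 1 fun x => metricMat F x i j := by
  have h : ContDiff ℝ 1 (fderiv ℝ F) :=
    (contDiff_infty_iff_fderiv.1 hF.smooth).2.of_le (by simp)
  have h' : ∀ a, ContDiff ℝ 1 fun x => pd F x a := fun a => h.clm_apply contDiff_const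
  exact (h' i).inner ℝ (h' j)

theorem Imm.contDiff_hh (hF : Imm F) : ContDiff ℝ 1 (hh F) := by
  have h : ContDiff ℝ 1 fun x => (metricMat F x).det := by
    simp only [Matrix.det_apply']
    exact ContDiff.sum fun σ _ => contDiff_const.mul
      (contDiff_prod fun i _ => hF.contDiff_metricMat _ _)
  exact h.sqrt fun x => (zero_lt_one.trans_le (hF.one_le_det x)).ne'

/-- `g ≥ 1` and `det g ≤ 1` force `g = 1` (eigenvalues `≥ 1` with product `≤ 1`; or: `g - 1` is
positive semidefinite; if `qf g v > |v|²` for some `v` compare with a rank one perturbation). -/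
theorem eq_one_of_det_le {g : Matrix (Fin n) (Fin n) ℝ} (hg : g.PosSemidef)
    (h1 : ∀ v : Fin n → ℝ, v ⬝ᵥ v ≤ qf g v) (hd : g.det ≤ 1) : g = 1 := by
  have hA := hg.1
  have hev : ∀ i, 1 ≤ hA.eigenvalues i := by
    intro i
    rw [hA.eigenvalues_eq i]
    have h2 := h1 (hA.eigenvectorBasis i).ofLp
    have h3 : (hA.eigenvectorBasis i).ofLp ⬝ᵥ (hA.eigenvectorBasis i).ofLp = 1 := by
      have := hA.eigenvectorBasis.orthonormal.1 i
      have h4 := EuclideanSpace.real_norm_sq_eq (hA.eigenvectorBasis i)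
      rw [this] at h4
      simp only [dotProduct, ← sq]
      rw [← h4]; norm_num
    rw [h3] at h2
    simpa [qf] using h2
  have hdet : g.det = ∏ i, hA.eigenvalues i := by simpa using hA.det_eq_prod_eigenvalues
  have hone : ∀ i, hA.eigenvalues i = 1 := by
    intro i
    refine le_antisymm ?_ (hev i)
    have h4 : (1 : ℝ) ≤ ∏ j ∈ Finset.univ.erase i, hA.eigenvalues j := by
      have := Finset.prod_le_prod (s := Finset.univ.erase i) (f := fun _ => (1 : ℝ))
        (g := hA.eigenvalues) (fun _ _ => zero_le_one) fun j _ => hev j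
      simpa using this
    have h5 := Finset.mul_prod_erase Finset.univ hA.eigenvalues (Finset.mem_univ i)
    have h6 := hev i
    nlinarith
  have hs := hA.spectral_theorem
  have e : (RCLike.ofReal ∘ hA.eigenvalues : Fin n → ℝ) = fun _ => 1 := by
    funext i; simp [hone i]
  rw [e, Matrix.diagonal_one, map_one] at hs
  exact hs

/-- uniform strict differentiability on bounded sets (`fderiv F` is uniformly continuous on the
compact ball of radius `R + 1`; mean value inequality for `y ↦ F y - fderiv F x y` on the convex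
ball `closedBall x δ`). -/
theorem Imm.unif (hF : Imm F) (R : ℝ) {η : ℝ} (hη : 0 < η) :
    ∃ δ > (0 : ℝ), ∀ x ∈ closedBall (0 : Euc n) R, ∀ y ∈ closedBall x δ, ∀ y' ∈ closedBall x δ,
      ‖F y - F y' - fderiv ℝ F x (y - y')‖ ≤ η * ‖y - y'‖ := by
  have hc : Continuous (fderiv ℝ F) := hF.smooth.continuous_fderiv (by simp)
  have hu : UniformContinuousOn (fderiv ℝ F) (closedBall (0 : Euc n) (R + 1)) :=
    (isCompact_closedBall _ _).uniformContinuousOn_of_continuous hc.continuousOn
  obtain ⟨δ, hδ, h⟩ := Metric.uniformContinuousOn_iff_le.1 hu η hη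
  refine ⟨min δ 1, lt_min hδ one_pos, fun x hx y hy y' hy' => ?_⟩
  refine (convex_closedBall x (min δ 1)).norm_image_sub_le_of_norm_fderiv_le'
    (fun z _ => hF.smooth.differentiable (by simp) z) (fun z hz => ?_) hy' hy
  rw [← dist_eq_norm]
  rw [mem_closedBall] at hz hx
  refine h z ?_ x ?_ (hz.trans (min_le_left _ _))
  · rw [mem_closedBall]
    linarith [dist_triangle z x 0, min_le_right δ 1]
  · rw [mem_closedBall]; linarith

/-- two-sided comparison of `F` with its differential (use `unif` and `‖v‖ ≤ ‖fderiv F x v‖`). -/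
theorem Imm.unif_cmp (hF : Imm F) (R : ℝ) {c : ℝ≥0} (hc : 1 < c) :
    ∃ δ > (0 : ℝ), ∀ x ∈ closedBall (0 : Euc n) R, ∀ y ∈ closedBall x δ, ∀ y' ∈ closedBall x δ,
      ‖fderiv ℝ F x (y - y')‖ ≤ c * ‖F y - F y'‖ ∧ ‖F y - F y'‖ ≤ c * ‖fderiv ℝ F x (y - y')‖ := by
  have hc' : (1 : ℝ) < c := by exact_mod_cast hc
  have hη : 0 < 1 - 1 / (c : ℝ) := by
    rw [sub_pos, div_lt_one (by linarith)]; exact hc'
  obtain ⟨δ, hδ, h⟩ := hF.unif R hη
  refine ⟨δ, hδ, fun x hx y hy y' hy' => ?_⟩
  have h1 := h x hx y hy y' hy'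
  have h2 := hF.exp x (y - y')
  set A := fderiv ℝ F x (y - y')
  set B := F y - F y'
  have h3 : ‖B - A‖ ≤ (1 - 1 / (c : ℝ)) * ‖A‖ := h1.trans (mul_le_mul_of_nonneg_left h2 hη.le)
  have h4 : ‖A‖ ≤ ‖B‖ + ‖B - A‖ := by
    have := norm_sub_le B (B - A)
    rwa [sub_sub_cancel] at this
  have h5 : ‖B‖ ≤ ‖A‖ + ‖B - A‖ := by
    have := norm_add_le A (B - A)
    rwa [add_sub_cancel] at this
  have hi : (c : ℝ) * (1 / c) = 1 := by field_simp
  have hA := norm_nonneg A
  constructor
  · have h6 : 1 / (c : ℝ) * ‖A‖ ≤ ‖B‖ := by linarith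
    have h7 := mul_le_mul_of_nonneg_left h6 (by linarith : (0 : ℝ) ≤ c)
    rwa [← mul_assoc, hi, one_mul] at h7
  · have h6 : 2 - 1 / (c : ℝ) ≤ c := by
      have : 0 < 1 / (c : ℝ) := by positivity
      nlinarith [sq_nonneg (1 - 1 / (c : ℝ))]
    nlinarith [mul_le_mul_of_nonneg_right h6 hA]

theorem Imm.bound (hF : Imm F) (R : ℝ) :
    ∃ M : ℝ, 0 ≤ M ∧ ∀ x ∈ closedBall (0 : Euc n) R, hh F x ≤ M ∧ ‖fderiv ℝ F x‖ ≤ M := by
  have hc : Continuous (fderiv ℝ F) := hF.smooth.continuous_fderiv (by simp)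
  obtain ⟨M1, h1⟩ := (isCompact_closedBall (0 : Euc n) R).exists_bound_of_continuousOn
    hF.contDiff_hh.continuous.continuousOn
  obtain ⟨M2, h2⟩ := (isCompact_closedBall (0 : Euc n) R).exists_bound_of_continuousOn
    hc.continuousOn
  refine ⟨max 0 (max M1 M2), le_max_left _ _, fun x hx => ⟨?_, ?_⟩⟩
  · exact ((le_abs_self _).trans (h1 x hx)).trans ((le_max_left _ _).trans (le_max_right _ _))
  · exact (h2 x hx).trans ((le_max_right _ _).trans (le_max_right _ _))

theorem Imm.measurableEmbedding (hF : Imm F) : MeasurableEmbedding F :=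
  hF.smooth.continuous.measurableEmbedding hF.inj

end Crest.Agent.R241.D
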