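import Crest.Agent.R241.DArea

/-! Row 241, block D (helper74): averaging the indicator function. -/

set_option autoImplicit false

open MeasureTheory Set Filter Topology Metric
open scoped ENNReal NNReal Matrix ContDiff

namespace Crest.Agent.R241.D

open Crest.GeometryTopology.Submanifold

variable {n N : ℕ}

theorem uav_nonneg (W : Set (Euc n)) (ε : ℝ) (x : Euc n) : 0 ≤ uav W ε x := by
  exact div_nonneg measureReal_nonneg measureReal_nonneg

theorem uav_le_one (W : Set (Euc n)) (ε : ℝ) (x : Euc n) : uav W ε x ≤ 1 := by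
  refine div_le_one_of_le₀ ?_ measureReal_nonneg
  rw [← Measure.addHaar_real_closedBall_center volume x ε]
  exact measureReal_mono inter_subset_right measure_closedBall_lt_top.ne

theorem DMoll_ball_pos {ε : ℝ} (hε : 0 < ε) : 0 < volume.real (closedBall (0 : Euc n) ε) :=
  ENNReal.toReal_pos (measure_closedBall_pos volume _ hε).ne' measure_closedBall_lt_top.ne

theorem uav_eventually_one {W : Set (Euc n)} (hW : IsOpen W) {x : Euc n} (hx : x ∈ W) :
    ∀ᶠ ε in 𝓝[>] (0 : ℝ), uav W ε x = 1 := by
  obtain ⟨δ, hδ, hsub⟩ := Metric.isOpen_iff.1 hW x hx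
  filter_upwards [Ioo_mem_nhdsGT hδ] with ε hε
  have h1 : W ∩ closedBall x ε = closedBall x ε :=
    inter_eq_right.2 ((closedBall_subset_ball hε.2).trans hsub)
  rw [uav, h1, Measure.addHaar_real_closedBall_center volume x ε]
  exact div_self (DMoll_ball_pos hε.1).ne'

theorem uav_eventually_zero {W : Set (Euc n)} {x : Euc n} (hx : x ∉ closure W) :
    ∀ᶠ ε in 𝓝[>] (0 : ℝ), uav W ε x = 0 := by
  obtain ⟨δ, hδ, hsub⟩ := Metric.isOpen_iff.1 isClosed_closure.isOpen_compl x hx
  filter_upwards [Ioo_mem_nhdsGT hδ] with ε hε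
  have h1 : W ∩ closedBall x ε = ∅ := by
    refine eq_empty_of_forall_notMem fun y hy => ?_
    exact hsub (closedBall_subset_ball hε.2 hy.2) (subset_closure hy.1)
  rw [uav, h1, measureReal_empty, zero_div]

/-- translate by `v`: `volume (W ∩ closedBall (x + v) ε) = volume {y ∈ closedBall x ε | y + v ∈ W}`,
and this set differs from `W ∩ closedBall x ε` by a subset of the shadow (`mem_shadow_frontier`).
The shadow is bounded, hence of finite measure. -/
theorem abs_uav_sub_le (W : Set (Euc n)) {ε : ℝ} (hε : 0 < ε) (x v : Euc n) :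
    |uav W ε (x + v) - uav W ε x| ≤
      volume.real (shadow (frontier W ∩ closedBall x (ε + ‖v‖)) v) /
        volume.real (closedBall (0 : Euc n) ε) := by
  set S := shadow (frontier W ∩ closedBall x (ε + ‖v‖)) v with hS
  have hSb : S ⊆ closedBall x (ε + ‖v‖ + ‖v‖) := by
    rintro y ⟨t, ht, -, hy⟩
    rw [mem_closedBall, dist_eq_norm] at hy ⊢
    have h1 : y - x = (y + t • v - x) - t • v := by abel
    have h2 : ‖t • v‖ ≤ ‖v‖ := by
      rw [norm_smul, Real.norm_of_nonneg ht.1]
      exact mul_le_of_le_one_left (norm_nonneg _) ht.2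
    rw [h1]
    exact (norm_sub_le _ _).trans (by linarith)
  have hSf : volume S ≠ ⊤ := ((measure_mono hSb).trans_lt measure_closedBall_lt_top).ne
  have hmem : ∀ y ∈ closedBall x ε, ¬(y ∈ W ↔ y + v ∈ W) → y ∈ S := by
    intro y hy h
    obtain ⟨t, ht, h1, h2⟩ := mem_shadow_frontier h
    refine ⟨t, ht, h1, ?_⟩
    rw [mem_closedBall] at hy h2 ⊢
    linarith [dist_triangle (y + t • v) y x]
  set A := W ∩ closedBall x ε with hA
  set B := (fun y => y + v) ⁻¹' (W ∩ closedBall (x + v) ε) with hB
  have hBv : volume.real B = volume.real (W ∩ closedBall (x + v) ε) := by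
    simp only [measureReal_def, hB, measure_preimage_add_right]
  have hBm : ∀ y, y ∈ B ↔ y + v ∈ W ∧ y ∈ closedBall x ε := fun y => by
    simp [hB, mem_closedBall]
  have hAf : volume A ≠ ⊤ :=
    ((measure_mono inter_subset_right).trans_lt measure_closedBall_lt_top).ne
  have hBf : volume B ≠ ⊤ :=
    ((measure_mono fun y hy => ((hBm y).1 hy).2).trans_lt
      (measure_closedBall_lt_top (x := x) (r := ε))).ne
  have h1 : volume.real A ≤ volume.real B + volume.real S := by
    refine (measureReal_mono (s₂ := B ∪ S) (fun y hy => ?_)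
      ((measure_union_lt_top hBf.lt_top hSf.lt_top).ne)).trans (measureReal_union_le _ _)
    by_cases hyB : y + v ∈ W
    · exact Or.inl ((hBm y).2 ⟨hyB, hy.2⟩)
    · exact Or.inr (hmem y hy.2 fun h => hyB (h.1 hy.1))
  have h2 : volume.real B ≤ volume.real A + volume.real S := by
    refine (measureReal_mono (s₂ := A ∪ S) (fun y hy => ?_)
      ((measure_union_lt_top hAf.lt_top hSf.lt_top).ne)).trans (measureReal_union_le _ _)
    obtain ⟨hy1, hy2⟩ := (hBm y).1 hy
    by_cases hyA : y ∈ W
    · exact Or.inl ⟨hyA, hy2⟩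
    · exact Or.inr (hmem y hy2 fun h => hyA (h.2 hy1))
  have hp := DMoll_ball_pos (n := n) hε
  rw [uav, uav, ← sub_div, abs_div, abs_of_pos hp, ← hBv]
  refine div_le_div_of_nonneg_right ?_ hp.le
  rw [abs_le]
  constructor <;> linarith

theorem bsig_apply {m : ℕ} {F : Euc n → Euc N} (hF : Imm F) (W : Set (Euc n)) {A : Set (Euc n)}
    (hA : MeasurableSet A) :
    bsig m F W A = (μHE[m] : Measure (Euc N)) (F '' (frontier W ∩ A)) := by
  rw [bsig, Measure.restrict_apply hA, hF.measurableEmbedding.comap_apply, inter_comm]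

theorem DMoll_meas_set (r : ℝ) : MeasurableSet {p : Euc n × Euc n | dist p.2 p.1 ≤ r} :=
  (isClosed_le (continuous_snd.dist continuous_fst) continuous_const).measurableSet

theorem measurable_measure_closedBall (σ : Measure (Euc n)) [SFinite σ] (r : ℝ) :
    Measurable fun x => σ (closedBall x r) := by
  exact measurable_measure_prodMk_left (ν := σ) (DMoll_meas_set r)

/-- Tonelli. -/
theorem lintegral_measure_closedBall (σ : Measure (Euc n)) [SFinite σ] (r : ℝ) :
    ∫⁻ x, σ (closedBall x r) = σ univ * volume (closedBall (0 : Euc n) r) := by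
  have h1 := Measure.prod_apply (μ := (volume : Measure (Euc n))) (ν := σ) (DMoll_meas_set r)
  have h2 := Measure.prod_apply_symm (μ := (volume : Measure (Euc n))) (ν := σ) (DMoll_meas_set r)
  have h3 : ∀ y : Euc n, volume ((fun x => (x, y)) ⁻¹' {p : Euc n × Euc n | dist p.2 p.1 ≤ r}) =
      volume (closedBall (0 : Euc n) r) := fun y => by
    rw [← Measure.addHaar_closedBall_center volume y r]
    congr 1
    ext x
    simp [dist_comm]
  simp only [h3, lintegral_const] at h2
  rw [mul_comm, ← h2, h1]
  rfl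

/-- `volume (W ∩ closedBall x ε) = (volume.restrict W) (closedBall x ε)`. -/
theorem measurable_uav (W : Set (Euc n)) (ε : ℝ) : Measurable (uav W ε) := by
  have h : uav W ε = fun x => ((volume.restrict W) (closedBall x ε)).toReal /
      volume.real (closedBall (0 : Euc n) ε) := by
    funext x
    rw [uav, Measure.restrict_apply measurableSet_closedBall, inter_comm, measureReal_def]
  rw [h]
  exact (measurable_measure_closedBall _ ε).ennreal_toReal.div_const _

theorem cut_nonneg (R : ℝ) (x : Euc n) : 0 ≤ cut R x := le_max_left _ _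

theorem cut_le_one (R : ℝ) (x : Euc n) : cut R x ≤ 1 := max_le zero_le_one (min_le_left _ _)

theorem cut_eq_one {R : ℝ} {x : Euc n} (h : ‖x‖ ≤ R) : cut R x = 1 := by
  rw [cut, min_eq_left (by linarith), max_eq_right zero_le_one]

theorem cut_eq_zero {R : ℝ} {x : Euc n} (h : R + 1 ≤ ‖x‖) : cut R x = 0 := by
  rw [cut, max_eq_left ((min_le_right _ _).trans (by linarith))]

theorem lipschitz_cut (R : ℝ) : LipschitzWith 1 (cut R : Euc n → ℝ) := by
  have h : LipschitzWith 1 fun x : Euc n => R + 1 - ‖x‖ := by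
    refine LipschitzWith.of_dist_le_mul fun x y => ?_
    rw [NNReal.coe_one, one_mul, Real.dist_eq, dist_eq_norm, abs_sub_comm]
    have : R + 1 - ‖y‖ - (R + 1 - ‖x‖) = ‖x‖ - ‖y‖ := by ring
    rw [this]
    exact abs_norm_sub_norm_le x y
  exact (h.const_min 1).const_max 0

end Crest.Agent.R241.D
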