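import Crest.Agent.R241.DMoll

/-! Row 241, block D (helper74): the slope of the averaged indicator function. -/

set_option autoImplicit false

open MeasureTheory Set Filter Topology Metric
open scoped ENNReal NNReal Matrix ContDiff

namespace Crest.Agent.R241.D

open Crest.GeometryTopology.Submanifold

variable {m N : ℕ} {F : Euc (m + 1) → Euc N} {W : Set (Euc (m + 1))}

theorem DMoll2_univ (hF : Imm F) (W : Set (Euc (m + 1))) :
    bsig m F W univ = (μHE[m] : Measure (Euc N)) (F '' frontier W) := by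
  rw [bsig_apply hF W MeasurableSet.univ, inter_univ]

theorem DMoll2_fin (hF : Imm F) (hA : (μHE[m] : Measure (Euc N)) (F '' frontier W) ≠ ⊤) :
    IsFiniteMeasure (bsig m F W) :=
  ⟨by rw [DMoll2_univ hF]; exact hA.lt_top⟩

theorem DMoll2_vol_pos {n : ℕ} {ε : ℝ} (hε : 0 < ε) :
    0 < volume.real (closedBall (0 : Euc n) ε) :=
  ENNReal.toReal_pos (measure_closedBall_pos volume _ hε).ne' measure_closedBall_lt_top.ne

/-- the pointwise slope bound: `δ` from `Imm.unif_cmp`; for `ε + ρ ≤ δ`, `‖v‖ ≤ ρ` combine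
`abs_uav_sub_le`, `shadow_lin_le` (`L = fderiv F x`, `hh_eq_normDet`) and `bsig_apply`. -/
theorem slope_uav (hF : Imm F) (hA : (μHE[m] : Measure (Euc N)) (F '' frontier W) ≠ ⊤) (R : ℝ)
    {c : ℝ≥0} (hc : 1 < c) :
    ∃ δ > (0 : ℝ), ∀ ε > (0 : ℝ), ∀ ρ > (0 : ℝ), ε + ρ ≤ δ →
      ∀ x ∈ closedBall (0 : Euc (m + 1)) R, ∀ v : Euc (m + 1), ‖v‖ ≤ ρ →
        hh F x * |uav W ε (x + v) - uav W ε x| ≤
          (c : ℝ) ^ m * (bsig m F W).real (closedBall x (ε + ρ)) /
            volume.real (closedBall (0 : Euc (m + 1)) ε) * ‖fderiv ℝ F x v‖ := by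
  have := DMoll2_fin hF hA
  obtain ⟨δ, hδ, hcmp⟩ := hF.unif_cmp R hc
  refine ⟨δ, hδ, fun ε hε ρ _ hερ x hx v hv => ?_⟩
  by_cases hv0 : v = 0
  · simp [hv0]
  have hV := DMoll2_vol_pos (n := m + 1) hε
  have hsub : closedBall x (ε + ‖v‖) ⊆ closedBall x (ε + ρ) :=
    closedBall_subset_closedBall (by linarith)
  have hsub' : closedBall x (ε + ‖v‖) ⊆ closedBall x δ :=
    closedBall_subset_closedBall (by linarith)
  have h1 := shadow_lin_le (fderiv ℝ F x) (hF.injective_fderiv x) (F := F) (c := c)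
    (A := frontier W ∩ closedBall x (ε + ‖v‖))
    (fun a ha a' ha' => (hcmp x hx a (hsub' ha.2) a' (hsub' ha'.2)).1) hv0
  rw [← hh_eq_normDet, ← bsig_apply hF W measurableSet_closedBall] at h1
  have h2 : ENNReal.ofReal (hh F x) * volume (shadow (frontier W ∩ closedBall x (ε + ‖v‖)) v) ≤
      ENNReal.ofReal ‖fderiv ℝ F x v‖ * ((c : ℝ≥0∞) ^ m * bsig m F W (closedBall x (ε + ρ))) :=
    h1.trans (by gcongr)
  have h3 := ENNReal.toReal_mono (ENNReal.mul_ne_top ENNReal.ofReal_ne_top
    (ENNReal.mul_ne_top (ENNReal.pow_ne_top ENNReal.coe_ne_top) (measure_ne_top _ _))) h2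
  rw [ENNReal.toReal_mul, ENNReal.toReal_mul, ENNReal.toReal_mul,
    ENNReal.toReal_ofReal (hh_nonneg F x), ENNReal.toReal_ofReal (norm_nonneg _),
    ENNReal.toReal_pow, ENNReal.coe_toReal] at h3
  refine (mul_le_mul_of_nonneg_left (abs_uav_sub_le W hε x v) (hh_nonneg F x)).trans ?_
  rw [← mul_div_assoc, div_mul_eq_mul_div]
  refine div_le_div_of_nonneg_right ?_ hV.le
  simp only [Measure.real]
  linarith

/-- Main property of the averages.  Take `c > 1`, `ρ = (c - 1) ε` and
`a x = c ^ m * σ (closedBall x (c ε)) / volume (closedBall 0 ε)`, so that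
`∫ a = c ^ m * c ^ (m + 1) * σ univ` (`lintegral_measure_closedBall`, `Measure.addHaar_closedBall`).
Lipschitz: for `‖v‖ ≤ ρ` use the slope bound, `hh ≥ 1` and `Imm.bound`; otherwise `0 ≤ uav ≤ 1`. -/
theorem exists_moll (hF : Imm F) (hA : (μHE[m] : Measure (Euc N)) (F '' frontier W) ≠ ⊤) (R : ℝ)
    {η : ℝ} (hη : 0 < η) :
    ∀ᶠ ε in 𝓝[>] (0 : ℝ), (∃ L : ℝ≥0, LipschitzOnWith L (uav W ε) (closedBall 0 R)) ∧
      ∃ a : Euc (m + 1) → ℝ, Measurable a ∧ (∀ x, 0 ≤ a x) ∧
        ∫⁻ x, ENNReal.ofReal (a x) ≤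
          (μHE[m] : Measure (Euc N)) (F '' frontier W) + ENNReal.ofReal η ∧
        ∀ x ∈ closedBall (0 : Euc (m + 1)) R, ∀ᶠ v in 𝓝 (0 : Euc (m + 1)),
          hh F x * |uav W ε (x + v) - uav W ε x| ≤ a x * ‖fderiv ℝ F x v‖ := by
  have := DMoll2_fin hF hA
  set s : ℝ := (bsig m F W).real univ with hs
  have hs0 : 0 ≤ s := measureReal_nonneg
  obtain ⟨c, hc, hcs⟩ : ∃ c : ℝ≥0, 1 < c ∧ (c : ℝ) ^ (2 * m + 1) * s < s + η := by
    have h1 : Tendsto (fun c : ℝ≥0 => (c : ℝ) ^ (2 * m + 1) * s) (𝓝[>] 1) (𝓝 s) := by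
      have h2 : Continuous fun c : ℝ≥0 => (c : ℝ) ^ (2 * m + 1) * s := by fun_prop
      simpa using (h2.tendsto 1).mono_left (nhdsWithin_le_nhds (s := Ioi 1))
    obtain ⟨c, h2, h3⟩ := ((h1.eventually (gt_mem_nhds (lt_add_of_pos_right s hη))).and
      self_mem_nhdsWithin).exists
    exact ⟨c, h3, h2⟩
  have hc' : (1 : ℝ) < c := by exact_mod_cast hc
  obtain ⟨δ, hδ, hsl⟩ := slope_uav hF hA R hc
  obtain ⟨M, hM0, hM⟩ := hF.bound R
  filter_upwards [Ioo_mem_nhdsGT (show (0 : ℝ) < δ / c by positivity)] with ε hε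
  have hε0 := hε.1
  have hV := DMoll2_vol_pos (n := m + 1) hε0
  have hρ : 0 < ((c : ℝ) - 1) * ε := mul_pos (by linarith) hε0
  have e1 : ε + ((c : ℝ) - 1) * ε = c * ε := by ring
  have hle : ε + ((c : ℝ) - 1) * ε ≤ δ := by
    have h1 := hε.2
    rw [lt_div_iff₀ (by linarith)] at h1
    linarith
  have key := hsl ε hε0 _ hρ hle
  rw [e1] at key
  set V := volume.real (closedBall (0 : Euc (m + 1)) ε) with hVdef
  refine ⟨⟨Real.toNNReal ((c : ℝ) ^ m * s / V * M + 1 / (((c : ℝ) - 1) * ε)),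
    LipschitzOnWith.of_dist_le' fun y _ x hx => ?_⟩,
    fun x => (c : ℝ) ^ m * (bsig m F W).real (closedBall x (c * ε)) / V, ?_, fun x => ?_, ?_,
    fun x hx => ?_⟩
  · rw [Real.dist_eq, dist_eq_norm, add_mul]
    have t1 : 0 ≤ (c : ℝ) ^ m * s / V * M * ‖y - x‖ := by positivity
    have t2 : 0 ≤ 1 / (((c : ℝ) - 1) * ε) * ‖y - x‖ := by positivity
    by_cases hv : ‖y - x‖ ≤ ((c : ℝ) - 1) * ε
    · have h1 := key x hx (y - x) hv
      rw [add_sub_cancel] at h1
      have h2 : |uav W ε y - uav W ε x| ≤ hh F x * |uav W ε y - uav W ε x| :=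
        le_mul_of_one_le_left (abs_nonneg _) (hF.one_le_hh x)
      have h3 : ‖fderiv ℝ F x (y - x)‖ ≤ M * ‖y - x‖ :=
        ((fderiv ℝ F x).le_opNorm _).trans (mul_le_mul_of_nonneg_right (hM x hx).2 (norm_nonneg _))
      have h4 : (bsig m F W).real (closedBall x (c * ε)) ≤ s := measureReal_mono (subset_univ _)
      have h5 : (c : ℝ) ^ m * (bsig m F W).real (closedBall x (c * ε)) / V *
          ‖fderiv ℝ F x (y - x)‖ ≤ (c : ℝ) ^ m * s / V * (M * ‖y - x‖) := by gcongr
      linarith [mul_assoc ((c : ℝ) ^ m * s / V) M ‖y - x‖]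
    · have h1 : |uav W ε y - uav W ε x| ≤ 1 := abs_le.2
        ⟨by linarith [uav_nonneg W ε y, uav_le_one W ε x],
          by linarith [uav_nonneg W ε x, uav_le_one W ε y]⟩
      have h2 : 1 ≤ 1 / (((c : ℝ) - 1) * ε) * ‖y - x‖ := by
        rw [one_div, inv_mul_eq_div, le_div_iff₀ hρ, one_mul]
        exact (not_le.1 hv).le
      linarith
  · exact ((measurable_measure_closedBall _ _).ennreal_toReal.const_mul _).div_const _
  · have : 0 ≤ (bsig m F W).real (closedBall x (c * ε)) := measureReal_nonneg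
    positivity
  · have e2 : ∀ x : Euc (m + 1),
        ENNReal.ofReal ((c : ℝ) ^ m * (bsig m F W).real (closedBall x (c * ε)) / V) =
          ENNReal.ofReal ((c : ℝ) ^ m / V) * bsig m F W (closedBall x (c * ε)) := fun x => by
      rw [mul_div_right_comm, ENNReal.ofReal_mul (by positivity), ofReal_measureReal]
    simp only [e2]
    rw [lintegral_const_mul _ (measurable_measure_closedBall _ _), lintegral_measure_closedBall,
      Measure.addHaar_closedBall_mul _ _ (by positivity) hε0.le, finrank_euclideanSpace_fin,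
      ← DMoll2_univ hF, ← ofReal_measureReal (μ := bsig m F W) (s := univ),
      ← ofReal_measureReal (μ := volume) (s := closedBall (0 : Euc (m + 1)) ε)
        measure_closedBall_lt_top.ne, ← hVdef, ← hs, ← ENNReal.ofReal_mul (by positivity),
      ← ENNReal.ofReal_mul hs0, ← ENNReal.ofReal_mul (by positivity),
      ← ENNReal.ofReal_add hs0 hη.le]
    refine ENNReal.ofReal_le_ofReal (le_of_eq_of_le ?_ hcs.le)
    field_simp
    ring
  · filter_upwards [closedBall_mem_nhds (0 : Euc (m + 1)) hρ] with v hv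
    exact key x hx v (mem_closedBall_zero_iff.1 hv)

/-- dominated convergence: `uav W ε → indicator W` off the null set `frontier W`
(`Imm.null_of_ne_top`, `uav_eventually_one/zero`, `measurable_uav`, `Imm.bound`). -/
theorem tendsto_annulus (hF : Imm F) (hW : IsOpen W)
    (hA : (μHE[m] : Measure (Euc N)) (F '' frontier W) ≠ ⊤) (R : ℝ) :
    Tendsto (fun ε => ∫⁻ x in closedBall (0 : Euc (m + 1)) (R + 1) \ ball 0 R,
        ENNReal.ofReal (hh F x * uav W ε x)) (𝓝[>] 0)
      (𝓝 (∫⁻ x in W ∩ (closedBall (0 : Euc (m + 1)) (R + 1) \ ball 0 R),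
        ENNReal.ofReal (hh F x))) := by
  have hAn : MeasurableSet (closedBall (0 : Euc (m + 1)) (R + 1) \ ball 0 R) :=
    measurableSet_closedBall.diff measurableSet_ball
  obtain ⟨M, _, hM⟩ := hF.bound (R + 1)
  have hm : Measurable (hh F) := hF.contDiff_hh.continuous.measurable
  rw [← Measure.restrict_restrict hW.measurableSet, ← lintegral_indicator hW.measurableSet]
  refine tendsto_lintegral_filter_of_dominated_convergence (fun _ => ENNReal.ofReal M)
    (Eventually.of_forall fun ε => (hm.mul (measurable_uav W ε)).ennreal_ofReal)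
    (Eventually.of_forall fun ε => ?_) ?_ ?_
  · filter_upwards [ae_restrict_mem hAn] with x hx
    refine ENNReal.ofReal_le_ofReal ?_
    exact (mul_le_of_le_one_right (hh_nonneg F x) (uav_le_one W ε x)).trans (hM x hx.1).1
  · rw [setLIntegral_const]
    exact ENNReal.mul_ne_top ENNReal.ofReal_ne_top
      ((measure_mono sdiff_subset).trans_lt measure_closedBall_lt_top).ne
  · have h0 := hF.null_of_ne_top isClosed_frontier.measurableSet hA
    filter_upwards [ae_restrict_of_ae (measure_eq_zero_iff_ae_notMem.1 h0)] with x hx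
    by_cases hxW : x ∈ W
    · rw [indicator_of_mem hxW]
      refine tendsto_const_nhds.congr' ?_
      filter_upwards [uav_eventually_one hW hxW] with ε hε
      rw [hε, mul_one]
    · rw [indicator_of_notMem hxW]
      refine tendsto_const_nhds.congr' ?_
      have hcl : x ∉ closure W := fun h => hx (by rw [hW.frontier_eq]; exact ⟨h, hxW⟩)
      filter_upwards [uav_eventually_zero hcl] with ε hε
      rw [hε, mul_zero, ENNReal.ofReal_zero]

/-- the cut-off averages `uav W ε * cut R`.  With `u = uav W ε`: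
`v (x + w) - v x = (u (x + w) - u x) cut (x + w) + u x (cut (x + w) - cut x)`, the cut-off is
`1`-Lipschitz, locally constant off the closed annulus, and `‖w‖ ≤ ‖fderiv F x w‖`; take
`b = a + indicator annulus (hh * u)`. -/
theorem exists_cut (hF : Imm F) (hW : IsOpen W)
    (hA : (μHE[m] : Measure (Euc N)) (F '' frontier W) ≠ ⊤) (R : ℝ) {η : ℝ} (hη : 0 < η) :
    ∀ᶠ ε in 𝓝[>] (0 : ℝ),
      (∃ L : ℝ≥0, LipschitzOnWith L (fun x => uav W ε x * cut R x) (closedBall 0 (R + 2))) ∧
      ∃ b : Euc (m + 1) → ℝ, (∀ x, 0 ≤ b x) ∧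
        ∫⁻ x, ENNReal.ofReal (b x) ≤ (μHE[m] : Measure (Euc N)) (F '' frontier W) +
          (∫⁻ x in W ∩ (closedBall (0 : Euc (m + 1)) (R + 1) \ ball 0 R), ENNReal.ofReal (hh F x)) +
          ENNReal.ofReal η ∧
        ∀ x ∈ closedBall (0 : Euc (m + 1)) (R + 2), ∀ᶠ v in 𝓝 (0 : Euc (m + 1)),
          hh F x * |uav W ε (x + v) * cut R (x + v) - uav W ε x * cut R x| ≤
            b x * ‖fderiv ℝ F x v‖ := by
  have hAn : MeasurableSet (closedBall (0 : Euc (m + 1)) (R + 1) \ ball 0 R) :=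
    measurableSet_closedBall.diff measurableSet_ball
  set An := closedBall (0 : Euc (m + 1)) (R + 1) \ ball 0 R with hAdef
  have hη2 : 0 < η / 2 := half_pos hη
  have hI : ∀ᶠ ε in 𝓝[>] (0 : ℝ), ∫⁻ x in An, ENNReal.ofReal (hh F x * uav W ε x) ≤
      (∫⁻ x in W ∩ An, ENNReal.ofReal (hh F x)) + ENNReal.ofReal (η / 2) := by
    by_cases ht : ∫⁻ x in W ∩ An, ENNReal.ofReal (hh F x) = ⊤
    · exact Eventually.of_forall fun ε => by rw [ht, top_add]; exact le_top
    · exact ((tendsto_annulus hF hW hA R).eventually (gt_mem_nhds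
        (ENNReal.lt_add_right ht (ENNReal.ofReal_pos.2 hη2).ne'))).mono fun ε h => h.le
  have hsplit : ∀ (ε : ℝ) (x y : Euc (m + 1)), |uav W ε y * cut R y - uav W ε x * cut R x| ≤
      |uav W ε y - uav W ε x| + uav W ε x * |cut R y - cut R x| := fun ε x y => by
    have e : uav W ε y * cut R y - uav W ε x * cut R x =
        (uav W ε y - uav W ε x) * cut R y + uav W ε x * (cut R y - cut R x) := by ring
    rw [e]
    refine (abs_add_le _ _).trans ?_
    rw [abs_mul, abs_mul, abs_of_nonneg (cut_nonneg R y), abs_of_nonneg (uav_nonneg W ε x)]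
    exact add_le_add (mul_le_of_le_one_right (abs_nonneg _) (cut_le_one R y)) le_rfl
  have hcut : ∀ x y : Euc (m + 1), |cut R y - cut R x| ≤ ‖y - x‖ := fun x y => by
    have := (lipschitz_cut R).dist_le_mul y x
    rwa [Real.dist_eq, dist_eq_norm, NNReal.coe_one, one_mul] at this
  filter_upwards [exists_moll hF hA (R + 2) hη2, hI] with ε ⟨⟨L, hL⟩, a, ha, ha0, haI, hsl⟩ hI'
  refine ⟨⟨L + 1, LipschitzOnWith.of_dist_le_mul fun y hy x hx => ?_⟩,
    fun x => a x + An.indicator (fun x => hh F x * uav W ε x) x, fun x => ?_, ?_, fun x hx => ?_⟩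
  · have h1 := hL.dist_le_mul y hy x hx
    rw [Real.dist_eq, dist_eq_norm] at h1 ⊢
    have h2 : uav W ε x * |cut R y - cut R x| ≤ ‖y - x‖ :=
      (mul_le_of_le_one_left (abs_nonneg _) (uav_le_one W ε x)).trans (hcut x y)
    push_cast
    linarith [hsplit ε x y]
  · exact add_nonneg (ha0 x)
      (indicator_nonneg (fun y _ => mul_nonneg (hh_nonneg F y) (uav_nonneg W ε y)) x)
  · calc ∫⁻ x, ENNReal.ofReal (a x + An.indicator (fun x => hh F x * uav W ε x) x)
        ≤ ∫⁻ x, (ENNReal.ofReal (a x) +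
            An.indicator (fun x => ENNReal.ofReal (hh F x * uav W ε x)) x) := by
          refine lintegral_mono fun x => ENNReal.ofReal_add_le.trans (add_le_add le_rfl ?_)
          by_cases hx : x ∈ An
          · rw [indicator_of_mem hx, indicator_of_mem hx]
          · rw [indicator_of_notMem hx, indicator_of_notMem hx, ENNReal.ofReal_zero]
      _ = (∫⁻ x, ENNReal.ofReal (a x)) + ∫⁻ x in An, ENNReal.ofReal (hh F x * uav W ε x) := by
          rw [lintegral_add_left ha.ennreal_ofReal, lintegral_indicator hAn]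
      _ ≤ ((μHE[m] : Measure (Euc N)) (F '' frontier W) + ENNReal.ofReal (η / 2)) +
          ((∫⁻ x in W ∩ An, ENNReal.ofReal (hh F x)) + ENNReal.ofReal (η / 2)) := add_le_add haI hI'
      _ = _ := by
          have e : ENNReal.ofReal η = ENNReal.ofReal (η / 2) + ENNReal.ofReal (η / 2) := by
            rw [← ENNReal.ofReal_add hη2.le hη2.le, add_halves]
          rw [e]
          ring
  · have hc : ∀ᶠ v in 𝓝 (0 : Euc (m + 1)), hh F x * (uav W ε x * |cut R (x + v) - cut R x|) ≤
        An.indicator (fun x => hh F x * uav W ε x) x * ‖fderiv ℝ F x v‖ := by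
      by_cases hxA : x ∈ An
      · refine Eventually.of_forall fun v => ?_
        rw [indicator_of_mem hxA, ← mul_assoc]
        refine mul_le_mul_of_nonneg_left ?_ (mul_nonneg (hh_nonneg F x) (uav_nonneg W ε x))
        have := hcut x (x + v)
        rw [add_sub_cancel_left] at this
        exact this.trans (hF.exp x v)
      · have hcont : Tendsto (fun v : Euc (m + 1) => ‖x + v‖) (𝓝 0) (𝓝 ‖x‖) := by
          have : Continuous fun v : Euc (m + 1) => ‖x + v‖ := by fun_prop
          simpa using this.tendsto 0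
        have hz : ∀ᶠ v in 𝓝 (0 : Euc (m + 1)), cut R (x + v) = cut R x := by
          by_cases h1 : ‖x‖ < R
          · filter_upwards [hcont.eventually (gt_mem_nhds h1)] with v hv
            rw [cut_eq_one hv.le, cut_eq_one h1.le]
          · have h2 : R + 1 < ‖x‖ := by
              by_contra h3
              exact hxA ⟨mem_closedBall_zero_iff.2 (not_lt.1 h3),
                fun h4 => h1 (mem_ball_zero_iff.1 h4)⟩
            filter_upwards [hcont.eventually (lt_mem_nhds h2)] with v hv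
            rw [cut_eq_zero hv.le, cut_eq_zero h2.le]
        filter_upwards [hz] with v hv
        rw [hv, indicator_of_notMem hxA]
        simp
    filter_upwards [hsl x hx, hc] with v h1 h2
    have h3 := mul_le_mul_of_nonneg_left (hsplit ε x (x + v)) (hh_nonneg F x)
    rw [add_mul]
    linarith [mul_add (hh F x) |uav W ε (x + v) - uav W ε x|
      (uav W ε x * |cut R (x + v) - cut R x|)]

end Crest.Agent.R241.D
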