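import Crest.Agent.R241.Slice
import Crest.Agent.R241.DChain
import Crest.Agent.R241.DMoll2

/-! Row 241, block D (helper74): boundaries of super-level sets. -/

set_option autoImplicit false

open MeasureTheory Set Filter Topology Metric
open scoped ENNReal NNReal Matrix ContDiff

namespace Crest.Agent.R241.D

open Crest.GeometryTopology.Submanifold

variable {m N : ℕ} {F : Euc (m + 1) → Euc N} {Y : Type} [MetricSpace Y] {R : ℝ}

theorem ChB.IsBd.cyc {B : ChB F Y R} {U : Set (Euc (m + 1))} {T : Chain Y m} (h : B.IsBd U T) :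
    T.Cyc := by
  intro π hπ
  rw [h _ π (Lip.const 1) hπ]
  have : ∀ z, jdet (closedBall (0 : Euc (m + 1)) R) B.φ (Fin.cons (fun _ => (1 : ℝ)) π) z = 0 := by
    intro z
    refine Matrix.det_eq_zero_of_row_eq_zero 0 fun j => ?_
    simp [dv, dW_const, cv]
  simp [this]

/-- a function with small integral over the unit interval is small somewhere. -/
theorem exists_le_of_integral_lt {μ : ℝ → ℝ} (hi : Integrable μ) {P : ℝ → Prop}
    (hP : ∀ᵐ r : ℝ, r < 0 → P r) {a : ℝ}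
    (ha : ∫ r, (Ioo (-1 : ℝ) 0).indicator (fun _ => (1 : ℝ)) r * μ r < a) :
    ∃ r ∈ Ioo (-1 : ℝ) 0, P r ∧ μ r ≤ a := by
  by_contra hcon
  push Not at hcon
  have h1 : ∫ r, (Ioo (-1 : ℝ) 0).indicator (fun _ => (1 : ℝ)) r * μ r = ∫ r in Ioo (-1 : ℝ) 0, μ r := by
    rw [← integral_indicator measurableSet_Ioo]
    congr 1
    funext r
    by_cases hr : r ∈ Ioo (-1 : ℝ) 0 <;> simp [hr]
  have h2 : ∫ _ in Ioo (-1 : ℝ) 0, a ≤ ∫ r in Ioo (-1 : ℝ) 0, μ r := by
    refine setIntegral_mono_ae_restrict (integrableOn_const (by simp)) hi.integrableOn ?_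
    filter_upwards [ae_restrict_of_ae hP, ae_restrict_mem measurableSet_Ioo] with r h hr
    exact (hcon r hr (h hr.2)).le
  rw [h1] at ha
  simp at h2
  linarith

variable [CompactSpace Y] [MeasurableSpace Y] [BorelSpace Y]

theorem ChB.exists_bd (B : ChB F Y R) (hF : Imm F) {v b : Euc (m + 1) → ℝ} {L : ℝ≥0}
    (hv : LipschitzOnWith L v (closedBall 0 R)) (hb : ∀ x, 0 ≤ b x)
    (h : ∀ x ∈ closedBall (0 : Euc (m + 1)) R, ∀ᶠ w in 𝓝 (0 : Euc (m + 1)),
      hh F x * |v (x + w) - v x| ≤ b x * ‖fderiv ℝ F x w‖)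
    (h0 : ∀ x, R - 1 ≤ ‖x‖ → v x = 0) (hvm : Measurable v) {a : ℝ}
    (ha : ∫⁻ x, ENNReal.ofReal (b x) < ENNReal.ofReal a) :
    ∃ t ∈ Ioo (0 : ℝ) 1, ∃ T : Chain Y m, B.IsBd {x | t < v x} T ∧ T.mass ≤ a := by
  have hρ : Lip fun p => -v (B.π p) := by
    refine Lip.neg ⟨L * 1, ?_⟩
    rw [← lipschitzOnWith_univ]
    exact hv.comp B.lipπ.lipschitzOnWith fun p _ => B.mem p
  obtain ⟨μ, -, hμi, -, hae, hint⟩ := slice (B.chain hF) hρ 0 fun π hπ hz =>
    B.relcyc hF hπ 0 fun p hp => hz p (by simp [h0 _ hp])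
  have hψ : BM ((Ioo (-1 : ℝ) 0).indicator fun _ => (1 : ℝ)) :=
    (BM.const 1).indicator measurableSet_Ioo
  have h1 := hint _ hψ fun r => indicator_nonneg (fun _ _ => zero_le_one) r
  have h2 : (B.chain hF).I (fun p t => (Ioo (-1 : ℝ) 0).indicator (fun _ => (1 : ℝ))
      (-v (B.π p)) * √t) (fun p => -v (B.π p)) (fun p => -v (B.π p)) < a := by
    rw [B.chain_I]
    refine lt_of_le_of_lt ((Real.le_norm_self _).trans (norm_integral_le_lintegral_norm _)) ?_
    refine ENNReal.toReal_lt_of_lt_ofReal (lt_of_le_of_lt ?_ ha)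
    refine le_trans (lintegral_mono_ae ?_) (setLIntegral_le_lintegral (closedBall 0 R) _)
    filter_upwards [B.ae_grad_le hF hv hb h] with z hz
    refine ENNReal.ofReal_le_ofReal (le_trans ?_ hz)
    rw [Real.norm_eq_abs, abs_mul, abs_of_nonneg (hh_nonneg F z), abs_mul,
      abs_of_nonneg (Real.sqrt_nonneg _)]
    refine mul_le_mul_of_nonneg_left (mul_le_of_le_one_left (Real.sqrt_nonneg _) ?_)
      (hh_nonneg F z)
    by_cases hr : -v (B.π (B.φ z)) ∈ Ioo (-1 : ℝ) 0 <;> simp [hr]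
  obtain ⟨r, hr, ⟨σ, hσm, -, hσ⟩, hle⟩ := exists_le_of_integral_lt hμi hae (h1.trans_lt h2)
  refine ⟨-r, ⟨by linarith [hr.2], by linarith [hr.1]⟩, σ, fun f π hf hπ => ?_, hσm.trans hle⟩
  have hU : MeasurableSet {x | -r < v x} := measurableSet_lt measurable_const hvm
  have hsub : {x | -r < v x} ⊆ closedBall (0 : Euc (m + 1)) R := by
    intro x hx
    by_contra hn
    rw [mem_closedBall_zero_iff, not_le] at hn
    have := h0 x (by linarith)
    rw [mem_ofPred_eq, this] at hx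
    linarith [hr.2]
  rw [hσ f π hf hπ, B.chain_act, ← inter_eq_right.2 hsub, ← setIntegral_indicator hU]
  refine setIntegral_congr_fun measurableSet_closedBall fun z hz => ?_
  by_cases hzU : -r < v z
  · have : B.φ z ∈ {p | -v (B.π p) < r} := by
      rw [mem_ofPred_eq, B.π_φ z hz]; linarith
    simp only [indicator_of_mem this, indicator_of_mem (show z ∈ {x | -r < v x} from hzU), one_mul]
  · have : B.φ z ∉ {p | -v (B.π p) < r} := by
      rw [mem_ofPred_eq, B.π_φ z hz]; intro h'; exact hzU (by linarith)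
    simp only [indicator_of_notMem this, indicator_of_notMem (show z ∉ {x | -r < v x} from hzU),
      zero_mul]

/-- approximation of an open set by regions bounded by cycles of almost the same area. -/
theorem ChB.exists_cycles (B : ChB F Y (R + 2)) (hF : Imm F) {W : Set (Euc (m + 1))}
    (hW : IsOpen W) (hA : (μHE[m] : Measure (Euc N)) (F '' frontier W) ≠ ⊤) :
    ∃ (U : ℕ → Set (Euc (m + 1))) (T : ℕ → Chain Y m),
      (∀ j, MeasurableSet (U j)) ∧ (∀ j, U j ⊆ closedBall 0 (R + 2)) ∧ (∀ j, B.IsBd (U j) (T j)) ∧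
      (∀ j, (T j).mass ≤ ((μHE[m] : Measure (Euc N)) (F '' frontier W)).toReal +
        (∫⁻ x in W ∩ (closedBall (0 : Euc (m + 1)) (R + 1) \ ball 0 R),
          ENNReal.ofReal (hh F x)).toReal + 1 / ((j : ℝ) + 1)) ∧
      (∀ x ∈ W, ‖x‖ ≤ R → ∀ᶠ j in atTop, x ∈ U j) ∧ ∀ x ∉ closure W, ∀ᶠ j in atTop, x ∉ U j := by
  have htail : ∫⁻ x in W ∩ (closedBall (0 : Euc (m + 1)) (R + 1) \ ball 0 R),
      ENNReal.ofReal (hh F x) ≠ ⊤ :=
    ne_top_of_le_ne_top (hF.lintegral_ball_ne_top (R + 1))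
      (lintegral_mono_set (inter_subset_right.trans sdiff_subset))
  have key : ∀ j : ℕ, ∃ ε : ℝ, 0 < ε ∧ ε < 1 / ((j : ℝ) + 1) ∧ ∃ t ∈ Ioo (0 : ℝ) 1,
      ∃ T : Chain Y m, B.IsBd {x | t < uav W ε x * cut R x} T ∧
        T.mass ≤ ((μHE[m] : Measure (Euc N)) (F '' frontier W)).toReal +
        (∫⁻ x in W ∩ (closedBall (0 : Euc (m + 1)) (R + 1) \ ball 0 R),
          ENNReal.ofReal (hh F x)).toReal + 1 / ((j : ℝ) + 1) := by
    intro j
    have hj : (0 : ℝ) < 1 / ((j : ℝ) + 1) := by positivity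
    obtain ⟨ε, ⟨⟨L, hL⟩, b, hb0, hbi, hbs⟩, hε⟩ :=
      ((exists_cut hF hW hA R (half_pos hj)).and (Ioo_mem_nhdsGT hj)).exists
    refine ⟨ε, hε.1, hε.2, B.exists_bd hF hL hb0 hbs (fun x hx => ?_)
      ((measurable_uav W ε).mul (lipschitz_cut R).continuous.measurable) (hbi.trans_lt ?_)⟩
    · rw [cut_eq_zero (by linarith), mul_zero]
    · rw [ENNReal.ofReal_add (by positivity) hj.le,
        ENNReal.ofReal_add ENNReal.toReal_nonneg ENNReal.toReal_nonneg,
        ENNReal.ofReal_toReal hA, ENNReal.ofReal_toReal htail]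
      exact ENNReal.add_lt_add_left (ENNReal.add_ne_top.2 ⟨hA, htail⟩)
        ((ENNReal.ofReal_lt_ofReal_iff hj).2 (half_lt_self hj))
  choose ε hε0 hε1 t ht T hT hTm using key
  have hεt : Tendsto ε atTop (𝓝[>] 0) :=
    tendsto_nhdsWithin_iff.2 ⟨squeeze_zero (fun j => (hε0 j).le) (fun j => (hε1 j).le)
      tendsto_one_div_add_atTop_nhds_zero_nat, .of_forall hε0⟩
  refine ⟨fun j => {x | t j < uav W (ε j) x * cut R x}, T, fun j => measurableSet_lt
    measurable_const ((measurable_uav W _).mul (lipschitz_cut R).continuous.measurable),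
    fun j x hx => ?_, hT, hTm, fun x hx hxR => ?_, fun x hx => ?_⟩
  · by_contra hn
    rw [mem_closedBall_zero_iff, not_le] at hn
    rw [mem_ofPred_eq, cut_eq_zero (by linarith), mul_zero] at hx
    linarith [(ht j).1]
  · filter_upwards [hεt.eventually (uav_eventually_one hW hx)] with j hj
    rw [hj, cut_eq_one hxR, mul_one]
    exact (ht j).2
  · filter_upwards [hεt.eventually (uav_eventually_zero hx)] with j hj
    rw [hj, zero_mul, not_lt]
    exact (ht j).1.le

end Crest.Agent.R241.D
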