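import Crest.Agent.R241.DMetric

/-! Row 241, block D (helper74): primitives and determinants for the calibration. -/

set_option autoImplicit false

open MeasureTheory Set Filter Topology Metric
open scoped ENNReal NNReal Matrix ContDiff

namespace Crest.Agent.R241.D

open Crest.GeometryTopology.Submanifold

variable {m : ℕ}

theorem DPrim_hasFDerivAt {X : Type*} [NormedAddCommGroup X] [NormedSpace ℝ X]
    [FiniteDimensional ℝ X] {f : X × ℝ → ℝ} (hf : ContDiff ℝ 1 f) (a b : ℝ) (x : X) :
    HasFDerivAt (fun x => ∫ σ in a..b, f (x, σ))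
      (∫ σ in a..b, (fderiv ℝ f (x, σ)).comp (ContinuousLinearMap.inl ℝ X ℝ)) x := by
  have hc : Continuous fun p : X × ℝ => (fderiv ℝ f p).comp (ContinuousLinearMap.inl ℝ X ℝ) :=
    (hf.continuous_fderiv one_ne_zero).clm_comp continuous_const
  obtain ⟨C, hC⟩ := ((isCompact_closedBall x 1).prod
    (isCompact_uIcc (a := a) (b := b))).exists_bound_of_continuousOn hc.continuousOn
  refine intervalIntegral.hasFDerivAt_integral_of_dominated_of_fderiv_le
    (F := fun x σ => f (x, σ))
    (F' := fun x σ => (fderiv ℝ f (x, σ)).comp (ContinuousLinearMap.inl ℝ X ℝ))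
    (bound := fun _ => C) (closedBall_mem_nhds x one_pos)
    (Eventually.of_forall fun y =>
      (hf.continuous.comp (Continuous.prodMk_right y)).aestronglyMeasurable)
    ((hf.continuous.comp (Continuous.prodMk_right x)).intervalIntegrable _ _)
    (hc.comp (Continuous.prodMk_right x)).aestronglyMeasurable
    (Eventually.of_forall fun t ht y hy => hC (y, t) ⟨hy, uIoc_subset_uIcc ht⟩)
    intervalIntegrable_const (Eventually.of_forall fun t _ y _ => ?_)
  exact (hf.differentiable one_ne_zero (y, t)).hasFDerivAt.comp y (f := fun y => (y, t))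
    (hasFDerivAt_prodMk_left y t)

theorem DPrim_fderiv {X : Type*} [NormedAddCommGroup X] [NormedSpace ℝ X]
    [FiniteDimensional ℝ X] {f : X × ℝ → ℝ} (hf : ContDiff ℝ 1 f) (a b : ℝ) (x v : X) :
    fderiv ℝ (fun x => ∫ σ in a..b, f (x, σ)) x v = ∫ σ in a..b, fderiv ℝ f (x, σ) (v, 0) := by
  have hc : Continuous fun σ : ℝ => (fderiv ℝ f (x, σ)).comp (ContinuousLinearMap.inl ℝ X ℝ) :=
    ((hf.continuous_fderiv one_ne_zero).comp (Continuous.prodMk_right x)).clm_comp continuous_const
  rw [(DPrim_hasFDerivAt hf a b x).fderiv,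
    ContinuousLinearMap.intervalIntegral_apply (hc.intervalIntegrable _ _)]
  rfl

theorem DPrim_contDiff {X : Type*} [NormedAddCommGroup X] [NormedSpace ℝ X]
    [FiniteDimensional ℝ X] {f : X × ℝ → ℝ} (hf : ContDiff ℝ 1 f) (a b : ℝ) :
    ContDiff ℝ 1 (fun x => ∫ σ in a..b, f (x, σ)) := by
  have hc : Continuous fun p : X × ℝ => (fderiv ℝ f p).comp (ContinuousLinearMap.inl ℝ X ℝ) :=
    (hf.continuous_fderiv one_ne_zero).clm_comp continuous_const
  rw [contDiff_one_iff_hasFDerivAt]
  refine ⟨fun x => ∫ σ in a..b, (fderiv ℝ f (x, σ)).comp (ContinuousLinearMap.inl ℝ X ℝ), ?_,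
    fun x => DPrim_hasFDerivAt hf a b x⟩
  exact intervalIntegral.continuous_parametric_intervalIntegral_of_continuous'
    (f := fun x σ => (fderiv ℝ f (x, σ)).comp (ContinuousLinearMap.inl ℝ X ℝ)) hc a b

/-- a primitive in the direction of the coordinate `0`:
`H x = ∫ t in 0..1, x 0 * h (x - ((1 - t) * x 0) • single 0 1)`, differentiable by
`intervalIntegral.hasFDerivAt_integral_of_dominated_of_fderiv_le` with locally bounded derivative;
along the line `s ↦ x + s • single 0 1` it is `∫ τ in 0..(x 0 + s), h (x + (τ - x 0) • single 0 1)`,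
whose derivative at `s = 0` is `h x`. -/
theorem exists_prim {h : Euc (m + 1) → ℝ} (hh : ContDiff ℝ 1 h) :
    ∃ H : Euc (m + 1) → ℝ, Differentiable ℝ H ∧
      (∀ R : ℝ, ∃ L : ℝ≥0, LipschitzOnWith L H (closedBall 0 R)) ∧
      ∀ x, fderiv ℝ H x (EuclideanSpace.single 0 1) = h x := by
  set e : Euc (m + 1) := EuclideanSpace.single 0 1 with he
  have he0 : e 0 = 1 := by simp [he]
  let f : Euc (m + 1) × ℝ → ℝ := fun p => p.1 0 * h (p.1 - ((1 - p.2) * p.1 0) • e)
  have hco : ContDiff ℝ 1 fun p : Euc (m + 1) × ℝ => p.1 0 :=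
    (EuclideanSpace.proj (𝕜 := ℝ) (0 : Fin (m + 1))).contDiff.comp contDiff_fst
  have hf : ContDiff ℝ 1 f :=
    hco.mul (hh.comp (contDiff_fst.sub (((contDiff_const.sub contDiff_snd).mul hco).smul
      contDiff_const)))
  have hH := DPrim_contDiff hf 0 1
  refine ⟨fun x => ∫ σ in (0 : ℝ)..1, f (x, σ), hH.differentiable one_ne_zero, fun R => ?_,
    fun x => ?_⟩
  · exact hH.contDiffOn.exists_lipschitzOnWith one_ne_zero (convex_closedBall _ _)
      (isCompact_closedBall _ _)
  · rw [DPrim_fderiv hf]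
    have hd : ∀ y, HasFDerivAt h (fderiv ℝ h y) y := fun y =>
      (hh.differentiable one_ne_zero y).hasFDerivAt
    have key : ∀ σ : ℝ, HasDerivAt (fun σ : ℝ => σ * h (x - ((1 - σ) * x 0) • e))
        (fderiv ℝ f (x, σ) (e, 0)) σ := by
      intro σ
      -- the derivative of `f` along the line
      have l1 : HasDerivAt (fun s : ℝ => ((x + s • e, σ) : Euc (m + 1) × ℝ)) (e, 0) 0 := by
        refine HasDerivAt.prodMk ?_ (hasDerivAt_const _ _)
        simpa using ((hasDerivAt_id (0 : ℝ)).smul_const e).const_add x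
      have l2 : HasDerivAt (fun s : ℝ => f (x + s • e, σ)) (fderiv ℝ f (x, σ) (e, 0)) 0 := by
        have := (hf.differentiable one_ne_zero (x, σ)).hasFDerivAt
        exact HasFDerivAt.comp_hasDerivAt_of_eq (f := fun s : ℝ => ((x + s • e, σ) : Euc (m + 1) × ℝ))
          (0 : ℝ) this l1 (by simp)
      have l3 : (fun s : ℝ => f (x + s • e, σ)) =
          fun s : ℝ => (x 0 + s) * h ((x - ((1 - σ) * x 0) • e) + (s * σ) • e) := by
        funext s
        have : (x + s • e) 0 = x 0 + s := by simp [he0]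
        simp only [f, this]
        congr 2
        module
      have l4 : HasDerivAt (fun s : ℝ => (x - ((1 - σ) * x 0) • e) + (s * σ) • e) (σ • e) 0 := by
        simpa using (((hasDerivAt_id (0 : ℝ)).mul_const σ).smul_const e).const_add
          (x - ((1 - σ) * x 0) • e)
      have l5 : HasDerivAt (fun s : ℝ => h ((x - ((1 - σ) * x 0) • e) + (s * σ) • e))
          (fderiv ℝ h (x - ((1 - σ) * x 0) • e) (σ • e)) 0 :=
        HasFDerivAt.comp_hasDerivAt_of_eq
          (f := fun s : ℝ => (x - ((1 - σ) * x 0) • e) + (s * σ) • e) (0 : ℝ)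
          (hd (x - ((1 - σ) * x 0) • e)) l4 (by simp)
      have l6 := ((hasDerivAt_id (0 : ℝ)).const_add (x 0)).mul l5
      rw [l3] at l2
      have l7 := l2.unique l6
      rw [l7]
      have l8 : HasDerivAt (fun σ : ℝ => x - ((1 - σ) * x 0) • e) (x 0 • e) σ := by
        simpa using ((((hasDerivAt_id σ).const_sub 1).mul_const (x 0)).smul_const e).const_sub x
      have l9 : HasDerivAt (fun σ : ℝ => h (x - ((1 - σ) * x 0) • e))
          (fderiv ℝ h (x - ((1 - σ) * x 0) • e) (x 0 • e)) σ :=
        HasFDerivAt.comp_hasDerivAt (f := fun σ : ℝ => x - ((1 - σ) * x 0) • e) σ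
          (hd (x - ((1 - σ) * x 0) • e)) l8
      have l10 := (hasDerivAt_id σ).mul l9
      refine HasDerivAt.congr_deriv l10 ?_
      simp only [id, map_smul, smul_eq_mul, zero_mul, zero_smul, add_zero]
      ring
    have hcont : Continuous fun σ : ℝ => fderiv ℝ f (x, σ) (e, 0) :=
      ((hf.continuous_fderiv one_ne_zero).comp (Continuous.prodMk_right x)).clm_apply
        continuous_const
    rw [intervalIntegral.integral_eq_sub_of_hasDerivAt (fun σ _ => key σ)
      (hcont.intervalIntegrable _ _)]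
    simp

/-- the row `i` of `A` is replaced by the combination `c ᵥ* A` and moved to the top
(`Matrix.det_updateRow_sum`, `Matrix.det_permute` with `Fin.cycleRange`, or Laplace expansion of
`of (cons c (single (i.succAbove ·) 1)) * A`). -/
theorem det_cons_vecMul (A : Matrix (Fin (m + 1)) (Fin (m + 1)) ℝ) (c : Fin (m + 1) → ℝ)
    (i : Fin (m + 1)) :
    (Matrix.of (Fin.cons (c ᵥ* A) fun a : Fin m => A (i.succAbove a) :
        Fin (m + 1) → Fin (m + 1) → ℝ)).det = (-1) ^ (i : ℕ) * c i * A.det := by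
  have h1 : (Matrix.of (Fin.cons (c ᵥ* A) fun a : Fin m => A (i.succAbove a) :
        Fin (m + 1) → Fin (m + 1) → ℝ)) =
      (A.updateRow i (∑ k, c k • A k)).submatrix (Fin.cycleRange i).symm id := by
    ext a b
    refine Fin.cases ?_ (fun a => ?_) a
    · simp [Matrix.vecMul, dotProduct, Finset.sum_apply]
    · simp [Fin.cycleRange_symm_succ]
  rw [h1, Matrix.det_permute, Matrix.det_updateRow_sum]
  simp [Fin.sign_cycleRange, mul_assoc]

/-- `det (Aᵀ g A) ≤ det g'` (`det_mono`). -/
theorem sqrt_det_mul_abs_det_le {k : ℕ} {g g' A : Matrix (Fin k) (Fin k) ℝ} (hg : g.PosSemidef)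
    (hg' : g'.PosSemidef) (h : ∀ v, qf g (A *ᵥ v) ≤ qf g' v) : √g.det * |A.det| ≤ √g'.det := by
  have hpsd : (Aᵀ * g * A).PosSemidef := by
    simpa using hg.conjTranspose_mul_mul_same A
  have h1 := det_mono hpsd hg' fun v => by
    refine le_trans (le_of_eq ?_) (h v)
    simp only [qf]
    rw [← Matrix.mulVec_mulVec, ← Matrix.mulVec_mulVec, Matrix.dotProduct_mulVec,
      Matrix.vecMul_transpose]
  rw [Matrix.det_mul, Matrix.det_mul, Matrix.det_transpose] at h1
  have h2 : √g.det * |A.det| = √(A.det * g.det * A.det) := by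
    rw [show A.det * g.det * A.det = g.det * A.det ^ 2 by ring, Real.sqrt_mul hg.det_nonneg,
      Real.sqrt_sq_eq_abs]
  rw [h2]
  exact Real.sqrt_le_sqrt h1

end Crest.Agent.R241.D
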