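import Crest.Prelude.Def_MetricCurrent

/-! Row 241, block K (helper71): metric differential (Kirchheim), Jacobian, carré du champ,
geodesics, cylinders. Definitions only. -/

set_option autoImplicit false
open MeasureTheory Filter Topology Matrix
open Crest.GeometryTopology.Submanifold (Euc)
open Crest.GeometryTopology.MetricCurrent

namespace Crest.Agent.R241

universe u
variable {X : Type u} [MetricSpace X] {k : ℕ}

/-- `z ∈ E` and every point near `z` is approximated to first order by points of `E`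
(true at Lebesgue density points). -/
def Dens (E : Set (Euc k)) (z : Euc k) : Prop :=
  z ∈ E ∧ ∀ ε > (0 : ℝ), ∃ δ > (0 : ℝ), ∀ w : Euc k, dist w z < δ →
    ∃ w' ∈ E, dist w' w ≤ ε * dist w z

/-- `w n ∈ E` blows up at `z` to the direction `v`: `(n+1) (w n - z) → v`. -/
def Blow (E : Set (Euc k)) (z v : Euc k) (w : ℕ → Euc k) : Prop :=
  (∀ n, w n ∈ E) ∧ Tendsto (fun n : ℕ => ((n : ℝ) + 1) • (w n - z)) atTop (𝓝 v)

/-- the coordinates of a linear form. -/
noncomputable def cv (a : Euc k →L[ℝ] ℝ) : Fin k → ℝ := fun j => a (EuclideanSpace.single j 1)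

/-- the derivative within `E` of `u ∘ φ` (exactly the one used by `chartAction`). -/
noncomputable def dW (E : Set (Euc k)) (φ : Euc k → X) (u : X → ℝ) (z : Euc k) :
    Euc k →L[ℝ] ℝ :=
  fderivWithin ℝ (fun w => u (φ w)) E z

/-- its coordinate vector. -/
noncomputable def dv (E : Set (Euc k)) (φ : Euc k → X) (u : X → ℝ) (z : Euc k) : Fin k → ℝ :=
  cv (dW E φ u z)

/-- the quadratic form of a matrix. -/
def qf (g : Matrix (Fin k) (Fin k) ℝ) (v : Fin k → ℝ) : ℝ := v ⬝ᵥ g *ᵥ v

/-- `N` is the metric differential of `φ` within `E` at `z` (two-point form). -/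
def IsMDN (E : Set (Euc k)) (φ : Euc k → X) (z : Euc k) (N : Euc k → ℝ) : Prop :=
  ∀ ε > (0 : ℝ), ∃ δ > (0 : ℝ), ∀ w ∈ E, ∀ w' ∈ E, dist w z < δ → dist w' z < δ →
    |dist (φ w) (φ w') - N (w - w')| ≤ ε * (dist w z + dist w' z)

/-- the metric differential of `φ` within `E` at `z` is the Euclidean seminorm of the positive
semidefinite matrix `g`. -/
def IsMD (E : Set (Euc k)) (φ : Euc k → X) (z : Euc k) (g : Matrix (Fin k) (Fin k) ℝ) : Prop :=
  g.PosSemidef ∧ IsMDN E φ z fun v => √(qf g v.ofLp)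

/-- a measurable field of positive semidefinite matrices which is a.e. on `E` the metric
differential of `φ`. -/
def MDField (E : Set (Euc k)) (φ : Euc k → X) (g : Euc k → Matrix (Fin k) (Fin k) ℝ) : Prop :=
  (∀ i j, Measurable fun z => g z i j) ∧ (∀ z, (g z).PosSemidef) ∧
    ∀ᵐ z ∂(volume.restrict E), IsMD E φ z (g z)

open Classical in
/-- the pull-back metric of `φ` on `E`. -/
noncomputable def gram (E : Set (Euc k)) (φ : Euc k → X) : Euc k → Matrix (Fin k) (Fin k) ℝ :=
  if h : ∃ g, MDField E φ g then h.choose else fun _ => 0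

/-- the Jacobian (area factor) of `φ` on `E`. -/
noncomputable def jac (E : Set (Euc k)) (φ : Euc k → X) (z : Euc k) : ℝ := √(gram E φ z).det

/-- the carré du champ `⟨∇u, ∇v⟩` (tangential gradients) at the point `φ z`; it is `0` where the
Jacobian vanishes. -/
noncomputable def car (E : Set (Euc k)) (φ : Euc k → X) (u v : X → ℝ) (z : Euc k) : ℝ :=
  dv E φ u z ⬝ᵥ (gram E φ z)⁻¹ *ᵥ dv E φ v z

open Classical in
/-- the point at parameter `s` (clamped to `[0,1]`) of a chosen geodesic from `x` to `y`. -/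
noncomputable def geo (x y : X) (s : ℝ) : X :=
  if h : ∃ γ : ℝ → X, γ 0 = x ∧ γ 1 = y ∧
      ∀ s ∈ Set.Icc (0 : ℝ) 1, ∀ t ∈ Set.Icc (0 : ℝ) 1, dist (γ s) (γ t) = abs (s - t) * dist x y
  then h.choose (max 0 (min s 1)) else x

/-- half the squared distance to `x`. -/
noncomputable def hsq (x : X) (y : X) : ℝ := dist x y ^ 2 / 2

/-- forget the coordinate `0`. -/
noncomputable def tl (p : Euc (k + 1)) : Euc k := WithLp.toLp 2 fun i => p i.succ

/-- prepend a coordinate. -/
noncomputable def cn (t : ℝ) (z : Euc k) : Euc (k + 1) :=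
  WithLp.toLp 2 (Fin.cons t fun i => z i)

/-- the cylinder `[0,1] × E` (the interval is the coordinate `0`). -/
def cyl (E : Set (Euc k)) : Set (Euc (k + 1)) := {p | p 0 ∈ Set.Icc (0 : ℝ) 1 ∧ tl p ∈ E}

theorem measurable_gram (E : Set (Euc k)) (φ : Euc k → X) (i j : Fin k) :
    Measurable fun z => gram E φ z i j := by
  unfold gram
  split_ifs with h
  · exact h.choose_spec.1 i j
  · simp

theorem gram_psd (E : Set (Euc k)) (φ : Euc k → X) (z : Euc k) : (gram E φ z).PosSemidef := by
  unfold gram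
  split_ifs with h
  · exact h.choose_spec.2.1 z
  · exact PosSemidef.zero

theorem mdField_gram_of_exists {E : Set (Euc k)} {φ : Euc k → X} (h : ∃ g, MDField E φ g) :
    MDField E φ (gram E φ) := by
  unfold gram
  rw [dif_pos h]
  exact h.choose_spec

theorem jac_nonneg (E : Set (Euc k)) (φ : Euc k → X) (z : Euc k) : 0 ≤ jac E φ z :=
  Real.sqrt_nonneg _

theorem jac_sq (E : Set (Euc k)) (φ : Euc k → X) (z : Euc k) :
    jac E φ z ^ 2 = (gram E φ z).det :=
  Real.sq_sqrt (gram_psd E φ z).det_nonneg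

theorem measurable_det {α : Type*} [MeasurableSpace α] {n : ℕ} {g : α → Matrix (Fin n) (Fin n) ℝ}
    (hg : ∀ i j, Measurable fun z => g z i j) : Measurable fun z => (g z).det := by
  simp only [Matrix.det_apply]
  refine Finset.measurable_sum _ fun σ _ => ?_
  simp only [Units.smul_def, zsmul_eq_mul]
  exact (Finset.measurable_prod _ fun i _ => hg _ _).const_mul _

theorem measurable_jac (E : Set (Euc k)) (φ : Euc k → X) : Measurable (jac E φ) :=
  (measurable_det (measurable_gram E φ)).sqrt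

theorem chartAction_eq (E : Set (Euc k)) (φ : Euc k → X) (θ : Euc k → ℤ) {f : X → ℝ}
    {π : Fin k → X → ℝ} (h : IsTestPair f π) :
    chartAction E φ θ f π =
      ∫ z in E, (θ z : ℝ) * f (φ z) * (Matrix.of fun i => dv E φ (π i) z).det := by
  unfold chartAction
  rw [if_pos h]
  rfl

theorem clm_apply_eq (a : Euc k →L[ℝ] ℝ) (v : Euc k) : a v = cv a ⬝ᵥ v.ofLp := by
  have : v = ∑ j, v j • (EuclideanSpace.single j (1 : ℝ) : Euc k) := by
    ext i
    simp [Finset.sum_apply, Pi.single_apply]
  conv_lhs => rw [this]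
  simp [cv, dotProduct, mul_comm]

@[simp] theorem tl_cn (t : ℝ) (z : Euc k) : tl (cn t z) = z := by
  ext i; simp [tl, cn]

@[simp] theorem cn_zero (t : ℝ) (z : Euc k) : cn t z 0 = t := by
  simp [cn]

theorem cn_tl (p : Euc (k + 1)) : cn (p 0) (tl p) = p := by
  ext i
  refine Fin.cases ?_ (fun j => ?_) i <;> simp [tl, cn]

end Crest.Agent.R241
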