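import Crest.Prelude.Def_MetricCurrent
import Crest.Prelude.Def_SubmanifoldIsoperimetric
import Crest.Agent.R241.KDefs

/-! Row 241 (Cartan-Hadamard): shared definitions.  See `Plan.lean` for the proof outline. -/

set_option autoImplicit false

open MeasureTheory Set Filter Topology
open scoped ENNReal NNReal Matrix ContDiff

namespace Crest.Agent.R241

open Crest.GeometryTopology.Submanifold

noncomputable section

universe u

/-- `sinh(√l r)/√l` (`r` when `l = 0`); the curvature is `-l`. -/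
def sn (l r : ℝ) : ℝ := snk (-l) r

/-- `(cosh(√l r) - 1)/l` (`r²/2` when `l = 0`). -/
def md (l r : ℝ) : ℝ := if l = 0 then r ^ 2 / 2 else (Real.cosh (√l * r) - 1) / l

/-- area of the unit `n`-sphere. -/
def sA (n : ℕ) : ℝ := unitSphereArea (n + 1)

/-- area of the model `n`-sphere of radius `r`: `sA n * sn l r ^ n`. -/
def area (n : ℕ) (l r : ℝ) : ℝ := modelArea (n + 1) (-l) r

/-- volume of the model `(n+1)`-ball of radius `r`. -/
def vol (n : ℕ) (l r : ℝ) : ℝ := modelVolume (n + 1) (-l) r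

/-- weight of the cone over an `n`-dimensional element at distance `r`. -/
def coneW (n : ℕ) (l r : ℝ) : ℝ := ∫ ρ in (0 : ℝ)..r, (sn l ρ / sn l r) ^ n

/-- Lipschitz real function. -/
def Lip {X : Type u} [MetricSpace X] (f : X → ℝ) : Prop := ∃ K : ℝ≥0, LipschitzWith K f

/-- bounded measurable real function. -/
def BM {X : Type u} [MeasurableSpace X] (f : X → ℝ) : Prop :=
  Measurable f ∧ ∃ C : ℝ, ∀ x, |f x| ≤ C

/-- geodesics with the `CAT(-l)` comparison for two points on two sides with a common vertex. -/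
structure CatSp (l : ℝ) (X : Type u) [MetricSpace X] where
  geo : X → X → ℝ → X
  zero : ∀ x p, geo x p 0 = x
  one : ∀ x p, geo x p 1 = p
  dist_geo : ∀ x p, ∀ s ∈ Icc (0 : ℝ) 1, ∀ t ∈ Icc (0 : ℝ) 1,
    dist (geo x p s) (geo x p t) = |s - t| * dist x p
  cmp : ∀ x p q, ∀ s ∈ Icc (0 : ℝ) 1, ∀ t ∈ Icc (0 : ℝ) 1,
    sn l (dist x p) * sn l (dist x q) * md l (dist (geo x p s) (geo x q t)) ≤
      sn l (dist x p) * sn l (dist x q) * md l (s * dist x p - t * dist x q) +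
        sn l (s * dist x p) * sn l (t * dist x q) * (md l (dist p q) - md l (dist x p - dist x q))

section Calc
variable {k : ℕ}

/-- Jacobian determinant within `E` of `(π a ∘ φ)_a` (the one used by `chartAction`). -/
def jdet {X : Type u} [MetricSpace X] (E : Set (Euc k)) (φ : Euc k → X) (π : Fin k → X → ℝ)
    (z : Euc k) : ℝ :=
  (Matrix.of fun a => dv E φ (π a) z).det

/-- inner product of covectors for the metric `g` (zero if `g` is singular). -/
def gam (g : Matrix (Fin k) (Fin k) ℝ) (a b : Fin k → ℝ) : ℝ := a ⬝ᵥ (g⁻¹ *ᵥ b)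

/-- `g` majorises the metric derivative of `φ` at `z` within `E`. -/
def MajAt {X : Type u} [MetricSpace X] (E : Set (Euc k)) (φ : Euc k → X)
    (g : Matrix (Fin k) (Fin k) ℝ) (z : Euc k) : Prop :=
  ∀ ε > 0, ∀ᶠ w in 𝓝[E] z, dist (φ w) (φ z) ≤ √(qf g (w - z).ofLp) + ε * ‖w - z‖

end Calc

/-- a Lipschitz chain: countably many Lipschitz pieces with integer densities and a majorant
metric. -/
structure Chain (X : Type u) [MetricSpace X] (k : ℕ) where
  ι : Type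
  cnt : Countable ι
  E : ι → Set (Euc k)
  φ : ι → Euc k → X
  θ : ι → Euc k → ℤ
  g : ι → Euc k → Matrix (Fin k) (Fin k) ℝ
  mE : ∀ i, MeasurableSet (E i)
  bE : ∀ i, Bornology.IsBounded (E i)
  lip : ∀ i, ∃ L : ℝ≥0, LipschitzOnWith L (φ i) (E i)
  mθ : ∀ i, Measurable (θ i)
  iθ : ∀ i, IntegrableOn (fun z => (θ i z : ℝ)) (E i)
  mg : ∀ i a b, Measurable fun z => g i z a b
  psd : ∀ i z, (g i z).PosSemidef
  maj : ∀ i, ∀ᵐ z ∂(volume.restrict (E i)), MajAt (E i) (φ i) (g i z) z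
  fin : ∑' i, ∫⁻ z in E i, ENNReal.ofReal (|(θ i z : ℝ)| * √(g i z).det) ≠ ⊤

namespace Chain
variable {X : Type u} [MetricSpace X] {k : ℕ}

/-- mass density. -/
def wt (C : Chain X k) (i : C.ι) (z : Euc k) : ℝ := |(C.θ i z : ℝ)| * √(C.g i z).det

/-- the action on forms `f dπ₁ ∧ ... ∧ dπ_k`. -/
def act (C : Chain X k) (f : X → ℝ) (π : Fin k → X → ℝ) : ℝ :=
  ∑' i, ∫ z in C.E i, (C.θ i z : ℝ) * f (C.φ i z) * jdet (C.E i) (C.φ i) π z

/-- the mass measure. -/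
def μ [MeasurableSpace X] (C : Chain X k) : Measure X :=
  Measure.sum fun i =>
    ((volume.restrict (C.E i)).withDensity fun z => ENNReal.ofReal (C.wt i z)).map (C.φ i)

/-- total mass. -/
def mass (C : Chain X k) : ℝ := (∑' i, ∫⁻ z in C.E i, ENNReal.ofReal (C.wt i z)).toReal

/-- tangential inner product of the gradients of `f` and `h`. -/
def G (C : Chain X k) (f h : X → ℝ) (i : C.ι) (z : Euc k) : ℝ :=
  gam (C.g i z) (dv (C.E i) (C.φ i) f z) (dv (C.E i) (C.φ i) h z)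

/-- integral of `F (point) (⟨∇f, ∇h⟩)` against the mass measure. -/
def I (C : Chain X k) (F : X → ℝ → ℝ) (f h : X → ℝ) : ℝ :=
  ∑' i, ∫ z in C.E i, C.wt i z * F (C.φ i z) (C.G f h i z)

/-- all pieces map into `A`. -/
def In (C : Chain X k) (A : Set X) : Prop := ∀ i, ∀ z ∈ C.E i, C.φ i z ∈ A

/-- cycles (for `k = 0`: total weight zero). -/
def Cyc (T : Chain X k) : Prop := ∀ π : Fin k → X → ℝ, (∀ a, Lip (π a)) → T.act (fun _ => 1) π = 0

/-- `∂ S = T`. -/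
def Bd (S : Chain X (k + 1)) (T : Chain X k) : Prop :=
  ∀ (f : X → ℝ) (π : Fin k → X → ℝ), Lip f → (∀ a, Lip (π a)) →
    S.act (fun _ => 1) (Fin.cons f π) = T.act f π

/-- `∂ S = T - T'`. -/
def Hom (T T' : Chain X k) (S : Chain X (k + 1)) : Prop :=
  ∀ (f : X → ℝ) (π : Fin k → X → ℝ), Lip f → (∀ a, Lip (π a)) →
    S.act (fun _ => 1) (Fin.cons f π) = T.act f π - T'.act f π

/-- the filling volume is at most `a`. -/
def FillLe (T : Chain X k) (a : ℝ) : Prop :=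
  ∀ ε > 0, ∃ S : Chain X (k + 1), S.Bd T ∧ S.mass ≤ a + ε

/-- the filling volume is at least `a`. -/
def FillGe (T : Chain X k) (a : ℝ) : Prop := ∀ S : Chain X (k + 1), S.Bd T → a ≤ S.mass

end Chain

/-- the sharp isoperimetric inequality for `n`-cycles in `X`. -/
def IsoIn (X : Type u) [MetricSpace X] (n : ℕ) (l : ℝ) : Prop :=
  ∀ T : Chain X n, T.Cyc → ∀ r : ℝ, 0 ≤ r → T.mass ≤ area n l r → T.FillLe (vol n l r)

/-- a finite measure with a carre du champ on Lipschitz functions (used for compact `X`). -/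
structure DV (X : Type u) [MetricSpace X] [MeasurableSpace X] where
  μ : Measure X
  fin : IsFiniteMeasure μ
  Γ : (X → ℝ) → (X → ℝ) → X → ℝ
  meas : ∀ f g, Measurable (Γ f g)
  symm : ∀ f g, Lip f → Lip g → Γ f g =ᵐ[μ] Γ g f
  add : ∀ f₁ f₂ g, Lip f₁ → Lip f₂ → Lip g →
    Γ (fun x => f₁ x + f₂ x) g =ᵐ[μ] fun x => Γ f₁ g x + Γ f₂ g x
  mul : ∀ f₁ f₂ g, Lip f₁ → Lip f₂ → Lip g →
    Γ (fun x => f₁ x * f₂ x) g =ᵐ[μ] fun x => f₁ x * Γ f₂ g x + f₂ x * Γ f₁ g x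
  chain : ∀ (F : ℝ → ℝ) f g, ContDiff ℝ 1 F → Lip f → Lip g →
    Γ (fun x => F (f x)) g =ᵐ[μ] fun x => deriv F (f x) * Γ f g x
  nonneg : ∀ f, Lip f → ∀ᵐ x ∂μ, 0 ≤ Γ f f x
  le_lip : ∀ (f : X → ℝ) (L : ℝ≥0), LipschitzWith L f → ∀ᵐ x ∂μ, Γ f f x ≤ (L : ℝ) ^ 2

/-- the modified distance function `md l (d(x, ·))`. -/
def Dx {X : Type u} [MetricSpace X] (l : ℝ) (x : X) : X → ℝ := fun p => md l (dist x p)

namespace DV
variable {X : Type u} [MetricSpace X] [MeasurableSpace X]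

/-- first variation inequality: dimension `n`, curvature `≤ -l`, mean curvature `≤ Λ`. -/
def FV (V : DV X) (n : ℕ) (l Λ : ℝ) : Prop :=
  ∀ (x : X) (η : X → ℝ), Lip η → (∀ p, 0 ≤ η p) →
    ∫ p, (n * η p * (1 + l * Dx l x p) + V.Γ η (Dx l x) p) ∂V.μ ≤
      Λ * ∫ p, η p * √(2 * Dx l x p + l * Dx l x p ^ 2 - V.Γ (Dx l x) (Dx l x) p) ∂V.μ

/-- lower density at least one. -/
def Dens (V : DV X) (n : ℕ) : Prop :=
  ∀ᵐ p ∂V.μ, ∀ c < unitBallVol n, ∀ᶠ r in 𝓝[>] (0 : ℝ), c * r ^ n ≤ V.μ.real (Metric.closedBall p r)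

end DV

/-- the variance inequality at a barycentre. -/
def VarIneq (l : ℝ) (X : Type u) [MetricSpace X] [MeasurableSpace X] : Prop :=
  ∀ ν : Measure X, IsFiniteMeasure ν → ∃ x : X,
    2 * ν.real univ * (∫ p, Dx l x p ∂ν) + l * (∫ p, Dx l x p ∂ν) ^ 2 ≤ ∫ p, ∫ q, Dx l p q ∂ν ∂ν

/-- a Cartan-Hadamard submanifold `S` with its intrinsic metric `X` and normal coordinates. -/
structure CH (n N : ℕ) (l : ℝ) (S : Set (Euc N)) (X : Type) [MetricSpace X] where
  cat : CatSp l X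
  J : X → Euc N
  range_J : range J = S
  inj_J : Function.Injective J
  ex : X → Euc n → X
  bij : ∀ o, Function.Bijective (ex o)
  rad : ∀ o w, dist o (ex o w) = ‖w‖
  exp_le : ∀ o w w', ‖w - w'‖ ≤ dist (ex o w) (ex o w')
  smooth : ∀ o, ContDiff ℝ ∞ fun w => J (ex o w)
  opn : ∀ o (W : Set (Euc n)), IsOpen W → ∃ U : Set (Euc N), IsOpen U ∧ (fun w => J (ex o w)) '' W = S ∩ U
  inf : ∀ o y, ∀ ε > 0, ∀ᶠ p : Euc n × Euc n in 𝓝 (y, y),
    |dist (ex o p.1) (ex o p.2) - ‖fderiv ℝ (fun w => J (ex o w)) y (p.1 - p.2)‖| ≤ ε * ‖p.1 - p.2‖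

end

end Crest.Agent.R241
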