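import Crest.Agent.R241.Alm
import Crest.Agent.R241.DOut
import Crest.Agent.R241.DCal
import Crest.Agent.R241.DConst
import Crest.Agent.R241.DCH

/-! Row 241 (Cartan-Hadamard): block D: domains.  Chains live in the compact subtype
`closedBall o R`; the top-dimensional chain is the chart `ex o` on a ball with `θ = 1` and the
pull-back metric; it is sliced by an averaged indicator function; a calibration gives `FillGe`. -/

set_option autoImplicit false

open MeasureTheory Set Filter Topology Metric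
open scoped ENNReal NNReal Matrix ContDiff

namespace Crest.Agent.R241

open Crest.GeometryTopology.Submanifold

namespace D

theorem tendsto_setIntegral_of_ae {k : ℕ} {U : ℕ → Set (Euc k)} {V K : Set (Euc k)}
    (hU : ∀ j, MeasurableSet (U j)) (hV : MeasurableSet V) (hUK : ∀ j, U j ⊆ K) (hVK : V ⊆ K)
    {g : Euc k → ℝ} (hg : IntegrableOn g K)
    (h : ∀ᵐ x : Euc k, ∀ᶠ j in atTop, (x ∈ U j ↔ x ∈ V)) :
    Tendsto (fun j => ∫ x in U j, g x) atTop (𝓝 (∫ x in V, g x)) := by
  have e : ∀ A : Set (Euc k), MeasurableSet A → A ⊆ K →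
      ∫ x in A, g x = ∫ x in K, A.indicator g x := fun A hA hAK => by
    rw [setIntegral_indicator hA, inter_eq_right.2 hAK]
  rw [e V hV hVK]
  simp_rw [fun j => e (U j) (hU j) (hUK j)]
  refine tendsto_integral_of_dominated_convergence (fun x => ‖g x‖)
    (fun j => hg.aestronglyMeasurable.indicator (hU j)) hg.norm
    (fun j => .of_forall fun x => norm_indicator_le_norm_self _ _) ?_
  filter_upwards [ae_restrict_of_ae h] with x hx
  refine tendsto_const_nhds.congr' ?_
  filter_upwards [hx] with j hj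
  by_cases hxV : x ∈ V
  · rw [indicator_of_mem hxV, indicator_of_mem (hj.2 hxV)]
  · rw [indicator_of_notMem hxV, indicator_of_notMem fun h' => hxV (hj.1 h')]

theorem vol_lt_vol (n : ℕ) {l r' r : ℝ} (hl : 0 ≤ l) (h0 : 0 ≤ r') (h : r' < r) :
    vol n l r' < vol n l r := by
  refine strictMonoOn_of_deriv_pos (convex_Ici 0)
    (fun x _ => (hasDerivAt_vol n l x).continuousAt.continuousWithinAt) (fun x hx => ?_)
    h0 (h0.trans h.le) h
  rw [interior_Ici] at hx
  rw [(hasDerivAt_vol n l x).deriv, area_eq]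
  exact mul_pos (sA_pos n) (pow_pos (sn_pos hl hx) n)

theorem exists_radius (n : ℕ) {l r a : ℝ} (hr : 0 < r) (ha : a < area n l r) :
    ∃ r', 0 ≤ r' ∧ r' < r ∧ a < area n l r' := by
  have hc : Continuous (area n l) := by
    rw [show area n l = fun t => sA n * sn l t ^ n from funext (area_eq n l)]
    exact continuous_const.mul ((contDiff_sn l).continuous.pow n)
  have h1 : ∀ᶠ t in 𝓝[<] r, a < area n l t :=
    mem_nhdsWithin_of_mem_nhds (hc.continuousAt.eventually (lt_mem_nhds ha))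
  obtain ⟨t, ht, ht'⟩ := (h1.and (Ioo_mem_nhdsLT hr)).exists
  exact ⟨t, ht'.1.le, ht'.2, ht⟩

theorem le_of_fill {Y : Type} [MetricSpace Y] {k : ℕ} {T : Chain Y k} {a b : ℝ}
    (h1 : T.FillGe a) (h2 : T.FillLe b) : a ≤ b :=
  le_of_forall_pos_le_add fun ε hε => by
    obtain ⟨S, hS, hm⟩ := h2 ε hε
    exact (h1 S hS).trans hm

variable {m N : ℕ} {F : Euc (m + 1) → Euc N}

theorem Imm.integrableOn_hh (hF : Imm F) {A : Set (Euc (m + 1))}
    (h : ∫⁻ x in A, ENNReal.ofReal (hh F x) ≠ ⊤) : IntegrableOn (hh F) A :=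
  (lintegral_ofReal_ne_top_iff_integrable hF.contDiff_hh.continuous.aestronglyMeasurable
    (.of_forall (hh_nonneg F))).1 h

theorem Imm.integral_hh (hF : Imm F) (A : Set (Euc (m + 1))) :
    ∫ x in A, hh F x = (∫⁻ x in A, ENNReal.ofReal (hh F x)).toReal :=
  integral_eq_lintegral_of_nonneg_ae (.of_forall (hh_nonneg F))
    hF.contDiff_hh.continuous.aestronglyMeasurable

theorem ae_iff_of_cycles (hF : Imm F) {W : Set (Euc (m + 1))} (hW : IsOpen W)
    (hA : (μHE[m] : Measure (Euc N)) (F '' frontier W) ≠ ⊤) {U : ℕ → Set (Euc (m + 1))} {R : ℝ}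
    (hin : ∀ x ∈ W, ‖x‖ ≤ R → ∀ᶠ j in atTop, x ∈ U j)
    (hout : ∀ x ∉ closure W, ∀ᶠ j in atTop, x ∉ U j) :
    ∀ᵐ x : Euc (m + 1), ∀ᶠ j in atTop, (x ∈ U j ∩ ball 0 R ↔ x ∈ W ∩ ball 0 R) := by
  have h0 : ∀ᵐ x : Euc (m + 1), x ∉ frontier W :=
    measure_eq_zero_iff_ae_notMem.1 (hF.null_of_ne_top isClosed_frontier.measurableSet hA)
  filter_upwards [h0] with x hx
  by_cases hR : x ∈ ball (0 : Euc (m + 1)) R
  · by_cases hxW : x ∈ W
    · filter_upwards [hin x hxW (mem_ball_zero_iff.1 hR).le] with j hj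
      exact iff_of_true ⟨hj, hR⟩ ⟨hxW, hR⟩
    · have : x ∉ closure W := fun h => hx ⟨h, by rwa [hW.interior_eq]⟩
      filter_upwards [hout x this] with j hj
      exact iff_of_false (fun h => hj h.1) fun h => hxW h.1
  · exact .of_forall fun j => iff_of_false (fun h => hR h.2) fun h => hR h.2

end D

open D

variable {n N : ℕ} {l : ℝ} {S : Set (Euc N)} {X : Type} [MetricSpace X]

theorem CH.nonempty_of_vol (H : CH (n + 1) N l S X) (hl : 0 ≤ l) {E : Set (Euc N)} (hES : E ⊆ S)
    {r : ℝ} (hr : 0 < r)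
    (hvol : Measure.euclideanHausdorffMeasure (n + 1) E = ENNReal.ofReal (vol n l r)) :
    E.Nonempty ∧ Nonempty X := by
  have hv : 0 < vol n l r := by simpa [vol_eq] using vol_lt_vol n hl le_rfl hr
  have hE : E.Nonempty := by
    rw [nonempty_iff_ne_empty]
    rintro rfl
    rw [measure_empty] at hvol
    exact (ENNReal.ofReal_pos.2 hv).ne hvol
  obtain ⟨y, hy⟩ := hE
  obtain ⟨o, -⟩ : y ∈ range H.J := by rw [H.range_J]; exact hES hy
  exact ⟨⟨y, hy⟩, ⟨o⟩⟩

theorem dom_iso (H : CH (n + 1) N l S X) (hl : 0 ≤ l) (hn : 1 ≤ n) {E : Set (Euc N)}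
    (hES : E ⊆ S) (hopen : ∃ U : Set (Euc N), IsOpen U ∧ E = S ∩ U) {r : ℝ} (hr : 0 ≤ r)
    (hvol : Measure.euclideanHausdorffMeasure (n + 1) E = ENNReal.ofReal (vol n l r)) :
    ENNReal.ofReal (area n l r) ≤ Measure.euclideanHausdorffMeasure n (relBoundary S E) := by
  rcases hr.eq_or_lt with rfl | hr0
  · simp [area_eq, sn_zero, show n ≠ 0 by omega]
  by_contra hlt
  rw [not_le] at hlt
  obtain ⟨-, ⟨o⟩⟩ := H.nonempty_of_vol hl hES hr0 hvol
  have hF := H.imm o
  obtain ⟨hW, hFW, hfr⟩ := H.preimage o hopen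
  set F : Euc (n + 1) → Euc N := fun w => H.J (H.ex o w) with hFdef
  set W := F ⁻¹' E with hWdef
  have hA : (μHE[n] : Measure (Euc N)) (F '' frontier W) < ENNReal.ofReal (area n l r) :=
    (measure_mono hfr).trans_lt hlt
  obtain ⟨r', hr'0, hr'r, hr'a⟩ := exists_radius n hr0 (ENNReal.toReal_lt_of_lt_ofReal hA)
  have hvv := vol_lt_vol n hl hr'0 hr'r
  have hv0 : 0 ≤ vol n l r := by
    have := vol_lt_vol n hl le_rfl hr0
    simp only [vol_eq, intervalIntegral.integral_same, mul_zero] at this ⊢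
    exact this.le
  have hWl : ∫⁻ x in W, ENNReal.ofReal (hh F x) = ENNReal.ofReal (vol n l r) := by
    rw [← hF.area hW.measurableSet, hFW, hvol]
  have hWi : IntegrableOn (hh F) W := hF.integrableOn_hh (by rw [hWl]; exact ENNReal.ofReal_ne_top)
  have hWv : ∫ x in W, hh F x = vol n l r := by
    rw [hF.integral_hh, hWl, ENNReal.toReal_ofReal hv0]
  set a := ((μHE[n] : Measure (Euc N)) (F '' frontier W)).toReal with hadef
  obtain ⟨η, hη, hη1, hη2⟩ : ∃ η : ℝ, 0 < η ∧ 2 * η ≤ area n l r' - a ∧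
      2 * η ≤ vol n l r - vol n l r' :=
    ⟨min (area n l r' - a) (vol n l r - vol n l r') / 2, half_pos (lt_min (by linarith)
      (by linarith)), by linarith [min_le_left (area n l r' - a) (vol n l r - vol n l r')],
      by linarith [min_le_right (area n l r' - a) (vol n l r - vol n l r')]⟩
  have hexh : Tendsto (fun j : ℕ => ∫ x in W ∩ ball 0 (j : ℝ), hh F x) atTop
      (𝓝 (∫ x in W, hh F x)) := by
    refine tendsto_setIntegral_of_ae (fun j => hW.measurableSet.inter measurableSet_ball)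
      hW.measurableSet (fun j => inter_subset_left) Subset.rfl hWi (.of_forall fun x => ?_)
    filter_upwards [tendsto_natCast_atTop_atTop.eventually (eventually_gt_atTop ‖x‖)] with j hj
    exact ⟨fun h => h.1, fun h => ⟨h, mem_ball_zero_iff.2 hj⟩⟩
  obtain ⟨R, hR⟩ := (hexh.eventually (lt_mem_nhds (show vol n l r - η < _ by linarith))).exists
  have hR2 : (0 : ℝ) < R + 2 := by positivity
  have htail : (∫⁻ x in W ∩ (closedBall (0 : Euc (n + 1)) (R + 1) \ ball 0 R),
      ENNReal.ofReal (hh F x)).toReal < η := by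
    rw [← hF.integral_hh]
    have h1 := integral_inter_add_sdiff (μ := volume) (measurableSet_ball (x := (0 : Euc (n + 1)))
      (ε := R)) hWi
    have h2 : ∫ x in W ∩ (closedBall (0 : Euc (n + 1)) (R + 1) \ ball 0 R), hh F x ≤
        ∫ x in W \ ball 0 R, hh F x :=
      setIntegral_mono_set (hWi.mono_set sdiff_subset) (.of_forall (hh_nonneg F))
        (LE.le.eventuallyLE fun x hx => ⟨hx.1, hx.2.2⟩)
    linarith
  haveI := H.compact_ball o ((R : ℝ) + 2)
  borelize ↥(closedBall o ((R : ℝ) + 2))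
  haveI : Nonempty (closedBall o ((R : ℝ) + 2)) := ⟨⟨o, mem_closedBall_self hR2.le⟩⟩
  obtain ⟨c⟩ := H.cat.ball hl o ((R : ℝ) + 2)
  obtain ⟨B, -⟩ := H.exists_chB o hR2.le
  obtain ⟨U, T, hUm, hUs, hbd, hmass, hin, hout⟩ := B.exists_cycles hF hW hA.ne_top
  have hKi : IntegrableOn (hh F) (closedBall 0 ((R : ℝ) + 2)) :=
    hF.integrableOn_hh (hF.lintegral_ball_ne_top _)
  have hconv := tendsto_setIntegral_of_ae (fun j => (hUm j).inter measurableSet_ball)
    (hW.measurableSet.inter measurableSet_ball) (fun j => inter_subset_left.trans (hUs j))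
    (inter_subset_right.trans (ball_subset_closedBall.trans
      (closedBall_subset_closedBall (by linarith)))) hKi (ae_iff_of_cycles hF hW hA.ne_top hin hout)
  obtain ⟨j, h1, h2⟩ := ((hconv.eventually (lt_mem_nhds hR)).and
    ((tendsto_one_div_add_atTop_nhds_zero_nat (𝕜 := ℝ)).eventually (gt_mem_nhds hη))).exists
  have hm : (T j).mass ≤ area n l r' := by linarith [hmass j]
  have h3 := le_of_fill (B.fillGe hF hR2 (hUm j) (hUs j) (hbd j))
    (iso_all c hl hn (T j) (hbd j).cyc r' hr'0 hm)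
  have h4 : ∫ x in U j ∩ ball 0 R, hh F x ≤ ∫ x in U j, hh F x :=
    setIntegral_mono_set (hKi.mono_set (hUs j)) (.of_forall (hh_nonneg F))
      (LE.le.eventuallyLE inter_subset_left)
  linarith

/-- tests supported away from the limit sphere do not see the boundary of `W`. -/
theorem D.noPer_of_conc {m : ℕ} {F : Euc (m + 1) → Euc N} {Y : Type} [MetricSpace Y]
    [CompactSpace Y] [MeasurableSpace Y] [BorelSpace Y] {R : ℝ} (hR : 0 < R) (B : ChB F Y R)
    {U : ℕ → Set (Euc (m + 1))} {T : ℕ → Chain Y m} {W O : Set (Euc (m + 1))}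
    (hUm : ∀ j, MeasurableSet (U j)) (hUs : ∀ j, U j ⊆ closedBall 0 R)
    (hbd : ∀ j, B.IsBd (U j) (T j)) (hW : MeasurableSet W) (hWs : W ⊆ closedBall 0 R)
    (hae : ∀ᵐ x : Euc (m + 1), ∀ᶠ j in atTop, (x ∈ U j ↔ x ∈ W)) {A : Set Y}
    (hA : MeasurableSet A) (hO : ∀ p, B.π p ∈ O → p ∈ A)
    (hc : ∀ η > (0 : ℝ), ∃ᶠ j in atTop, (T j).μ.real A ≤ η) : NoPer W O := by
  intro f hf hfc hfs i
  have hf1 : ContDiff ℝ 1 f := hf.of_le (by exact_mod_cast le_top)
  obtain ⟨K, hK⟩ := hf1.lipschitzWith_of_hasCompactSupport hfc one_ne_zero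
  obtain ⟨M, hM⟩ := hf.continuous.bounded_above_of_compact_support hfc
  have hM0 : 0 ≤ M := (norm_nonneg _).trans (hM 0)
  have hl : Lip fun p => f (B.π p) := ⟨_, B.lip_comp hK.lipschitzOnWith⟩
  have hg : Continuous fun z => fderiv ℝ f z (EuclideanSpace.single i 1) :=
    (hf1.continuous_fderiv one_ne_zero).clm_apply continuous_const
  have hconv := tendsto_setIntegral_of_ae hUm hW hUs hWs
    (hg.continuousOn.integrableOn_compact (isCompact_closedBall 0 R)) hae
  have hle : ∀ j, |∫ z in U j, fderiv ℝ f z (EuclideanSpace.single i 1)| ≤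
      M * (T j).μ.real A := by
    intro j
    have h1 := hbd j _ (fun a p => B.π p (i.succAbove a)) hl fun a => ⟨_, B.lip_coord _⟩
    rw [setIntegral_congr_fun (hUm j) fun z hz => B.jdet_coord hR (hUs j hz)
      ((hf1.differentiable one_ne_zero) z) i, integral_const_mul] at h1
    have h2 := (T j).abs_act_le hl.bm (K := fun _ => 1) fun a => B.lip_coord (i.succAbove a)
    rw [h1, abs_mul, abs_pow, abs_neg, abs_one, one_pow, one_mul] at h2
    simp only [NNReal.coe_one, Finset.prod_const_one, one_mul] at h2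
    refine h2.trans ?_
    rw [mul_comm, ← smul_eq_mul, ← integral_indicator_const _ hA]
    refine integral_mono (hl.bm.integrable _).abs ((integrable_const M).indicator hA) fun p => ?_
    by_cases hp : p ∈ A
    · rw [indicator_of_mem hp]
      exact hM _
    · rw [indicator_of_notMem hp]
      have : f (B.π p) = 0 := image_eq_zero_of_notMem_tsupport fun h => hp (hO p (hfs h))
      simp [this]
  rw [← abs_nonpos_iff]
  refine le_of_forall_pos_le_add fun η hη => ?_
  have hη' : 0 < η / (M + 1) := by positivity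
  refine (isClosed_Iic (a := 0 + η)).mem_of_frequently_of_tendsto
    ((hc _ hη').mono fun j hj => ?_) hconv.abs
  refine (hle j).trans ((mul_le_mul_of_nonneg_left hj hM0).trans ?_)
  rw [zero_add, ← mul_div_assoc, div_le_iff₀ (by positivity)]
  nlinarith

theorem dom_rigid (H : CH (n + 1) N 0 S X) (hn : 1 ≤ n) {E : Set (Euc N)}
    (hES : E ⊆ S) (hE : IsCompact (closure E)) (hclosed : IsClosed S)
    (hopen : ∃ U : Set (Euc N), IsOpen U ∧ E = S ∩ U) {r : ℝ} (hr : 0 < r)
    (hvol : Measure.euclideanHausdorffMeasure (n + 1) E = ENNReal.ofReal (vol n 0 r))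
    (harea : Measure.euclideanHausdorffMeasure n (relBoundary S E) =
      ENNReal.ofReal (area n 0 r)) :
    ∃ U : Set (Euc N), IsOpen U ∧
      Measure.euclideanHausdorffMeasure (n + 1) (symmDiff E (S ∩ U)) = 0 ∧
      ∃ φ : Euc (n + 1) → Euc N,
        ContDiffOn ℝ (⊤ : ℕ∞) φ (Metric.ball 0 r) ∧ Set.InjOn φ (Metric.ball 0 r) ∧
        φ '' Metric.ball 0 r = S ∩ U ∧ ∀ x ∈ Metric.ball 0 r, metricMat φ x = 1 := by
  obtain ⟨hEne, ⟨o⟩⟩ := H.nonempty_of_vol le_rfl hES hr hvol
  have hF := H.imm o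
  obtain ⟨hW, hFW, hfr⟩ := H.preimage o hopen
  obtain ⟨R, hR, hWR⟩ := H.bounded_preimage o hES hE hclosed
  set F : Euc (n + 1) → Euc N := fun w => H.J (H.ex o w) with hFdef
  set W := F ⁻¹' E with hWdef
  have hA : (μHE[n] : Measure (Euc N)) (F '' frontier W) ≤ ENNReal.ofReal (area n 0 r) :=
    (measure_mono hfr).trans harea.le
  have hAt : (μHE[n] : Measure (Euc N)) (F '' frontier W) ≠ ⊤ :=
    ne_top_of_le_ne_top ENNReal.ofReal_ne_top hA
  have hv0 : 0 ≤ vol n 0 r := by
    rw [vol_zero_left]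
    exact mul_nonneg (unitBallVol_pos _).le (pow_nonneg hr.le _)
  have ha0 : 0 ≤ area n 0 r := by
    rw [area_eq, sn_zero_left]
    exact mul_nonneg (sA_pos _).le (pow_nonneg hr.le _)
  have hWl : ∫⁻ x in W, ENNReal.ofReal (hh F x) = ENNReal.ofReal (vol n 0 r) := by
    rw [← hF.area hW.measurableSet, hFW, hvol]
  have hWv : ∫ x in W, hh F x = vol n 0 r := by
    rw [hF.integral_hh, hWl, ENNReal.toReal_ofReal hv0]
  have hR2 : (0 : ℝ) < R + 2 := by positivity
  haveI := H.compact_ball o (R + 2)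
  borelize ↥(closedBall o (R + 2))
  haveI : Nonempty (closedBall o (R + 2)) := ⟨⟨o, mem_closedBall_self hR2.le⟩⟩
  obtain ⟨c⟩ := H.cat.ball le_rfl o (R + 2)
  obtain ⟨B, hB⟩ := H.exists_chB o hR2.le
  obtain ⟨U, T, hUm, hUs, hbd, hmass, hin, hout⟩ := B.exists_cycles hF hW hAt
  have hKi : IntegrableOn (hh F) (closedBall 0 (R + 2)) :=
    hF.integrableOn_hh (hF.lintegral_ball_ne_top _)
  have hWs : W ⊆ closedBall 0 (R + 2) :=
    hWR.trans (ball_subset_closedBall.trans (closedBall_subset_closedBall (by linarith)))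
  have hcl : closure W ⊆ closedBall 0 R :=
    closure_minimal (hWR.trans ball_subset_closedBall) isClosed_closedBall
  have hae : ∀ᵐ x : Euc (n + 1), ∀ᶠ j in atTop, (x ∈ U j ↔ x ∈ W) := by
    have h0 : ∀ᵐ x : Euc (n + 1), x ∉ frontier W :=
      measure_eq_zero_iff_ae_notMem.1 (hF.null_of_ne_top isClosed_frontier.measurableSet hAt)
    filter_upwards [h0] with x hx
    by_cases hxW : x ∈ W
    · filter_upwards [hin x hxW (mem_ball_zero_iff.1 (hWR hxW)).le] with j hj
      exact iff_of_true hj hxW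
    · filter_upwards [hout x fun h => hx ⟨h, by rwa [hW.interior_eq]⟩] with j hj
      exact iff_of_false hj hxW
  have hconv := tendsto_setIntegral_of_ae hUm hW.measurableSet hUs hWs hKi hae
  rw [hWv] at hconv
  have hfill := fun j => B.fillGe hF hR2 (hUm j) (hUs j) (hbd j)
  have hemp : W ∩ (closedBall (0 : Euc (n + 1)) (R + 1) \ ball 0 R) = ∅ :=
    eq_empty_of_forall_notMem fun x hx => hx.2.2 (hWR hx.1)
  have hm : Tendsto (fun j => (T j).mass) atTop (𝓝 (area n 0 r)) := by
    refine tendsto_order.2 ⟨fun a ha => ?_, fun a ha => ?_⟩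
    · obtain ⟨r', h0, h1, h2⟩ := exists_radius n hr ha
      filter_upwards [hconv.eventually (lt_mem_nhds (vol_lt_vol n le_rfl h0 h1))] with j hj
      by_contra hle
      have := le_of_fill (hfill j) (iso_all c le_rfl hn (T j) (hbd j).cyc r' h0
        ((not_lt.1 hle).trans h2.le))
      linarith
    · filter_upwards [(tendsto_one_div_add_atTop_nhds_zero_nat (𝕜 := ℝ)).eventually
        (gt_mem_nhds (sub_pos.2 ha))] with j hj
      have h1 := hmass j
      rw [hemp] at h1
      have h2 := ENNReal.toReal_le_of_le_ofReal ha0 hA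
      simp only [Measure.restrict_empty, lintegral_zero_measure, ENNReal.toReal_zero] at h1
      linarith
  have he : Tendsto (fun j => vol n 0 r - ∫ x in U j, hh F x) atTop (𝓝 0) := by
    simpa using hconv.const_sub (vol n 0 r)
  obtain ⟨x₀, hx₀⟩ := eq_case c hn T (fun j => (hbd j).cyc) hr hm he fun j => by
    simpa using hfill j
  obtain ⟨lg, hlg, hlg1, hlg2, -⟩ := H.exists_log o
  have hρc : Continuous fun w => dist (x₀ : X) (H.ex o w) :=
    continuous_const.dist (H.continuous_ex o)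
  have hWne : W.Nonempty := by
    rw [← hFW] at hEne
    exact hEne.of_image
  obtain ⟨hsub, hnull⟩ := shape hn hW hWne (ψ := fun y => lg (H.ex x₀ y))
    (hlg.continuous.comp (H.continuous_ex x₀))
    (fun w => by
      obtain ⟨y, hy⟩ := (H.bij x₀).2 (H.ex o w)
      exact ⟨y, by simp only [hy, hlg1]⟩)
    (ρ := fun w => dist (x₀ : X) (H.ex o w)) (fun y => by simp only [hlg2, H.rad]) hr
    (by
      have hd := dist_nonneg (x := o) (y := (x₀ : X))
      have hn' : ‖(EuclideanSpace.single 0 (R + r + dist o x₀ + 1) : Euc (n + 1))‖ =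
          R + r + dist o x₀ + 1 := by
        rw [PiLp.norm_single, Real.norm_of_nonneg (by positivity)]
      refine ⟨EuclideanSpace.single 0 (R + r + dist o x₀ + 1), ?_, fun h => ?_⟩
      · have h1 := H.rad o (EuclideanSpace.single 0 (R + r + dist o x₀ + 1))
        have h2 := dist_triangle o x₀ (H.ex o (EuclideanSpace.single 0 (R + r + dist o x₀ + 1)))
        linarith
      · have := mem_closedBall_zero_iff.1 (hcl h)
        linarith)
    (fun x hx => by
      have hδ : 0 < |dist (x₀ : X) (H.ex o x) - r| / 2 := half_pos (abs_pos.2 (sub_ne_zero.2 hx))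
      have hev : ∀ᶠ w in 𝓝 x, |dist (x₀ : X) (H.ex o x) - r| / 2 <
          |dist (x₀ : X) (H.ex o w) - r| :=
        ((hρc.sub continuous_const).abs.continuousAt).eventually
          (lt_mem_nhds (half_lt_self (abs_pos.2 (sub_ne_zero.2 hx))))
      obtain ⟨δ, hδ0, hδb⟩ := Metric.eventually_nhds_iff_ball.1 hev
      refine ⟨δ, hδ0, D.noPer_of_conc hR2 B hUm hUs hbd hW.measurableSet hWs hae
        (A := {p | |dist (x₀ : X) (H.ex o x) - r| / 2 ≤ |dist x₀ p - r|})
        (measurableSet_le measurable_const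
          ((continuous_const.dist continuous_id).sub continuous_const).abs.measurable)
        (fun p hp => ?_) (hx₀ _ hδ)⟩
      have h1 := hδb _ hp
      rw [← hB _ (B.mem p), B.φ_π] at h1
      exact h1.le)
  obtain ⟨V, hV, hVe⟩ := H.opn x₀ (ball 0 r) isOpen_ball
  have himg : F '' ((fun y => lg (H.ex x₀ y)) '' ball 0 r) = S ∩ V := by
    rw [← hVe, image_image]
    simp only [hFdef, hlg2]
  have hz : (μHE[n + 1] : Measure (Euc N)) ((S ∩ V) \ E) = 0 := by
    refine measure_mono_null ?_ (hF.image_null hnull)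
    rw [← himg]
    rintro _ ⟨⟨w, hw, rfl⟩, hw'⟩
    exact ⟨w, ⟨hw, hw'⟩, rfl⟩
  have hEV : E ⊆ S ∩ V := by
    rw [← himg, ← hFW]
    exact image_mono hsub
  have hG := H.imm x₀
  refine ⟨V, hV, ?_, fun w => H.J (H.ex x₀ w), hG.smooth.contDiffOn, hG.inj.injOn, hVe,
    hG.metric_eq_one ?_⟩
  · rw [symmDiff_def, sdiff_eq_empty.2 hEV]
    simpa using hz
  · rw [hVe, ← union_sdiff_cancel hEV]
    refine (measure_union_le _ _).trans ?_
    rw [hz, add_zero, hvol, vol_zero_left, Measure.addHaar_ball_of_pos _ _ hr, mul_comm,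
      ENNReal.ofReal_mul (pow_nonneg hr.le _), unitBallVol,
      ENNReal.ofReal_toReal measure_ball_lt_top.ne]
    simp

end Crest.Agent.R241
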