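import Crest.Agent.R241.KDefs

/-! Row 241, block K: geodesics and comparison in CAT(0) spaces, barycentres. -/

set_option autoImplicit false
open MeasureTheory Filter Topology Matrix
open Crest.GeometryTopology.Submanifold (Euc)
open Crest.GeometryTopology.MetricCurrent

namespace Crest.Agent.R241

universe u
variable {X : Type u} [MetricSpace X] {k : ℕ}

section
variable (hX : IsCATZero X)
include hX

theorem geo_zero (x y : X) : geo x y 0 = x := by
  have h := hX.1 x y
  unfold geo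
  rw [dif_pos h]
  simpa using h.choose_spec.1

theorem geo_one (x y : X) : geo x y 1 = y := by
  have h := hX.1 x y
  unfold geo
  rw [dif_pos h]
  simpa using h.choose_spec.2.1

theorem dist_geo_geo (x y : X) {s t : ℝ} (hs : s ∈ Set.Icc (0 : ℝ) 1) (ht : t ∈ Set.Icc (0 : ℝ) 1) :
    dist (geo x y s) (geo x y t) = |s - t| * dist x y := by
  have h := hX.1 x y
  unfold geo
  rw [dif_pos h, dif_pos h, min_eq_left hs.2, min_eq_left ht.2, max_eq_right hs.1,
    max_eq_right ht.1]
  exact h.choose_spec.2.2 s hs t ht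

theorem dist_geo_left (x y : X) {s : ℝ} (hs : s ∈ Set.Icc (0 : ℝ) 1) :
    dist x (geo x y s) = s * dist x y := by
  have h := dist_geo_geo hX x y (s := 0) (t := s) ⟨le_rfl, zero_le_one⟩ hs
  rw [geo_zero hX, zero_sub, abs_neg, abs_of_nonneg hs.1] at h
  exact h

theorem dist_geo_right (x y : X) {s : ℝ} (hs : s ∈ Set.Icc (0 : ℝ) 1) :
    dist (geo x y s) y = (1 - s) * dist x y := by
  have h := dist_geo_geo hX x y (s := s) (t := 1) hs ⟨zero_le_one, le_rfl⟩
  rw [geo_one hX, abs_sub_comm, abs_of_nonneg (sub_nonneg.2 hs.2)] at h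
  exact h

/-- the (CN) inequality at every point of a segment: `s ↦ d(p, γ s)² + s(1-s) d²` is continuous
and midpoint convex on `[0,1]`, hence convex. -/
theorem cn_ineq (p x y : X) {s : ℝ} (hs : s ∈ Set.Icc (0 : ℝ) 1) :
    dist p (geo x y s) ^ 2 ≤
      (1 - s) * dist p x ^ 2 + s * dist p y ^ 2 - s * (1 - s) * dist x y ^ 2 := by
  set g : ℝ → ℝ := fun s => dist p (geo x y s) ^ 2 -
    ((1 - s) * dist p x ^ 2 + s * dist p y ^ 2 - s * (1 - s) * dist x y ^ 2) with hg
  have hγ : ContinuousOn (geo x y) (Set.Icc (0 : ℝ) 1) := by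
    have : LipschitzOnWith (nndist x y) (geo x y) (Set.Icc (0 : ℝ) 1) := by
      refine LipschitzOnWith.of_dist_le_mul fun a ha b hb => ?_
      rw [dist_geo_geo hX x y ha hb, Real.dist_eq, coe_nndist, mul_comm]
    exact this.continuousOn
  have hgc : ContinuousOn g (Set.Icc (0 : ℝ) 1) := by
    refine ContinuousOn.sub ?_ (by fun_prop)
    exact ((continuous_const.dist continuous_id).comp_continuousOn hγ).pow 2
  have hmid : ∀ a ∈ Set.Icc (0 : ℝ) 1, ∀ b ∈ Set.Icc (0 : ℝ) 1,
      g ((a + b) / 2) ≤ (g a + g b) / 2 := by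
    intro a ha b hb
    have hm : (a + b) / 2 ∈ Set.Icc (0 : ℝ) 1 :=
      ⟨by linarith [ha.1, hb.1], by linarith [ha.2, hb.2]⟩
    have e := dist_geo_geo hX x y ha hb
    have h1 : dist (geo x y a) (geo x y ((a + b) / 2)) = dist (geo x y a) (geo x y b) / 2 := by
      rw [dist_geo_geo hX x y ha hm, e]
      have : a - (a + b) / 2 = (a - b) / 2 := by ring
      rw [this, abs_div, abs_two]; ring
    have h2 : dist (geo x y b) (geo x y ((a + b) / 2)) = dist (geo x y a) (geo x y b) / 2 := by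
      rw [dist_geo_geo hX x y hb hm, e]
      have : b - (a + b) / 2 = -((a - b) / 2) := by ring
      rw [this, abs_neg, abs_div, abs_two]; ring
    have h3 := hX.2 p _ _ _ h1 h2
    rw [e, mul_pow, sq_abs] at h3
    simp only [hg]
    nlinarith [h3]
  have h0 : g 0 = 0 := by simp [hg, geo_zero hX]
  have h1 : g 1 = 0 := by simp [hg, geo_one hX]
  obtain ⟨m, hm, hmax⟩ := (isCompact_Icc (a := (0 : ℝ)) (b := 1)).exists_isMaxOn
    ⟨0, le_rfl, zero_le_one⟩ hgc
  have hM : g m ≤ 0 := by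
    rcases le_total m (1 / 2) with h | h
    · have h2 : 2 * m ∈ Set.Icc (0 : ℝ) 1 := ⟨by linarith [hm.1], by linarith⟩
      have := hmid 0 ⟨le_rfl, zero_le_one⟩ (2 * m) h2
      rw [show (0 + 2 * m) / 2 = m by ring, h0] at this
      have h3 : g (2 * m) ≤ g m := hmax h2
      linarith
    · have h2 : 2 * m - 1 ∈ Set.Icc (0 : ℝ) 1 := ⟨by linarith, by linarith [hm.2]⟩
      have := hmid (2 * m - 1) h2 1 ⟨zero_le_one, le_rfl⟩
      rw [show (2 * m - 1 + 1) / 2 = m by ring, h1] at this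
      have h3 : g (2 * m - 1) ≤ g m := hmax h2
      linarith
  have h4 : g s ≤ g m := hmax hs
  have h5 : g s ≤ 0 := h4.trans hM
  simp only [hg] at h5
  linarith

/-- uniqueness of geodesics. -/
theorem eq_geo {x y m : X} {s : ℝ} (hs : s ∈ Set.Icc (0 : ℝ) 1) (h1 : dist x m = s * dist x y)
    (h2 : dist m y = (1 - s) * dist x y) : m = geo x y s := by
  have h := cn_ineq hX m x y hs
  rw [dist_comm m x, h1, h2] at h
  have h0 : dist m (geo x y s) ^ 2 ≤ 0 := by nlinarith [h]
  have : dist m (geo x y s) = 0 := by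
    have := sq_nonneg (dist m (geo x y s))
    exact pow_eq_zero_iff (two_ne_zero) |>.1 (le_antisymm h0 this)
  exact dist_eq_zero.1 this

/-- comparison with the Euclidean cone (apply `cn_ineq` twice). -/
theorem geo_cmp (x y y' : X) {s s' : ℝ} (hs : s ∈ Set.Icc (0 : ℝ) 1)
    (hs' : s' ∈ Set.Icc (0 : ℝ) 1) :
    dist (geo x y s) (geo x y' s') ^ 2 ≤
      s * s' * dist y y' ^ 2 + (s - s') * (s * dist x y ^ 2 - s' * dist x y' ^ 2) := by
  have h1 := cn_ineq hX (geo x y s) x y' hs'
  have h2 := cn_ineq hX y' x y hs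
  rw [dist_comm (geo x y s) x, dist_geo_left hX x y hs, dist_comm (geo x y s) y'] at h1
  rw [dist_comm y' x, dist_comm y' y] at h2
  have h3 := mul_le_mul_of_nonneg_left h2 hs'.1
  nlinarith [h1, h3]

theorem dist_geo_le (x y y' : X) {s s' : ℝ} (hs : s ∈ Set.Icc (0 : ℝ) 1)
    (hs' : s' ∈ Set.Icc (0 : ℝ) 1) :
    dist (geo x y s) (geo x y' s') ≤ s * dist y y' + |s - s'| * dist x y' := by
  have h1 := geo_cmp hX x y y' hs hs
  have h2 : dist (geo x y s) (geo x y' s) ≤ s * dist y y' := by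
    refine (pow_le_pow_iff_left₀ dist_nonneg (mul_nonneg hs.1 dist_nonneg) two_ne_zero).1 ?_
    nlinarith [h1]
  have h3 := dist_geo_geo hX x y' hs hs'
  linarith [dist_triangle (geo x y s) (geo x y' s) (geo x y' s')]

/-- the quadrilateral inequality (midpoint of `a c`). -/
theorem quad_ineq (a b c d : X) :
    dist a c ^ 2 + dist b d ^ 2 ≤ dist a b ^ 2 + dist b c ^ 2 + dist c d ^ 2 + dist d a ^ 2 := by
  have hh : (1 / 2 : ℝ) ∈ Set.Icc (0 : ℝ) 1 := ⟨by norm_num, by norm_num⟩
  have h1 := cn_ineq hX b a c hh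
  have h2 := cn_ineq hX d a c hh
  set m := geo a c (1 / 2)
  have h3 : dist b d ≤ dist b m + dist d m := by
    rw [dist_comm d m]; exact dist_triangle _ _ _
  have h4 : dist b d ^ 2 ≤ (dist b m + dist d m) ^ 2 := pow_le_pow_left₀ dist_nonneg h3 2
  rw [dist_comm b a] at h1
  rw [dist_comm d c] at h2
  nlinarith [sq_nonneg (dist b m - dist d m)]

/-- balls are convex. -/
theorem geo_mem_closedBall {p x y : X} {R : ℝ} (hx : x ∈ Metric.closedBall p R)
    (hy : y ∈ Metric.closedBall p R) (s : ℝ) : geo x y s ∈ Metric.closedBall p R := by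
  have hc : max 0 (min s 1) ∈ Set.Icc (0 : ℝ) 1 :=
    ⟨le_max_left _ _, max_le zero_le_one (min_le_right _ _)⟩
  have e : geo x y s = geo x y (max 0 (min s 1)) := by
    unfold geo
    rw [min_eq_left hc.2, max_eq_right hc.1]
  rw [e]
  set t := max 0 (min s 1)
  rw [Metric.mem_closedBall, dist_comm] at hx hy ⊢
  have hR : 0 ≤ R := dist_nonneg.trans hx
  have h := cn_ineq hX p x y hc
  have hx2 : dist p x ^ 2 ≤ R ^ 2 := pow_le_pow_left₀ dist_nonneg hx 2
  have hy2 : dist p y ^ 2 ≤ R ^ 2 := pow_le_pow_left₀ dist_nonneg hy 2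
  refine (pow_le_pow_iff_left₀ dist_nonneg hR two_ne_zero).1 ?_
  have a1 := mul_le_mul_of_nonneg_left hx2 (sub_nonneg.2 hc.2)
  have a2 := mul_le_mul_of_nonneg_left hy2 hc.1
  have a3 : 0 ≤ t * (1 - t) * dist x y ^ 2 :=
    mul_nonneg (mul_nonneg hc.1 (sub_nonneg.2 hc.2)) (sq_nonneg _)
  nlinarith

/-- the deformation `y ↦ geo x y (σ y)` is Lipschitz on bounded sets. -/
theorem lipschitzOn_geo (x : X) {A : Set X} {R K : NNReal} (hA : A ⊆ Metric.closedBall x R)
    {σ : X → ℝ} (hσ : LipschitzOnWith K σ A) (h01 : ∀ y ∈ A, σ y ∈ Set.Icc (0 : ℝ) 1) :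
    LipschitzOnWith (1 + K * R) (fun y => geo x y (σ y)) A := by
  refine LipschitzOnWith.of_dist_le_mul fun a ha b hb => ?_
  have h1 := dist_geo_le hX x a b (h01 a ha) (h01 b hb)
  have h2 : |σ a - σ b| ≤ K * dist a b := by
    rw [← Real.dist_eq]; exact hσ.dist_le_mul a ha b hb
  have h3 : dist x b ≤ R := by
    have := hA hb
    rwa [Metric.mem_closedBall, dist_comm] at this
  have h4 : |σ a - σ b| * dist x b ≤ (K * dist a b) * R :=
    mul_le_mul h2 h3 dist_nonneg (by positivity)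
  have h5 : σ a * dist a b ≤ 1 * dist a b :=
    mul_le_mul_of_nonneg_right (h01 a ha).2 dist_nonneg
  push_cast
  nlinarith

end

theorem lipschitzOn_hsq (x : X) {A : Set X} {R : NNReal} (hA : A ⊆ Metric.closedBall x R) :
    LipschitzOnWith R (hsq x) A := by
  refine LipschitzOnWith.of_dist_le_mul fun a ha b hb => ?_
  have h1 : dist x a ≤ R := by
    have := hA ha
    rwa [Metric.mem_closedBall, dist_comm] at this
  have h2 : dist x b ≤ R := by
    have := hA hb
    rwa [Metric.mem_closedBall, dist_comm] at this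
  have h3 : |dist x a - dist x b| ≤ dist a b := by
    rw [dist_comm x a, dist_comm x b]; exact abs_dist_sub_le a b x
  unfold hsq
  rw [Real.dist_eq]
  have e : dist x a ^ 2 / 2 - dist x b ^ 2 / 2 =
      (dist x a - dist x b) * ((dist x a + dist x b) / 2) := by ring
  rw [e, abs_mul, abs_of_nonneg (by positivity : 0 ≤ (dist x a + dist x b) / 2), mul_comm (R : ℝ)]
  exact mul_le_mul h3 (by linarith) (by positivity) dist_nonneg

end Crest.Agent.R241
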