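import Crest.Agent.R241.KDefs

/-! Row 241, block K: linear algebra of positive semidefinite matrices. -/

set_option autoImplicit false
open Matrix

namespace Crest.Agent.R241

variable {k : ℕ} {g g' : Matrix (Fin k) (Fin k) ℝ}

theorem qf_nonneg (hg : g.PosSemidef) (v : Fin k → ℝ) : 0 ≤ qf g v := by
  simpa [qf] using hg.dotProduct_mulVec_nonneg v

theorem qf_smul (g : Matrix (Fin k) (Fin k) ℝ) (c : ℝ) (v : Fin k → ℝ) :
    qf g (c • v) = c ^ 2 * qf g v := by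
  simp only [qf, mulVec_smul, smul_dotProduct, dotProduct_smul, smul_eq_mul]
  ring

theorem continuous_qf (g : Matrix (Fin k) (Fin k) ℝ) : Continuous (qf g) := by
  unfold qf
  fun_prop

theorem kl_symm (hg : g.PosSemidef) (i j : Fin k) : g i j = g j i := by
  simpa using hg.1.apply j i

theorem kl_form_symm (hg : g.PosSemidef) (a b : Fin k → ℝ) : a ⬝ᵥ g *ᵥ b = b ⬝ᵥ g *ᵥ a := by
  simp only [dotProduct, mulVec, Finset.mul_sum]
  rw [Finset.sum_comm]
  refine Finset.sum_congr rfl fun i _ => Finset.sum_congr rfl fun j _ => ?_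
  rw [kl_symm hg j i]
  ring

theorem kl_form_sq_le (hg : g.PosSemidef) (a b : Fin k → ℝ) :
    (a ⬝ᵥ g *ᵥ b) ^ 2 ≤ (a ⬝ᵥ g *ᵥ a) * (b ⬝ᵥ g *ᵥ b) := by
  have h : ∀ t : ℝ, 0 ≤ (b ⬝ᵥ g *ᵥ b) * (t * t) + 2 * (a ⬝ᵥ g *ᵥ b) * t + a ⬝ᵥ g *ᵥ a := by
    intro t
    have := qf_nonneg hg (a + t • b)
    simp only [qf, mulVec_add, mulVec_smul, add_dotProduct, dotProduct_add, smul_dotProduct,
      dotProduct_smul, smul_eq_mul, kl_form_symm hg b a] at this
    linarith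
  have := discrim_le_zero h
  rw [discrim] at this
  linarith

theorem kl_root (hg : g.PosSemidef) : ∃ B : Matrix (Fin k) (Fin k) ℝ, g = Bᵀ * B := by
  open scoped MatrixOrder in
  obtain ⟨B, hB⟩ := CStarAlgebra.nonneg_iff_eq_star_mul_self.mp hg.nonneg
  exact ⟨B, by simpa [star_eq_conjTranspose] using hB⟩

theorem kl_hadamard (B : Matrix (Fin k) (Fin k) ℝ) : B.det ^ 2 ≤ ∏ i, B i ⬝ᵥ B i := by
  have : Fact (Module.finrank ℝ (EuclideanSpace ℝ (Fin k)) = k) := ⟨by simp⟩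
  have h1 := (EuclideanSpace.basisFun (Fin k) ℝ).toBasis.orientation.abs_volumeForm_apply_le
    (fun i => (WithLp.toLp 2 (B i) : EuclideanSpace ℝ (Fin k)))
  rw [Orientation.volumeForm_robust' _ (EuclideanSpace.basisFun (Fin k) ℝ), Module.Basis.det_apply] at h1
  have h2 : (EuclideanSpace.basisFun (Fin k) ℝ).toBasis.toMatrix
      (fun i => (WithLp.toLp 2 (B i) : EuclideanSpace ℝ (Fin k))) = Bᵀ := by
    ext i j
    simp [Module.Basis.toMatrix_apply]
  rw [h2, det_transpose] at h1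
  rw [← sq_abs]
  refine (pow_le_pow_left₀ (abs_nonneg _) h1 2).trans (le_of_eq ?_)
  rw [← Finset.prod_pow]
  refine Finset.prod_congr rfl fun i _ => ?_
  rw [EuclideanSpace.real_norm_sq_eq]
  simp [dotProduct, sq]

theorem kl_det_le_diag (hg : g.PosSemidef) : g.det ≤ ∏ i, g i i := by
  obtain ⟨B, rfl⟩ := kl_root hg
  have := kl_hadamard Bᵀ
  rw [det_mul, ← sq_abs, sq_abs, det_transpose] at *
  rw [← sq]
  exact this

theorem kl_det_sq_le (hg : g.PosSemidef) {a : Fin k → Fin k → ℝ}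
    (ha : ∀ i v, qf g v = 0 → a i ⬝ᵥ v = 0) :
    (Matrix.of a).det ^ 2 ≤ (∏ i, a i ⬝ᵥ g⁻¹ *ᵥ a i) * g.det := by
  by_cases hd : g.det = 0
  · obtain ⟨v, hv, hgv⟩ := exists_mulVec_eq_zero_iff.2 hd
    have h0 : (Matrix.of a).det = 0 := exists_mulVec_eq_zero_iff.1
      ⟨v, hv, funext fun i => ha i v (by rw [qf, hgv, dotProduct_zero])⟩
    rw [h0, hd]
    simp
  · have h1 := kl_det_le_diag (hg.inv.mul_mul_conjTranspose_same (Matrix.of a))
    have h2 : ∀ i, (Matrix.of a * g⁻¹ * (Matrix.of a)ᴴ) i i = a i ⬝ᵥ g⁻¹ *ᵥ a i := by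
      intro i
      rw [Matrix.mul_assoc]
      simp [Matrix.mul_apply, dotProduct, mulVec]
    simp only [h2] at h1
    rw [det_mul, det_mul, det_conjTranspose, star_trivial, det_nonsing_inv, Ring.inverse_eq_inv'] at h1
    have h3 := mul_le_mul_of_nonneg_right h1 hg.det_nonneg
    refine le_trans (le_of_eq ?_) h3
    field_simp

theorem eq_of_qf_eq (hg : g.PosSemidef) (hg' : g'.PosSemidef) (h : ∀ v, qf g v = qf g' v) :
    g = g' := by
  ext i j
  have h1 := h (Pi.single i 1 + Pi.single j 1)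
  have h2 := h (Pi.single i 1)
  have h3 := h (Pi.single j 1)
  simp only [qf, mulVec_add, add_dotProduct, dotProduct_add, single_dotProduct, mulVec_single_one,
    one_mul, col_apply] at h1 h2 h3
  linarith [kl_symm hg i j, kl_symm hg' i j]

theorem posSemidef_of_qf (hs : ∀ i j, g i j = g j i) (h : ∀ v, 0 ≤ qf g v) : g.PosSemidef := by
  refine PosSemidef.of_dotProduct_mulVec_nonneg ?_ fun x => by simpa [qf] using h x
  ext i j
  simpa using hs j i

/-- Cauchy–Schwarz for the inverse form. -/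
theorem inv_form_nonneg (hg : g.PosSemidef) (a : Fin k → ℝ) : 0 ≤ a ⬝ᵥ g⁻¹ *ᵥ a := qf_nonneg hg.inv a

theorem inv_form_symm (hg : g.PosSemidef) (a b : Fin k → ℝ) :
    a ⬝ᵥ g⁻¹ *ᵥ b = b ⬝ᵥ g⁻¹ *ᵥ a := kl_form_symm hg.inv a b

theorem inv_form_sq_le (hg : g.PosSemidef) (a b : Fin k → ℝ) :
    (a ⬝ᵥ g⁻¹ *ᵥ b) ^ 2 ≤ (a ⬝ᵥ g⁻¹ *ᵥ a) * (b ⬝ᵥ g⁻¹ *ᵥ b) := kl_form_sq_le hg.inv a b

/-- dual norm bound (test with `v = g⁻¹ a`; `g⁻¹ = 0` if `g` is singular). -/
theorem inv_form_le (hg : g.PosSemidef) {a : Fin k → ℝ} {C : ℝ} (hC : 0 ≤ C)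
    (ha : ∀ v, (a ⬝ᵥ v) ^ 2 ≤ C * qf g v) : a ⬝ᵥ g⁻¹ *ᵥ a ≤ C := by
  by_cases hd : IsUnit g.det
  · have h1 := ha (g⁻¹ *ᵥ a)
    rw [qf, mulVec_mulVec, mul_nonsing_inv _ hd, one_mulVec, dotProduct_comm (g⁻¹ *ᵥ a) a] at h1
    have h2 := inv_form_nonneg hg a
    nlinarith
  · rw [nonsing_inv_apply_not_isUnit _ hd, zero_mulVec, dotProduct_zero]
    exact hC

/-- Hadamard's inequality: `det (a g⁻¹ aᵀ) ≤ ∏ diagonal`; if `g` is singular a kernel vector
of `g` kills all rows. -/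
theorem abs_det_le (hg : g.PosSemidef) {a : Fin k → Fin k → ℝ} {C : Fin k → ℝ}
    (hC : ∀ i, 0 ≤ C i) (ha : ∀ i v, (a i ⬝ᵥ v) ^ 2 ≤ C i ^ 2 * qf g v) :
    |(Matrix.of a).det| ≤ (∏ i, C i) * √g.det := by
  have h1 := kl_det_sq_le hg (a := a) fun i v hv => by
    have := ha i v
    rw [hv, mul_zero] at this
    exact pow_eq_zero_iff two_ne_zero |>.1 (le_antisymm this (sq_nonneg _))
  have h2 : ∏ i, a i ⬝ᵥ g⁻¹ *ᵥ a i ≤ ∏ i, C i ^ 2 :=
    Finset.prod_le_prod (fun i _ => inv_form_nonneg hg _) fun i _ => inv_form_le hg (sq_nonneg _) (ha i)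
  have h3 : 0 ≤ ∏ i, C i := Finset.prod_nonneg fun i _ => hC i
  refine abs_le_of_sq_le_sq' ?_ (mul_nonneg h3 (Real.sqrt_nonneg _)) |> abs_le.2
  rw [mul_pow, Real.sq_sqrt hg.det_nonneg, ← Finset.prod_pow]
  exact h1.trans (mul_le_mul_of_nonneg_right h2 hg.det_nonneg)

/-- sharper form, with the dual norms. -/
theorem det_sq_le (hg : g.PosSemidef) {a : Fin k → Fin k → ℝ} {C : ℝ}
    (ha : ∀ i v, (a i ⬝ᵥ v) ^ 2 ≤ C * qf g v) :
    (Matrix.of a).det ^ 2 ≤ (∏ i, a i ⬝ᵥ g⁻¹ *ᵥ a i) * g.det := kl_det_sq_le hg fun i v hv => by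
  have := ha i v
  rw [hv, mul_zero] at this
  exact pow_eq_zero_iff two_ne_zero |>.1 (le_antisymm this (sq_nonneg _))

theorem det_mono (hg : g.PosSemidef) (hg' : g'.PosSemidef) (h : ∀ v, qf g v ≤ qf g' v) :
    g.det ≤ g'.det := by
  obtain ⟨B, rfl⟩ := kl_root hg
  have h1 := abs_det_le hg' (a := B) (C := fun _ => 1) (fun _ => zero_le_one) fun i v => by
    rw [one_pow, one_mul]
    refine le_trans ?_ (h v)
    rw [qf, ← mulVec_mulVec, dotProduct_mulVec, vecMul_transpose]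
    have := Finset.single_le_sum (f := fun j => (B *ᵥ v) j * (B *ᵥ v) j)
      (fun j _ => mul_self_nonneg _) (Finset.mem_univ i)
    rw [sq]
    exact this
  rw [Finset.prod_const_one, one_mul] at h1
  have h2 := pow_le_pow_left₀ (abs_nonneg _) h1 2
  rw [sq_abs, Real.sq_sqrt hg'.det_nonneg] at h2
  rw [det_mul, det_transpose, ← sq]
  exact h2

private theorem h90_symm (hg : g.PosSemidef) : gᵀ = g := by
  have := hg.isHermitian
  rwa [Matrix.IsHermitian, conjTranspose_eq_transpose_of_trivial] at this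

private theorem h90_det_zero {n : ℕ} {G : Matrix (Fin n) (Fin n) ℝ} (hG : G.PosSemidef)
    {x : Fin n → ℝ} (hx : x ≠ 0) (h : qf G x ≤ 0) : G.det = 0 := by
  have h0 : qf G x = 0 := le_antisymm h (qf_nonneg hG x)
  have h1 : G *ᵥ x = 0 := by
    apply (hG.dotProduct_mulVec_zero_iff x).1
    simpa [qf] using h0
  exact Matrix.exists_mulVec_eq_zero_iff.1 ⟨x, hx, h1⟩

private theorem h90_ker (h : g.det = 0) : ∃ v : Fin k → ℝ, v ≠ 0 ∧ qf g v = 0 := by
  obtain ⟨v, hv, h0⟩ := Matrix.exists_mulVec_eq_zero_iff.2 h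
  exact ⟨v, hv, by simp [qf, h0]⟩

private theorem h90_dot_zero {b v : Fin k → ℝ} {C : ℝ} (h : (b ⬝ᵥ v) ^ 2 ≤ C * qf g v)
    (h0 : qf g v = 0) : b ⬝ᵥ v = 0 := by
  rw [h0, mul_zero] at h
  exact pow_eq_zero_iff (two_ne_zero) |>.1 (le_antisymm h (sq_nonneg _))

/-- determinant of the deformed metric `s² g + 2 s a ⊙ b + 2 D a ⊗ a`. -/
theorem det_deform_le (hg : g.PosSemidef) (hg' : g'.PosSemidef) {a b : Fin k → ℝ} {C s D : ℝ}
    (ha : ∀ v, (a ⬝ᵥ v) ^ 2 ≤ C * qf g v) (hb : ∀ v, (b ⬝ᵥ v) ^ 2 ≤ 2 * D * qf g v)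
    (h : ∀ v, qf g' v ≤ s ^ 2 * qf g v + 2 * s * (a ⬝ᵥ v) * (b ⬝ᵥ v) + 2 * D * (a ⬝ᵥ v) ^ 2) :
    s ^ 2 * g'.det ≤ s ^ (2 * k) * g.det *
      ((s + a ⬝ᵥ g⁻¹ *ᵥ b) ^ 2 + (a ⬝ᵥ g⁻¹ *ᵥ a) * (2 * D - b ⬝ᵥ g⁻¹ *ᵥ b)) := by
  by_cases hd : g.det = 0
  · obtain ⟨v, hv, h0⟩ := h90_ker hd
    have h1 := h v
    rw [h0, h90_dot_zero (ha v) h0] at h1
    rw [h90_det_zero hg' hv (by linarith), hd]
    simp
  by_cases hs : s = 0
  · subst hs
    rcases Nat.eq_zero_or_pos k with rfl | hk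
    · simp [dotProduct]
    · rw [zero_pow (by omega : 2 * k ≠ 0)]
      simp
  have hs2 : s ^ 2 ≠ 0 := pow_ne_zero 2 hs
  set U : Matrix (Fin k) (Fin 2) ℝ := Matrix.of fun i => ![a i, s * b i + 2 * D * a i] with hU
  set V : Matrix (Fin 2) (Fin k) ℝ := Matrix.of ![fun j => s * b j, a] with hV
  have hM : ∀ i j, (s ^ 2 • g + U * V) i j =
      s ^ 2 * g i j + a i * (s * b j) + (s * b i + 2 * D * a i) * a j := by
    intro i j
    simp [hU, hV, Matrix.mul_apply, Fin.sum_univ_two, add_assoc]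
  have hq : ∀ v, qf (s ^ 2 • g + U * V) v =
      s ^ 2 * qf g v + 2 * s * (a ⬝ᵥ v) * (b ⬝ᵥ v) + 2 * D * (a ⬝ᵥ v) ^ 2 := by
    intro v
    have e1 : (s ^ 2 • g + U * V) *ᵥ v = s ^ 2 • (g *ᵥ v) + (s * (b ⬝ᵥ v)) • a +
        (a ⬝ᵥ v) • (s • b + (2 * D) • a) := by
      funext i
      simp only [Matrix.mulVec, dotProduct, hM, Pi.add_apply, Pi.smul_apply, smul_eq_mul,
        Finset.mul_sum, Finset.sum_mul, ← Finset.sum_add_distrib]
      exact Finset.sum_congr rfl fun j _ => by ring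
    simp only [qf, e1, dotProduct_add, dotProduct_smul, smul_eq_mul, dotProduct_comm v a,
      dotProduct_comm v b]
    ring
  have hgs : ∀ i j, g i j = g j i := fun i j => by
    conv_lhs => rw [← h90_symm hg]
    rfl
  have hpsd : (s ^ 2 • g + U * V).PosSemidef := by
    apply posSemidef_of_qf
    · intro i j
      rw [hM, hM, hgs i j]; ring
    · intro v
      rw [hq]
      exact (qf_nonneg hg' v).trans (h v)
  have hle := det_mono hg' hpsd fun v => by rw [hq]; exact h v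
  have hdA : (s ^ 2 • g).det = s ^ (2 * k) * g.det := by
    rw [det_smul, Fintype.card_fin, pow_mul]
  have hu : IsUnit (s ^ 2 • g).det := by
    rw [hdA]
    exact (mul_ne_zero (pow_ne_zero _ hs) hd).isUnit
  have hinv : (s ^ 2 • g)⁻¹ = (s ^ 2)⁻¹ • g⁻¹ := by
    apply Matrix.inv_eq_right_inv
    rw [Matrix.smul_mul, Matrix.mul_smul, smul_smul, mul_inv_cancel₀ hs2, one_smul,
      Matrix.mul_nonsing_inv _ (Ne.isUnit hd)]
  have hent : ∀ (p q : Fin 2), (V * (s ^ 2 • g)⁻¹ * U) p q =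
      (s ^ 2)⁻¹ * (V p ⬝ᵥ g⁻¹ *ᵥ fun i => U i q) := by
    intro p q
    rw [hinv, Matrix.mul_smul, Matrix.smul_mul, Matrix.mul_assoc]
    simp [Matrix.mul_apply, dotProduct, Matrix.mulVec]
  have hV0 : V 0 = s • b := by funext j; simp [hV]
  have hV1 : V 1 = a := by funext j; simp [hV]
  have hU0 : (fun i => U i 0) = a := by funext j; simp [hU]
  have hU1 : (fun i => U i 1) = s • b + (2 * D) • a := by funext j; simp [hU]
  have hsym := inv_form_symm hg b a
  have hdet : s ^ 2 * (s ^ 2 • g + U * V).det = s ^ (2 * k) * g.det *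
      ((s + a ⬝ᵥ g⁻¹ *ᵥ b) ^ 2 + (a ⬝ᵥ g⁻¹ *ᵥ a) * (2 * D - b ⬝ᵥ g⁻¹ *ᵥ b)) := by
    rw [Matrix.det_add_mul U V hu, hdA, det_fin_two]
    simp only [Matrix.add_apply, hent, hV0, hV1, hU0, hU1, Matrix.one_apply_eq,
      Matrix.one_apply_ne (by decide : (0 : Fin 2) ≠ 1),
      Matrix.one_apply_ne (by decide : (1 : Fin 2) ≠ 0), mulVec_add, mulVec_smul, dotProduct_add,
      dotProduct_smul, smul_dotProduct, smul_eq_mul, hsym]
    field_simp
    ring
  rw [← hdet]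
  exact mul_le_mul_of_nonneg_left hle (sq_nonneg s)

private def h90_blk (x : ℝ) (r c : Fin k → ℝ) (A : Matrix (Fin k) (Fin k) ℝ) :
    Matrix (Fin (k + 1)) (Fin (k + 1)) ℝ :=
  Matrix.of (Fin.cons (Fin.cons x r) fun i => Fin.cons (c i) (A i))

private theorem h90_blk_mulVec (x : ℝ) (r c : Fin k → ℝ) (A : Matrix (Fin k) (Fin k) ℝ) (τ : ℝ)
    (v : Fin k → ℝ) :
    h90_blk x r c A *ᵥ Fin.cons τ v = Fin.cons (x * τ + r ⬝ᵥ v) (τ • c + A *ᵥ v) := by
  funext i
  refine Fin.cases ?_ (fun j => ?_) i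
  · simp [h90_blk, Matrix.mulVec, dotProduct, Fin.sum_univ_succ]
  · simp [h90_blk, Matrix.mulVec, dotProduct, Fin.sum_univ_succ, mul_comm]

private theorem h90_det_row (x : ℝ) (c : Fin k → ℝ) (A : Matrix (Fin k) (Fin k) ℝ) :
    (h90_blk x 0 c A).det = x * A.det := by
  have e : (h90_blk x 0 c A).submatrix Fin.succ Fin.succ = A := by
    ext i j; simp [h90_blk]
  rw [det_succ_row_zero, Fin.sum_univ_succ, Fin.succAbove_zero, e]
  simp [h90_blk]

private theorem h90_det_col (x : ℝ) (r : Fin k → ℝ) (A : Matrix (Fin k) (Fin k) ℝ) :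
    (h90_blk x r 0 A).det = x * A.det := by
  have e : (h90_blk x r 0 A).submatrix Fin.succ Fin.succ = A := by
    ext i j; simp [h90_blk]
  rw [det_succ_column_zero, Fin.sum_univ_succ, Fin.succAbove_zero, e]
  simp [h90_blk]

/-- determinant of the homotopy metric: with `ds = c τ + a·v`,
`G(τ,v) ≤ s² g(v) + 2 s ds (b·v) + 2 D ds²`. In the coordinates `(ds, v)` the bound is the block
matrix `[[2D, s bᵀ],[s b, s² g]]`. -/
theorem det_htpy_le (hg : g.PosSemidef) {G : Matrix (Fin (k + 1)) (Fin (k + 1)) ℝ}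
    (hG : G.PosSemidef) {a b : Fin k → ℝ} {c s D : ℝ}
    (hb : ∀ v, (b ⬝ᵥ v) ^ 2 ≤ 2 * D * qf g v) (hD : 0 ≤ D)
    (h : ∀ (τ : ℝ) (v : Fin k → ℝ), qf G (Fin.cons τ v) ≤ s ^ 2 * qf g v +
      2 * s * (c * τ + a ⬝ᵥ v) * (b ⬝ᵥ v) + 2 * D * (c * τ + a ⬝ᵥ v) ^ 2) :
    G.det ≤ c ^ 2 * s ^ (2 * k) * g.det * (2 * D - b ⬝ᵥ g⁻¹ *ᵥ b) := by
  by_cases hd : g.det = 0
  · have hG0 : G.det = 0 := by
      by_cases hc : c = 0
      · have h1 := h 1 0
        refine h90_det_zero hG (x := Fin.cons 1 0) ?_ ?_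
        · intro h0
          have := congrFun h0 0
          simp at this
        · simpa [hc, qf] using h1
      · obtain ⟨v, hv, h0⟩ := h90_ker hd
        have h1 := h (-(a ⬝ᵥ v) / c) v
        have h2 : c * (-(a ⬝ᵥ v) / c) + a ⬝ᵥ v = 0 := by field_simp; ring
        rw [h0, h2] at h1
        refine h90_det_zero hG (x := Fin.cons (-(a ⬝ᵥ v) / c) v) ?_ (by linarith)
        intro h3
        apply hv
        funext j
        simpa using congrFun h3 j.succ
    rw [hG0, hd]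
    simp
  set P : Matrix (Fin (k + 1)) (Fin (k + 1)) ℝ :=
    h90_blk 1 0 (g⁻¹ *ᵥ b) (s • (1 : Matrix (Fin k) (Fin k) ℝ)) * h90_blk c a 0 1 with hP
  set Δ : Matrix (Fin (k + 1)) (Fin (k + 1)) ℝ := h90_blk (2 * D - b ⬝ᵥ g⁻¹ *ᵥ b) 0 0 g with hΔ
  have hgs : ∀ i j, g i j = g j i := fun i j => by
    conv_lhs => rw [← h90_symm hg]
    rfl
  have hΔs : Δᵀ = Δ := by
    ext i j
    refine Fin.cases ?_ (fun i' => ?_) i <;> refine Fin.cases ?_ (fun j' => ?_) j <;>
      simp [hΔ, h90_blk, hgs]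
  have hgb : g *ᵥ (g⁻¹ *ᵥ b) = b := by
    rw [mulVec_mulVec, Matrix.mul_nonsing_inv _ (Ne.isUnit hd), one_mulVec]
  have hq : ∀ (τ : ℝ) (v : Fin k → ℝ), qf (Pᵀ * Δ * P) (Fin.cons τ v) = s ^ 2 * qf g v +
      2 * s * (c * τ + a ⬝ᵥ v) * (b ⬝ᵥ v) + 2 * D * (c * τ + a ⬝ᵥ v) ^ 2 := by
    intro τ v
    have e1 : qf (Pᵀ * Δ * P) (Fin.cons τ v) = qf Δ (P *ᵥ Fin.cons τ v) := by
      simp only [qf, ← mulVec_mulVec, dotProduct_mulVec (Fin.cons τ v : Fin (k + 1) → ℝ),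
        vecMul_transpose]
    have e2 : P *ᵥ Fin.cons τ v =
        Fin.cons (c * τ + a ⬝ᵥ v) ((c * τ + a ⬝ᵥ v) • g⁻¹ *ᵥ b + s • v) := by
      rw [hP, ← mulVec_mulVec, h90_blk_mulVec, h90_blk_mulVec]
      simp [Matrix.smul_mulVec]
    have e3 : (g⁻¹ *ᵥ b) ⬝ᵥ g *ᵥ v = b ⬝ᵥ v := by
      rw [dotProduct_mulVec, ← mulVec_transpose, h90_symm hg, hgb]
    rw [e1, e2, qf, hΔ, h90_blk_mulVec, dotProduct, Fin.sum_univ_succ]
    simp only [Fin.cons_zero, Fin.cons_succ]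
    change _ + _ ⬝ᵥ _ = _
    simp only [smul_zero, zero_add, zero_dotProduct, add_zero, mulVec_add, mulVec_smul, hgb,
      add_dotProduct, dotProduct_add, smul_dotProduct, dotProduct_smul, smul_eq_mul, e3,
      dotProduct_comm (g⁻¹ *ᵥ b) b, dotProduct_comm v b, qf]
    ring
  have hqq : ∀ y, qf G y ≤ qf (Pᵀ * Δ * P) y := by
    intro y
    rw [← Fin.cons_self_tail y, hq]
    exact h _ _
  have hpsd : (Pᵀ * Δ * P).PosSemidef := by
    apply posSemidef_of_qf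
    · have : (Pᵀ * Δ * P)ᵀ = Pᵀ * Δ * P := by
        rw [transpose_mul (Pᵀ * Δ) P, transpose_mul Pᵀ Δ, transpose_transpose, hΔs,
          Matrix.mul_assoc]
      intro i j
      conv_lhs => rw [← this]
      rfl
    · intro y
      exact (qf_nonneg hG y).trans (hqq y)
  have hle := det_mono hG hpsd hqq
  have hdP : P.det = s ^ k * c := by
    rw [hP, det_mul, h90_det_row, h90_det_col, det_smul, det_one, Fintype.card_fin]
    ring
  rw [det_mul, det_mul, det_transpose, hdP, hΔ, h90_det_row] at hle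
  refine hle.trans (le_of_eq ?_)
  ring

open scoped MatrixOrder in
private theorem helper47_sqrt (hg : g.PosSemidef) :
    ∃ B : Matrix (Fin k) (Fin k) ℝ, g = Bᵀ * B := by
  obtain ⟨B, hB⟩ := CStarAlgebra.nonneg_iff_eq_star_mul_self.mp hg.nonneg
  exact ⟨B, by rw [hB, star_eq_conjTranspose, conjTranspose_eq_transpose_of_trivial]⟩

/-- almost orthonormal coframes: if the forms `a j` are dominated by `g` and realise `√g` as a
supremum, then `k` of them have determinant almost `√det g` (take a `g`-orthonormal basis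
`v i` and `a (j i)` with `|a (j i) · v i| ≥ 1 - δ`). -/
theorem exists_coframe (hg : g.PosSemidef) {a : ℕ → Fin k → ℝ}
    (ha : ∀ j v, (a j ⬝ᵥ v) ^ 2 ≤ qf g v)
    (hs : ∀ v, ∀ ε > (0 : ℝ), ∃ j, √(qf g v) - ε ≤ |a j ⬝ᵥ v|) {ε : ℝ} (hε : 0 < ε) :
    ∃ j : Fin k → ℕ, (1 - ε) * √g.det ≤ |(Matrix.of fun i => a (j i)).det| := by
  obtain ⟨B, hB⟩ := helper47_sqrt hg
  have hdet : √g.det = |B.det| := by
    rw [hB, det_mul, det_transpose, ← sq, Real.sqrt_sq_eq_abs]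
  by_cases h0 : B.det = 0
  · exact ⟨fun _ => 0, by rw [hdet, h0, abs_zero, mul_zero]; exact abs_nonneg _⟩
  have hU : IsUnit B.det := isUnit_iff_ne_zero.2 h0
  have hq : ∀ w : Fin k → ℝ, qf g (B⁻¹ *ᵥ w) = w ⬝ᵥ w := by
    intro w
    unfold qf
    rw [hB, ← mulVec_mulVec, dotProduct_mulVec, vecMul_transpose, mulVec_mulVec,
      mul_nonsing_inv _ hU, one_mulVec]
  have hcont : Continuous fun N : Fin k → Fin k → ℝ => (Matrix.of N).det :=
    Continuous.matrix_det (A := fun N : Fin k → Fin k → ℝ => Matrix.of N) continuous_id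
  obtain ⟨η, hη, hN⟩ := Metric.continuous_iff.1 hcont
    (fun i l => (1 : Matrix (Fin k) (Fin k) ℝ) i l) ε hε
  set δ : ℝ := min (η / 2) (min (η ^ 2 / 4) 1) with hδ
  have hδ0 : 0 < δ := lt_min (half_pos hη) (lt_min (by positivity) one_pos)
  have hδ1 : δ ≤ η / 2 := min_le_left _ _
  have hδ2 : δ ≤ η ^ 2 / 4 := (min_le_right _ _).trans (min_le_left _ _)
  have hδ3 : δ ≤ 1 := (min_le_right _ _).trans (min_le_right _ _)
  choose j hj using fun i : Fin k => hs (B⁻¹ *ᵥ Pi.single i 1) δ hδ0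
  refine ⟨j, ?_⟩
  -- rows of `A * B⁻¹`
  set m : Fin k → Fin k → ℝ := fun i => a (j i) ᵥ* B⁻¹ with hm
  have hm1 : ∀ i, 1 - δ ≤ |m i i| := by
    intro i
    have := hj i
    rw [hq, dotProduct_mulVec] at this
    simpa [hm] using this
  have hm2 : ∀ i, m i ⬝ᵥ m i ≤ 1 := by
    intro i
    have h1 := ha (j i) (B⁻¹ *ᵥ m i)
    rw [hq, dotProduct_mulVec] at h1
    have h2 : 0 ≤ m i ⬝ᵥ m i := Finset.sum_nonneg fun l _ => mul_self_nonneg _
    change (m i ⬝ᵥ m i) ^ 2 ≤ m i ⬝ᵥ m i at h1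
    nlinarith
  have hm3 : ∀ i, |m i i| ≤ 1 := by
    intro i
    have h1 : m i i * m i i ≤ m i ⬝ᵥ m i :=
      Finset.single_le_sum (f := fun l => m i l * m i l) (fun l _ => mul_self_nonneg _)
        (Finset.mem_univ i)
    exact abs_le_one_iff_mul_self_le_one.2 (h1.trans (hm2 i))
  have hm4 : ∀ i l, l ≠ i → |m i l| < η := by
    intro i l hl
    have h1 : m i l * m i l + m i i * m i i ≤ m i ⬝ᵥ m i := by
      rw [← Finset.sum_pair (f := fun l => m i l * m i l) hl]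
      exact Finset.sum_le_sum_of_subset_of_nonneg (Finset.subset_univ _)
        fun l _ _ => mul_self_nonneg _
    have h2 : (1 - δ) * (1 - δ) ≤ m i i * m i i := by
      rw [← abs_mul_abs_self (m i i)]
      exact mul_self_le_mul_self (by linarith) (hm1 i)
    refine abs_lt_of_sq_lt_sq' ?_ hη.le |> abs_lt.2
    have := hm2 i
    nlinarith [sq_pos_of_pos hη, mul_pos hδ0 hδ0]
  set s : Fin k → ℝ := fun i => if 0 ≤ m i i then 1 else -1 with hsd
  have hs1 : ∀ i, |s i| = 1 := fun i => by simp only [hsd]; split_ifs <;> simp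
  have hs2 : ∀ i, s i * m i i = |m i i| := fun i => by
    simp only [hsd]
    split_ifs with h
    · rw [one_mul, abs_of_nonneg h]
    · rw [abs_of_neg (not_le.1 h)]; ring
  have hclose := hN (fun i l => s i * m i l) (by
    refine (dist_pi_lt_iff hη).2 fun i => (dist_pi_lt_iff hη).2 fun l => ?_
    rw [Real.dist_eq]
    by_cases hl : l = i
    · subst hl
      rw [one_apply_eq, hs2, abs_lt]
      have := hm1 l
      have := hm3 l
      constructor <;> linarith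
    · rw [one_apply_ne (Ne.symm hl), sub_zero, abs_mul, hs1, one_mul]
      exact hm4 i l hl)
  have e1 : (Matrix.of fun i l => (1 : Matrix (Fin k) (Fin k) ℝ) i l) = 1 := rfl
  have e2 : (Matrix.of fun i l => s i * m i l) =
      diagonal s * ((Matrix.of fun i => a (j i)) * B⁻¹) := by
    ext i l
    rw [diagonal_mul]
    rfl
  rw [e1, e2, det_one, Real.dist_eq, det_mul, det_mul, det_diagonal, det_nonsing_inv,
    Ring.inverse_eq_inv'] at hclose
  have e3 : |(∏ i, s i) * ((Matrix.of fun i => a (j i)).det * B.det⁻¹)| =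
      |(Matrix.of fun i => a (j i)).det| * |B.det|⁻¹ := by
    rw [abs_mul, abs_mul, Finset.abs_prod, abs_inv]
    simp [hs1]
  have h5 : 1 - ε ≤ |(Matrix.of fun i => a (j i)).det| * |B.det|⁻¹ := by
    rw [← e3]
    have := (abs_lt.1 hclose).1
    exact le_trans (by linarith) (le_abs_self _)
  rw [hdet]
  have hpos : 0 < |B.det| := abs_pos.2 h0
  rwa [← div_eq_mul_inv, le_div_iff₀ hpos] at h5

/-- Jordan–von Neumann for seminorms on `Fin k → ℝ`: the parallelogram inequality makes a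
continuous seminorm Euclidean. -/
theorem qf_of_parallelogram {Q : (Fin k → ℝ) → ℝ} (hc : Continuous Q) (h0 : ∀ v, 0 ≤ Q v)
    (hh : ∀ (c : ℝ) v, Q (c • v) = c ^ 2 * Q v)
    (hp : ∀ u v, Q (u + v) + Q (u - v) ≤ 2 * Q u + 2 * Q v) :
    (Matrix.of fun i j => (Q (Pi.single i 1 + Pi.single j 1) - Q (Pi.single i 1 - Pi.single j 1)) / 4
      : Matrix (Fin k) (Fin k) ℝ).PosSemidef ∧
    ∀ v, qf (Matrix.of fun i j =>
      (Q (Pi.single i 1 + Pi.single j 1) - Q (Pi.single i 1 - Pi.single j 1)) / 4) v = Q v := by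
  have hneg : ∀ v, Q (-v) = Q v := fun v => by simpa using hh (-1) v
  have hQ0 : Q 0 = 0 := by simpa using hh 0 0
  have h2 : ∀ v, Q (v + v) = 4 * Q v := fun v => by
    rw [← two_smul ℝ v, hh]; norm_num
  have hpe : ∀ u v, Q (u + v) + Q (u - v) = 2 * Q u + 2 * Q v := by
    intro u v
    have h1 := hp (u + v) (u - v)
    have e1 : u + v + (u - v) = u + u := by abel
    have e2 : u + v - (u - v) = v + v := by abel
    rw [e1, e2, h2, h2] at h1
    linarith [hp u v]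
  let B : (Fin k → ℝ) → (Fin k → ℝ) → ℝ := fun u v => (Q (u + v) - Q (u - v)) / 4
  have hsymm : ∀ u v, B u v = B v u := by
    intro u v
    simp only [B]
    rw [add_comm u v, ← hneg (u - v), neg_sub]
  have hadd : ∀ x y z, B (x + y) z = B x z + B y z := by
    intro x y z
    have a1 := hpe (x + z) y
    have a2 := hpe (y + z) x
    have a3 := hpe (x - z) y
    have a4 := hpe (y - z) x
    have e1 : x + z + y = x + y + z := by abel
    have e2 : y + z + x = x + y + z := by abel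
    have e3 : x - z + y = x + y - z := by abel
    have e4 : y - z + x = x + y - z := by abel
    have e5 : x - z - y = -(y + z - x) := by abel
    have e6 : y - z - x = -(x + z - y) := by abel
    rw [e1] at a1
    rw [e2] at a2
    rw [e3, e5, hneg] at a3
    rw [e4, e6, hneg] at a4
    simp only [B]
    linarith
  let L : (Fin k → ℝ) → (Fin k → ℝ) →+ ℝ := fun z => AddMonoidHom.mk' (fun x => B x z)
    fun x y => hadd x y z
  have hL : ∀ z, Continuous (L z) := fun z => by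
    change Continuous fun x => (Q (x + z) - Q (x - z)) / 4
    fun_prop
  have hexp : ∀ v z, B v z = ∑ i, v i * B (Pi.single i 1) z := by
    intro v z
    have e : v = ∑ i, v i • (Pi.single i 1 : Fin k → ℝ) := by
      ext l
      simp [Finset.sum_apply, Pi.single_apply]
    change L z v = ∑ i, v i * L z (Pi.single i 1)
    conv_lhs => rw [e, map_sum]
    exact Finset.sum_congr rfl fun i _ => map_real_smul (L z) (hL z) _ _
  have hq : ∀ v, qf (Matrix.of fun i j => B (Pi.single i 1) (Pi.single j 1)) v = Q v := by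
    intro v
    have e : Q v = B v v := by
      simp only [B]
      rw [h2, sub_self, hQ0]
      ring
    rw [e, hexp]
    unfold qf
    simp only [dotProduct, mulVec, of_apply]
    refine Finset.sum_congr rfl fun i _ => ?_
    rw [hsymm (Pi.single i 1) v, hexp]
    congr 1
    refine Finset.sum_congr rfl fun l _ => ?_
    rw [hsymm (Pi.single l 1), mul_comm]
  refine ⟨?_, hq⟩
  refine posSemidef_iff_dotProduct_mulVec.2 ⟨?_, fun v => ?_⟩
  · ext i l
    exact hsymm _ _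
  · have := hq v
    unfold qf at this
    rw [star_trivial]
    exact (h0 v).trans this.ge

end Crest.Agent.R241
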