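import Crest.Agent.R241.KMD
import Crest.Agent.R241.KCat
import Crest.Agent.R241.KLin

/-! Row 241, block K: in a space with the quadrilateral inequality (e.g. CAT(0)) the metric
differential is Euclidean; consequences. -/

set_option autoImplicit false
open MeasureTheory Filter Topology Matrix
open Crest.GeometryTopology.Submanifold (Euc)
open Crest.GeometryTopology.MetricCurrent

namespace Crest.Agent.R241

universe u
variable {X : Type u} [MetricSpace X] {k : ℕ}

/-- the quadrilateral inequality. -/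
def Quad (X : Type u) [MetricSpace X] : Prop :=
  ∀ a b c d : X,
    dist a c ^ 2 + dist b d ^ 2 ≤ dist a b ^ 2 + dist b c ^ 2 + dist c d ^ 2 + dist d a ^ 2

theorem quad_of_cat (hX : IsCATZero X) : Quad X := quad_ineq hX

theorem IsMD.mono {E A : Set (Euc k)} {φ : Euc k → X} {z : Euc k} {g : Matrix (Fin k) (Fin k) ℝ}
    (h : IsMD E φ z g) (hA : A ⊆ E) : IsMD A φ z g := by
  refine ⟨h.1, fun ε hε => ?_⟩
  obtain ⟨δ, hδ, H⟩ := h.2 ε hε
  exact ⟨δ, hδ, fun w hw w' hw' => H w (hA hw) w' (hA hw')⟩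

theorem IsMD.congr {E : Set (Euc k)} {φ φ' : Euc k → X} {z : Euc k}
    {g : Matrix (Fin k) (Fin k) ℝ} (h : IsMD E φ z g) (he : Set.EqOn φ φ' E) : IsMD E φ' z g := by
  refine ⟨h.1, fun ε hε => ?_⟩
  obtain ⟨δ, hδ, H⟩ := h.2 ε hε
  refine ⟨δ, hδ, fun w hw w' hw' h1 h2 => ?_⟩
  rw [← he hw, ← he hw']
  exact H w hw w' hw' h1 h2

theorem IsMD.unique {E : Set (Euc k)} {φ : Euc k → X} {z : Euc k}
    {g g' : Matrix (Fin k) (Fin k) ℝ} (hz : Dens E z) (h : IsMD E φ z g) (h' : IsMD E φ z g') :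
    g = g' := by
  refine eq_of_qf_eq h.1 h'.1 fun v => ?_
  obtain ⟨w, hw⟩ := hz.blow (WithLp.toLp 2 v)
  have e := tendsto_nhds_unique (hw.md (blow_zero hz.1) h) (hw.md (blow_zero hz.1) h')
  simp only [sub_zero] at e
  exact (Real.sqrt_inj (qf_nonneg h.1 _) (qf_nonneg h'.1 _)).1 e

/-- blow up the quadrilateral `z + t (0, u, u+v, v)`. -/
theorem IsMDN.parallelogram (hX : Quad X) {E : Set (Euc k)} {φ : Euc k → X} {z : Euc k}
    (hz : Dens E z) {N : Euc k → ℝ} (hN : IsMDN E φ z N) (hc : Continuous N)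
    (hh : ∀ (c : ℝ) (u : Euc k), N (c • u) = |c| * N u) (u v : Euc k) :
    N (u + v) ^ 2 + N (u - v) ^ 2 ≤ 2 * N u ^ 2 + 2 * N v ^ 2 := by
  have hh' : ∀ (t : ℝ) (u : Euc k), 0 ≤ t → N (t • u) = t * N u := fun t u ht => by
    rw [hh, abs_of_nonneg ht]
  have hneg : ∀ u : Euc k, N (-u) = N u := fun u => by
    have := hh (-1) u
    simpa using this
  have h0 := blow_zero hz.1
  obtain ⟨b, hb⟩ := hz.blow u
  obtain ⟨c, hc'⟩ := hz.blow (u + v)
  obtain ⟨d, hd⟩ := hz.blow v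
  have t1 := (h0.mdN hc' hN hc hh').pow 2
  have t2 := (hb.mdN hd hN hc hh').pow 2
  have t3 := (h0.mdN hb hN hc hh').pow 2
  have t4 := (hb.mdN hc' hN hc hh').pow 2
  have t5 := (hc'.mdN hd hN hc hh').pow 2
  have t6 := (hd.mdN h0 hN hc hh').pow 2
  have e := le_of_tendsto_of_tendsto' (t1.add t2) (((t3.add t4).add t5).add t6) fun n => by
    have := hX (φ z) (φ (b n)) (φ (c n)) (φ (d n))
    have h2 : (0 : ℝ) ≤ ((n : ℝ) + 1) ^ 2 := sq_nonneg _
    simp only [mul_pow]
    nlinarith [mul_le_mul_of_nonneg_left this h2]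
  have e1 : (0 : Euc k) - (u + v) = -(u + v) := zero_sub _
  have e2 : (0 : Euc k) - u = -u := zero_sub _
  have e3 : u - (u + v) = -v := by abel
  have e4 : u + v - v = u := by abel
  rw [e1, e2, e3, e4, sub_zero, hneg, hneg, hneg] at e
  linarith

/-- **Kirchheim + Euclidean**, together with the distance functions realising the metric
differential. -/
theorem exists_mdField (hX : Quad X) {E : Set (Euc k)} (hE : MeasurableSet E) {φ : Euc k → X}
    {L : NNReal} (hφ : LipschitzOnWith L φ E) :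
    ∃ (g : Euc k → Matrix (Fin k) (Fin k) ℝ) (x : ℕ → X), MDField E φ g ∧
      ∀ᵐ z ∂(volume.restrict E), ∀ v : Fin k → ℝ, ∀ ε > (0 : ℝ), ∃ j,
        √(qf (g z) v) - ε ≤ |dv E φ (fun y => dist (x j) y) z ⬝ᵥ v| := by
  obtain ⟨N, x, hm, hadd, hsm, hle, hae⟩ := exists_mdN hE hφ
  have hN0 : ∀ z v, 0 ≤ N z v := fun z v => by
    have h1 := hadd z v (-v)
    have h2 := hsm z (-1) v
    have h3 := hsm z 0 v
    simp only [add_neg_cancel, neg_smul, one_smul, abs_neg, abs_one, one_mul, zero_smul, abs_zero,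
      zero_mul] at h1 h2 h3
    linarith
  have hNc : ∀ z, Continuous (N z) := fun z => by
    refine (LipschitzWith.of_le_add_mul L fun u v => ?_).continuous
    have h1 := hadd z v (u - v)
    have h2 := hle z (u - v)
    rw [add_sub_cancel] at h1
    rw [dist_eq_norm]
    linarith
  let Q : Euc k → (Fin k → ℝ) → ℝ := fun z v => N z (WithLp.toLp 2 v) ^ 2
  let G : Euc k → Matrix (Fin k) (Fin k) ℝ := fun z => Matrix.of fun i j =>
    (Q z (Pi.single i 1 + Pi.single j 1) - Q z (Pi.single i 1 - Pi.single j 1)) / 4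
  have hG : ∀ i j, Measurable fun z => G z i j := fun i j =>
    (((hm _).pow_const 2).sub ((hm _).pow_const 2)).div_const 4
  have hgood : ∀ᵐ z ∂(volume.restrict E), (G z).PosSemidef ∧ ∀ v, qf (G z) v = Q z v := by
    filter_upwards [hae, ae_dens hE] with z hz hd
    refine qf_of_parallelogram (((hNc z).comp (PiLp.continuous_toLp 2 _)).pow 2)
      (fun v => sq_nonneg _) (fun c v => ?_) fun u v => ?_
    · simp only [Q, WithLp.toLp_smul, hsm, mul_pow, sq_abs]
    · simpa only [Q, WithLp.toLp_add, WithLp.toLp_sub] using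
        hz.1.parallelogram hX hd (hNc z) (hsm z) (WithLp.toLp 2 u) (WithLp.toLp 2 v)
  obtain ⟨B, hB, hBm, hB0⟩ := exists_measurable_superset_of_null (ae_iff.1 hgood)
  have hBc : ∀ z, z ∉ B → (G z).PosSemidef ∧ ∀ v, qf (G z) v = Q z v := fun z hz => by
    by_contra hc
    exact hz (hB hc)
  have hBae : ∀ᵐ z ∂(volume.restrict E), z ∉ B := measure_eq_zero_iff_ae_notMem.1 hB0
  classical
  refine ⟨fun z => if z ∈ B then 0 else G z, x, ⟨fun i j => ?_, fun z => ?_, ?_⟩, ?_⟩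
  · have : (fun z => (if z ∈ B then 0 else G z) i j) = fun z => if z ∈ B then 0 else G z i j := by
      funext z
      split_ifs <;> rfl
    rw [this]
    exact Measurable.ite hBm measurable_const (hG i j)
  · dsimp only
    split_ifs with h
    · exact PosSemidef.zero
    · exact (hBc z h).1
  · filter_upwards [hae, hBae] with z hz hb
    rw [if_neg hb]
    refine ⟨(hBc z hb).1, ?_⟩
    have : (fun v : Euc k => √(qf (G z) v.ofLp)) = N z := by
      funext v
      rw [(hBc z hb).2]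
      exact Real.sqrt_sq (hN0 z _)
    rw [this]
    exact hz.1
  · filter_upwards [hae, hBae] with z hz hb v ε hε
    rw [if_neg hb, (hBc z hb).2]
    obtain ⟨j, hj⟩ := hz.2 (WithLp.toLp 2 v) ε hε
    refine ⟨j, ?_⟩
    rw [clm_apply_eq] at hj
    simpa only [Q, Real.sqrt_sq (hN0 z _), dv] using hj

theorem mdField_gram (hX : Quad X) {E : Set (Euc k)} (hE : MeasurableSet E) {φ : Euc k → X}
    {L : NNReal} (hφ : LipschitzOnWith L φ E) : MDField E φ (gram E φ) :=
  let ⟨g, _, h, _⟩ := exists_mdField hX hE hφ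
  mdField_gram_of_exists ⟨g, h⟩

theorem ae_isMD (hX : Quad X) {E : Set (Euc k)} (hE : MeasurableSet E) {φ : Euc k → X}
    {L : NNReal} (hφ : LipschitzOnWith L φ E) :
    ∀ᵐ z ∂(volume.restrict E), IsMD E φ z (gram E φ z) :=
  (mdField_gram hX hE hφ).2.2

theorem ae_gram_restrict (hX : Quad X) {E A : Set (Euc k)} (hE : MeasurableSet E)
    (hA : MeasurableSet A) (hAE : A ⊆ E) {φ : Euc k → X} {L : NNReal}
    (hφ : LipschitzOnWith L φ E) : ∀ᵐ z ∂(volume.restrict A), gram A φ z = gram E φ z := by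
  filter_upwards [ae_dens hA, ae_isMD hX hA (hφ.mono hAE),
    ae_restrict_of_ae_restrict_of_subset hAE (ae_isMD hX hE hφ)] with z hz h1 h2
  exact h1.unique hz (h2.mono hAE)

/-- derivatives of Lipschitz functions are dominated by the metric differential. -/
theorem IsMD.sq_le {E : Set (Euc k)} {φ : Euc k → X} {z : Euc k} {g : Matrix (Fin k) (Fin k) ℝ}
    (hz : Dens E z) (h : IsMD E φ z g) {u : X → ℝ} {K : NNReal}
    (hu : LipschitzOnWith K u (φ '' E)) {a : Euc k →L[ℝ] ℝ}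
    (ha : HasFDerivWithinAt (fun w => u (φ w)) a E z) (v : Fin k → ℝ) :
    (cv a ⬝ᵥ v) ^ 2 ≤ (K : ℝ) ^ 2 * qf g v := by
  obtain ⟨w, hw⟩ := hz.blow (WithLp.toLp 2 v)
  have t1 := (hw.fderiv ha).abs
  have t2 := (hw.md (blow_zero hz.1) h).const_mul (K : ℝ)
  have e := le_of_tendsto_of_tendsto' t1 t2 fun n => by
    have h1 := hu.dist_le_mul _ (Set.mem_image_of_mem φ (hw.1 n)) _ (Set.mem_image_of_mem φ hz.1)
    have h2 : (0 : ℝ) ≤ (n : ℝ) + 1 := by positivity
    rw [Real.dist_eq] at h1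
    rw [smul_eq_mul, abs_mul, abs_of_nonneg h2]
    nlinarith [mul_le_mul_of_nonneg_left h1 h2]
  rw [sub_zero, clm_apply_eq] at e
  have e2 := pow_le_pow_left₀ (abs_nonneg _) e 2
  rwa [sq_abs, mul_pow, Real.sq_sqrt (qf_nonneg h.1 _)] at e2

theorem ae_dv_sq_le (hX : Quad X) {E : Set (Euc k)} (hE : MeasurableSet E) {φ : Euc k → X}
    {L K : NNReal} (hφ : LipschitzOnWith L φ E) {u : X → ℝ} (hu : LipschitzOnWith K u (φ '' E)) :
    ∀ᵐ z ∂(volume.restrict E), ∀ v, (dv E φ u z ⬝ᵥ v) ^ 2 ≤ (K : ℝ) ^ 2 * qf (gram E φ z) v := by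
  filter_upwards [ae_dens hE, ae_isMD hX hE hφ, ae_hasFDeriv_dW hE hφ hu] with z hz h1 h2 v
  exact h1.sq_le hz hu h2 v

/-- Hadamard bound for the integrand of `chartAction`. -/
theorem ae_abs_det_le (hX : Quad X) {E : Set (Euc k)} (hE : MeasurableSet E) {φ : Euc k → X}
    {L : NNReal} (hφ : LipschitzOnWith L φ E) {π : Fin k → X → ℝ} {K : Fin k → NNReal}
    (hπ : ∀ i, LipschitzOnWith (K i) (π i) (φ '' E)) :
    ∀ᵐ z ∂(volume.restrict E),
      |(Matrix.of fun i => dv E φ (π i) z).det| ≤ (∏ i, (K i : ℝ)) * jac E φ z := by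
  filter_upwards [ae_all_iff.2 fun i => ae_dv_sq_le hX hE hφ (hπ i)] with z hz
  exact abs_det_le (gram_psd E φ z) (fun i => (K i).2) hz

/-- countably many distance functions almost realise the Jacobian (mass lower bound). -/
theorem exists_ae_coframe (hX : Quad X) {E : Set (Euc k)} (hE : MeasurableSet E) {φ : Euc k → X}
    {L : NNReal} (hφ : LipschitzOnWith L φ E) :
    ∃ x : ℕ → X, ∀ᵐ z ∂(volume.restrict E), ∀ ε > (0 : ℝ), ∃ j : Fin k → ℕ,
      (1 - ε) * jac E φ z ≤ |(Matrix.of fun i => dv E φ (fun y => dist (x (j i)) y) z).det| := by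
  obtain ⟨g, x, hg, hx⟩ := exists_mdField hX hE hφ
  refine ⟨x, ?_⟩
  have h1 : ∀ j, LipschitzOnWith 1 (fun y => dist (x j) y) (φ '' E) := fun j =>
    (LipschitzWith.dist_right (x j)).lipschitzOnWith
  filter_upwards [hx, hg.2.2, ae_isMD hX hE hφ, ae_dens hE,
    ae_all_iff.2 fun j => ae_dv_sq_le hX hE hφ (h1 j)] with z h2 h3 h4 h5 h6 ε hε
  rw [h3.unique h5 h4] at h2
  exact exists_coframe (gram_psd E φ z) (a := fun j => dv E φ (fun y => dist (x j) y) z)
    (fun j v => by simpa using h6 j v) h2 hε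

end Crest.Agent.R241
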