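import Crest.Agent.R241.AlmF
import Crest.Agent.R241.KEucl

/-! Row 241, block K: the variance inequality in `CatSp l X`; `CatSp` from `IsCATZero`; closed
balls. -/

set_option autoImplicit false
open MeasureTheory Filter Topology Set
open scoped NNReal ENNReal
open Crest.GeometryTopology.Submanifold (Euc)

open Crest.GeometryTopology.MetricCurrent

namespace Crest.Agent.R241

universe u
variable {X : Type u} [MetricSpace X] {l : ℝ}

theorem md_sub (hl : 0 ≤ l) (a b : ℝ) :
    md l (a - b) = md l a + md l b + l * md l a * md l b - sn l a * sn l b := by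
  rcases hl.eq_or_lt with rfl | hl
  · simp only [Alm.md_zero_left, Alm.sn_zero_left]
    ring
  · have h1 : √l * √l = l := Real.mul_self_sqrt hl.le
    have h2 : √l ≠ 0 := (Real.sqrt_pos.mpr hl).ne'
    simp only [Alm.md_of_pos hl, Alm.sn_of_pos hl]
    rw [mul_sub, Real.cosh_sub, div_mul_div_comm, h1]
    field_simp
    ring

/-- `cmp` with `s = 1`, divided by `sn l (dist x p)` (equality when `p = x`). -/
theorem CatSp.cmp_one (hl : 0 ≤ l) (c : CatSp l X) (x p q : X) {t : ℝ} (ht : t ∈ Icc (0 : ℝ) 1) :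
    sn l (dist x q) * md l (dist p (c.geo x q t)) ≤
      sn l (dist x q) * md l (dist x p - t * dist x q) +
        sn l (t * dist x q) * (md l (dist p q) - md l (dist x p - dist x q)) := by
  by_cases hp : p = x
  · have h1 := c.dist_geo x q 0 ⟨le_rfl, zero_le_one⟩ t ht
    rw [c.zero, zero_sub, abs_neg, abs_of_nonneg ht.1] at h1
    rw [hp, h1, dist_self, zero_sub, zero_sub, Alm.md_neg, Alm.md_neg, sub_self, mul_zero, add_zero]
  · have h0 : 0 < sn l (dist x p) := Alm.sn_pos hl (dist_pos.mpr fun h => hp h.symm)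
    have h1 := c.cmp x p q 1 ⟨zero_le_one, le_rfl⟩ t ht
    rw [c.one, one_mul] at h1
    refine le_of_mul_le_mul_left ?_ h0
    linarith

/-- `x` minimises `y ↦ ∫ Dx l y dν`; compare with `geo x q t` by `cmp_one`, expand with
`md_sub` (the terms `sn ρ sn ρ' sn (tρ')` cancel), divide by `sn (tρ')` and let `t → 0`
(`md s / sn s → 0`): `∫ Dx l q ≥ ∫ Dx l x + ν(X) Dx l x q + l Dx l x q ∫ Dx l x`; integrate
in `q`. -/
theorem CatSp.kvarIneq (hl : 0 ≤ l) (c : CatSp l X) [CompactSpace X] [Nonempty X]
    [MeasurableSpace X] [BorelSpace X] : VarIneq l X := by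
  intro ν hν
  have hint : ∀ f : X → ℝ, Continuous f → Integrable f ν := fun f hf =>
    hf.integrable_of_hasCompactSupport (HasCompactSupport.of_compactSpace f)
  have hc2 : Continuous fun z : X × X => Dx l z.1 z.2 := (Alm.continuous_md hl).comp continuous_dist
  have hc1 : ∀ y : X, Continuous (Dx l y) := fun y =>
    (Alm.continuous_md hl).comp (continuous_const.dist continuous_id)
  have hF : Continuous fun y : X => ∫ p, Dx l y p ∂ν := by
    obtain ⟨z, -, hz⟩ := isCompact_univ.exists_isMaxOn univ_nonempty hc2.continuousOn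
    refine continuous_of_dominated (bound := fun _ => Dx l z.1 z.2)
      (fun y => (hc1 y).aestronglyMeasurable) (fun y => Eventually.of_forall fun p => ?_)
      (integrable_const _) (Eventually.of_forall fun p =>
        (Alm.continuous_md hl).comp (continuous_id.dist continuous_const))
    rw [Real.norm_eq_abs, abs_of_nonneg (show 0 ≤ Dx l y p from Alm.md_nonneg hl _)]
    exact hz (mem_univ (y, p))
  obtain ⟨x, -, hx⟩ := isCompact_univ.exists_isMinOn univ_nonempty hF.continuousOn
  refine ⟨x, ?_⟩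
  obtain ⟨A, hA⟩ : ∃ A, A = ∫ p, Dx l x p ∂ν := ⟨_, rfl⟩
  have hxA : ∀ y, A ≤ ∫ p, Dx l y p ∂ν := fun y => by rw [hA]; exact hx (mem_univ y)
  have hA0 : 0 ≤ A := by rw [hA]; exact integral_nonneg fun p => Alm.md_nonneg hl _
  have hm0 : 0 ≤ ν.real univ := measureReal_nonneg
  have hlin : ∀ a b : ℝ, ∫ p, (a + b * Dx l x p) ∂ν = a * ν.real univ + b * A := by
    intro a b
    rw [integral_add (integrable_const _) ((hint _ (hc1 x)).const_mul b), integral_const,
      integral_const_mul, ← hA, smul_eq_mul, mul_comm]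
  have hil : ∀ a b : ℝ, Integrable (fun p => a + b * Dx l x p) ν := fun a b =>
    (integrable_const _).add ((hint _ (hc1 x)).const_mul b)
  have key : ∀ q, A + (ν.real univ + l * A) * Dx l x q ≤ ∫ p, Dx l q p ∂ν := by
    intro q
    by_cases hq : q = x
    · rw [hq, ← hA, Dx, dist_self, Alm.md_zero, mul_zero, add_zero]
    have hρ : 0 < dist x q := dist_pos.mpr fun h => hq h.symm
    have hs := Alm.sn_pos hl hρ
    obtain ⟨E, hE⟩ : ∃ E, E = (∫ p, Dx l q p ∂ν) - (A + (ν.real univ + l * A) * Dx l x q) :=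
      ⟨_, rfl⟩
    have h1 : ∀ t ∈ Ioo (0 : ℝ) 1, 0 ≤
        sn l (dist x q) * (sn l (t * dist x q) / 2) * (ν.real univ + l * A) + E := by
      intro t ht
      have hst := Alm.sn_pos hl (mul_pos ht.1 hρ)
      have h2 : ∫ p, sn l (dist x q) * Dx l (c.geo x q t) p ∂ν ≤
          ∫ p, ((sn l (dist x q) * md l (t * dist x q) - sn l (t * dist x q) * Dx l x q +
            (sn l (dist x q) * (1 + l * md l (t * dist x q)) -
              sn l (t * dist x q) * (1 + l * Dx l x q)) * Dx l x p) +
                sn l (t * dist x q) * Dx l q p) ∂ν := by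
        refine integral_mono ((hint _ (hc1 _)).const_mul _)
          ((hil _ _).add ((hint _ (hc1 q)).const_mul _)) fun p => ?_
        have h3 := c.cmp_one hl x p q ⟨ht.1.le, ht.2.le⟩
        rw [md_sub hl, md_sub hl, dist_comm p, dist_comm p] at h3
        simp only [Dx]
        linarith
      rw [integral_add (hil _ _) ((hint _ (hc1 q)).const_mul _), hlin, integral_const_mul,
        integral_const_mul] at h2
      have h3 := mul_le_mul_of_nonneg_left (hxA (c.geo x q t)) hs.le
      have h4 : md l (t * dist x q) ≤ sn l (t * dist x q) * (sn l (t * dist x q) / 2) := by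
        have a1 := Alm.sn_sq hl (t * dist x q)
        have a2 := mul_nonneg hl (sq_nonneg (md l (t * dist x q)))
        linarith
      have h5 := mul_le_mul_of_nonneg_left h4
        (mul_nonneg hs.le (add_nonneg hm0 (mul_nonneg hl hA0)))
      refine le_of_mul_le_mul_left ?_ hst
      rw [hE]
      linarith
    have h2 : Tendsto (fun t : ℝ => sn l (dist x q) * (sn l (t * dist x q) / 2) *
        (ν.real univ + l * A) + E) (𝓝[>] 0)
          (𝓝 (sn l (dist x q) * (sn l (0 * dist x q) / 2) * (ν.real univ + l * A) + E)) := by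
      have hsn := Alm.continuous_sn hl
      refine Tendsto.mono_left (Continuous.tendsto ?_ 0) nhdsWithin_le_nhds
      fun_prop
    have h3 := ge_of_tendsto h2 (mem_of_superset (Ioo_mem_nhdsGT zero_lt_one) h1)
    rw [zero_mul, Alm.sn_zero, zero_div, mul_zero, zero_mul, zero_add, hE] at h3
    linarith
  have h1 := integral_mono (hil _ _) (hint _ hF) key
  have h2 := hlin A (ν.real univ + l * A)
  rw [← hA]
  linarith

/-- a Bruhat–Tits space is a `CatSp 0` (`geo_cmp`). -/
theorem nonempty_catSp_zero (hX : IsCATZero X) : Nonempty (CatSp 0 X) := by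
  refine ⟨⟨geo, geo_zero hX, geo_one hX, fun x p s hs t ht => dist_geo_geo hX x p hs ht,
    fun x p q s hs t ht => ?_⟩⟩
  have h := geo_cmp hX x p q hs ht
  have hab : 0 ≤ dist x p * dist x q / 2 := by positivity
  have h2 := mul_le_mul_of_nonneg_left h hab
  simp only [Alm.sn_zero_left, Alm.md_zero_left]
  linarith

/-- closed balls are convex: `cmp_one` with `p = o` and `md_sub` give, for `a = d(x,o)`,
`b = d(o,q)`, `d = d(x,q)`: `sn d * md (d(o,γ t)) ≤ md a (sn d - sn (t d)) + sn (t d) md b +
cs a (sn d md (t d) - sn (t d) md d)`, and the last bracket is `≤ 0` (`md / sn` is increasing). -/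
theorem CatSp.geo_mem_closedBall (hl : 0 ≤ l) (c : CatSp l X) {o x q : X} {R : ℝ}
    (hx : x ∈ Metric.closedBall o R) (hq : q ∈ Metric.closedBall o R) {t : ℝ}
    (ht : t ∈ Icc (0 : ℝ) 1) : c.geo x q t ∈ Metric.closedBall o R := by
  rw [Metric.mem_closedBall] at hx hq ⊢
  have hR : 0 ≤ R := dist_nonneg.trans hx
  rcases (dist_nonneg : 0 ≤ dist x q).eq_or_lt with hd | hd
  · have h0 := c.dist_geo x q 0 ⟨le_rfl, zero_le_one⟩ t ht
    rw [c.zero, ← hd, mul_zero, dist_eq_zero] at h0
    rw [← h0]; exact hx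
  have h := CatSp.cmp_one hl c x o q ht
  rw [md_sub hl, md_sub hl] at h
  have hu0 : 0 ≤ t * dist x q := mul_nonneg ht.1 hd.le
  have hud : t * dist x q ≤ dist x q := mul_le_of_le_one_left hd.le ht.2
  have ha : md l (dist x o) ≤ md l R :=
    Alm.md_le_of_abs_le hl (by rw [abs_of_nonneg dist_nonneg, abs_of_nonneg hR]; exact hx)
  have hb : md l (dist o q) ≤ md l R :=
    Alm.md_le_of_abs_le hl (by rw [abs_of_nonneg dist_nonneg, abs_of_nonneg hR, dist_comm]; exact hq)
  have hmu : md l (t * dist x q) ≤ md l (dist x q) :=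
    Alm.md_le_of_abs_le hl (by rw [abs_of_nonneg hu0, abs_of_nonneg hd.le]; exact hud)
  have hsu : sn l (t * dist x q) ≤ sn l (dist x q) := (Alm.strictMono_sn hl).monotone hud
  have hsu0 := Alm.sn_nonneg hl hu0
  have hsd := Alm.sn_pos hl hd
  have hma := Alm.md_nonneg hl (dist x o)
  have hmu0 := Alm.md_nonneg hl (t * dist x q)
  have hmd0 := Alm.md_nonneg hl (dist x q)
  have hq1 := Alm.sn_sq hl (t * dist x q)
  have hq2 := Alm.sn_sq hl (dist x q)
  rw [dist_comm]
  refine Alm.le_of_md_le hl dist_nonneg hR (le_of_mul_le_mul_left ?_ hsd)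
  generalize md l (dist o (c.geo x q t)) = G at h ⊢
  generalize md l (t * dist x q) = mu at *
  generalize sn l (t * dist x q) = su at *
  generalize md l (dist x q) = mdd at *
  generalize sn l (dist x q) = sd at *
  generalize md l (dist x o) = ma at *
  generalize sn l (dist x o) = sa at *
  generalize md l (dist o q) = mb at *
  generalize md l R = M at *
  have hbr : sd * mu ≤ su * mdd := by
    rw [← sq_le_sq₀ (by positivity) (by positivity), mul_pow, mul_pow, hq1, hq2]
    have : 0 ≤ mu * mdd * (mdd - mu) := mul_nonneg (mul_nonneg hmu0 hmd0) (sub_nonneg.2 hmu)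
    nlinarith
  have h1 : (1 + l * ma) * (sd * mu - su * mdd) ≤ 0 :=
    mul_nonpos_of_nonneg_of_nonpos (by positivity) (sub_nonpos.2 hbr)
  have h2 : ma * (sd - su) ≤ M * (sd - su) := mul_le_mul_of_nonneg_right ha (sub_nonneg.2 hsu)
  have h3 : su * mb ≤ su * M := mul_le_mul_of_nonneg_left hb hsu0
  linarith

/-- closed balls inherit the structure. -/
theorem CatSp.nonempty_closedBall (hl : 0 ≤ l) (c : CatSp l X) (o : X) (R : ℝ) :
    Nonempty (CatSp l (Metric.closedBall o R)) := by
  have hc : ∀ t : ℝ, max 0 (min t 1) ∈ Icc (0 : ℝ) 1 := fun t =>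
    ⟨le_max_left _ _, max_le zero_le_one (min_le_right _ _)⟩
  have he : ∀ t ∈ Icc (0 : ℝ) 1, max 0 (min t 1) = t := fun t ht => by
    rw [min_eq_left ht.2, max_eq_right ht.1]
  refine ⟨⟨fun x p t => ⟨c.geo x p (max 0 (min t 1)),
    CatSp.geo_mem_closedBall hl c x.2 p.2 (hc t)⟩, fun x p => ?_, fun x p => ?_,
    fun x p s hs t ht => ?_, fun x p q s hs t ht => ?_⟩⟩
  · apply Subtype.ext
    show c.geo x p (max 0 (min 0 1)) = x
    rw [he 0 ⟨le_rfl, zero_le_one⟩, c.zero]
  · apply Subtype.ext
    show c.geo x p (max 0 (min 1 1)) = p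
    rw [he 1 ⟨zero_le_one, le_rfl⟩, c.one]
  · simp only [Subtype.dist_eq, he s hs, he t ht]
    exact c.dist_geo x p s hs t ht
  · simp only [Subtype.dist_eq, he s hs, he t ht]
    exact c.cmp x p q s hs t ht

end Crest.Agent.R241
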