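import Crest.Agent.R241.MConv
import Crest.Agent.R241.KVar
import Crest.Agent.R241.AlmF

/-! Row 241 [M] conversions, 6: chains in subspaces, and the reduction of S0374 to the exact filling
inequality for chains in compact spaces. -/

set_option autoImplicit false
set_option linter.unusedSectionVars false

namespace Crest.Agent.R241.Cv

open MeasureTheory Filter Topology Set
open scoped NNReal ENNReal
open Crest.GeometryTopology.Submanifold (Euc unitBallVol)
open Crest.GeometryTopology.MetricCurrent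

noncomputable section

universe u
variable {X : Type u} [MetricSpace X] {k : ℕ}

/-- a chain in a subspace, seen in the ambient space -/
def push {Y : Set X} (C : Chain Y k) : Chain X k where
  ι := C.ι
  cnt := C.cnt
  E := C.E
  φ := fun i z => (C.φ i z : X)
  θ := C.θ
  g := C.g
  mE := C.mE
  bE := C.bE
  lip := C.lip
  mθ := C.mθ
  iθ := C.iθ
  mg := C.mg
  psd := C.psd
  maj := C.maj
  fin := C.fin

theorem act_push {Y : Set X} (C : Chain Y k) (f : X → ℝ) (π : Fin k → X → ℝ) :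
    (push C).act f π = C.act (fun y => f y) (fun a y => π a y) := rfl

theorem mass_push {Y : Set X} (C : Chain Y k) : (push C).mass = C.mass := rfl

theorem push_in {Y : Set X} (C : Chain Y k) : (push C).In Y := fun i z _ => (C.φ i z).2

open Classical in
/-- projection to a subspace (junk outside) -/
def toSub {Y : Set X} (o : Y) (x : X) : Y := if h : x ∈ Y then ⟨x, h⟩ else o

theorem toSub_coe {Y : Set X} (o : Y) {x : X} (h : x ∈ Y) : (toSub o x : X) = x := by
  unfold toSub; rw [dif_pos h]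

/-- a chain with values in a subspace, seen in the subspace -/
def lift {Y : Set X} (o : Y) (C : Chain X k) (h : C.In Y) : Chain Y k where
  ι := C.ι
  cnt := C.cnt
  E := C.E
  φ := fun i z => toSub o (C.φ i z)
  θ := C.θ
  g := C.g
  mE := C.mE
  bE := C.bE
  lip := fun i => by
    obtain ⟨L, hL⟩ := C.lip i
    refine ⟨L, LipschitzOnWith.of_dist_le_mul fun z hz w hw => ?_⟩
    rw [Subtype.dist_eq, toSub_coe o (h i z hz), toSub_coe o (h i w hw)]
    exact hL.dist_le_mul z hz w hw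
  mθ := C.mθ
  iθ := C.iθ
  mg := C.mg
  psd := C.psd
  maj := fun i => by
    filter_upwards [C.maj i, ae_restrict_mem (C.mE i)] with z hz hzE
    exact hz.congr (φ' := fun z => (toSub o (C.φ i z) : X))
      (fun w hw => (toSub_coe o (h i w hw)).symm) hzE
  fin := C.fin

theorem act_lift {Y : Set X} (o : Y) (C : Chain X k) (h : C.In Y) (f : X → ℝ)
    (π : Fin k → X → ℝ) :
    (lift o C h).act (fun y => f y) (fun a y => π a y) = C.act f π := by
  refine tsum_congr fun i => setIntegral_congr_fun (C.mE i) fun z hz => ?_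
  have e : ∀ a, dv (C.E i) (fun z => toSub o (C.φ i z)) (fun y : Y => π a y) z =
      dv (C.E i) (C.φ i) (π a) z := fun a =>
    congrArg cv (fderivWithin_congr' (fun w hw => by
      change π a (toSub o (C.φ i w) : X) = π a (C.φ i w)
      rw [toSub_coe o (h i w hw)]) hz)
  change (C.θ i z : ℝ) * f (toSub o (C.φ i z) : X) *
      jdet (C.E i) (fun z => toSub o (C.φ i z)) (fun a (y : Y) => π a y) z =
    (C.θ i z : ℝ) * f (C.φ i z) * jdet (C.E i) (C.φ i) π z
  rw [toSub_coe o (h i z hz)]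
  unfold jdet
  simp only [e]

theorem mass_lift {Y : Set X} (o : Y) (C : Chain X k) (h : C.In Y) :
    (lift o C h).mass = C.mass := rfl

/-- bounded Lipschitz extension from a compact subspace -/
theorem exists_ext {Y : Set X} (hY : IsCompact Y) {f : Y → ℝ} (hf : Lip f) :
    ∃ g : X → ℝ, (∃ K : ℝ≥0, LipschitzWith K g) ∧ (∃ C : ℝ, ∀ x, |g x| ≤ C) ∧
      ∀ y : Y, g y = f y := by
  classical
  obtain ⟨K, hK⟩ := hf
  have : CompactSpace Y := isCompact_iff_compactSpace.1 hY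
  obtain ⟨M, hM⟩ := (isCompact_range hK.continuous).isBounded.exists_norm_le
  let f0 : X → ℝ := fun x => if h : x ∈ Y then f ⟨x, h⟩ else 0
  have h0 : LipschitzOnWith K f0 Y := by
    refine LipschitzOnWith.of_dist_le_mul fun x hx y hy => ?_
    simp only [f0, dif_pos hx, dif_pos hy]
    exact hK.dist_le_mul ⟨x, hx⟩ ⟨y, hy⟩
  obtain ⟨g, hg, hfg⟩ := h0.extend_real
  refine ⟨fun x => max (-|M|) (min |M| (g x)), ⟨K, (hg.const_min _).const_max _⟩,
    ⟨|M|, fun x => abs_le.2 ⟨le_max_left _ _, max_le (by linarith [abs_nonneg M]) (min_le_left _ _)⟩⟩, fun y => ?_⟩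
  have e : g y = f y := by rw [← hfg y.2]; simp only [f0, dif_pos y.2]
  have hb := abs_le.1 ((hM (f y) ⟨y, rfl⟩).trans (le_abs_self M))
  simp only [e]
  rw [min_eq_right hb.2, max_eq_right hb.1]

theorem test_one {π : Fin k → X → ℝ} (h : ∀ a, ∃ K : ℝ≥0, LipschitzWith K (π a)) :
    IsTestPair (fun _ : X => (1 : ℝ)) π :=
  ⟨⟨0, LipschitzWith.const 1⟩, ⟨1, fun _ => by simp⟩, h⟩

/-- exact fillings of cycles in compact `CAT(0)` spaces -/
def FillStmt : Prop :=
  ∀ (Y : Type u) [MetricSpace Y] [CompactSpace Y] [Nonempty Y] [MeasurableSpace Y] [BorelSpace Y],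
    CatSp 0 Y → ∀ n : ℕ, 2 ≤ n → ∀ T : Chain Y n, T.Cyc → ∀ r : ℝ, 0 ≤ r →
      T.mass ≤ area n 0 r → ∃ S : Chain Y (n + 1), S.Bd T ∧ S.mass ≤ vol n 0 r

theorem vol_sg (m : ℕ) {M : ℝ} (hM : 0 ≤ M) :
    vol (m + 2) 0 (Alm.sg (m + 2) M) = 1 / ((m + 3 : ℝ) *
      (((m + 3 : ℝ) * unitBallVol (m + 3)) ^ (1 / (m + 2 : ℝ)))) * M ^ ((m + 3 : ℝ) / (m + 2 : ℝ)) := by
  have hω := Alm.unitBallVol_pos (m + 3)
  have hs : sA (m + 2) = (m + 3 : ℝ) * unitBallVol (m + 3) := by
    rw [Alm.sA_eq]; push_cast; ring_nf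
  have hs0 := Alm.sA_pos (m + 2)
  have hn : (m + 2 : ℝ) ≠ 0 := by positivity
  rw [Alm.vol_zero_left, Alm.sg, ← Real.rpow_natCast, ← Real.rpow_mul (div_nonneg hM hs0.le),
    Real.div_rpow hM hs0.le, ← hs]
  have e : (((m + 2 : ℕ) : ℝ))⁻¹ * ((m + 2 + 1 : ℕ) : ℝ) = (m + 3 : ℝ) / (m + 2 : ℝ) := by
    push_cast; field_simp; ring
  have e2 : sA (m + 2) ^ ((m + 3 : ℝ) / (m + 2 : ℝ)) =
      sA (m + 2) * sA (m + 2) ^ (1 / (m + 2 : ℝ)) := by
    rw [show (m + 3 : ℝ) / (m + 2 : ℝ) = 1 + 1 / (m + 2 : ℝ) by field_simp; ring,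
      Real.rpow_add hs0, Real.rpow_one]
  have hp : 0 < sA (m + 2) ^ (1 / (m + 2 : ℝ)) := Real.rpow_pos_of_pos hs0 _
  rw [e, e2, show m + 2 + 1 = m + 3 from rfl]
  nth_rewrite 1 [hs]
  field_simp

theorem s0374_of_fill (hfill : FillStmt.{u})
    (X : Type u) [MetricSpace X] [MeasurableSpace X] [BorelSpace X] [ProperSpace X]
    (hX : IsCATZero X) (m : ℕ) (T : Functional X (m + 2)) (hT : IsIntegralCurrent T)
    (hcyc : bd T = 0) (K : Set X) (hK : IsCompact K) (hTK : IsSupportedIn K T) :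
    ∃ (S : Functional X (m + 3)) (K' : Set X), IsIntegralCurrent S ∧ IsCompact K' ∧
      IsSupportedIn K' S ∧ bd S = T ∧
      mass S ≤ 1 / ((m + 3 : ℝ) *
            (((m + 3 : ℝ) * (volume (Metric.ball (0 : EuclideanSpace ℝ (Fin (m + 3))) 1)).toReal) ^
              (1 / (m + 2 : ℝ)))) *
          mass T ^ ((m + 3 : ℝ) / (m + 2 : ℝ)) := by
  have hQ := quad_of_cat hX
  obtain ⟨o⟩ : Nonempty X := let ⟨_, φ, _⟩ := hT.2.1; ⟨φ 0 0⟩
  have : Nonempty X := ⟨o⟩
  obtain ⟨R, hR0, hR⟩ := hK.isBounded.subset_closedBall_lt 0 o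
  set Y := Metric.closedBall o R with hY
  have hYc : IsCompact Y := isCompact_closedBall o R
  have : CompactSpace Y := isCompact_iff_compactSpace.1 hYc
  obtain ⟨c0⟩ := nonempty_catSp_zero hX
  obtain ⟨cY⟩ := c0.nonempty_closedBall le_rfl o R
  obtain ⟨C, hCK, hCT, hCm⟩ := exists_chain hQ hT.1 hT.2.1 hK.isClosed hTK
  have hCY : C.In Y := fun i z hz => hR (hCK i z hz)
  let o' : Y := ⟨o, Metric.mem_closedBall_self hR0.le⟩
  have : Nonempty Y := ⟨o'⟩
  have hcy : (lift o' C hCY).Cyc := by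
    intro π' hπ'
    choose π h1 h2 h3 using fun a => exists_ext hYc (hπ' a)
    have e : π' = fun a (y : Y) => π a y := by funext a y; exact (h3 a y).symm
    have e2 := act_lift o' C hCY (fun _ => 1) π
    rw [e, e2, hCT _ _ (test_one h1)]
    have ht : IsTestPair (π 0) (Fin.tail π) := ⟨h1 0, h2 0, fun a => h1 a.succ⟩
    have e3 := congrFun (congrFun hcyc (π 0)) (Fin.tail π)
    unfold bd at e3
    rw [if_pos ht, Fin.cons_self_tail] at e3
    exact e3
  have hM : 0 ≤ mass T := Real.sInf_nonneg (by rintro r ⟨μ, -, -, rfl⟩; exact ENNReal.toReal_nonneg)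
  obtain ⟨S', hbd, hm⟩ := hfill Y cY (m + 2) (by omega) _ hcy (Alm.sg (m + 2) (mass T))
    (Alm.sg_nonneg _ hM) (by
      rw [Alm.area_zero_left, Alm.sg_pow (by omega) hM, mass_lift]; exact hCm)
  obtain ⟨S, hS1, hS2, hS3, hS4, hS5⟩ := exists_current hQ (push S')
  have hb : bd S = T := by
    funext f π
    unfold bd
    split_ifs with ht
    · have hl : ∀ a, ∃ K : ℝ≥0, LipschitzWith K ((Fin.cons f π : Fin (m + 3) → X → ℝ) a) :=
        fun a => Fin.cases ht.1 (fun a => ht.2.2 a) a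
      rw [hS3 _ _ (test_one hl), act_push, ← hCT f π ht, ← act_lift o' C hCY]
      have hv : ∀ g : X → ℝ, (∃ K : ℝ≥0, LipschitzWith K g) → Lip fun y : Y => g y :=
        fun g ⟨K, hK⟩ => ⟨K, hK.comp (LipschitzWith.subtype_val _) |>.weaken (by simp)⟩
      rw [← hbd _ _ (hv f ht.1) fun a => hv _ (ht.2.2 a)]
      congr 1
      funext a
      exact Fin.cases rfl (fun _ => rfl) a
    · exact (hT.1.eq_zero_of_not_test f π ht).symm
  refine ⟨S, Y, ⟨hS1, hS2, hb ▸ hT.1⟩, hYc, hS5 Y (push_in S'), hb, ?_⟩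
  rw [vol_sg m hM] at hm
  exact hS4.trans hm

end

end Crest.Agent.R241.Cv
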