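import Crest.Agent.R241.Alm
import Crest.Agent.R241.MWrap

/-! Row 241 (Cartan-Hadamard): reduction of S0374 to `fill_exact`. -/

set_option autoImplicit false

open MeasureTheory Set Filter Topology
open scoped ENNReal NNReal Matrix ContDiff

namespace Crest.Agent.R241

open Crest.GeometryTopology.MetricCurrent

universe u

theorem fin_main
    (X : Type u) [MetricSpace X] [MeasurableSpace X] [BorelSpace X] [ProperSpace X]
    (hX : IsCATZero X) (m : ℕ) (T : Functional X (m + 2)) (hT : IsIntegralCurrent T)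
    (hcyc : bd T = 0) (K : Set X) (hK : IsCompact K) (hTK : IsSupportedIn K T) :
    ∃ (S : Functional X (m + 3)) (K' : Set X), IsIntegralCurrent S ∧ IsCompact K' ∧
      IsSupportedIn K' S ∧ bd S = T ∧
      mass S ≤ 1 / ((m + 3 : ℝ) *
            (((m + 3 : ℝ) * (volume (Metric.ball (0 : EuclideanSpace ℝ (Fin (m + 3))) 1)).toReal) ^
              (1 / (m + 2 : ℝ)))) *
          mass T ^ ((m + 3 : ℝ) / (m + 2 : ℝ)) := by
  refine Cv.s0374_of_fill (fun Y _ _ _ _ _ c n hn T hT r hr hm => ?_) X hX m T hT hcyc K hK hTK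
  obtain ⟨S, h1, h2⟩ := fill_exact c (by omega) T hT
  refine ⟨S, h1, h2.trans ?_⟩
  rw [← Phi_area (by omega) le_rfl hr]
  have h0 : 0 ≤ T.mass := ENNReal.toReal_nonneg
  exact Phi_monotoneOn (by omega) le_rfl h0 (h0.trans hm) hm

end Crest.Agent.R241
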