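import Crest.Agent.R241.Defs

/-! Row 241, block K: densities of functionals on `C(X)`, testing against continuous functions,
Lipschitz algebra on a compact space. -/

set_option autoImplicit false
open MeasureTheory Filter Topology Set
open scoped NNReal ENNReal
open Crest.GeometryTopology.Submanifold (Euc)

namespace Crest.Agent.R241.KU

universe u
variable {X : Type u} [MetricSpace X]

theorem lip_continuous {f : X → ℝ} (hf : Lip f) : Continuous f := hf.choose_spec.continuous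

theorem lip_const (c : ℝ) : Lip fun _ : X => c := ⟨0, LipschitzWith.const c⟩

theorem lip_add {f g : X → ℝ} (hf : Lip f) (hg : Lip g) : Lip fun x => f x + g x :=
  ⟨_, hf.choose_spec.add hg.choose_spec⟩

theorem lip_sub {f g : X → ℝ} (hf : Lip f) (hg : Lip g) : Lip fun x => f x - g x :=
  ⟨_, hf.choose_spec.sub hg.choose_spec⟩

theorem lip_dist (x : X) : Lip fun y => dist x y := ⟨1, LipschitzWith.dist_right x⟩

theorem exists_abs_le [CompactSpace X] {f : X → ℝ} (hf : Continuous f) :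
    ∃ C : ℝ, 0 ≤ C ∧ ∀ x, |f x| ≤ C := by
  obtain ⟨C, hC⟩ := isCompact_univ.exists_bound_of_continuousOn hf.continuousOn
  exact ⟨max C 0, le_max_right _ _, fun x => (hC x (mem_univ x)).trans (le_max_left _ _)⟩

theorem lip_mul [CompactSpace X] {f g : X → ℝ} (hf : Lip f) (hg : Lip g) :
    Lip fun x => f x * g x := by
  obtain ⟨A, hA0, hA⟩ := exists_abs_le (lip_continuous hf)
  obtain ⟨B, hB0, hB⟩ := exists_abs_le (lip_continuous hg)
  obtain ⟨K, hK⟩ := hf
  obtain ⟨L, hL⟩ := hg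
  refine ⟨⟨A * L + B * K, by positivity⟩, LipschitzWith.of_dist_le_mul fun x y => ?_⟩
  have h1 := hK.dist_le_mul x y
  have h2 := hL.dist_le_mul x y
  rw [Real.dist_eq] at h1 h2 ⊢
  have e : f x * g x - f y * g y = f x * (g x - g y) + g y * (f x - f y) := by ring
  rw [e]
  refine (abs_add_le _ _).trans ?_
  rw [abs_mul, abs_mul]
  have h3 := mul_le_mul (hA x) h2 (abs_nonneg _) hA0
  have h4 := mul_le_mul (hB y) h1 (abs_nonneg _) hB0
  change _ ≤ (A * L + B * K) * dist x y
  linarith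

/-- a `C¹` function is Lipschitz on the compact interval containing the range of `f`. -/
theorem lip_comp [CompactSpace X] {F : ℝ → ℝ} (hF : ContDiff ℝ 1 F) {f : X → ℝ} (hf : Lip f) :
    Lip fun x => F (f x) := by
  obtain ⟨K, hK⟩ := (hF.locallyLipschitz.locallyLipschitzOn (s := range f)
    ).exists_lipschitzOnWith_of_compact (isCompact_range (lip_continuous hf))
  obtain ⟨L, hL⟩ := hf
  refine ⟨K * L, lipschitzOnWith_univ.1 ?_⟩
  exact hK.comp hL.lipschitzOnWith fun x _ => mem_range_self x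

variable [CompactSpace X] [MeasurableSpace X] [BorelSpace X]

theorem integrable_mul_of_bdd {μ : Measure X} [IsFiniteMeasure μ] {h γ : X → ℝ}
    (hh : Continuous h) (hγ : AEMeasurable γ μ) {C : ℝ} (hC : ∀ᵐ x ∂μ, |γ x| ≤ C) :
    Integrable (fun x => h x * γ x) μ := by
  obtain ⟨A, hA0, hA⟩ := exists_abs_le hh
  refine Integrable.of_bound (hh.measurable.aemeasurable.mul hγ).aestronglyMeasurable (A * C) ?_
  filter_upwards [hC] with x hx
  rw [Real.norm_eq_abs, abs_mul]
  exact mul_le_mul (hA x) hx (abs_nonneg _) hA0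

/-- test against thickened indicators of closed sets, then inner regularity
(`ae_nonneg_of_forall_setIntegral_nonneg`), or approximate the indicator of `{γ < 0}` in
`L¹(|γ| μ)` by continuous functions with values in `[0,1]`. -/
theorem ae_nonneg_of_integral {μ : Measure X} [IsFiniteMeasure μ] {γ : X → ℝ}
    (hγ : Integrable γ μ)
    (h : ∀ h : X → ℝ, Continuous h → (∀ x, 0 ≤ h x) → 0 ≤ ∫ x, h x * γ x ∂μ) :
    ∀ᵐ x ∂μ, 0 ≤ γ x := by
  have hcl : ∀ F : Set X, IsClosed F → 0 ≤ ∫ x in F, γ x ∂μ := by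
    intro F hF
    have hp : ∀ n : ℕ, (0 : ℝ) < 1 / (n + 1) := fun n => Nat.one_div_pos_of_nat
    have key := tendsto_pi_nhds.1 (thickenedIndicator_tendsto_indicator_closure hp
      tendsto_one_div_add_atTop_nhds_zero_nat F)
    rw [hF.closure_eq] at key
    have T : Tendsto (fun n : ℕ => ∫ x, (thickenedIndicator (hp n) F x : ℝ) * γ x ∂μ) atTop
        (𝓝 (∫ x, F.indicator γ x ∂μ)) := by
      refine tendsto_integral_of_dominated_convergence (fun x => ‖γ x‖) (fun n => ?_) hγ.norm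
        (fun n => Eventually.of_forall fun x => ?_) (Eventually.of_forall fun x => ?_)
      · exact (Continuous.aestronglyMeasurable (by fun_prop)).mul hγ.aestronglyMeasurable
      · rw [norm_mul]
        refine mul_le_of_le_one_left (norm_nonneg _) ?_
        simpa using thickenedIndicator_le_one (hp n) F x
      · have h1 := (NNReal.tendsto_coe.2 (key x)).mul_const (γ x)
        by_cases hx : x ∈ F
        · simpa [hx] using h1
        · simpa [hx] using h1
    rw [← integral_indicator hF.measurableSet]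
    exact ge_of_tendsto' T fun n => h _ (by fun_prop) fun x => NNReal.coe_nonneg _
  set g := hγ.aemeasurable.mk γ with hg
  have hgm : Measurable g := hγ.aemeasurable.measurable_mk
  have hge : γ =ᵐ[μ] g := hγ.aemeasurable.ae_eq_mk
  have hS : MeasurableSet {x | g x < 0} := measurableSet_lt hgm measurable_const
  have h0 : μ {x | g x < 0} = 0 := by
    by_contra hne
    obtain ⟨F, hFS, hF, hpos⟩ := hS.exists_lt_isClosed_of_ne_top (measure_ne_top μ _)
      (pos_iff_ne_zero.2 hne)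
    have hneg : ∀ᵐ x ∂(μ.restrict F), 0 < -γ x := by
      filter_upwards [ae_restrict_mem hF.measurableSet, ae_restrict_of_ae hge] with x hx e
      rw [e]
      exact neg_pos.2 (hFS hx)
    have h1 : ∫ x in F, -γ x ∂μ = 0 := by
      refine le_antisymm ?_ (integral_nonneg_of_ae (hneg.mono fun x hx => hx.le))
      rw [integral_neg]
      exact neg_nonpos.2 (hcl F hF)
    have h2 := (setIntegral_eq_zero_iff_of_nonneg_ae (hneg.mono fun x hx => hx.le)
      hγ.neg.integrableOn).1 h1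
    have h3 : ∀ᵐ x ∂(μ.restrict F), False := by
      filter_upwards [hneg, h2] with x a b
      exact a.ne' b
    rw [eventually_false_iff_eq_bot, ae_eq_bot, Measure.restrict_eq_zero] at h3
    exact hpos.ne' h3
  have h4 : ∀ᵐ x ∂μ, ¬ g x < 0 := ae_iff.2 (by simpa using h0)
  filter_upwards [h4, hge] with x a e
  rw [e]
  exact not_lt.1 a

theorem ae_eq_of_integral {μ : Measure X} [IsFiniteMeasure μ] {γ γ' : X → ℝ}
    (hγ : Integrable γ μ) (hγ' : Integrable γ' μ)
    (h : ∀ h : X → ℝ, Continuous h → ∫ x, h x * γ x ∂μ = ∫ x, h x * γ' x ∂μ) :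
    γ =ᵐ[μ] γ' := by
  have hi : ∀ {k u : X → ℝ}, Continuous k → Integrable u μ → Integrable (fun x => k x * u x) μ :=
    fun {k u} hk hu => by
      obtain ⟨A, -, hA⟩ := exists_abs_le hk
      exact hu.bdd_mul hk.aestronglyMeasurable (Eventually.of_forall hA)
  have h1 := ae_nonneg_of_integral (hγ.sub hγ') fun k hk _ => by
    simp only [Pi.sub_apply, mul_sub]
    rw [integral_sub (hi hk hγ) (hi hk hγ'), h k hk, sub_self]
  have h2 := ae_nonneg_of_integral (hγ'.sub hγ) fun k hk _ => by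
    simp only [Pi.sub_apply, mul_sub]
    rw [integral_sub (hi hk hγ') (hi hk hγ), h k hk, sub_self]
  filter_upwards [h1, h2] with x a b
  simp only [Pi.sub_apply] at a b
  linarith

private theorem h50_inner (μ : Measure X) [IsFiniteMeasure μ] (h : C(X, ℝ)) (g : Lp ℝ 2 μ) :
    inner ℝ g (ContinuousMap.toLp (E := ℝ) 2 μ ℝ h) = ∫ x, h x * g x ∂μ := by
  rw [L2.inner_def]
  refine integral_congr_ae ?_
  filter_upwards [ContinuousMap.coeFn_toLp (p := 2) (𝕜 := ℝ) μ h] with x hx
  rw [hx]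
  simp

private theorem h50_l1_le (μ : Measure X) [IsFiniteMeasure μ] (h : C(X, ℝ)) :
    ∫ x, |h x| ∂μ ≤ ‖ContinuousMap.toLp (E := ℝ) 2 μ ℝ (1 : C(X, ℝ))‖ *
      ‖ContinuousMap.toLp (E := ℝ) 2 μ ℝ h‖ := by
  let a : C(X, ℝ) := ⟨fun x => |h x|, h.continuous.abs⟩
  have e1 : ∫ x, |h x| ∂μ = inner ℝ (ContinuousMap.toLp (E := ℝ) 2 μ ℝ (1 : C(X, ℝ)))
      (ContinuousMap.toLp (E := ℝ) 2 μ ℝ a) := by
    rw [h50_inner]
    refine integral_congr_ae ?_
    filter_upwards [ContinuousMap.coeFn_toLp (p := 2) (𝕜 := ℝ) μ (1 : C(X, ℝ))] with x hx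
    rw [hx]
    simp [a]
  have e2 : ‖ContinuousMap.toLp (E := ℝ) 2 μ ℝ a‖ ≤ ‖ContinuousMap.toLp (E := ℝ) 2 μ ℝ h‖ := by
    refine Lp.norm_le_norm_of_ae_le ?_
    filter_upwards [ContinuousMap.coeFn_toLp (p := 2) (𝕜 := ℝ) μ a,
      ContinuousMap.coeFn_toLp (p := 2) (𝕜 := ℝ) μ h] with x hx hx'
    rw [hx, hx']
    simp [a]
  rw [e1]
  exact (real_inner_le_norm _ _).trans (mul_le_mul_of_nonneg_left e2 (norm_nonneg _))

/-- a linear functional on continuous functions bounded by the `L¹(μ)` norm has a bounded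
density: `h ↦ Λ h + K ∫ h` is positive, `RealRMK.rieszMeasure` (on `C_c(X,ℝ)`) gives a measure
`ν ≤ 2K μ`; take `rnDeriv ν μ - K`, clipped to `[-K,K]`. -/
theorem exists_density (μ : Measure X) [IsFiniteMeasure μ] (Λ : (X → ℝ) → ℝ) {K : ℝ} (hK : 0 ≤ K)
    (hadd : ∀ h h', Continuous h → Continuous h' → Λ (fun x => h x + h' x) = Λ h + Λ h')
    (hsmul : ∀ (c : ℝ) h, Continuous h → Λ (fun x => c * h x) = c * Λ h)
    (hb : ∀ h, Continuous h → |Λ h| ≤ K * ∫ x, |h x| ∂μ) :
    ∃ γ : X → ℝ, Measurable γ ∧ (∀ x, |γ x| ≤ K) ∧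
      ∀ h, Continuous h → Λ h = ∫ x, h x * γ x ∂μ := by
  let L : C(X, ℝ) →ₗ[ℝ] ℝ :=
    { toFun := fun h => Λ h
      map_add' := fun h h' => hadd h h' h.continuous h'.continuous
      map_smul' := fun c h => hsmul c h h.continuous }
  let e : C(X, ℝ) →ₗ[ℝ] Lp ℝ 2 μ := (ContinuousMap.toLp (E := ℝ) 2 μ ℝ).toLinearMap
  have hd : DenseRange e := ContinuousMap.toLp_denseRange ℝ μ ℝ (by simp)
  have hn : ∃ C, ∀ h, ‖L h‖ ≤ C * ‖e h‖ := by
    refine ⟨K * ‖ContinuousMap.toLp (E := ℝ) 2 μ ℝ (1 : C(X, ℝ))‖, fun h => ?_⟩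
    rw [mul_assoc]
    exact (hb h h.continuous).trans (mul_le_mul_of_nonneg_left (h50_l1_le μ h) hK)
  let g : Lp ℝ 2 μ := (InnerProductSpace.toDual ℝ (Lp ℝ 2 μ)).symm (L.extendOfNorm e)
  have hg : ∀ h : X → ℝ, Continuous h → Λ h = ∫ x, h x * g x ∂μ := by
    intro h hh
    have e1 := LinearMap.extendOfNorm_eq hd hn ⟨h, hh⟩
    have e2 := h50_inner μ ⟨h, hh⟩ g
    have e3 : inner ℝ g (ContinuousMap.toLp (E := ℝ) 2 μ ℝ ⟨h, hh⟩) =
        L.extendOfNorm e (e ⟨h, hh⟩) := InnerProductSpace.toDual_symm_apply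
    rw [e3, e1] at e2
    exact e2
  have hgi : Integrable g μ := (Lp.memLp g).integrable (by norm_num)
  have hint : ∀ h : X → ℝ, Continuous h → Integrable h μ := fun h hh =>
    hh.integrable_of_hasCompactSupport (HasCompactSupport.of_compactSpace h)
  have hint' : ∀ h : X → ℝ, Continuous h → Integrable (fun x => h x * g x) μ := by
    intro h hh
    obtain ⟨C, _, hC⟩ := exists_abs_le hh
    exact hgi.bdd_mul hh.aestronglyMeasurable (c := C) (Eventually.of_forall hC)
  have key : ∀ σ : ℝ, |σ| = 1 → ∀ᵐ x ∂μ, 0 ≤ K + σ * g x := by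
    intro σ hσ
    refine ae_nonneg_of_integral ((integrable_const K).add (hgi.const_mul σ)) fun h hh h0 => ?_
    have e1 : ∫ x, h x * (K + σ * g x) ∂μ = K * ∫ x, |h x| ∂μ + σ * Λ h := by
      rw [hg h hh, ← integral_const_mul, ← integral_const_mul,
        ← integral_add ((hint h hh).abs.const_mul K) ((hint' h hh).const_mul σ)]
      refine integral_congr_ae (Eventually.of_forall fun x => ?_)
      simp only [abs_of_nonneg (h0 x)]
      ring
    have e2 : |σ * Λ h| ≤ K * ∫ x, |h x| ∂μ := by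
      rw [abs_mul, hσ, one_mul]; exact hb h hh
    have e3 := neg_abs_le (σ * Λ h)
    change 0 ≤ ∫ x, h x * (K + σ * g x) ∂μ
    rw [e1]
    linarith
  refine ⟨fun x => max (-K) (min K (g x)),
    measurable_const.max (measurable_const.min (Lp.stronglyMeasurable g).measurable),
    fun x => abs_le.2 ⟨le_max_left _ _, max_le (by linarith) (min_le_left _ _)⟩, fun h hh => ?_⟩
  rw [hg h hh]
  refine integral_congr_ae ?_
  filter_upwards [key 1 (by simp), key (-1) (by simp)] with x h1 h2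
  rw [min_eq_right (by linarith), max_eq_right (by linarith)]

/-- de-linearising AM-GM: for `δ > 0` approximate `β₀ = 1/√(a⁺+δ²)` in `L¹(μ)` by continuous
functions clipped to the range of `β₀`; `(a β₀ + 1/β₀)/2 ≤ √a + δ`. -/
theorem le_integral_sqrt {μ : Measure X} [IsFiniteMeasure μ] {a η : X → ℝ}
    (ha : AEMeasurable a μ) {C : ℝ} (hC : ∀ᵐ x ∂μ, 0 ≤ a x ∧ a x ≤ C) (hη : Continuous η)
    (hη0 : ∀ x, 0 ≤ η x) {c : ℝ}
    (h : ∀ β : X → ℝ, Continuous β → (∀ x, 0 < β x) →
      c ≤ ∫ x, η x * ((a x * β x + (β x)⁻¹) / 2) ∂μ) :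
    c ≤ ∫ x, η x * √(a x) ∂μ := by
  obtain ⟨H, hH0, hH⟩ := exists_abs_le hη
  have hsm : AEMeasurable (fun x => √(a x)) μ := ha.sqrt
  have hsb : ∀ᵐ x ∂μ, |√(a x)| ≤ √C := hC.mono fun x hx => by
    rw [abs_of_nonneg (Real.sqrt_nonneg _)]
    exact Real.sqrt_le_sqrt hx.2
  have hsi : Integrable (fun x => √(a x)) μ := by
    simpa using integrable_mul_of_bdd (h := fun _ : X => (1 : ℝ)) continuous_const hsm hsb
  have hηs : Integrable (fun x => η x * √(a x)) μ := integrable_mul_of_bdd hη hsm hsb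
  have hab : ∀ᵐ x ∂μ, |a x| ≤ C := hC.mono fun x hx => by rw [abs_of_nonneg hx.1]; exact hx.2
  refine le_of_forall_pos_le_add fun θ hθ => ?_
  have hm : 0 ≤ μ.real univ := measureReal_nonneg
  obtain ⟨δ, hδ, hδe⟩ : ∃ δ : ℝ, 0 < δ ∧ H * δ / 2 * μ.real univ ≤ θ / 2 := by
    refine ⟨θ / (H * μ.real univ + 1), by positivity, ?_⟩
    have : θ / (H * μ.real univ + 1) * (H * μ.real univ + 1) = θ := by field_simp
    have h2 : 0 < θ / (H * μ.real univ + 1) := by positivity
    nlinarith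
  obtain ⟨L, hL, hLe⟩ : ∃ L : ℝ, 0 ≤ L ∧ L = H * (1 + √C / δ) / 2 := ⟨_, by positivity, rfl⟩
  obtain ⟨ε, hε, hεe⟩ : ∃ ε : ℝ, 0 < ε ∧ L * ε ≤ θ / 2 := by
    refine ⟨θ / 2 / (L + 1), by positivity, ?_⟩
    have : θ / 2 / (L + 1) * (L + 1) = θ / 2 := by field_simp
    have h2 : 0 < θ / 2 / (L + 1) := by positivity
    nlinarith
  obtain ⟨g, hg, hgi⟩ := hsi.exists_boundedContinuous_integral_sub_le hε
  have hr : Continuous fun x => max (g x) 0 + δ := by fun_prop
  have hrp : ∀ x, 0 < max (g x) 0 + δ := fun x => add_pos_of_nonneg_of_pos (le_max_right _ _) hδ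
  have hβ : Continuous fun x => (max (g x) 0 + δ)⁻¹ := hr.inv₀ fun x => (hrp x).ne'
  have hdi : Integrable (fun x => ‖√(a x) - g x‖) μ := (hsi.sub hgi).norm
  have hli : Integrable (fun x => η x * ((a x * (max (g x) 0 + δ)⁻¹ +
      ((max (g x) 0 + δ)⁻¹)⁻¹) / 2)) μ := by
    have h1 := integrable_mul_of_bdd (hη.mul hβ) ha hab
    have h2 := integrable_mul_of_bdd (μ := μ) (γ := fun _ => (1 : ℝ)) (hη.mul hr)
      aemeasurable_const (C := 1) (Eventually.of_forall fun _ => by simp)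
    refine ((h1.add h2).div_const 2).congr (Eventually.of_forall fun x => ?_)
    simp only [Pi.add_apply, Pi.mul_apply, inv_inv]
    ring
  have hci : Integrable (fun _ : X => H * δ / 2) μ := integrable_const _
  refine (h _ hβ fun x => inv_pos.2 (hrp x)).trans ((integral_mono_ae hli
    ((hηs.add hci).add (hdi.const_mul L)) ?_).trans ?_)
  · filter_upwards [hC] with x hx
    simp only [Pi.add_apply, inv_inv, Real.norm_eq_abs]
    have hs0 := Real.sqrt_nonneg (a x)
    have hsS : √(a x) ≤ √C := Real.sqrt_le_sqrt hx.2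
    have ht0 : 0 ≤ max (g x) 0 := le_max_right _ _
    have hd : |√(a x) - max (g x) 0| ≤ |√(a x) - g x| := by
      have := abs_max_sub_max_le_abs (√(a x)) (g x) 0
      rwa [max_eq_left hs0] at this
    have hηx : η x ≤ H := (le_abs_self _).trans (hH x)
    have hsq := Real.mul_self_sqrt hx.1
    generalize √(a x) = s at *
    generalize max (g x) 0 = t at *
    generalize |s - g x| = d at *
    obtain ⟨hd1, hd2⟩ := abs_le.1 hd
    have hd0 : 0 ≤ d := (abs_nonneg _).trans hd
    have hq : 0 ≤ √C / δ * d := by positivity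
    have k1 : a x * (t + δ)⁻¹ ≤ s + √C / δ * d := by
      rw [← div_eq_mul_inv, div_le_iff₀ (by linarith), ← hsq]
      have e : √C / δ * d * δ = √C * d := by field_simp
      nlinarith [mul_nonneg hq ht0, mul_le_mul_of_nonneg_right hsS hd0,
        mul_le_mul_of_nonneg_left (show s ≤ t + d by linarith) hs0, mul_nonneg hs0 hδ.le]
    have k2 : (a x * (t + δ)⁻¹ + (t + δ)) / 2 ≤ s + (δ / 2 + (1 + √C / δ) / 2 * d) := by
      linarith
    have k3 := mul_le_mul_of_nonneg_left k2 (hη0 x)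
    have k4 := mul_le_mul_of_nonneg_right hηx
      (show 0 ≤ δ / 2 + (1 + √C / δ) / 2 * d by positivity)
    rw [hLe]
    linarith
  · rw [integral_add' (hηs.add hci) (hdi.const_mul L), integral_add' hηs hci, integral_const,
      integral_const_mul, smul_eq_mul]
    have := mul_le_mul_of_nonneg_left hg hL
    linarith

/-- ultralimit of finite measures of bounded mass on a compact space
(`isCompact_setOfPred_finiteMeasure_le_of_compactSpace`). -/
theorem exists_ultra_measure (μ : ℕ → Measure X) [∀ n, IsFiniteMeasure (μ n)] {M : ℝ}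
    (hM : ∀ n, (μ n).real univ ≤ M) (U : Ultrafilter ℕ) :
    ∃ ν : Measure X, IsFiniteMeasure ν ∧
      ∀ h : X → ℝ, Continuous h → Tendsto (fun n => ∫ x, h x ∂(μ n)) U (𝓝 (∫ x, h x ∂ν)) := by
  let m : ℕ → FiniteMeasure X := fun n => ⟨μ n, inferInstance⟩
  have hm : ∀ n, m n ∈ {μ : FiniteMeasure X | μ.mass ≤ M.toNNReal} := fun n => by
    have h1 : ((m n).mass : ℝ) = (μ n).real univ := rfl
    have h2 : ((m n).mass : ℝ) ≤ (M.toNNReal : ℝ) := by
      rw [h1]; exact (hM n).trans (Real.le_coe_toNNReal M)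
    exact_mod_cast h2
  obtain ⟨ν, -, hν⟩ := isCompact_iff_ultrafilter_le_nhds.1
    (isCompact_setOfPred_finiteMeasure_le_of_compactSpace X M.toNNReal) (U.map m)
    (le_principal_iff.2 (Ultrafilter.mem_coe.2 (Ultrafilter.mem_map.2 (univ_mem' hm))))
  have ht : Tendsto m U (𝓝 ν) := hν
  refine ⟨ν, inferInstance, fun h hh => ?_⟩
  exact FiniteMeasure.tendsto_iff_forall_integral_tendsto.1 ht
    (BoundedContinuousFunction.mkOfCompact ⟨h, hh⟩)

private theorem helper62_closed {μ : ℕ → Measure X} [∀ n, IsFiniteMeasure (μ n)] {ν : Measure X}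
    [IsFiniteMeasure ν] {U : Filter ℕ}
    (h : ∀ h : X → ℝ, Continuous h → Tendsto (fun n => ∫ x, h x ∂(μ n)) U (𝓝 (∫ x, h x ∂ν)))
    {F : Set X} (hF : IsClosed F) {c : ℝ} (hc : ν.real F < c) : ∀ᶠ n in U, (μ n).real F < c := by
  let m : ℕ → FiniteMeasure X := fun n => ⟨μ n, inferInstance⟩
  let m0 : FiniteMeasure X := ⟨ν, inferInstance⟩
  have ht : Tendsto m U (𝓝 m0) :=
    FiniteMeasure.tendsto_iff_forall_integral_tendsto.2 fun f => h f f.continuous
  have h1 : (U.limsup fun n => μ n F) ≤ ν F :=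
    FiniteMeasure.limsup_measure_closed_le_of_tendsto ht hF
  have h2 : ν F < ENNReal.ofReal c :=
    (ENNReal.lt_ofReal_iff_toReal_lt (measure_ne_top ν F)).2 hc
  filter_upwards [eventually_lt_of_limsup_lt (h1.trans_lt h2)] with n hn
  exact (ENNReal.lt_ofReal_iff_toReal_lt (measure_ne_top (μ n) F)).1 hn

/-- portmanteau, closed sets. -/
theorem le_real_closed {μ : ℕ → Measure X} [∀ n, IsFiniteMeasure (μ n)] {ν : Measure X}
    [IsFiniteMeasure ν] {U : Filter ℕ} [U.NeBot]
    (h : ∀ h : X → ℝ, Continuous h → Tendsto (fun n => ∫ x, h x ∂(μ n)) U (𝓝 (∫ x, h x ∂ν)))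
    {F : Set X} (hF : IsClosed F) {c : ℝ} (hc : ∀ᶠ n in U, c ≤ (μ n).real F) : c ≤ ν.real F := by
  by_contra hlt
  obtain ⟨n, h1, h2⟩ := (hc.and (helper62_closed h hF (not_le.1 hlt))).exists
  exact absurd h1 (not_le.2 h2)

/-- portmanteau, open sets. -/
theorem eventually_lt_real_open {μ : ℕ → Measure X} [∀ n, IsFiniteMeasure (μ n)] {ν : Measure X}
    [IsFiniteMeasure ν] {U : Filter ℕ}
    (h : ∀ h : X → ℝ, Continuous h → Tendsto (fun n => ∫ x, h x ∂(μ n)) U (𝓝 (∫ x, h x ∂ν)))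
    {O : Set X} (hO : IsOpen O) {c : ℝ} (hc : c < ν.real O) : ∀ᶠ n in U, c < (μ n).real O := by
  have h1 : Tendsto (fun n => (μ n).real univ) U (𝓝 (ν.real univ)) := by
    simpa using h (fun _ => 1) continuous_const
  have h2 := helper62_closed h hO.isClosed_compl
    (c := ν.real Oᶜ + (ν.real O - c) / 2) (by linarith)
  have h3 := h1.eventually_const_lt (u := ν.real univ - (ν.real O - c) / 2) (by linarith)
  filter_upwards [h2, h3] with n h2 h3
  have e1 := measureReal_add_measureReal_compl (μ := μ n) hO.measurableSet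
  have e2 := measureReal_add_measureReal_compl (μ := ν) hO.measurableSet
  linarith

end Crest.Agent.R241.KU
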