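import Crest.Agent.R241.KVar
import Crest.Agent.R241.KRiesz
import Crest.Agent.R241.AlmCalc
import Crest.Agent.R241.AlmOneCalc

/-! Row 241 (Cartan-Hadamard): block G: model functions and CAT geometry. -/

set_option autoImplicit false

open MeasureTheory Set Filter Topology
open scoped ENNReal NNReal Matrix ContDiff

namespace Crest.Agent.R241

open Crest.GeometryTopology.Submanifold

universe u v

section Model
variable {l : ℝ}

theorem sn_zero (l : ℝ) : sn l 0 = 0 := Alm.sn_zero l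
theorem md_zero (l : ℝ) : md l 0 = 0 := Alm.md_zero l
theorem sn_zero_left (r : ℝ) : sn 0 r = r := Alm.sn_zero_left r
theorem md_zero_left (r : ℝ) : md 0 r = r ^ 2 / 2 := Alm.md_zero_left r
theorem hasDerivAt_md (hl : 0 ≤ l) (r : ℝ) : HasDerivAt (md l) (sn l r) r :=
  Alm.hasDerivAt_md hl r
theorem hasDerivAt_sn (hl : 0 ≤ l) (r : ℝ) : HasDerivAt (sn l) (1 + l * md l r) r :=
  Alm.cs_eq hl r ▸ Alm.hasDerivAt_sn hl r
theorem contDiff_md (l : ℝ) : ContDiff ℝ ∞ (md l) := by
  unfold md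
  split_ifs
  · fun_prop
  · exact ((Real.contDiff_cosh.comp (contDiff_const.mul contDiff_id)).sub contDiff_const).div_const _
theorem contDiff_sn (l : ℝ) : ContDiff ℝ ∞ (sn l) := by
  unfold sn snk
  split_ifs
  · exact contDiff_id
  · exact (Real.contDiff_sinh.comp (contDiff_const.mul contDiff_id)).div_const _
theorem md_nonneg (hl : 0 ≤ l) (r : ℝ) : 0 ≤ md l r := Alm.md_nonneg hl r
theorem md_neg (l r : ℝ) : md l (-r) = md l r := Alm.md_neg l r
theorem sn_sq (hl : 0 ≤ l) (r : ℝ) : sn l r ^ 2 = 2 * md l r + l * md l r ^ 2 :=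
  Alm.sn_sq hl r
theorem le_sn (hl : 0 ≤ l) {r : ℝ} (hr : 0 ≤ r) : r ≤ sn l r := Alm.le_sn hl hr
theorem sn_nonneg (hl : 0 ≤ l) {r : ℝ} (hr : 0 ≤ r) : 0 ≤ sn l r := Alm.sn_nonneg hl hr
theorem sn_pos (hl : 0 ≤ l) {r : ℝ} (hr : 0 < r) : 0 < sn l r := Alm.sn_pos hl hr
theorem sn_strictMono (hl : 0 ≤ l) : StrictMono (sn l) := Alm.strictMono_sn hl
theorem sn_surj (hl : 0 ≤ l) {s : ℝ} (hs : 0 ≤ s) : ∃ r, 0 ≤ r ∧ sn l r = s := by
  obtain ⟨r, hr, h⟩ : s ∈ sn l '' Icc 0 s :=
    intermediate_value_Icc hs (Alm.continuous_sn hl).continuousOn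
      ⟨by rw [sn_zero]; exact hs, le_sn hl hs⟩
  exact ⟨r, hr.1, h⟩
theorem md_strictMonoOn (hl : 0 ≤ l) : StrictMonoOn (md l) (Ici 0) := Alm.strictMonoOn_md hl
theorem half_sq_le_md (hl : 0 ≤ l) (r : ℝ) : r ^ 2 / 2 ≤ md l r := by
  rw [Alm.md_half hl, ← sq_abs r]
  have h1 := le_sn hl (r := |r| / 2) (by positivity)
  have h2 : sn l (r / 2) ^ 2 = sn l (|r| / 2) ^ 2 := by
    have a := Alm.md_half hl r
    have b := Alm.md_half hl |r|
    rw [Alm.md_abs] at b
    linarith
  rw [h2]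
  have h3 : (|r| / 2) ^ 2 ≤ sn l (|r| / 2) ^ 2 := pow_le_pow_left₀ (by positivity) h1 2
  nlinarith
/-- addition formulas. -/
theorem sn_add (hl : 0 ≤ l) (a b : ℝ) :
    sn l (a + b) = sn l a * (1 + l * md l b) + (1 + l * md l a) * sn l b := by
  rw [← Alm.cs_eq hl, ← Alm.cs_eq hl]
  rcases hl.eq_or_lt with rfl | hl
  · simp [sn_zero_left, Alm.cs_zero_left]
  · simp only [Alm.sn_of_pos hl, Alm.cs, mul_add, Real.sinh_add]; ring
theorem md_add (hl : 0 ≤ l) (a b : ℝ) :
    md l (a + b) = md l a + md l b + l * md l a * md l b + sn l a * sn l b := by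
  rcases hl.eq_or_lt with rfl | hl
  · simp only [sn_zero_left, md_zero_left]; ring
  · have h := Real.mul_self_sqrt hl.le
    have h0 : 0 < √l := Real.sqrt_pos.2 hl
    simp only [Alm.sn_of_pos hl, Alm.md_of_pos hl, mul_add, Real.cosh_add]
    rw [div_mul_div_comm, h]
    field_simp
    ring
/-- convexity of `sn` on `[0, ∞)`. -/
theorem sn_ratio_le (hl : 0 ≤ l) {ρ r : ℝ} (h0 : 0 ≤ ρ) (h : ρ ≤ r) : sn l ρ * r ≤ ρ * sn l r := by
  have hc : ConvexOn ℝ (Ici 0) (sn l) := by
    refine MonotoneOn.convexOn_of_deriv (convex_Ici 0) (Alm.continuous_sn hl).continuousOn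
      (fun x _ => (hasDerivAt_sn hl x).differentiableAt.differentiableWithinAt) ?_
    intro x hx y hy hxy
    rw [(hasDerivAt_sn hl x).deriv, (hasDerivAt_sn hl y).deriv]
    have := (md_strictMonoOn hl).monotoneOn (interior_subset hx) (interior_subset hy) hxy
    nlinarith
  rcases (h0.trans h).eq_or_lt with hr | hr
  · have : ρ = 0 := le_antisymm (hr ▸ h) h0
    rw [this, ← hr]; simp
  · have h1 := hc.2 (mem_Ici.2 le_rfl) (mem_Ici.2 hr.le)
      (sub_nonneg.2 ((div_le_one hr).2 h)) (div_nonneg h0 hr.le) (by ring)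
    simp only [smul_eq_mul, mul_zero, zero_add, sn_zero, div_mul_cancel₀ _ hr.ne'] at h1
    rw [div_mul_eq_mul_div, le_div_iff₀ hr] at h1
    exact h1
theorem coneW_nonneg (hl : 0 ≤ l) (n : ℕ) {r : ℝ} (hr : 0 ≤ r) : 0 ≤ coneW n l r :=
  Alm.coneW_nonneg n hl hr
theorem coneW_le (hl : 0 ≤ l) (n : ℕ) {r : ℝ} (hr : 0 ≤ r) : coneW n l r ≤ r / (n + 1) := by
  rw [← Alm.coneW_zero_left n hr]
  rcases hr.eq_or_lt with rfl | hr'
  · simp [coneW]
  refine intervalIntegral.integral_mono_on hr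
    ((((Alm.continuous_sn hl).div_const _).pow n).intervalIntegrable _ _)
    ((((Alm.continuous_sn le_rfl).div_const _).pow n).intervalIntegrable _ _) fun t ht => ?_
  refine pow_le_pow_left₀ (div_nonneg (sn_nonneg hl ht.1) (sn_nonneg hl hr)) ?_ n
  rw [sn_zero_left, sn_zero_left, div_le_div_iff₀ (sn_pos hl hr') hr']
  exact sn_ratio_le hl ht.1 ht.2
theorem coneW_one (hl : 0 ≤ l) (r : ℝ) : coneW 1 l r = md l r / sn l r := Alm.coneW_one hl r
theorem measurable_coneW (n : ℕ) (l : ℝ) : Measurable (coneW n l) := by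
  have hc : Continuous (sn l) := (contDiff_sn l).continuous
  have : coneW n l = fun r => (∫ ρ in (0 : ℝ)..r, sn l ρ ^ n) / sn l r ^ n := by
    funext r
    simp only [coneW, div_pow, intervalIntegral.integral_div]
  rw [this]
  exact (intervalIntegral.continuous_primitive
    (fun a b => (hc.pow n).intervalIntegrable a b) 0).measurable.div (hc.pow n).measurable
theorem unitBallVol_pos (n : ℕ) : 0 < unitBallVol n := Alm.unitBallVol_pos n
theorem sA_pos (n : ℕ) : 0 < sA n := Alm.sA_pos n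
theorem sA_eq (n : ℕ) : sA n = (n + 1) * unitBallVol (n + 1) := Alm.sA_eq n
theorem sA_one : sA 1 = 2 * Real.pi := Alm.sA_one
theorem sA_two : sA 2 = 4 * Real.pi := by
  rw [sA_eq, unitBallVol, EuclideanSpace.volume_ball_fin_three]
  simp only [ENNReal.ofReal_one, one_pow, one_mul]
  rw [ENNReal.toReal_ofReal (by positivity)]
  norm_num
  ring
theorem area_eq (n : ℕ) (l r : ℝ) : area n l r = sA n * sn l r ^ n := Alm.area_eq n l r
theorem vol_eq (n : ℕ) (l r : ℝ) : vol n l r = sA n * ∫ t in (0 : ℝ)..r, sn l t ^ n :=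
  Alm.vol_eq n l r
theorem vol_zero_left (n : ℕ) (r : ℝ) : vol n 0 r = unitBallVol (n + 1) * r ^ (n + 1) :=
  Alm.vol_zero_left n r
theorem hasDerivAt_vol (n : ℕ) (l r : ℝ) : HasDerivAt (vol n l) (area n l r) r := by
  have hc : Continuous (sn l) := (contDiff_sn l).continuous
  have : vol n l = fun r => sA n * ∫ t in (0 : ℝ)..r, sn l t ^ n := funext (vol_eq n l)
  rw [this, area_eq]
  exact ((hc.pow n).integral_hasStrictDerivAt 0 r).hasDerivAt.const_mul _

end Model

section Cat
variable {X : Type u} [MetricSpace X] {l : ℝ}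

theorem lip_dist (x : X) : LipschitzWith 1 (dist x) := LipschitzWith.dist_right x

/-- `Dx` is Lipschitz on a compact space. -/
theorem lip_Dx [CompactSpace X] (l : ℝ) (x : X) : Lip (Dx l x) :=
  KU.lip_comp ((contDiff_md l).of_le (by exact_mod_cast le_top)) (KU.lip_dist x)

/-- Bruhat-Tits inequality ⇒ point-side comparison (dyadic induction + continuity), applied twice. -/
theorem catSp_of_isCATZero (hX : Crest.GeometryTopology.MetricCurrent.IsCATZero X) :
    Nonempty (CatSp 0 X) := nonempty_catSp_zero hX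

/-- the cone map is jointly Lipschitz. -/
theorem CatSp.dist_geo_le (c : CatSp l X) (hl : 0 ≤ l) (x p q : X) {s t : ℝ}
    (hs : s ∈ Icc (0 : ℝ) 1) (ht : t ∈ Icc (0 : ℝ) 1) :
    dist (c.geo x p s) (c.geo x q t) ≤ dist p q + |s - t| * dist x q := by
  have h2 := c.dist_geo x q s hs t ht
  have hx : ∀ y, dist x (c.geo x y s) = s * dist x y := fun y => by
    have := c.dist_geo x y 0 ⟨le_rfl, zero_le_one⟩ s hs
    rwa [c.zero, zero_sub, abs_neg, abs_of_nonneg hs.1] at this
  have h1 : dist (c.geo x p s) (c.geo x q s) ≤ dist p q := by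
    by_cases hp : p = x
    · have h0 : c.geo x p s = x := by
        have := hx p
        rw [hp, dist_self, mul_zero] at this
        rw [hp]; exact (dist_eq_zero.1 this).symm
      rw [h0, hx, hp]
      exact mul_le_of_le_one_left dist_nonneg hs.2
    by_cases hq : q = x
    · have h0 : c.geo x q s = x := by
        have := hx q
        rw [hq, dist_self, mul_zero] at this
        rw [hq]; exact (dist_eq_zero.1 this).symm
      rw [h0, dist_comm, hx, hq, dist_comm p x]
      exact mul_le_of_le_one_left dist_nonneg hs.2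
    have ha : 0 < sn l (dist x p) := sn_pos hl (dist_pos.2 fun h => hp h.symm)
    have hb : 0 < sn l (dist x q) := sn_pos hl (dist_pos.2 fun h => hq h.symm)
    have h := c.cmp x p q s hs s hs
    have e1 : md l (s * dist x p - s * dist x q) ≤ md l (dist x p - dist x q) := by
      refine Alm.md_le_of_abs_le hl ?_
      rw [← mul_sub, abs_mul, abs_of_nonneg hs.1]
      exact mul_le_of_le_one_left (abs_nonneg _) hs.2
    have e2 : md l (dist x p - dist x q) ≤ md l (dist p q) := by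
      refine Alm.md_le_of_abs_le hl ?_
      rw [abs_of_nonneg dist_nonneg, dist_comm x p, dist_comm x q]
      exact abs_dist_sub_le p q x
    have e3 : sn l (s * dist x p) ≤ sn l (dist x p) :=
      (sn_strictMono hl).monotone (mul_le_of_le_one_left dist_nonneg hs.2)
    have e4 : sn l (s * dist x q) ≤ sn l (dist x q) :=
      (sn_strictMono hl).monotone (mul_le_of_le_one_left dist_nonneg hs.2)
    have e5 : sn l (s * dist x p) * sn l (s * dist x q) ≤ sn l (dist x p) * sn l (dist x q) :=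
      mul_le_mul e3 e4 (sn_nonneg hl (mul_nonneg hs.1 dist_nonneg)) ha.le
    refine Alm.le_of_md_le hl dist_nonneg dist_nonneg ?_
    refine le_of_mul_le_mul_left ?_ (mul_pos ha hb)
    have e6 := mul_le_mul_of_nonneg_right e5 (sub_nonneg.2 e2)
    have e7 := mul_le_mul_of_nonneg_left e1 (mul_pos ha hb).le
    nlinarith
  calc _ ≤ dist (c.geo x p s) (c.geo x q s) + dist (c.geo x q s) (c.geo x q t) :=
        dist_triangle _ _ _
    _ ≤ _ := by rw [h2]; linarith

/-- closed balls are convex, hence again `CAT(-l)`. -/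
theorem CatSp.ball (c : CatSp l X) (hl : 0 ≤ l) (o : X) (R : ℝ) :
    Nonempty (CatSp l (Metric.closedBall o R)) := c.nonempty_closedBall hl o R

/-- the radial retraction onto a closed ball is `1`-Lipschitz. -/
theorem CatSp.retr (c : CatSp l X) (hl : 0 ≤ l) (o : X) {R : ℝ} (hR : 0 ≤ R) :
    ∃ P : X → X, LipschitzWith 1 P ∧ (∀ x, dist o (P x) ≤ R) ∧ ∀ x, dist o x ≤ R → P x = x :=
  ⟨Alm.retr c o R, Alm.lipschitz_retr c hl o hR,
    fun x => by rw [Alm.dist_retr c hR]; exact min_le_right _ _,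
    fun x hx => Alm.retr_of_mem c (by rwa [Metric.mem_closedBall, dist_comm])⟩

/-- `x` = a minimiser of `y ↦ ∫ Dx l y dν`; `side` with `s → 0` gives
`∫ D_p ≥ (1 + l D_x(p)) ∫ D_x + ν(X) D_x(p)`; integrate in `p`. -/
theorem CatSp.varIneq [CompactSpace X] [Nonempty X] [MeasurableSpace X] [BorelSpace X]
    (c : CatSp l X) (hl : 0 ≤ l) : VarIneq l X := c.kvarIneq hl

end Cat

end Crest.Agent.R241
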