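import Crest.Agent.R241.KDefs

/-! Row 241, block K: density points, blow-ups, calculus of `dW`. -/

set_option autoImplicit false
open MeasureTheory Filter Topology Matrix
open Crest.GeometryTopology.Submanifold (Euc)
open Crest.GeometryTopology.MetricCurrent

namespace Crest.Agent.R241

universe u
variable {X : Type u} [MetricSpace X] {k : ℕ}

/-- Lebesgue density theorem (`Besicovitch.ae_tendsto_measure_inter_div` or
`IsUnifLocDoublingMeasure.ae_tendsto_measure_inter_div`): if the ball `closedBall w (ε r)`,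
`r = dist w z`, missed `E`, the density ratio in `closedBall z ((1+ε) r)` would be at most
`1 - (ε/(1+ε))^k`. For `w = z` take `w' = z`. -/
theorem ae_dens {E : Set (Euc k)} (hE : MeasurableSet E) :
    ∀ᵐ z ∂(volume.restrict E), Dens E z := by
  filter_upwards [Besicovitch.ae_tendsto_measure_inter_div volume E, ae_restrict_mem hE]
    with z hz hzE
  refine ⟨hzE, fun ε hε => ?_⟩
  have hε2 : 0 < ε / 2 := half_pos hε
  obtain ⟨T, -, hTf, hT⟩ := finite_cover_balls_of_compact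
    (isCompact_sphere (0 : Euc k) 1) hε2
  have hB : ∀ᶠ r in 𝓝[>] (0 : ℝ), ∀ c ∈ T, ∃ a ∈ Metric.closedBall c (ε / 2), z + r • a ∈ E := by
    rw [eventually_all_finite hTf]
    intro c _
    filter_upwards [Measure.eventually_nonempty_inter_smul_of_density_one volume E z hz _
      measurableSet_closedBall (Metric.measure_closedBall_pos volume c hε2).ne'] with r hr
    obtain ⟨y, hy, x, hx, _, ⟨a, ha, rfl⟩, rfl⟩ := hr
    rw [Set.mem_singleton_iff] at hx
    subst hx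
    exact ⟨a, ha, hy⟩
  obtain ⟨δ, hδ, H⟩ := mem_nhdsGT_iff_exists_Ioo_subset.1 hB
  refine ⟨δ, hδ, fun w hw => ?_⟩
  rcases eq_or_ne w z with rfl | hne
  · exact ⟨w, hzE, by simp⟩
  have hr : 0 < dist w z := dist_pos.2 hne
  have hu : (dist w z)⁻¹ • (w - z) ∈ Metric.sphere (0 : Euc k) 1 := by
    rw [mem_sphere_zero_iff_norm, norm_smul, norm_inv, Real.norm_of_nonneg hr.le, ← dist_eq_norm,
      inv_mul_cancel₀ hr.ne']
  obtain ⟨c, hc, hcu⟩ := Set.mem_iUnion₂.1 (hT hu)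
  obtain ⟨a, ha, haE⟩ := H ⟨hr, hw⟩ c hc
  refine ⟨_, haE, ?_⟩
  have e : z + dist w z • a - w = dist w z • (a - (dist w z)⁻¹ • (w - z)) := by
    rw [smul_sub, smul_smul, mul_inv_cancel₀ hr.ne', one_smul]
    abel
  rw [dist_eq_norm (z + dist w z • a), e, norm_smul, Real.norm_of_nonneg hr.le, mul_comm,
    ← dist_eq_norm]
  refine mul_le_mul_of_nonneg_right ?_ hr.le
  have h1 := Metric.mem_closedBall.1 ha
  have h2 := Metric.mem_ball.1 hcu
  have h3 := dist_triangle_right a ((dist w z)⁻¹ • (w - z)) c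
  linarith

theorem Dens.mono {E F : Set (Euc k)} {z : Euc k} (h : Dens E z) (hEF : E ⊆ F) : Dens F z := by
  refine ⟨hEF h.1, fun ε hε => ?_⟩
  obtain ⟨δ, hδ, H⟩ := h.2 ε hε
  exact ⟨δ, hδ, fun w hw => let ⟨w', h1, h2⟩ := H w hw; ⟨w', hEF h1, h2⟩⟩

/-- choose `w n ∈ E` almost nearest to `z + v/(n+1)`. -/
theorem Dens.blow {E : Set (Euc k)} {z : Euc k} (h : Dens E z) (v : Euc k) :
    ∃ w, Blow E z v w := by
  have hne : E.Nonempty := ⟨z, h.1⟩
  have hpos : ∀ n : ℕ, (0 : ℝ) < (n : ℝ) + 1 := fun n => by positivity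
  have hex : ∀ n : ℕ, ∃ y ∈ E, dist (z + ((n : ℝ) + 1)⁻¹ • v) y <
      Metric.infDist (z + ((n : ℝ) + 1)⁻¹ • v) E + ((n : ℝ) + 1)⁻¹ * ((n : ℝ) + 1)⁻¹ := fun n =>
    (Metric.infDist_lt_iff hne).1 (lt_add_of_pos_right _ (by have := hpos n; positivity))
  choose w hwE hw using hex
  refine ⟨w, hwE, ?_⟩
  have hinv : Tendsto (fun n : ℕ => ((n : ℝ) + 1)⁻¹) atTop (𝓝 0) := by
    simpa using tendsto_one_div_add_atTop_nhds_zero_nat (𝕜 := ℝ)
  rw [Metric.tendsto_nhds]
  intro ε hε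
  have hv : 0 < ‖v‖ + 1 := by positivity
  obtain ⟨δ, hδ, H⟩ := h.2 (ε / 2 / (‖v‖ + 1)) (by positivity)
  filter_upwards [hinv.eventually (gt_mem_nhds (half_pos hε)),
    hinv.eventually (gt_mem_nhds (div_pos hδ hv))] with n h1 h2
  have hn := hpos n
  have hd : dist (z + ((n : ℝ) + 1)⁻¹ • v) z = ((n : ℝ) + 1)⁻¹ * ‖v‖ := by
    rw [dist_eq_norm, add_sub_cancel_left, norm_smul, Real.norm_of_nonneg (inv_pos.2 hn).le]
  obtain ⟨y, hyE, hy⟩ := H (z + ((n : ℝ) + 1)⁻¹ • v) (by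
    rw [hd]
    rw [lt_div_iff₀ hv] at h2
    nlinarith [inv_pos.2 hn])
  have h3 := Metric.infDist_le_dist_of_mem (x := z + ((n : ℝ) + 1)⁻¹ • v) hyE
  rw [dist_comm] at h3
  rw [hd] at hy
  have e : ((n : ℝ) + 1) • (w n - z) - v = ((n : ℝ) + 1) • (w n - (z + ((n : ℝ) + 1)⁻¹ • v)) := by
    rw [← sub_sub, smul_sub _ (w n - z), smul_smul, mul_inv_cancel₀ hn.ne', one_smul]
  rw [dist_eq_norm, e, norm_smul, Real.norm_of_nonneg hn.le, ← dist_eq_norm, dist_comm]
  have h4 : ε / 2 / (‖v‖ + 1) * ‖v‖ ≤ ε / 2 := by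
    rw [div_mul_eq_mul_div, div_le_iff₀ hv]
    nlinarith
  have h5 : dist (z + ((n : ℝ) + 1)⁻¹ • v) (w n) <
      ((n : ℝ) + 1)⁻¹ * (ε / 2 / (‖v‖ + 1) * ‖v‖ + ((n : ℝ) + 1)⁻¹) := by
    have := hw n
    nlinarith
  calc ((n : ℝ) + 1) * dist (z + ((n : ℝ) + 1)⁻¹ • v) (w n)
      < ((n : ℝ) + 1) * (((n : ℝ) + 1)⁻¹ * (ε / 2 / (‖v‖ + 1) * ‖v‖ + ((n : ℝ) + 1)⁻¹)) :=
        mul_lt_mul_of_pos_left h5 hn
    _ = ε / 2 / (‖v‖ + 1) * ‖v‖ + ((n : ℝ) + 1)⁻¹ := by
        rw [← mul_assoc, mul_inv_cancel₀ hn.ne', one_mul]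
    _ < ε := by linarith

theorem blow_zero {E : Set (Euc k)} {z : Euc k} (h : z ∈ E) : Blow E z 0 fun _ => z :=
  ⟨fun _ => h, by simp⟩

theorem Blow.tendsto {E : Set (Euc k)} {z v : Euc k} {w : ℕ → Euc k} (h : Blow E z v w) :
    Tendsto w atTop (𝓝 z) := by
  have hinv : Tendsto (fun n : ℕ => ((n : ℝ) + 1)⁻¹) atTop (𝓝 0) := by
    simpa using tendsto_one_div_add_atTop_nhds_zero_nat (𝕜 := ℝ)
  have h1 := (hinv.smul h.2).const_add z
  rw [zero_smul, add_zero] at h1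
  refine h1.congr fun n => ?_
  have hn : ((n : ℝ) + 1) ≠ 0 := by positivity
  rw [smul_smul, inv_mul_cancel₀ hn, one_smul, add_sub_cancel]

theorem Blow.fderiv {F : Type*} [NormedAddCommGroup F] [NormedSpace ℝ F] {E : Set (Euc k)}
    {z v : Euc k} {w : ℕ → Euc k} (h : Blow E z v w) {f : Euc k → F} {f' : Euc k →L[ℝ] F}
    (hf : HasFDerivWithinAt f f' E z) :
    Tendsto (fun n : ℕ => ((n : ℝ) + 1) • (f (w n) - f z)) atTop (𝓝 (f' v)) := by
  have h0 : Tendsto (fun n => w n - z) atTop (𝓝 0) := by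
    simpa using h.tendsto.sub_const z
  have h1 := hf.lim (c := fun n : ℕ => (n : ℝ) + 1) (d := fun n => w n - z) h0
    (Eventually.of_forall fun n => by simpa using h.1 n) h.2
  simpa using h1

/-- a blow-up sequence is mapped to a blow-up sequence by a differentiable map. -/
theorem Blow.map {l : ℕ} {E : Set (Euc k)} {F : Set (Euc l)} {z v : Euc k} {w : ℕ → Euc k}
    (h : Blow E z v w) {ψ : Euc k → Euc l} {ψ' : Euc k →L[ℝ] Euc l}
    (hψ : HasFDerivWithinAt ψ ψ' E z) (hm : Set.MapsTo ψ E F) :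
    Blow F (ψ z) (ψ' v) fun n => ψ (w n) :=
  ⟨fun n => hm (h.1 n), h.fderiv hψ⟩

theorem Blow.mdN {E : Set (Euc k)} {φ : Euc k → X} {z v v' : Euc k} {w w' : ℕ → Euc k}
    (h : Blow E z v w) (h' : Blow E z v' w') {N : Euc k → ℝ} (hN : IsMDN E φ z N)
    (hc : Continuous N) (hh : ∀ (t : ℝ) (u : Euc k), 0 ≤ t → N (t • u) = t * N u) :
    Tendsto (fun n : ℕ => ((n : ℝ) + 1) * dist (φ (w n)) (φ (w' n))) atTop (𝓝 (N (v - v'))) := by
  have hpos : ∀ n : ℕ, (0 : ℝ) < (n : ℝ) + 1 := fun n => by positivity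
  have hb : Tendsto (fun n : ℕ => ((n : ℝ) + 1) * N (w n - w' n)) atTop (𝓝 (N (v - v'))) := by
    refine ((hc.tendsto _).comp (h.2.sub h'.2)).congr fun n => ?_
    simp only [Function.comp]
    rw [← smul_sub, sub_sub_sub_cancel_right, hh _ _ (hpos n).le]
  have hs : Tendsto (fun n : ℕ => ((n : ℝ) + 1) * (dist (w n) z + dist (w' n) z)) atTop
      (𝓝 (‖v‖ + ‖v'‖)) := by
    refine (h.2.norm.add h'.2.norm).congr fun n => ?_
    rw [norm_smul, norm_smul, Real.norm_of_nonneg (hpos n).le, dist_eq_norm, dist_eq_norm, mul_add]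
  have hd : Tendsto (fun n : ℕ => ((n : ℝ) + 1) * dist (φ (w n)) (φ (w' n)) -
      ((n : ℝ) + 1) * N (w n - w' n)) atTop (𝓝 0) := by
    rw [Metric.tendsto_nhds]
    intro ε hε
    have hv : 0 < ‖v‖ + ‖v'‖ + 1 := by positivity
    obtain ⟨δ, hδ, H⟩ := hN (ε / (‖v‖ + ‖v'‖ + 1)) (div_pos hε hv)
    filter_upwards [Metric.tendsto_nhds.1 h.tendsto δ hδ, Metric.tendsto_nhds.1 h'.tendsto δ hδ,
      hs.eventually (gt_mem_nhds (lt_add_one _))] with n h1 h2 h3
    have h4 := H _ (h.1 n) _ (h'.1 n) h1 h2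
    rw [Real.dist_eq, sub_zero, ← mul_sub, abs_mul, abs_of_pos (hpos n)]
    calc ((n : ℝ) + 1) * |dist (φ (w n)) (φ (w' n)) - N (w n - w' n)|
        ≤ ((n : ℝ) + 1) * (ε / (‖v‖ + ‖v'‖ + 1) * (dist (w n) z + dist (w' n) z)) :=
          mul_le_mul_of_nonneg_left h4 (hpos n).le
      _ = ε / (‖v‖ + ‖v'‖ + 1) * (((n : ℝ) + 1) * (dist (w n) z + dist (w' n) z)) := by ring
      _ < ε / (‖v‖ + ‖v'‖ + 1) * (‖v‖ + ‖v'‖ + 1) := mul_lt_mul_of_pos_left h3 (div_pos hε hv)
      _ = ε := div_mul_cancel₀ _ hv.ne'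
  simpa using hd.add hb

theorem Blow.md {E : Set (Euc k)} {φ : Euc k → X} {z v v' : Euc k} {w w' : ℕ → Euc k}
    (h : Blow E z v w) (h' : Blow E z v' w') {g : Matrix (Fin k) (Fin k) ℝ} (hg : IsMD E φ z g) :
    Tendsto (fun n : ℕ => ((n : ℝ) + 1) * dist (φ (w n)) (φ (w' n))) atTop
      (𝓝 √(qf g (v - v').ofLp)) := by
  refine h.mdN h' (N := fun v => √(qf g v.ofLp)) hg.2 ?_ fun t u ht => ?_
  · unfold qf
    fun_prop
  · have e : qf g (t • u).ofLp = t ^ 2 * qf g u.ofLp := by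
      simp only [qf, WithLp.ofLp_smul, Matrix.mulVec_smul, smul_dotProduct, dotProduct_smul,
        smul_eq_mul]
      ring
    rw [e, Real.sqrt_mul (sq_nonneg t), Real.sqrt_sq ht]

theorem Dens.uniqueDiff {E : Set (Euc k)} {z : Euc k} (h : Dens E z) :
    UniqueDiffWithinAt ℝ E z := by
  have hall : tangentConeAt ℝ E z = Set.univ := by
    refine Set.eq_univ_of_forall fun v => ?_
    obtain ⟨w, hw⟩ := h.blow v
    exact mem_tangentConeAt_of_seq atTop (fun n : ℕ => (n : ℝ) + 1) (fun n => w n - z)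
      (by simpa using hw.tendsto.sub_const z)
      (Eventually.of_forall fun n => by simpa using hw.1 n) hw.2
  refine ⟨?_, subset_closure h.1⟩
  rw [hall, Submodule.span_univ]
  exact dense_univ

theorem Dens.fderivWithin_eq {F : Type*} [NormedAddCommGroup F] [NormedSpace ℝ F]
    {E : Set (Euc k)} {z : Euc k} (h : Dens E z) {f : Euc k → F} {f' : Euc k →L[ℝ] F}
    (hf : HasFDerivWithinAt f f' E z) : fderivWithin ℝ f E z = f' :=
  hf.fderivWithin h.uniqueDiff

/-- Rademacher within `E`. -/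
theorem ae_hasFDerivWithinAt {F : Type*} [NormedAddCommGroup F] [NormedSpace ℝ F]
    [FiniteDimensional ℝ F] {E : Set (Euc k)} (hE : MeasurableSet E) {f : Euc k → F}
    {K : NNReal} (hf : LipschitzOnWith K f E) :
    ∀ᵐ z ∂(volume.restrict E), HasFDerivWithinAt f (fderivWithin ℝ f E z) E z := by
  filter_upwards [hf.ae_differentiableWithinAt hE] with z hz using hz.hasFDerivWithinAt

theorem lipOn_comp {E : Set (Euc k)} {φ : Euc k → X} {L K : NNReal} (hφ : LipschitzOnWith L φ E)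
    {u : X → ℝ} (hu : LipschitzOnWith K u (φ '' E)) :
    LipschitzOnWith (K * L) (fun w => u (φ w)) E :=
  hu.comp hφ (Set.mapsTo_image φ E)

theorem ae_hasFDeriv_dW {E : Set (Euc k)} (hE : MeasurableSet E) {φ : Euc k → X} {L K : NNReal}
    (hφ : LipschitzOnWith L φ E) {u : X → ℝ} (hu : LipschitzOnWith K u (φ '' E)) :
    ∀ᵐ z ∂(volume.restrict E), HasFDerivWithinAt (fun w => u (φ w)) (dW E φ u z) E z :=
  ae_hasFDerivWithinAt hE (lipOn_comp hφ hu)

/-- the derivative within `E` is a.e. the derivative of any Lipschitz extension. -/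
theorem ae_fderivWithin_eq_fderiv {F : Type*} [NormedAddCommGroup F] [NormedSpace ℝ F]
    [FiniteDimensional ℝ F] {E : Set (Euc k)} (hE : MeasurableSet E) {f f₁ : Euc k → F}
    {K : NNReal} (hf₁ : LipschitzWith K f₁) (h : Set.EqOn f f₁ E) :
    ∀ᵐ z ∂(volume.restrict E), fderivWithin ℝ f E z = fderiv ℝ f₁ z := by
  filter_upwards [ae_dens hE, ae_restrict_of_ae (hf₁.ae_differentiableAt (μ := volume))]
    with z h1 h2
  exact h1.fderivWithin_eq ((h2.hasFDerivAt.hasFDerivWithinAt (s := E)).congr h (h h1.1))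

/-- measurability of partial derivatives within `E` (McShane extension
`LipschitzOnWith.extend_real` + `measurable_fderiv_apply_const`). -/
theorem aemeasurable_fderivWithin {E : Set (Euc k)} (hE : MeasurableSet E) {f : Euc k → ℝ}
    {K : NNReal} (hf : LipschitzOnWith K f E) (v : Euc k) :
    AEMeasurable (fun z => fderivWithin ℝ f E z v) (volume.restrict E) := by
  obtain ⟨g, hg, hfg⟩ := hf.extend_real
  refine (measurable_fderiv_apply_const ℝ g v).aemeasurable.congr ?_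
  filter_upwards [ae_fderivWithin_eq_fderiv hE hg hfg] with z hz
  rw [hz]

theorem aemeasurable_dv {E : Set (Euc k)} (hE : MeasurableSet E) {φ : Euc k → X} {L K : NNReal}
    (hφ : LipschitzOnWith L φ E) {u : X → ℝ} (hu : LipschitzOnWith K u (φ '' E)) (j : Fin k) :
    AEMeasurable (fun z => dv E φ u z j) (volume.restrict E) :=
  aemeasurable_fderivWithin hE (lipOn_comp hφ hu) _

theorem ae_norm_fderivWithin_le_gen {F : Type*} [NormedAddCommGroup F] [NormedSpace ℝ F]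
    {E : Set (Euc k)} (hE : MeasurableSet E) {f : Euc k → F}
    {K : NNReal} (hf : LipschitzOnWith K f E) :
    ∀ᵐ z ∂(volume.restrict E), ‖fderivWithin ℝ f E z‖ ≤ K := by
  filter_upwards [ae_dens hE] with z hz
  by_cases hd : DifferentiableWithinAt ℝ f E z
  · refine ContinuousLinearMap.opNorm_le_bound _ K.2 fun v => ?_
    obtain ⟨w, hw⟩ := hz.blow v
    have h1 := (hw.fderiv hd.hasFDerivWithinAt).norm
    have h2 := (hw.2.norm).const_mul (K : ℝ)
    refine le_of_tendsto_of_tendsto' h1 h2 fun n => ?_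
    have h3 := hf.dist_le_mul (w n) (hw.1 n) z hz.1
    rw [dist_eq_norm, dist_eq_norm] at h3
    have h4 : (0 : ℝ) ≤ ‖(n : ℝ) + 1‖ := norm_nonneg _
    rw [norm_smul, norm_smul]
    nlinarith [mul_le_mul_of_nonneg_left h3 h4]
  · rw [fderivWithin_zero_of_not_differentiableWithinAt hd]
    simp

/-- restriction to a measurable subset does not change the derivative a.e. -/
theorem ae_fderivWithin_restrict {F : Type*} [NormedAddCommGroup F] [NormedSpace ℝ F]
    [FiniteDimensional ℝ F] {E A : Set (Euc k)} (hA : MeasurableSet A) (hAE : A ⊆ E)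
    {f : Euc k → F} {K : NNReal} (hf : LipschitzOnWith K f E) :
    ∀ᵐ z ∂(volume.restrict A), fderivWithin ℝ f A z = fderivWithin ℝ f E z := by
  filter_upwards [ae_dens hA,
    ae_restrict_of_ae (hf.ae_differentiableWithinAt_of_mem (μ := volume))] with z h1 h2
  exact h1.fderivWithin_eq ((h2 (hAE h1.1)).hasFDerivWithinAt.mono hAE)

theorem ae_dW_restrict {E A : Set (Euc k)} (hA : MeasurableSet A) (hAE : A ⊆ E) {φ : Euc k → X}
    {L K : NNReal} (hφ : LipschitzOnWith L φ E) {u : X → ℝ} (hu : LipschitzOnWith K u (φ '' E)) :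
    ∀ᵐ z ∂(volume.restrict A), dW A φ u z = dW E φ u z :=
  ae_fderivWithin_restrict hA hAE (lipOn_comp hφ hu)

theorem dW_congr {E : Set (Euc k)} {φ φ' : Euc k → X} {u u' : X → ℝ}
    (h : ∀ w ∈ E, u (φ w) = u' (φ' w)) {z : Euc k} (hz : z ∈ E) : dW E φ u z = dW E φ' u' z :=
  fderivWithin_congr (fun w hw => h w hw) (h z hz)

theorem dW_const (E : Set (Euc k)) (φ : Euc k → X) (c : ℝ) (z : Euc k) :
    dW E φ (fun _ => c) z = 0 := by
  simp [dW]

section calculus
variable {E : Set (Euc k)} {φ : Euc k → X} {L K K' : NNReal} {u v : X → ℝ}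

theorem ae_dW_add (hE : MeasurableSet E) (hφ : LipschitzOnWith L φ E)
    (hu : LipschitzOnWith K u (φ '' E)) (hv : LipschitzOnWith K' v (φ '' E)) :
    ∀ᵐ z ∂(volume.restrict E), dW E φ (fun y => u y + v y) z = dW E φ u z + dW E φ v z := by
  filter_upwards [ae_dens hE, ae_hasFDeriv_dW hE hφ hu, ae_hasFDeriv_dW hE hφ hv]
    with z hz h1 h2 using hz.fderivWithin_eq (h1.add h2)

theorem ae_dW_sub (hE : MeasurableSet E) (hφ : LipschitzOnWith L φ E)
    (hu : LipschitzOnWith K u (φ '' E)) (hv : LipschitzOnWith K' v (φ '' E)) :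
    ∀ᵐ z ∂(volume.restrict E), dW E φ (fun y => u y - v y) z = dW E φ u z - dW E φ v z := by
  filter_upwards [ae_dens hE, ae_hasFDeriv_dW hE hφ hu, ae_hasFDeriv_dW hE hφ hv]
    with z hz h1 h2 using hz.fderivWithin_eq (h1.sub h2)

theorem ae_dW_const_mul (hE : MeasurableSet E) (hφ : LipschitzOnWith L φ E)
    (hu : LipschitzOnWith K u (φ '' E)) (c : ℝ) :
    ∀ᵐ z ∂(volume.restrict E), dW E φ (fun y => c * u y) z = c • dW E φ u z := by
  filter_upwards [ae_dens hE, ae_hasFDeriv_dW hE hφ hu]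
    with z hz h1 using hz.fderivWithin_eq (h1.const_mul c)

theorem ae_dW_mul (hE : MeasurableSet E) (hφ : LipschitzOnWith L φ E)
    (hu : LipschitzOnWith K u (φ '' E)) (hv : LipschitzOnWith K' v (φ '' E)) :
    ∀ᵐ z ∂(volume.restrict E), dW E φ (fun y => u y * v y) z =
      u (φ z) • dW E φ v z + v (φ z) • dW E φ u z := by
  filter_upwards [ae_dens hE, ae_hasFDeriv_dW hE hφ hu, ae_hasFDeriv_dW hE hφ hv]
    with z hz h1 h2 using hz.fderivWithin_eq (h1.mul h2)

/-- chain rule, for `F` differentiable at the values of `u ∘ φ`. -/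
theorem ae_dW_comp (hE : MeasurableSet E) (hφ : LipschitzOnWith L φ E)
    (hu : LipschitzOnWith K u (φ '' E)) {F F' : ℝ → ℝ}
    (hF : ∀ w ∈ E, HasDerivAt F (F' (u (φ w))) (u (φ w))) :
    ∀ᵐ z ∂(volume.restrict E), dW E φ (fun y => F (u y)) z = F' (u (φ z)) • dW E φ u z := by
  filter_upwards [ae_dens hE, ae_hasFDeriv_dW hE hφ hu] with z hz h1
  exact hz.fderivWithin_eq ((hF z hz.1).comp_hasFDerivWithinAt z h1)

/-- locality: the derivative vanishes a.e. on a level set. -/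
theorem ae_dW_eq_zero_of_eq (hE : MeasurableSet E) (hφ : LipschitzOnWith L φ E)
    (hu : LipschitzOnWith K u (φ '' E)) (c : ℝ) :
    ∀ᵐ z ∂(volume.restrict E), u (φ z) = c → dW E φ u z = 0 := by
  have hc : ContinuousOn (fun w => u (φ w)) E := (lipOn_comp hφ hu).continuousOn
  obtain ⟨T, hT, hTE⟩ := (continuousOn_iff_isClosed.1 hc) {c} isClosed_singleton
  have hA : MeasurableSet (T ∩ E) := hT.measurableSet.inter hE
  have hmem : ∀ w, w ∈ T ∩ E ↔ u (φ w) = c ∧ w ∈ E := fun w => by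
    rw [← hTE]; rfl
  have h1 := ae_dW_restrict hA Set.inter_subset_right hφ hu
  rw [ae_restrict_iff' hA] at h1
  filter_upwards [ae_restrict_of_ae h1, ae_restrict_mem hE] with z hz hzE hzc
  have hzA : z ∈ T ∩ E := (hmem z).2 ⟨hzc, hzE⟩
  rw [← hz hzA, dW_congr (φ' := φ) (u' := fun _ => c) (fun w hw => ((hmem w).1 hw).1) hzA,
    dW_const]

end calculus

end Crest.Agent.R241
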