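import Crest.Agent.R241.Defs
import Crest.Agent.R241.KDens
import Crest.Agent.R241.KLin

/-! Row 241, block K: consequences of `MajAt`; the pointwise calculus of `Chain.G`. -/

set_option autoImplicit false
open MeasureTheory Filter Topology Matrix Set
open scoped NNReal
open Crest.GeometryTopology.Submanifold (Euc)

namespace Crest.Agent.R241

universe u
variable {X : Type u} [MetricSpace X] {k : ℕ}

theorem IsMD.majAt {E : Set (Euc k)} {φ : Euc k → X} {z : Euc k} {g : Matrix (Fin k) (Fin k) ℝ}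
    (h : IsMD E φ z g) (hz : z ∈ E) : MajAt E φ g z := by
  intro ε hε
  obtain ⟨δ, hδ, H⟩ := h.2 ε hε
  filter_upwards [self_mem_nhdsWithin, mem_nhdsWithin_of_mem_nhds (Metric.ball_mem_nhds z hδ)]
    with w hw hw'
  have := H w hw z hz hw' (by simpa using hδ)
  rw [dist_self, add_zero, dist_eq_norm w z] at this
  linarith [(abs_le.1 this).2]

theorem MajAt.mono {E A : Set (Euc k)} {φ : Euc k → X} {z : Euc k} {g : Matrix (Fin k) (Fin k) ℝ}
    (h : MajAt E φ g z) (hA : A ⊆ E) : MajAt A φ g z :=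
  fun ε hε => (h ε hε).filter_mono (nhdsWithin_mono z hA)

theorem MajAt.of_le {E : Set (Euc k)} {φ : Euc k → X} {z : Euc k}
    {g g' : Matrix (Fin k) (Fin k) ℝ} (h : MajAt E φ g z) (hg : ∀ v, qf g v ≤ qf g' v) :
    MajAt E φ g' z := fun ε hε =>
  (h ε hε).mono fun _ hw => hw.trans (add_le_add_left (Real.sqrt_le_sqrt (hg _)) _)

theorem MajAt.congr {E : Set (Euc k)} {φ φ' : Euc k → X} {z : Euc k}
    {g : Matrix (Fin k) (Fin k) ℝ} (h : MajAt E φ g z) (he : EqOn φ φ' E) (hz : z ∈ E) :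
    MajAt E φ' g z := fun ε hε => by
  filter_upwards [h ε hε, self_mem_nhdsWithin] with w hw hwE
  rwa [← he hwE, ← he hz]

theorem sqrt_qf_smul (g : Matrix (Fin k) (Fin k) ℝ) {t : ℝ} (ht : 0 ≤ t) (v : Fin k → ℝ) :
    √(qf g (t • v)) = t * √(qf g v) := by
  rw [qf_smul, Real.sqrt_mul (sq_nonneg t), Real.sqrt_sq ht]

theorem Blow.tendsto_within {E : Set (Euc k)} {z v : Euc k} {w : ℕ → Euc k} (h : Blow E z v w) :
    Tendsto w atTop (𝓝[E] z) :=
  tendsto_nhdsWithin_iff.2 ⟨h.tendsto, Eventually.of_forall h.1⟩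

theorem Blow.maj {E : Set (Euc k)} {φ : Euc k → X} {z v : Euc k} {w : ℕ → Euc k}
    (h : Blow E z v w) {g : Matrix (Fin k) (Fin k) ℝ} (hg : MajAt E φ g z) {c : ℝ}
    (hc : √(qf g v.ofLp) < c) :
    ∀ᶠ n : ℕ in atTop, ((n : ℝ) + 1) * dist (φ (w n)) (φ z) < c := by
  have hcont : Continuous fun p : ℝ × Euc k => √(qf g p.2.ofLp) + p.1 * ‖p.2‖ :=
    (((continuous_qf g).comp ((PiLp.continuous_ofLp 2 _).comp continuous_snd)).sqrt).add
      (continuous_fst.mul continuous_snd.norm)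
  have h0 : Continuous fun e : ℝ => √(qf g v.ofLp) + e * ‖v‖ :=
    continuous_const.add (continuous_id.mul continuous_const)
  have h1 : ∀ᶠ e in 𝓝 (0 : ℝ), √(qf g v.ofLp) + e * ‖v‖ < c :=
    h0.continuousAt.eventually_lt continuousAt_const (by simpa using hc)
  obtain ⟨ε, hε1, hε⟩ := (h1.filter_mono (nhdsWithin_le_nhds (s := Ioi 0))).and
    self_mem_nhdsWithin |>.exists
  have h2 := (hcont.tendsto (ε, v)).comp (tendsto_const_nhds.prodMk_nhds h.2)
  filter_upwards [h.tendsto_within.eventually (hg ε hε), h2.eventually_lt_const hε1] with n h3 h4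
  have hn : (0 : ℝ) ≤ (n : ℝ) + 1 := by positivity
  refine lt_of_le_of_lt ?_ h4
  simp only [Function.comp, WithLp.ofLp_smul, sqrt_qf_smul g hn, norm_smul, Real.norm_eq_abs,
    abs_of_nonneg hn]
  nlinarith [mul_le_mul_of_nonneg_left h3 hn]

/-- derivatives of Lipschitz functions are dominated by a majorant metric. -/
theorem MajAt.sq_le {E : Set (Euc k)} {φ : Euc k → X} {z : Euc k} {g : Matrix (Fin k) (Fin k) ℝ}
    (h : MajAt E φ g z) (hz : Dens E z) (hg : g.PosSemidef) {u : X → ℝ} {K : ℝ≥0}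
    (hu : LipschitzOnWith K u (φ '' E)) {a : Euc k →L[ℝ] ℝ}
    (ha : HasFDerivWithinAt (fun w => u (φ w)) a E z) (v : Fin k → ℝ) :
    (cv a ⬝ᵥ v) ^ 2 ≤ (K : ℝ) ^ 2 * qf g v := by
  obtain ⟨w, hw⟩ := hz.blow (WithLp.toLp 2 v)
  have t1 := (hw.fderiv ha).abs
  have e : |a (WithLp.toLp 2 v)| ≤ K * √(qf g v) := by
    have hK : (0 : ℝ) ≤ K := K.2
    have key : ∀ c, √(qf g v) < c → |a (WithLp.toLp 2 v)| ≤ K * c := fun c hc => by
      refine le_of_tendsto t1 ?_
      filter_upwards [hw.maj h hc] with n hn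
      have h1 := hu.dist_le_mul _ (mem_image_of_mem φ (hw.1 n)) _ (mem_image_of_mem φ hz.1)
      have h2 : (0 : ℝ) ≤ (n : ℝ) + 1 := by positivity
      rw [Real.dist_eq] at h1
      rw [smul_eq_mul, abs_mul, abs_of_nonneg h2]
      nlinarith [mul_le_mul_of_nonneg_left h1 h2, mul_le_mul_of_nonneg_left hn.le hK]
    have ht : Tendsto (fun c : ℝ => (K : ℝ) * c) (𝓝[>] √(qf g v)) (𝓝 (K * √(qf g v))) :=
      (tendsto_const_nhds.mul tendsto_id).mono_left nhdsWithin_le_nhds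
    exact ge_of_tendsto ht (eventually_nhdsWithin_of_forall key)
  rw [clm_apply_eq] at e
  have e2 := pow_le_pow_left₀ (abs_nonneg _) e 2
  rwa [sq_abs, mul_pow, Real.sq_sqrt (qf_nonneg hg _)] at e2

theorem cv_add (a b : Euc k →L[ℝ] ℝ) : cv (a + b) = cv a + cv b := rfl
theorem cv_sub (a b : Euc k →L[ℝ] ℝ) : cv (a - b) = cv a - cv b := rfl
theorem cv_smul (c : ℝ) (a : Euc k →L[ℝ] ℝ) : cv (c • a) = c • cv a := rfl
theorem cv_zero : cv (0 : Euc k →L[ℝ] ℝ) = 0 := rfl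

theorem gam_add_left (g : Matrix (Fin k) (Fin k) ℝ) (a a' b : Fin k → ℝ) :
    gam g (a + a') b = gam g a b + gam g a' b := add_dotProduct _ _ _

theorem gam_sub_left (g : Matrix (Fin k) (Fin k) ℝ) (a a' b : Fin k → ℝ) :
    gam g (a - a') b = gam g a b - gam g a' b := sub_dotProduct _ _ _

theorem gam_smul_left (g : Matrix (Fin k) (Fin k) ℝ) (c : ℝ) (a b : Fin k → ℝ) :
    gam g (c • a) b = c * gam g a b := smul_dotProduct _ _ _

theorem gam_zero_left (g : Matrix (Fin k) (Fin k) ℝ) (b : Fin k → ℝ) : gam g 0 b = 0 :=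
  zero_dotProduct _

theorem gam_comm {g : Matrix (Fin k) (Fin k) ℝ} (hg : g.PosSemidef) (a b : Fin k → ℝ) :
    gam g a b = gam g b a := inv_form_symm hg a b

theorem measurable_inv_entry {α : Type*} [MeasurableSpace α] {g : α → Matrix (Fin k) (Fin k) ℝ}
    (hg : ∀ i j, Measurable fun z => g z i j) (i j : Fin k) :
    Measurable fun z => (g z)⁻¹ i j := by
  simp only [Matrix.inv_def, Matrix.smul_apply, smul_eq_mul, Ring.inverse_eq_inv',
    Matrix.adjugate_apply]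
  refine (measurable_det hg).inv.mul (measurable_det fun a b => ?_)
  simp only [Matrix.updateRow_apply]
  split_ifs
  · exact measurable_const
  · exact hg a b

theorem aemeasurable_gam {α : Type*} [MeasurableSpace α] {μ : Measure α}
    {g : α → Matrix (Fin k) (Fin k) ℝ} (hg : ∀ i j, Measurable fun z => g z i j)
    {a b : α → Fin k → ℝ} (ha : ∀ i, AEMeasurable (fun z => a z i) μ)
    (hb : ∀ i, AEMeasurable (fun z => b z i) μ) :
    AEMeasurable (fun z => gam (g z) (a z) (b z)) μ := by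
  simp only [gam, dotProduct, Matrix.mulVec]
  refine Finset.aemeasurable_fun_sum _ fun i _ => (ha i).mul ?_
  exact Finset.aemeasurable_fun_sum _ fun j _ =>
    (measurable_inv_entry hg i j).aemeasurable.mul (hb j)

namespace Chain
variable (C : Chain X k) (i : C.ι)

theorem wt_nonneg (z : Euc k) : 0 ≤ C.wt i z := mul_nonneg (abs_nonneg _) (Real.sqrt_nonneg _)

theorem measurable_wt : Measurable (C.wt i) :=
  ((measurable_of_countable (fun n : ℤ => (n : ℝ))).comp (C.mθ i)).abs.mul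
    (measurable_det (C.mg i)).sqrt

theorem ae_hasFDeriv {u : X → ℝ} (hu : Lip u) : ∀ᵐ z ∂(volume.restrict (C.E i)),
    HasFDerivWithinAt (fun w => u (C.φ i w)) (dW (C.E i) (C.φ i) u z) (C.E i) z := by
  obtain ⟨L, hL⟩ := C.lip i
  obtain ⟨K, hK⟩ := hu
  exact ae_hasFDeriv_dW (C.mE i) hL hK.lipschitzOnWith

theorem ae_dv_sq_le {u : X → ℝ} {K : ℝ≥0} (hu : LipschitzWith K u) :
    ∀ᵐ z ∂(volume.restrict (C.E i)), ∀ v,
      (dv (C.E i) (C.φ i) u z ⬝ᵥ v) ^ 2 ≤ (K : ℝ) ^ 2 * qf (C.g i z) v := by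
  filter_upwards [ae_dens (C.mE i), C.maj i, C.ae_hasFDeriv i ⟨K, hu⟩] with z hz h1 h2 v
  exact h1.sq_le hz (C.psd i z) hu.lipschitzOnWith h2 v

/-- Hadamard bound for the Jacobian determinant. -/
theorem ae_abs_jdet_le {π : Fin k → X → ℝ} {K : Fin k → ℝ≥0} (hπ : ∀ a, LipschitzWith (K a) (π a)) :
    ∀ᵐ z ∂(volume.restrict (C.E i)),
      |jdet (C.E i) (C.φ i) π z| ≤ (∏ a, (K a : ℝ)) * √(C.g i z).det := by
  filter_upwards [ae_all_iff.2 fun a => C.ae_dv_sq_le i (hπ a)] with z hz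
  exact abs_det_le (C.psd i z) (fun a => (K a).2) hz

/-- sharp Hadamard bound, with the tangential gradients. -/
theorem ae_jdet_sq_le {π : Fin k → X → ℝ} (hπ : ∀ a, Lip (π a)) :
    ∀ᵐ z ∂(volume.restrict (C.E i)),
      jdet (C.E i) (C.φ i) π z ^ 2 ≤ (∏ a, C.G (π a) (π a) i z) * (C.g i z).det := by
  choose K hK using hπ
  filter_upwards [ae_all_iff.2 fun a => C.ae_dv_sq_le i (hK a)] with z hz
  refine det_sq_le (C.psd i z) (C := ∑ a, (K a : ℝ) ^ 2) fun a v => (hz a v).trans ?_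
  exact mul_le_mul_of_nonneg_right
    (Finset.single_le_sum (f := fun a => (K a : ℝ) ^ 2) (fun _ _ => sq_nonneg _)
      (Finset.mem_univ a)) (qf_nonneg (C.psd i z) v)

theorem aemeasurable_dv' {u : X → ℝ} (hu : Lip u) (j : Fin k) :
    AEMeasurable (fun z => dv (C.E i) (C.φ i) u z j) (volume.restrict (C.E i)) := by
  obtain ⟨L, hL⟩ := C.lip i
  obtain ⟨K, hK⟩ := hu
  exact aemeasurable_dv (C.mE i) hL hK.lipschitzOnWith j

theorem aemeasurable_G {u v : X → ℝ} (hu : Lip u) (hv : Lip v) :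
    AEMeasurable (C.G u v i) (volume.restrict (C.E i)) :=
  aemeasurable_gam (C.mg i) (C.aemeasurable_dv' i hu) (C.aemeasurable_dv' i hv)

theorem aemeasurable_φ [MeasurableSpace X] [BorelSpace X] :
    AEMeasurable (C.φ i) (volume.restrict (C.E i)) := by
  obtain ⟨L, hL⟩ := C.lip i
  exact hL.continuousOn.aemeasurable (C.mE i)

theorem G_nonneg (u : X → ℝ) (z : Euc k) : 0 ≤ C.G u u i z := inv_form_nonneg (C.psd i z) _

theorem G_comm (u v : X → ℝ) (z : Euc k) : C.G u v i z = C.G v u i z := gam_comm (C.psd i z) _ _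

theorem G_sq_le (u v : X → ℝ) (z : Euc k) : C.G u v i z ^ 2 ≤ C.G u u i z * C.G v v i z :=
  inv_form_sq_le (C.psd i z) _ _

theorem ae_G_self_le {u : X → ℝ} {K : ℝ≥0} (hu : LipschitzWith K u) :
    ∀ᵐ z ∂(volume.restrict (C.E i)), C.G u u i z ≤ (K : ℝ) ^ 2 := by
  filter_upwards [C.ae_dv_sq_le i hu] with z hz using inv_form_le (C.psd i z) (sq_nonneg _) hz

theorem ae_abs_G_le {u v : X → ℝ} {K K' : ℝ≥0} (hu : LipschitzWith K u) (hv : LipschitzWith K' v) :
    ∀ᵐ z ∂(volume.restrict (C.E i)), |C.G u v i z| ≤ (K : ℝ) * K' := by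
  filter_upwards [C.ae_G_self_le i hu, C.ae_G_self_le i hv] with z h1 h2
  refine abs_le_of_sq_le_sq' ((C.G_sq_le i u v z).trans ?_) (by positivity) |> abs_le.2
  rw [mul_pow]
  exact mul_le_mul h1 h2 (C.G_nonneg i v z) (sq_nonneg _)

theorem ae_G_add {u u' : X → ℝ} (hu : Lip u) (hu' : Lip u') (v : X → ℝ) :
    ∀ᵐ z ∂(volume.restrict (C.E i)),
      C.G (fun y => u y + u' y) v i z = C.G u v i z + C.G u' v i z := by
  filter_upwards [ae_dens (C.mE i), C.ae_hasFDeriv i hu, C.ae_hasFDeriv i hu'] with z hz h1 h2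
  have : dW (C.E i) (C.φ i) (fun y => u y + u' y) z = _ := hz.fderivWithin_eq (h1.add h2)
  simp only [G, dv, this, cv_add, gam_add_left]

theorem ae_G_mul {u u' : X → ℝ} (hu : Lip u) (hu' : Lip u') (v : X → ℝ) :
    ∀ᵐ z ∂(volume.restrict (C.E i)), C.G (fun y => u y * u' y) v i z =
      u (C.φ i z) * C.G u' v i z + u' (C.φ i z) * C.G u v i z := by
  filter_upwards [ae_dens (C.mE i), C.ae_hasFDeriv i hu, C.ae_hasFDeriv i hu'] with z hz h1 h2
  have : dW (C.E i) (C.φ i) (fun y => u y * u' y) z = _ := hz.fderivWithin_eq (h1.mul h2)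
  simp only [G, dv, this, cv_add, cv_smul, gam_add_left, gam_smul_left]

theorem ae_G_comp {u : X → ℝ} (hu : Lip u) {F : ℝ → ℝ} (hF : Differentiable ℝ F) (v : X → ℝ) :
    ∀ᵐ z ∂(volume.restrict (C.E i)),
      C.G (fun y => F (u y)) v i z = deriv F (u (C.φ i z)) * C.G u v i z := by
  filter_upwards [ae_dens (C.mE i), C.ae_hasFDeriv i hu] with z hz h1
  have : dW (C.E i) (C.φ i) (fun y => F (u y)) z = _ :=
    hz.fderivWithin_eq ((hF _).hasDerivAt.comp_hasFDerivWithinAt z h1)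
  simp only [G, dv, this, cv_smul, gam_smul_left]

end Chain

end Crest.Agent.R241
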