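import Crest.Agent.R241.KFdv
import Crest.Agent.R241.KMaj
import Crest.Agent.R241.MBas

/-! Row 241, block K: the carré du champ of a chain and of an ultralimit of chains. -/

set_option autoImplicit false
open MeasureTheory Filter Topology Set
open scoped NNReal ENNReal
open Crest.GeometryTopology.Submanifold (Euc)

namespace Crest.Agent.R241

universe u
variable {X : Type u} [MetricSpace X] {k : ℕ}

namespace Chain
variable (C : Chain X k)

/-- a bounded measurable family of functions on the pieces. -/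
def BFam (F : C.ι → Euc k → ℝ) : Prop :=
  (∀ i, AEMeasurable (F i) (volume.restrict (C.E i))) ∧
    ∃ M : ℝ, ∀ i, ∀ᵐ z ∂(volume.restrict (C.E i)), |F i z| ≤ M

/-- integral of a family against the mass density. -/
noncomputable def SI (F : C.ι → Euc k → ℝ) : ℝ := ∑' i, ∫ z in C.E i, C.wt i z * F i z

theorem I_eq_SI (F : X → ℝ → ℝ) (f h : X → ℝ) :
    C.I F f h = C.SI fun i z => F (C.φ i z) (C.G f h i z) := rfl

theorem kintegrable_wt (i : C.ι) : IntegrableOn (C.wt i) (C.E i) :=
  C.integrableOn_of_ν C.integrable_wt i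

theorem ksummable_wt : Summable fun i => ∫ z in C.E i, C.wt i z :=
  (C.hasSum_ν C.integrable_wt).summable

theorem kmass_eq : C.mass = ∑' i, ∫ z in C.E i, C.wt i z :=
  C.mass_eq.trans (C.integral_ν C.integrable_wt)

variable {C}

theorem BFam.h58_integrable {F : C.ι → Euc k → ℝ} (hF : C.BFam F) :
    Integrable (fun p : C.ι × Euc k => C.wt p.1 p.2 * F p.1 p.2) C.ν := by
  obtain ⟨h1, M, hM⟩ := hF
  refine C.integrable_of_le (C.measurable_wt'.aemeasurable.mul
    ((C.aem_ν (F := fun p => F p.1 p.2)).2 h1)) M (C.ae_ν.2 fun i => ?_)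
  filter_upwards [hM i] with z hz
  rw [abs_mul, abs_of_nonneg (C.wt_nonneg i z), mul_comm]
  exact mul_le_mul_of_nonneg_right hz (C.wt_nonneg i z)

theorem BFam.integrable {F : C.ι → Euc k → ℝ} (hF : C.BFam F) (i : C.ι) :
    IntegrableOn (fun z => C.wt i z * F i z) (C.E i) :=
  C.integrableOn_of_ν hF.h58_integrable i

theorem BFam.summable {F : C.ι → Euc k → ℝ} (hF : C.BFam F) :
    Summable fun i => ∫ z in C.E i, C.wt i z * F i z :=
  (C.hasSum_ν hF.h58_integrable).summable

theorem BFam.add {F F' : C.ι → Euc k → ℝ} (hF : C.BFam F) (hF' : C.BFam F') :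
    C.BFam fun i z => F i z + F' i z := by
  obtain ⟨h1, M, hM⟩ := hF
  obtain ⟨h2, M', hM'⟩ := hF'
  refine ⟨fun i => (h1 i).add (h2 i), M + M', fun i => ?_⟩
  filter_upwards [hM i, hM' i] with z a b
  exact (abs_add_le _ _).trans (add_le_add a b)

theorem BFam.mul {F F' : C.ι → Euc k → ℝ} (hF : C.BFam F) (hF' : C.BFam F') :
    C.BFam fun i z => F i z * F' i z := by
  obtain ⟨h1, M, hM⟩ := hF
  obtain ⟨h2, M', hM'⟩ := hF'
  refine ⟨fun i => (h1 i).mul (h2 i), M * M', fun i => ?_⟩
  filter_upwards [hM i, hM' i] with z a b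
  rw [abs_mul]
  exact mul_le_mul a b (abs_nonneg _) ((abs_nonneg _).trans a)

theorem bFam_const (c : ℝ) : C.BFam fun _ _ => c :=
  ⟨fun _ => aemeasurable_const, |c|, fun _ => .of_forall fun _ => le_rfl⟩

theorem BFam.comp {F : C.ι → Euc k → ℝ} (hF : C.BFam F) {Φ : ℝ → ℝ} (hΦ : Continuous Φ) :
    C.BFam fun i z => Φ (F i z) := by
  obtain ⟨h1, M, hM⟩ := hF
  obtain ⟨B, hB⟩ := (isCompact_Icc (a := -M) (b := M)).exists_bound_of_continuousOn hΦ.continuousOn
  refine ⟨fun i => hΦ.measurable.comp_aemeasurable (h1 i), B, fun i => ?_⟩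
  filter_upwards [hM i] with z a
  exact hB _ (abs_le.1 a)

theorem bFam_G {f g : X → ℝ} (hf : Lip f) (hg : Lip g) : C.BFam (C.G f g) :=
  ⟨fun i => C.aemeasurable_G i hf hg, _, fun i => C.ae_abs_G_le i hf.choose_spec hg.choose_spec⟩

theorem bFam_φ [MeasurableSpace X] [BorelSpace X] {h : X → ℝ} (hh : BM h) :
    C.BFam fun i z => h (C.φ i z) := by
  obtain ⟨h1, M, hM⟩ := hh
  exact ⟨fun i => h1.comp_aemeasurable (C.aemeasurable_φ i), M,
    fun _ => .of_forall fun _ => hM _⟩

theorem SI_add {F F' : C.ι → Euc k → ℝ} (hF : C.BFam F) (hF' : C.BFam F') :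
    C.SI (fun i z => F i z + F' i z) = C.SI F + C.SI F' := by
  unfold SI
  rw [← hF.summable.tsum_add hF'.summable]
  refine tsum_congr fun i => ?_
  rw [← integral_add (hF.integrable i) (hF'.integrable i)]
  simp only [mul_add]

theorem SI_const_mul (c : ℝ) (F : C.ι → Euc k → ℝ) :
    C.SI (fun i z => c * F i z) = c * C.SI F := by
  unfold SI
  rw [← tsum_mul_left]
  refine tsum_congr fun i => ?_
  rw [← integral_const_mul]
  simp only [mul_left_comm]

theorem SI_congr {F F' : C.ι → Euc k → ℝ}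
    (h : ∀ i, ∀ᵐ z ∂(volume.restrict (C.E i)), F i z = F' i z) : C.SI F = C.SI F' := by
  unfold SI
  refine tsum_congr fun i => integral_congr_ae ?_
  filter_upwards [h i] with z hz
  rw [hz]

theorem SI_mono {F F' : C.ι → Euc k → ℝ} (hF : C.BFam F) (hF' : C.BFam F')
    (h : ∀ i, ∀ᵐ z ∂(volume.restrict (C.E i)), F i z ≤ F' i z) : C.SI F ≤ C.SI F' := by
  unfold SI
  refine hF.summable.tsum_le_tsum (fun i => ?_) hF'.summable
  refine integral_mono_ae (hF.integrable i) (hF'.integrable i) ?_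
  filter_upwards [h i] with z hz
  exact mul_le_mul_of_nonneg_left hz (C.wt_nonneg i z)

theorem SI_one (C : Chain X k) : C.SI (fun _ _ => 1) = C.mass := by
  unfold SI
  simp only [mul_one]
  exact C.kmass_eq.symm

variable [MeasurableSpace X] [BorelSpace X]

theorem kμ_univ (C : Chain X k) :
    C.μ univ = ∑' i, ∫⁻ z in C.E i, ENNReal.ofReal (C.wt i z) :=
  C.μ_univ.trans C.ofReal_mass

theorem kfinite (C : Chain X k) : IsFiniteMeasure C.μ :=
  inferInstance

theorem kreal_univ (C : Chain X k) : C.μ.real univ = C.mass :=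
  C.μ_real_univ

/-- `integral_sum_measure`, `integral_map`, `integral_withDensity_eq_integral_toReal_smul`. -/
theorem kintegral_μ (C : Chain X k) {h : X → ℝ} (hh : BM h) :
    ∫ x, h x ∂C.μ = C.SI fun i z => h (C.φ i z) :=
  (C.integral_μ hh.1).trans (C.integral_ν (bFam_φ hh).h58_integrable)

variable [CompactSpace X]

theorem bm_of_continuous {h : X → ℝ} (hh : Continuous h) : BM h :=
  ⟨hh.measurable, let ⟨C, _, hC⟩ := KU.exists_abs_le hh; ⟨C, hC⟩⟩

/-- the carré du champ of a chain (`FDV.exists_DV` with `B h f g = SI (h ∘ φ * G f g)`). -/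
theorem exists_DV (C : Chain X k) : ∃ V : DV X, V.μ = C.μ ∧
    ∀ h f g, Continuous h → Lip f → Lip g →
      ∫ x, h x * V.Γ f g x ∂V.μ = C.I (fun x t => h x * t) f g := by
  have bφ : ∀ {h : X → ℝ}, Continuous h → C.BFam fun i z => h (C.φ i z) :=
    fun hh => bFam_φ (bm_of_continuous hh)
  have bb : ∀ {h f g : X → ℝ}, Continuous h → Lip f → Lip g →
      C.BFam fun i z => h (C.φ i z) * C.G f g i z :=
    fun hh hf hg => (bφ hh).mul (bFam_G hf hg)
  let F : FDV X :=
    { μ := C.μ
      fin := C.kfinite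
      B := fun h f g => C.SI fun i z => h (C.φ i z) * C.G f g i z
      add_h := fun h h' f g hh hh' hf hg => by
        rw [← SI_add (bb hh hf hg) (bb hh' hf hg)]
        exact SI_congr fun i => ae_of_all _ fun z => by ring
      smul_h := fun c h f g _ _ _ => by
        rw [← SI_const_mul]
        exact SI_congr fun i => ae_of_all _ fun z => by ring
      bound := fun h f g K K' hh hf hg => by
        have hab : Continuous fun x => |h x| := hh.abs
        rw [C.kintegral_μ (bm_of_continuous hab), abs_le, ← neg_mul, ← SI_const_mul,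
          ← SI_const_mul]
        have key : ∀ i, ∀ᵐ z ∂(volume.restrict (C.E i)),
            |h (C.φ i z) * C.G f g i z| ≤ (K : ℝ) * K' * |h (C.φ i z)| := fun i => by
          filter_upwards [C.ae_abs_G_le i hf hg] with z hz
          rw [abs_mul, mul_comm]
          exact mul_le_mul_of_nonneg_right hz (abs_nonneg _)
        constructor
        · refine SI_mono ((bFam_const _).mul (bφ hab)) (bb hh ⟨K, hf⟩ ⟨K', hg⟩) fun i => ?_
          filter_upwards [key i] with z hz
          rw [neg_mul]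
          exact (abs_le.1 hz).1
        · refine SI_mono (bb hh ⟨K, hf⟩ ⟨K', hg⟩) ((bFam_const _).mul (bφ hab)) fun i => ?_
          filter_upwards [key i] with z hz
          exact (abs_le.1 hz).2
      symm := fun h f g _ _ _ =>
        SI_congr fun i => ae_of_all _ fun z => by rw [C.G_comm i f g z]
      add := fun h f₁ f₂ g hh h1 h2 hg => by
        rw [← SI_add (bb hh h1 hg) (bb hh h2 hg)]
        refine SI_congr fun i => ?_
        filter_upwards [C.ae_G_add i h1 h2 g] with z hz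
        rw [hz]; ring
      mul := fun h f₁ f₂ g hh h1 h2 hg => by
        rw [← SI_add (bb (h := fun x => h x * f₁ x) (hh.mul (KU.lip_continuous h1)) h2 hg)
          (bb (h := fun x => h x * f₂ x) (hh.mul (KU.lip_continuous h2)) h1 hg)]
        refine SI_congr fun i => ?_
        filter_upwards [C.ae_G_mul i h1 h2 g] with z hz
        rw [hz]; ring
      chain := fun h Φ f g _ hΦ hf _ => by
        refine SI_congr fun i => ?_
        filter_upwards [C.ae_G_comp i hf (hΦ.differentiable one_ne_zero) g] with z hz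
        rw [hz]; ring
      nonneg := fun h f hh h0 hf => by
        have h00 : C.SI (fun _ _ => (0 : ℝ)) = 0 := by simp [SI]
        rw [← h00]
        exact SI_mono (bFam_const 0) (bb hh hf hf) fun i => ae_of_all _ fun z =>
          mul_nonneg (h0 _) (C.G_nonneg i f z) }
  obtain ⟨V, hV, hV'⟩ := F.exists_DV
  exact ⟨V, hV, fun h f g hh hf hg => hV' h f g hh hf hg⟩

end Chain

variable [MeasurableSpace X] [BorelSpace X] [CompactSpace X]

/-- `W` is the limit of the chains `T n` along `U`. -/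
structure ULim (T : ℕ → Chain X k) (U : Filter ℕ) (W : DV X) : Prop where
  μ : ∀ h : X → ℝ, Continuous h → Tendsto (fun n => ∫ x, h x ∂(T n).μ) U (𝓝 (∫ x, h x ∂W.μ))
  Γ : ∀ h f g, Continuous h → Lip f → Lip g →
    Tendsto (fun n => (T n).I (fun x t => h x * t) f g) U (𝓝 (∫ x, h x * W.Γ f g x ∂W.μ))

theorem exists_uLim (T : ℕ → Chain X k) {M : ℝ} (hM : ∀ n, (T n).mass ≤ M) (U : Ultrafilter ℕ) :
    ∃ W : DV X, ULim T U W := by
  choose V hV hV' using fun n => (T n).exists_DV
  obtain ⟨W, h1, h2⟩ := exists_ultra_DV V (M := M)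
    (fun n => by rw [hV n, Chain.kreal_univ]; exact hM n) U
  refine ⟨W, fun h hh => ?_, fun h f g hh hf hg => ?_⟩
  · simpa only [hV] using h1 h hh
  · simpa only [hV' _ h f g hh hf hg] using h2 h f g hh hf hg

theorem ULim.mass {T : ℕ → Chain X k} {U : Filter ℕ} {W : DV X} (h : ULim T U W) :
    Tendsto (fun n => (T n).mass) U (𝓝 (W.μ.real univ)) := by
  simpa [Chain.kreal_univ] using h.μ (fun _ => 1) continuous_const

theorem h12_integrable {μ : Measure X} [IsFiniteMeasure μ] {A : X → ℝ} (hA : Continuous A) :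
    Integrable A μ := by
  simpa using KU.integrable_mul_of_bdd (μ := μ) (γ := fun _ => (1 : ℝ)) hA aemeasurable_const
    (C := 1) (ae_of_all _ fun _ => by simp)

theorem h12_bFam (C : Chain X k) {A B f : X → ℝ} (hA : Continuous A) (hB : Continuous B)
    (hf : Lip f) : C.BFam fun i z => A (C.φ i z) + B (C.φ i z) * C.G f f i z :=
  (Chain.bFam_φ (Chain.bm_of_continuous hA)).add
    ((Chain.bFam_φ (Chain.bm_of_continuous hB)).mul (Chain.bFam_G hf hf))

theorem ULim.tendsto_aff {T : ℕ → Chain X k} {U : Filter ℕ} {W : DV X} (h : ULim T U W)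
    {A B f : X → ℝ} (hA : Continuous A) (hB : Continuous B) (hf : Lip f) :
    Tendsto (fun n => (T n).SI fun i z => A ((T n).φ i z) + B ((T n).φ i z) * (T n).G f f i z) U
      (𝓝 (∫ x, (A x + B x * W.Γ f f x) ∂W.μ)) := by
  have := W.fin
  rw [integral_add (h12_integrable hA) (W.kintegrable hB hf hf)]
  refine ((h.μ A hA).add (h.Γ B f f hB hf hf)).congr fun n => ?_
  rw [Chain.SI_add (Chain.bFam_φ (Chain.bm_of_continuous hA))
    ((Chain.bFam_φ (Chain.bm_of_continuous hB)).mul (Chain.bFam_G hf hf)),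
    (T n).kintegral_μ (Chain.bm_of_continuous hA), Chain.I_eq_SI]

theorem h12_amgm {a β : ℝ} (ha : 0 ≤ a) (hβ : 0 < β) : √a ≤ (a * β + β⁻¹) / 2 := by
  have h1 : √a ^ 2 = a := Real.sq_sqrt ha
  have h2 : β * β⁻¹ = 1 := mul_inv_cancel₀ hβ.ne'
  have h3 : 0 ≤ β * (√a - β⁻¹) ^ 2 := by positivity
  have h4 : β * (√a - β⁻¹) ^ 2 = β * √a ^ 2 - 2 * √a * (β * β⁻¹) + (β * β⁻¹) * β⁻¹ := by ring
  rw [h4, h1, h2] at h3
  linarith

/-- pointwise bounds on `G f f` pass to the limit (`KU.ae_nonneg_of_integral`). -/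
theorem ULim.Γ_le {T : ℕ → Chain X k} {U : Filter ℕ} [U.NeBot] {W : DV X} (h : ULim T U W)
    {f q : X → ℝ} (hf : Lip f) (hq : Continuous q)
    (hG : ∀ n i, ∀ᵐ z ∂(volume.restrict ((T n).E i)), (T n).G f f i z ≤ q ((T n).φ i z)) :
    ∀ᵐ x ∂W.μ, W.Γ f f x ≤ q x := by
  have := W.fin
  have hi : Integrable (fun x => q x - W.Γ f f x) W.μ :=
    (h12_integrable hq).sub (by simpa using W.kintegrable continuous_const (h := fun _ => 1) hf hf)
  have key := KU.ae_nonneg_of_integral hi fun η hη hη0 => by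
    have ht := h.tendsto_aff (A := fun x => η x * q x) (B := fun x => -η x) (hη.mul hq) hη.neg hf
    have e : ∫ x, η x * (q x - W.Γ f f x) ∂W.μ = ∫ x, (η x * q x + -η x * W.Γ f f x) ∂W.μ :=
      integral_congr_ae (ae_of_all _ fun x => by ring)
    rw [e]
    refine ge_of_tendsto' ht fun n => ?_
    have h00 : (T n).SI (fun _ _ => (0 : ℝ)) = 0 := by simp [Chain.SI]
    rw [← h00]
    refine Chain.SI_mono (Chain.bFam_const 0) (h12_bFam (T n) (A := fun x => η x * q x)
      (B := fun x => -η x) (hη.mul hq) hη.neg hf) fun i => ?_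
    filter_upwards [hG n i] with z hz
    have := mul_le_mul_of_nonneg_left hz (hη0 ((T n).φ i z))
    linarith
  filter_upwards [key] with x hx
  linarith

/-- upper semicontinuity of `∫ η √(q - G(f,f))`: `√a ≤ (a β + 1/β)/2` on each chain, pass to the
limit, then `KU.le_integral_sqrt`. -/
theorem ULim.le_sqrt {T : ℕ → Chain X k} {U : Filter ℕ} [U.NeBot] {W : DV X} (h : ULim T U W)
    {f q η : X → ℝ} (hf : Lip f) (hq : Continuous q) (hη : Continuous η) (hη0 : ∀ x, 0 ≤ η x)
    (hG : ∀ n i, ∀ᵐ z ∂(volume.restrict ((T n).E i)), (T n).G f f i z ≤ q ((T n).φ i z))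
    {c : ℝ} (hc : ∀ ε > (0 : ℝ), ∀ᶠ n in U,
      c - ε ≤ (T n).I (fun x t => η x * √(q x - t)) f f) :
    c ≤ ∫ x, η x * √(q x - W.Γ f f x) ∂W.μ := by
  have := W.fin
  obtain ⟨M, -, hM⟩ := KU.exists_abs_le hq
  refine KU.le_integral_sqrt (a := fun x => q x - W.Γ f f x) (C := M)
    (hq.measurable.sub (W.meas f f)).aemeasurable ?_ hη hη0 fun β hβ hβ0 => ?_
  · filter_upwards [h.Γ_le hf hq hG, W.nonneg f hf] with x h1 h2
    exact ⟨by linarith, by linarith [(abs_le.1 (hM x)).2]⟩
  · have hA : Continuous fun x => η x * ((q x * β x + (β x)⁻¹) / 2) :=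
      hη.mul (((hq.mul hβ).add (hβ.inv₀ fun x => (hβ0 x).ne')).div_const 2)
    have hB : Continuous fun x => -(η x * β x / 2) := ((hη.mul hβ).div_const 2).neg
    have ht := h.tendsto_aff hA hB hf
    have e : ∫ x, η x * (((q x - W.Γ f f x) * β x + (β x)⁻¹) / 2) ∂W.μ =
        ∫ x, (η x * ((q x * β x + (β x)⁻¹) / 2) + -(η x * β x / 2) * W.Γ f f x) ∂W.μ :=
      integral_congr_ae (ae_of_all _ fun x => by ring)
    rw [e]
    refine le_of_forall_pos_le_add fun ε hε => sub_le_iff_le_add.1 ?_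
    refine ge_of_tendsto ht ?_
    filter_upwards [hc ε hε] with n hn
    refine hn.trans ?_
    rw [Chain.I_eq_SI]
    have hb : (T n).BFam fun i z => q ((T n).φ i z) + (-1) * (T n).G f f i z :=
      h12_bFam (T n) (B := fun _ => -1) hq continuous_const hf
    have hb' : (T n).BFam fun i z => η ((T n).φ i z) * √(q ((T n).φ i z) - (T n).G f f i z) := by
      simpa only [neg_one_mul, ← sub_eq_add_neg] using
        (Chain.bFam_φ (Chain.bm_of_continuous hη)).mul (hb.comp Real.continuous_sqrt)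
    refine Chain.SI_mono hb' (h12_bFam (T n) hA hB hf) fun i => ?_
    filter_upwards [hG n i] with z hz
    have := mul_le_mul_of_nonneg_left
      (h12_amgm (sub_nonneg.2 hz) (hβ0 ((T n).φ i z))) (hη0 ((T n).φ i z))
    refine this.trans (le_of_eq ?_)
    ring

/-- upper semicontinuity of `∫ η √(G(f,f))`. -/
theorem ULim.le_sqrt' {T : ℕ → Chain X k} {U : Filter ℕ} [U.NeBot] {W : DV X} (h : ULim T U W)
    {f η : X → ℝ} (hf : Lip f) (hη : Continuous η) (hη0 : ∀ x, 0 ≤ η x)
    {c : ℝ} (hc : ∀ ε > (0 : ℝ), ∀ᶠ n in U, c - ε ≤ (T n).I (fun x t => η x * √t) f f) :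
    c ≤ ∫ x, η x * √(W.Γ f f x) ∂W.μ := by
  have := W.fin
  obtain ⟨K, hK⟩ := id hf
  refine KU.le_integral_sqrt (a := fun x => W.Γ f f x) (C := (K : ℝ) ^ 2)
    (W.meas f f).aemeasurable ?_ hη hη0 fun β hβ hβ0 => ?_
  · filter_upwards [W.le_lip f K hK, W.nonneg f hf] with x h1 h2
    exact ⟨h2, h1⟩
  · have hA : Continuous fun x => η x * ((β x)⁻¹ / 2) :=
      hη.mul ((hβ.inv₀ fun x => (hβ0 x).ne').div_const 2)
    have hB : Continuous fun x => η x * β x / 2 := (hη.mul hβ).div_const 2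
    have ht := h.tendsto_aff hA hB hf
    have e : ∫ x, η x * ((W.Γ f f x * β x + (β x)⁻¹) / 2) ∂W.μ =
        ∫ x, (η x * ((β x)⁻¹ / 2) + η x * β x / 2 * W.Γ f f x) ∂W.μ :=
      integral_congr_ae (ae_of_all _ fun x => by ring)
    rw [e]
    refine le_of_forall_pos_le_add fun ε hε => sub_le_iff_le_add.1 ?_
    refine ge_of_tendsto ht ?_
    filter_upwards [hc ε hε] with n hn
    refine hn.trans ?_
    rw [Chain.I_eq_SI]
    have hb' : (T n).BFam fun i z => η ((T n).φ i z) * √((T n).G f f i z) :=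
      (Chain.bFam_φ (Chain.bm_of_continuous hη)).mul
        ((Chain.bFam_G hf hf).comp Real.continuous_sqrt)
    refine Chain.SI_mono hb' (h12_bFam (T n) hA hB hf) fun i => ae_of_all _ fun z => ?_
    have := mul_le_mul_of_nonneg_left
      (h12_amgm ((T n).G_nonneg i f z) (hβ0 ((T n).φ i z))) (hη0 ((T n).φ i z))
    refine this.trans (le_of_eq ?_)
    ring

end Crest.Agent.R241
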