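import Crest.Agent.R241.KDens

/-! Row 241, block K: Kirchheim's metric differentiation theorem. -/

set_option autoImplicit false
open MeasureTheory Filter Topology Matrix
open Crest.GeometryTopology.Submanifold (Euc)
open Crest.GeometryTopology.MetricCurrent

namespace Crest.Agent.R241

universe u
variable {X : Type u} [MetricSpace X] {k : ℕ}

/-- mean value along parallel segments: `F s = ∫_{ball 0 r} f (w + s v + y) dy` is differentiable
with `F' s = ∫ fderiv f (w + s v + y) v dy` (`hasDerivAt_integral_of_dominated_loc_of_lip`), so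
`F 1 - F 0 = F' s` for some `s ∈ [0,1]`. -/
theorem lip_avg_mvt {f : Euc k → ℝ} {L : NNReal} (hf : LipschitzWith L f) (w v : Euc k) {r : ℝ}
    (hr : 0 < r) : ∃ s ∈ Set.Icc (0 : ℝ) 1,
      (volume (Metric.ball (0 : Euc k) r)).toReal * (f (w + v) - f w - 2 * L * r) ≤
        ∫ p in Metric.ball (w + s • v) r, fderiv ℝ f p v := by
  have hc : Continuous f := hf.continuous
  have hint : ∀ c : Euc k, IntegrableOn (fun y => f (c + y)) (Metric.ball (0 : Euc k) r) volume :=
    fun c => ((hc.comp (continuous_const.add continuous_id)).continuousOn.integrableOn_compact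
      (isCompact_closedBall (0 : Euc k) r)).mono_set Metric.ball_subset_closedBall
  have hfin : volume (Metric.ball (0 : Euc k) r) ≠ ⊤ := measure_ball_lt_top.ne
  have : IsFiniteMeasure ((volume : Measure (Euc k)).restrict (Metric.ball (0 : Euc k) r)) :=
    isFiniteMeasure_restrict.2 hfin
  have hd : ∀ s : ℝ, HasDerivAt (fun s : ℝ => ∫ y in Metric.ball (0 : Euc k) r, f (w + s • v + y))
      (∫ y in Metric.ball (0 : Euc k) r, fderiv ℝ f (w + s • v + y) v) s := by
    intro s₀
    refine (hasDerivAt_integral_of_dominated_loc_of_lip (𝕜 := ℝ)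
      (μ := (volume : Measure (Euc k)).restrict (Metric.ball (0 : Euc k) r))
      (F := fun (s : ℝ) (y : Euc k) => f (w + s • v + y))
      (F' := fun y => fderiv ℝ f (w + s₀ • v + y) v) (bound := fun _ => L * ‖v‖)
      (s := Set.univ) univ_mem (Eventually.of_forall fun s => (hint _).aestronglyMeasurable)
      (hint _) ?_ (Eventually.of_forall fun y => ?_) (integrable_const _) ?_).2
    · exact ((measurable_fderiv_apply_const ℝ f v).comp
        (measurable_const_add (w + s₀ • v))).aestronglyMeasurable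
    · refine LipschitzWith.lipschitzOnWith (LipschitzWith.of_dist_le_mul fun s t => ?_)
      refine (hf.dist_le_mul _ _).trans (le_of_eq ?_)
      have e : w + s • v + y - (w + t • v + y) = (s - t) • v := by
        rw [sub_smul]; abel
      rw [dist_eq_norm, e, norm_smul, Real.dist_eq, Real.norm_eq_abs, Real.coe_nnabs,
        abs_of_nonneg (by positivity : (0 : ℝ) ≤ L * ‖v‖)]
      ring
    · refine ae_restrict_of_ae ?_
      have h1 := (measurePreserving_add_left (volume : Measure (Euc k))
        (w + s₀ • v)).quasiMeasurePreserving.ae (hf.ae_differentiableAt (μ := volume))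
      filter_upwards [h1] with y hy
      have h2 : HasDerivAt (fun s : ℝ => w + s • v + y) v s₀ := by
        simpa using (((hasDerivAt_id s₀).smul_const v).const_add w).add_const y
      exact hy.hasFDerivAt.comp_hasDerivAt s₀ h2
  obtain ⟨s, hs, he⟩ := exists_hasDerivAt_eq_slope _ _ (zero_lt_one' ℝ)
    (fun s _ => (hd s).continuousAt.continuousWithinAt) fun s _ => hd s
  refine ⟨s, Set.Ioo_subset_Icc_self hs, ?_⟩
  have hpre : (fun y => w + s • v + y) ⁻¹' Metric.ball (w + s • v) r = Metric.ball (0 : Euc k) r := by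
    ext y; simp [dist_eq_norm]
  have hcv := (measurePreserving_add_left (volume : Measure (Euc k))
    (w + s • v)).setIntegral_preimage_emb (measurableEmbedding_addLeft (w + s • v))
      (fun p => fderiv ℝ f p v) (Metric.ball (w + s • v) r)
  rw [hpre] at hcv
  rw [← hcv, he]
  simp only [one_smul, zero_smul, add_zero, sub_zero, div_one]
  rw [← integral_sub (hint _) (hint _)]
  have hm := setIntegral_mono_on (μ := volume) (s := Metric.ball (0 : Euc k) r)
    (f := fun _ => f (w + v) - f w - 2 * L * r) (g := fun y => f (w + v + y) - f (w + y))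
    (integrable_const _) ((hint _).sub (hint _)) measurableSet_ball fun y hy => by
      have hy' : ‖y‖ ≤ r := (mem_ball_zero_iff.1 hy).le
      have h1 := hf.dist_le_mul (w + v + y) (w + v)
      have h2 := hf.dist_le_mul (w + y) w
      rw [Real.dist_eq, dist_eq_norm, add_sub_cancel_left] at h1 h2
      have h3 : (L : ℝ) * ‖y‖ ≤ L * r := mul_le_mul_of_nonneg_left hy' L.2
      have h4 := abs_le.1 h1
      have h5 := abs_le.1 h2
      linarith [h4.1, h5.2]
  rw [setIntegral_const, smul_eq_mul] at hm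
  exact hm

/-- the seminorm `sup_j |d f_j (z) v|`. -/
noncomputable def supN (f : ℕ → Euc k → ℝ) (z v : Euc k) : ℝ := ⨆ j, |fderiv ℝ (f j) z v|

section
variable {f : ℕ → Euc k → ℝ} {L : NNReal}

theorem abs_fderiv_le (hf : ∀ j, LipschitzWith L (f j)) (j : ℕ) (z v : Euc k) :
    |fderiv ℝ (f j) z v| ≤ L * ‖v‖ := by
  rw [← Real.norm_eq_abs]
  exact ((fderiv ℝ (f j) z).le_opNorm v).trans
    (mul_le_mul_of_nonneg_right (norm_fderiv_le_of_lipschitz ℝ (hf j)) (norm_nonneg v))

theorem le_supN (hf : ∀ j, LipschitzWith L (f j)) (j : ℕ) (z v : Euc k) :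
    |fderiv ℝ (f j) z v| ≤ supN f z v := by
  refine le_ciSup (f := fun j => |fderiv ℝ (f j) z v|) ⟨L * ‖v‖, ?_⟩ j
  rintro _ ⟨i, rfl⟩
  exact abs_fderiv_le hf i z v

theorem supN_le (hf : ∀ j, LipschitzWith L (f j)) (z v : Euc k) : supN f z v ≤ L * ‖v‖ := by
  exact ciSup_le fun j => abs_fderiv_le hf j z v

theorem supN_add (hf : ∀ j, LipschitzWith L (f j)) (z u v : Euc k) :
    supN f z (u + v) ≤ supN f z u + supN f z v := by
  refine ciSup_le fun j => ?_
  rw [map_add]
  exact (abs_add_le _ _).trans (add_le_add (le_supN hf j z u) (le_supN hf j z v))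

theorem supN_smul (hf : ∀ j, LipschitzWith L (f j)) (z : Euc k) (c : ℝ) (v : Euc k) :
    supN f z (c • v) = |c| * supN f z v := by
  have _ := hf
  unfold supN
  rw [Real.mul_iSup_of_nonneg (abs_nonneg c)]
  simp only [map_smul, smul_eq_mul, abs_mul]

theorem measurable_supN (f : ℕ → Euc k → ℝ) (v : Euc k) : Measurable fun z => supN f z v := by
  exact Measurable.iSup fun j => (measurable_fderiv_apply_const ℝ (f j) v).abs

theorem continuous_supN (hf : ∀ j, LipschitzWith L (f j)) (z : Euc k) :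
    Continuous (supN f z) := by
  refine (LipschitzWith.of_le_add_mul L fun u v => ?_).continuous
  have h := supN_add hf z v (u - v)
  rw [add_sub_cancel] at h
  rw [dist_eq_norm]
  exact h.trans (add_le_add le_rfl (supN_le hf z _))

theorem supN_finite (hf : ∀ j, LipschitzWith L (f j)) (z : Euc k) {ε : ℝ} (hε : 0 < ε) :
    ∃ J : Finset ℕ, ∀ v : Euc k, v ≠ 0 → ∃ j ∈ J, supN f z v - ε * ‖v‖ ≤ |fderiv ℝ (f j) z v| := by
  obtain ⟨J, hJ⟩ := (isCompact_sphere (0 : Euc k) 1).elim_finite_subcover
    (fun j : ℕ => {v : Euc k | supN f z v - ε < |fderiv ℝ (f j) z v|})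
    (fun j => isOpen_lt ((continuous_supN hf z).sub continuous_const)
      (fderiv ℝ (f j) z).continuous.abs)
    (fun v _ => by
      obtain ⟨j, hj⟩ := exists_lt_of_lt_ciSup (f := fun j => |fderiv ℝ (f j) z v|)
        (show supN f z v - ε < supN f z v by linarith)
      exact Set.mem_iUnion.2 ⟨j, hj⟩)
  refine ⟨J, fun v hv => ?_⟩
  have hn : 0 < ‖v‖ := norm_pos_iff.2 hv
  have hu : ‖v‖⁻¹ • v ∈ Metric.sphere (0 : Euc k) 1 := by
    rw [mem_sphere_zero_iff_norm, norm_smul, norm_inv, norm_norm, inv_mul_cancel₀ hn.ne']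
  obtain ⟨j, hj, h⟩ := Set.mem_iUnion₂.1 (hJ hu)
  refine ⟨j, hj, ?_⟩
  simp only [Set.mem_ofPred_eq, supN_smul hf, map_smul, smul_eq_mul, abs_mul,
    abs_of_pos (inv_pos.2 hn)] at h
  have h2 := mul_lt_mul_of_pos_left h hn
  rw [mul_sub, ← mul_assoc, ← mul_assoc, mul_inv_cancel₀ hn.ne', one_mul, one_mul] at h2
  linarith

/-- lower bound: finitely many `j` realise the sup up to `ε‖v‖` (finite `ε`-net of the sphere),
and each `f j` is differentiable at `z`. -/
theorem supN_lower (hf : ∀ j, LipschitzWith L (f j)) {z : Euc k}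
    (hz : ∀ j, DifferentiableAt ℝ (f j) z) {ε : ℝ} (hε : 0 < ε) :
    ∃ δ > (0 : ℝ), ∀ w w' : Euc k, dist w z < δ → dist w' z < δ →
      ∃ j, supN f z (w - w') - ε * (dist w z + dist w' z) ≤ |f j w - f j w'| := by
  obtain ⟨J, hJ⟩ := supN_finite hf z (half_pos hε)
  have h1 : ∀ᶠ w in 𝓝 z, ∀ j ∈ J,
      ‖f j w - f j z - fderiv ℝ (f j) z (w - z)‖ ≤ ε / 2 * ‖w - z‖ := by
    rw [Filter.eventually_all_finset]
    intro j _
    exact (hz j).hasFDerivAt.isLittleO.def (half_pos hε)
  obtain ⟨δ, hδ, h⟩ := Metric.eventually_nhds_iff.1 h1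
  refine ⟨δ, hδ, fun w w' hw hw' => ?_⟩
  have hd : 0 ≤ dist w z + dist w' z := by positivity
  by_cases hv : w - w' = 0
  · refine ⟨0, ?_⟩
    have := supN_le hf z (w - w')
    rw [hv, norm_zero, mul_zero] at this
    rw [hv]
    have h3 := mul_nonneg hε.le hd
    have h4 := abs_nonneg (f 0 w - f 0 w')
    linarith
  · obtain ⟨j, hj, hle⟩ := hJ _ hv
    refine ⟨j, ?_⟩
    have a1 := h hw j hj
    have a2 := h hw' j hj
    rw [Real.norm_eq_abs, ← dist_eq_norm] at a1 a2
    have hn : ‖w - w'‖ ≤ dist w z + dist w' z := by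
      rw [← dist_eq_norm]
      exact dist_triangle_right _ _ _
    have he : fderiv ℝ (f j) z (w - w') = fderiv ℝ (f j) z (w - z) - fderiv ℝ (f j) z (w' - z) := by
      rw [← map_sub, sub_sub_sub_cancel_right]
    have h5 : ε / 2 * ‖w - w'‖ ≤ ε / 2 * (dist w z + dist w' z) :=
      mul_le_mul_of_nonneg_left hn (half_pos hε).le
    have h6 : |fderiv ℝ (f j) z (w - w')| ≤
        |f j w - f j w'| + (ε / 2 * dist w z + ε / 2 * dist w' z) := by
      rw [he, abs_le]
      have b1 := abs_le.1 a1
      have b2 := abs_le.1 a2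
      have b3 := le_abs_self (f j w - f j w')
      have b4 := neg_abs_le (f j w - f j w')
      constructor <;> linarith [b1.1, b1.2, b2.1, b2.2]
    linarith

/-- uniform Lebesgue points for off-centre balls. -/
theorem h97_leb {G : Euc k → ℝ} (hG : LocallyIntegrable G volume) (K : ℝ) :
    ∀ᵐ z : Euc k, ∀ η > (0 : ℝ), ∀ᶠ ρ in 𝓝[>] (0 : ℝ), ∀ c : Euc k, dist z c ≤ K * ρ →
      ∫ p in Metric.ball c ρ, G p ≤ (volume (Metric.ball (0 : Euc k) ρ)).toReal * (G z + η) := by
  filter_upwards [IsUnifLocDoublingMeasure.ae_tendsto_average_norm_sub volume hG K] with z hz η hη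
  have h1 := hz (l := comap Prod.fst (𝓝[>] (0 : ℝ)) ⊓
      𝓟 {q : ℝ × Euc k | z ∈ Metric.closedBall q.2 (K * q.1)}) (fun q => q.2) (fun q => q.1)
    (tendsto_comap.mono_left inf_le_left) (mem_inf_of_right (mem_principal_self _))
  have h2 := eventually_comap.1 (eventually_inf_principal.1 (h1.eventually (gt_mem_nhds hη)))
  filter_upwards [h2, self_mem_nhdsWithin] with ρ hρ hρ0 c hc
  have hρ0' : 0 < ρ := hρ0
  have h3 := hρ (ρ, c) rfl (Metric.mem_closedBall.2 hc)
  simp only [setAverage_eq, smul_eq_mul] at h3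
  have hv : (volume : Measure (Euc k)).real (Metric.closedBall c ρ) =
      (volume (Metric.ball (0 : Euc k) ρ)).toReal := by
    rw [Measure.real, Measure.addHaar_closedBall _ _ hρ0'.le, Measure.addHaar_ball_of_pos _ _ hρ0']
  have hv' : (volume : Measure (Euc k)).real (Metric.ball c ρ) =
      (volume (Metric.ball (0 : Euc k) ρ)).toReal := by
    rw [Measure.real, Measure.addHaar_ball_center]
  have hpos : 0 < (volume (Metric.ball (0 : Euc k) ρ)).toReal :=
    ENNReal.toReal_pos (Metric.measure_ball_pos volume _ hρ0').ne' measure_ball_lt_top.ne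
  rw [hv, inv_mul_lt_iff₀ hpos] at h3
  have hi : IntegrableOn G (Metric.closedBall c ρ) volume :=
    hG.integrableOn_isCompact (isCompact_closedBall c ρ)
  have hcst : IntegrableOn (fun _ => G z) (Metric.closedBall c ρ) volume :=
    integrableOn_const measure_closedBall_lt_top.ne
  have hn : IntegrableOn (fun p => ‖G p - G z‖) (Metric.closedBall c ρ) volume := (hi.sub hcst).norm
  have h4 : ∫ p in Metric.ball c ρ, ‖G p - G z‖ ≤ ∫ p in Metric.closedBall c ρ, ‖G p - G z‖ :=
    setIntegral_mono_set hn (Eventually.of_forall fun _ => norm_nonneg _)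
      Metric.ball_subset_closedBall.eventuallyLE
  have h5 : ∫ p in Metric.ball c ρ, G p ≤ ∫ p in Metric.ball c ρ, (G z + ‖G p - G z‖) :=
    setIntegral_mono_on (hi.mono_set Metric.ball_subset_closedBall)
      ((hcst.add hn).mono_set Metric.ball_subset_closedBall) measurableSet_ball fun p _ => by
        have := le_abs_self (G p - G z)
        rw [Real.norm_eq_abs]
        linarith
  rw [integral_add (hcst.mono_set Metric.ball_subset_closedBall)
    (hn.mono_set Metric.ball_subset_closedBall), setIntegral_const, smul_eq_mul, hv'] at h5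
  nlinarith

theorem h97_supN_nonneg (hf : ∀ j, LipschitzWith L (f j)) (z v : Euc k) : 0 ≤ supN f z v :=
  (abs_nonneg _).trans (le_supN hf 0 z v)

theorem h97_supN_loc (hf : ∀ j, LipschitzWith L (f j)) (v : Euc k) :
    LocallyIntegrable (fun p => supN f p v) volume := by
  refine (locallyIntegrable_const ((L : ℝ) * ‖v‖)).mono
    (measurable_supN f v).aestronglyMeasurable (Eventually.of_forall fun p => ?_)
  rw [Real.norm_of_nonneg (h97_supN_nonneg hf p v), Real.norm_of_nonneg (by positivity)]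
  exact supN_le hf p v

theorem h97_supN_near (hf : ∀ j, LipschitzWith L (f j)) (p a b : Euc k) :
    supN f p a ≤ supN f p b + L * ‖a - b‖ := by
  have h1 := supN_add hf p b (a - b)
  rw [add_sub_cancel] at h1
  linarith [supN_le hf p (a - b)]

/-- upper bound at a.e. point: `z` is a Lebesgue point of `p ↦ supN f p u` for all `u` in a
countable dense set (`IsUnifLocDoublingMeasure.ae_tendsto_average_norm_sub` or
`Besicovitch`); use `lip_avg_mvt` for `± f j` with `r = ε (dist w z + dist w' z)` and a finite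
`ε`-net of directions. -/
theorem supN_upper (hf : ∀ j, LipschitzWith L (f j)) :
    ∀ᵐ z : Euc k, ∀ ε > (0 : ℝ), ∃ δ > (0 : ℝ), ∀ w w' : Euc k, dist w z < δ → dist w' z < δ →
      ∀ j, |f j w - f j w'| ≤ supN f z (w - w') + ε * (dist w z + dist w' z) := by
  obtain ⟨u, hu⟩ := TopologicalSpace.exists_dense_seq (Euc k)
  have hall : ∀ᵐ z : Euc k, ∀ n K : ℕ, ∀ η > (0 : ℝ), ∀ᶠ ρ in 𝓝[>] (0 : ℝ), ∀ c : Euc k,
      dist z c ≤ K * ρ → ∫ p in Metric.ball c ρ, supN f p (u n) ≤
        (volume (Metric.ball (0 : Euc k) ρ)).toReal * (supN f z (u n) + η) :=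
    ae_all_iff.2 fun n => ae_all_iff.2 fun K => h97_leb (h97_supN_loc hf (u n)) K
  filter_upwards [hall] with z hz ε hε
  have hL : (0 : ℝ) ≤ L := L.2
  obtain ⟨e, he, hee⟩ : ∃ e : ℝ, 0 < e ∧ (4 * L + 1) * e = ε :=
    ⟨ε / (4 * L + 1), by positivity, by field_simp⟩
  obtain ⟨K, hK⟩ := exists_nat_ge (1 / e)
  have hKe : 1 ≤ K * e := by rwa [div_le_iff₀ he] at hK
  obtain ⟨T, hT⟩ := (isCompact_closedBall (0 : Euc k) 1).elim_finite_subcover
    (fun n => Metric.ball (u n) e) (fun _ => Metric.isOpen_ball) fun x _ => by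
      obtain ⟨n, hn⟩ := hu.exists_dist_lt x he
      exact Set.mem_iUnion.2 ⟨n, hn⟩
  have hev := (eventually_all_finset T).2 fun n _ => hz n K e he
  obtain ⟨δ₀, hδ₀, hδ⟩ := (nhdsGT_basis (0 : ℝ)).eventually_iff.1 hev
  refine ⟨δ₀ / (2 * e), by positivity, fun w w' hw hw' j => ?_⟩
  set S := dist w z + dist w' z with hS
  rcases (add_nonneg dist_nonneg dist_nonneg : 0 ≤ S).eq_or_lt with h0 | hSpos
  · have h1 : dist w z = 0 := by linarith [dist_nonneg (x := w) (y := z), dist_nonneg (x := w') (y := z)]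
    have h2 : dist w' z = 0 := by linarith [dist_nonneg (x := w) (y := z), dist_nonneg (x := w') (y := z)]
    rw [dist_eq_zero.1 h1, dist_eq_zero.1 h2, sub_self, abs_zero]
    have := h97_supN_nonneg hf z (z - z)
    have h3 : S = 0 := h0.symm
    rw [h3, mul_zero, add_zero]
    exact this
  have hSpos' : 0 < S := hSpos
  set v := w - w' with hv
  have hvS : ‖v‖ ≤ S := by
    rw [hv, ← dist_eq_norm]
    exact dist_triangle_right w w' z
  have hr : 0 < e * S := mul_pos he hSpos'
  have hrδ : e * S < δ₀ := by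
    have h1 : S < 2 * (δ₀ / (2 * e)) := by linarith
    have h2 : e * (2 * (δ₀ / (2 * e))) = δ₀ := by field_simp
    nlinarith
  have hb : S⁻¹ • v ∈ Metric.closedBall (0 : Euc k) 1 := by
    rw [mem_closedBall_zero_iff, norm_smul, Real.norm_of_nonneg (inv_nonneg.2 hSpos'.le),
      inv_mul_le_iff₀ hSpos', mul_one]
    exact hvS
  obtain ⟨n, hnT, hn⟩ := Set.mem_iUnion₂.1 (hT hb)
  have hn' : ‖S⁻¹ • v - u n‖ ≤ e := by rw [← dist_eq_norm]; exact (Metric.mem_ball.1 hn).le
  have hsc : ∀ p, supN f p v = S * supN f p (S⁻¹ • v) := fun p => by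
    have := supN_smul hf p S (S⁻¹ • v)
    rwa [smul_smul, mul_inv_cancel₀ hSpos'.ne', one_smul, abs_of_pos hSpos'] at this
  have hLe : (L : ℝ) * ‖S⁻¹ • v - u n‖ ≤ L * e := mul_le_mul_of_nonneg_left hn' hL
  have hup : ∀ p, supN f p v ≤ S * (supN f p (u n) + L * e) := fun p => by
    rw [hsc]
    exact mul_le_mul_of_nonneg_left (by linarith [h97_supN_near hf p (S⁻¹ • v) (u n)]) hSpos'.le
  have hdn : S * supN f z (u n) ≤ supN f z v + S * (L * e) := by
    have h1 := h97_supN_near hf z (u n) (S⁻¹ • v)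
    rw [norm_sub_rev] at h1
    rw [hsc]
    nlinarith
  have hpos : 0 < (volume (Metric.ball (0 : Euc k) (e * S))).toReal :=
    ENNReal.toReal_pos (Metric.measure_ball_pos volume _ hr).ne' measure_ball_lt_top.ne
  have key : ∀ g : Euc k → ℝ, LipschitzWith L g → (∀ p, fderiv ℝ g p v ≤ supN f p v) →
      (∀ p, |fderiv ℝ g p v| ≤ L * ‖v‖) → g w - g w' ≤ supN f z v + ε * S := by
    intro g hg hle hab
    obtain ⟨s, hs, h1⟩ := lip_avg_mvt hg w' v hr
    have e1 : w' + v = w := by rw [hv]; abel
    rw [e1] at h1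
    have hc : dist z (w' + s • v) ≤ K * (e * S) := by
      have e2 : z - (w' + s • v) = s • (z - w) + (1 - s) • (z - w') := by
        rw [hv, smul_sub, smul_sub, sub_smul, one_smul, smul_sub]; abel
      have h2 : dist z (w' + s • v) ≤ S := by
        rw [dist_eq_norm, e2]
        refine (norm_add_le _ _).trans ?_
        rw [norm_smul, norm_smul, Real.norm_of_nonneg hs.1,
          Real.norm_of_nonneg (sub_nonneg.2 hs.2), ← dist_eq_norm, ← dist_eq_norm, dist_comm z w,
          dist_comm z w', hS]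
        nlinarith [dist_nonneg (x := w) (y := z), dist_nonneg (x := w') (y := z), hs.1, hs.2]
      nlinarith
    have h3 := hδ ⟨hr, hrδ⟩ n hnT _ hc
    have hiu : IntegrableOn (fun p => supN f p (u n)) (Metric.ball (w' + s • v) (e * S)) volume :=
      ((h97_supN_loc hf (u n)).integrableOn_isCompact (isCompact_closedBall _ _)).mono_set
        Metric.ball_subset_closedBall
    have hcst : ∀ a : ℝ, IntegrableOn (fun _ => a) (Metric.ball (w' + s • v) (e * S)) volume :=
      fun a => integrableOn_const measure_ball_lt_top.ne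
    have hig : IntegrableOn (fun p => fderiv ℝ g p v) (Metric.ball (w' + s • v) (e * S)) volume :=
      (hcst ((L : ℝ) * ‖v‖)).mono' (measurable_fderiv_apply_const ℝ g v).aestronglyMeasurable
        (Eventually.of_forall fun p => hab p)
    have h4 : ∫ p in Metric.ball (w' + s • v) (e * S), fderiv ℝ g p v ≤
        ∫ p in Metric.ball (w' + s • v) (e * S), S * (supN f p (u n) + L * e) :=
      setIntegral_mono_on hig ((hiu.add (hcst _)).const_mul S) measurableSet_ball fun p _ =>
        (hle p).trans (hup p)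
    rw [integral_const_mul, integral_add hiu (hcst _), setIntegral_const, smul_eq_mul, Measure.real,
      Measure.addHaar_ball_center] at h4
    set V := (volume (Metric.ball (0 : Euc k) (e * S))).toReal
    have h5 : V * (g w - g w' - 2 * L * (e * S)) ≤ V * (S * (supN f z (u n) + e + L * e)) := by
      have := mul_le_mul_of_nonneg_left h3 hSpos'.le
      nlinarith
    have h6 := le_of_mul_le_mul_left h5 hpos
    rw [← hee]
    nlinarith
  refine abs_le.2 ⟨?_, key (f j) (hf j) (fun p => (le_abs_self _).trans (le_supN hf j p v))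
    fun p => abs_fderiv_le hf j p v⟩
  have hneg : ∀ p, fderiv ℝ (-f j) p v = -fderiv ℝ (f j) p v := fun p => by
    rw [fderiv_neg]; rfl
  have := key (-f j) (hf j).neg
    (fun p => by rw [hneg]; exact (neg_le_abs _).trans (le_supN hf j p v))
    fun p => by rw [hneg, abs_neg]; exact abs_fderiv_le hf j p v
  simp only [Pi.neg_apply] at this
  linarith

end

/-- **Kirchheim**: `x j = φ (z j)` with `z j` dense in `E`, `f j` McShane extensions of
`dist (x j) (φ ·)`; `dist (φ w) (φ w') = sup_j |f j w - f j w'|` on `E`. -/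
theorem exists_mdN {E : Set (Euc k)} (hE : MeasurableSet E) {φ : Euc k → X} {L : NNReal}
    (hφ : LipschitzOnWith L φ E) :
    ∃ (N : Euc k → Euc k → ℝ) (x : ℕ → X), (∀ v, Measurable fun z => N z v) ∧
      (∀ z u v, N z (u + v) ≤ N z u + N z v) ∧ (∀ z (c : ℝ) v, N z (c • v) = |c| * N z v) ∧
      (∀ z v, N z v ≤ L * ‖v‖) ∧
      ∀ᵐ z ∂(volume.restrict E), IsMDN E φ z (N z) ∧
        ∀ v, ∀ ε > (0 : ℝ), ∃ j, N z v - ε ≤ |dW E φ (fun y => dist (x j) y) z v| := by
  rcases E.eq_empty_or_nonempty with rfl | hne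
  · refine ⟨fun _ _ => 0, fun _ => φ 0, fun _ => measurable_const, by simp, by simp,
      fun _ v => by positivity, by simp⟩
  have : Nonempty E := hne.to_subtype
  set s : ℕ → E := TopologicalSpace.denseSeq E with hs
  have hsd : DenseRange s := TopologicalSpace.denseRange_denseSeq E
  set x : ℕ → X := fun j => φ (s j) with hx
  have hg : ∀ j, LipschitzOnWith L (fun w => dist (x j) (φ w)) E := by
    intro j
    have := (LipschitzWith.dist_right (x j)).comp_lipschitzOnWith hφ
    rwa [one_mul] at this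
  choose f hf hfe using fun j => (hg j).extend_real
  refine ⟨supN f, x, measurable_supN f, supN_add hf, supN_smul hf, supN_le hf, ?_⟩
  have a1 : ∀ᵐ z ∂(volume.restrict E), ∀ j, DifferentiableAt ℝ (f j) z :=
    ae_restrict_of_ae (ae_all_iff.2 fun j => (hf j).ae_differentiableAt)
  have a2 := ae_restrict_of_ae (s := E) (supN_upper hf)
  have a3 : ∀ᵐ z ∂(volume.restrict E), ∀ j,
      fderivWithin ℝ (fun w => dist (x j) (φ w)) E z = fderiv ℝ (f j) z :=
    ae_all_iff.2 fun j => ae_fderivWithin_eq_fderiv hE (hf j) (hfe j)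
  filter_upwards [a1, a2, a3] with z h1 h2 h3
  refine ⟨fun ε hε => ?_, fun v ε hε => ?_⟩
  · obtain ⟨δ₁, hδ₁, k1⟩ := supN_lower hf h1 hε
    obtain ⟨δ₂, hδ₂, k2⟩ := h2 ε hε
    refine ⟨min δ₁ δ₂, lt_min hδ₁ hδ₂, fun w hw w' hw' d1 d2 => ?_⟩
    obtain ⟨j, hj⟩ := k1 w w' (d1.trans_le (min_le_left _ _)) (d2.trans_le (min_le_left _ _))
    have k3 := k2 w w' (d1.trans_le (min_le_right _ _)) (d2.trans_le (min_le_right _ _))
    rw [← hfe j hw, ← hfe j hw'] at hj
    have lo : |dist (x j) (φ w) - dist (x j) (φ w')| ≤ dist (φ w) (φ w') := by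
      rw [dist_comm (x j), dist_comm (x j)]
      exact abs_dist_sub_le _ _ _
    have up : dist (φ w) (φ w') ≤ supN f z (w - w') + ε * (dist w z + dist w' z) := by
      refine le_of_forall_pos_le_add fun η hη => ?_
      have hL : (0 : ℝ) < 2 * L + 1 := by positivity
      obtain ⟨i, hi⟩ := hsd.exists_dist_lt (⟨w, hw⟩ : E) (div_pos hη hL)
      have k4 := k3 i
      rw [← hfe i hw, ← hfe i hw'] at k4
      have k5 : dist (φ w) (x i) ≤ L * dist w (s i) := hφ.dist_le_mul w hw (s i) (s i).2
      have k6 : dist w (s i : Euc k) < η / (2 * L + 1) := hi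
      have k7 : (2 * L + 1) * dist w (s i : Euc k) ≤ η := by
        rw [lt_div_iff₀ hL] at k6
        linarith
      have k8 := dist_triangle (φ w) (x i) (φ w')
      have k9 := neg_abs_le (dist (x i) (φ w) - dist (x i) (φ w'))
      have k10 := dist_comm (x i) (φ w)
      have k11 : 0 ≤ dist w (s i : Euc k) := dist_nonneg
      beta_reduce at k4
      nlinarith
    beta_reduce at hj
    rw [abs_le]
    constructor <;> linarith
  · obtain ⟨j, hj⟩ := exists_lt_of_lt_ciSup (f := fun j => |fderiv ℝ (f j) z v|)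
      (show supN f z v - ε < supN f z v by linarith)
    refine ⟨j, ?_⟩
    unfold dW
    rw [h3 j]
    exact hj.le

end Crest.Agent.R241
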