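import Crest.Agent.R241.KVar
import Crest.Agent.R241.KMaj

/-! Row 241, block K: radial maps `y ↦ rad x y r` in `CatSp l X` and their majorant metrics. -/

set_option autoImplicit false
open MeasureTheory Filter Topology Set Matrix
open scoped NNReal ENNReal
open Crest.GeometryTopology.Submanifold (Euc)

namespace Crest.Agent.R241

universe u

variable {X : Type u} [MetricSpace X] {l : ℝ} {m : ℕ}

/-- the point at distance `r` from `x` on the segment from `x` to `y`. -/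
noncomputable def CatSp.rad (c : CatSp l X) (x y : X) (r : ℝ) : X := c.geo x y (r / dist x y)

theorem rad_par {x y : X} {r : ℝ} (h0 : 0 ≤ r) (h1 : r ≤ dist x y) :
    r / dist x y ∈ Icc (0 : ℝ) 1 :=
  ⟨div_nonneg h0 dist_nonneg, div_le_one_of_le₀ h1 dist_nonneg⟩

theorem rad_mul {x y : X} {r : ℝ} (h0 : 0 ≤ r) (h1 : r ≤ dist x y) :
    r / dist x y * dist x y = r := by
  rcases (dist_nonneg : 0 ≤ dist x y).eq_or_lt with h | h
  · rw [← h, mul_zero]
    linarith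
  · exact div_mul_cancel₀ _ h.ne'

namespace CatSp
variable (c : CatSp l X)

theorem rad_zero (x y : X) : c.rad x y 0 = x := by
  rw [rad, zero_div, c.zero]

theorem rad_self (x y : X) : c.rad x y (dist x y) = y := by
  rcases (dist_nonneg : 0 ≤ dist x y).eq_or_lt with h | h
  · rw [← h, rad_zero]
    exact dist_eq_zero.1 h.symm
  · rw [rad, div_self h.ne', c.one]

theorem dist_rad (x y : X) {r : ℝ} (h0 : 0 ≤ r) (h1 : r ≤ dist x y) :
    dist x (c.rad x y r) = r := by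
  have := c.dist_geo x y 0 ⟨le_rfl, zero_le_one⟩ _ (rad_par h0 h1)
  rw [c.zero, zero_sub, abs_neg, abs_of_nonneg (rad_par h0 h1).1, rad_mul h0 h1] at this
  exact this

theorem rad_cmp (hl : 0 ≤ l) {x y y' : X} (hy : 0 < dist x y) (hy' : 0 < dist x y') {r r' : ℝ}
    (h0 : 0 ≤ r) (h1 : r ≤ dist x y) (h0' : 0 ≤ r') (h1' : r' ≤ dist x y') :
    md l (dist (c.rad x y r) (c.rad x y' r')) ≤ md l (r - r') +
      sn l r / sn l (dist x y) * (sn l r' / sn l (dist x y')) *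
        (md l (dist y y') - md l (dist x y - dist x y')) := by
  have h := c.cmp x y y' _ (rad_par h0 h1) _ (rad_par h0' h1')
  rw [rad_mul h0 h1, rad_mul h0' h1'] at h
  have a := Alm.sn_pos hl hy
  have b := Alm.sn_pos hl hy'
  refine le_of_mul_le_mul_left (h.trans_eq ?_) (mul_pos a b)
  field_simp

/-- `md d' ≤ md |r - r'| + md d ≤ md (|r - r'| + d)` (`md_sub`); if `y = x` then `r = 0` and
`d' = r'`. -/
theorem dist_rad_le (hl : 0 ≤ l) (x y y' : X) {r r' : ℝ}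
    (h0 : 0 ≤ r) (h1 : r ≤ dist x y) (h0' : 0 ≤ r') (h1' : r' ≤ dist x y') :
    dist (c.rad x y r) (c.rad x y' r') ≤ |r - r'| + dist y y' := by
  rcases (dist_nonneg : 0 ≤ dist x y).eq_or_lt with hy | hy
  · have hr : r = 0 := by linarith
    rw [hr, c.rad_zero, c.dist_rad x y' h0' h1', zero_sub, abs_neg, abs_of_nonneg h0']
    linarith [(dist_nonneg : 0 ≤ dist y y')]
  rcases (dist_nonneg : 0 ≤ dist x y').eq_or_lt with hy' | hy'
  · have hr : r' = 0 := by linarith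
    rw [hr, c.rad_zero, dist_comm, c.dist_rad x y h0 h1, sub_zero, abs_of_nonneg h0]
    linarith [(dist_nonneg : 0 ≤ dist y y')]
  have h := c.rad_cmp hl hy hy' h0 h1 h0' h1'
  have a1 : sn l r / sn l (dist x y) ≤ 1 :=
    div_le_one_of_le₀ ((Alm.strictMono_sn hl).monotone h1) (Alm.sn_pos hl hy).le
  have b0 : 0 ≤ sn l r' / sn l (dist x y') :=
    div_nonneg (Alm.sn_nonneg hl h0') (Alm.sn_pos hl hy').le
  have b1 : sn l r' / sn l (dist x y') ≤ 1 :=
    div_le_one_of_le₀ ((Alm.strictMono_sn hl).monotone h1') (Alm.sn_pos hl hy').le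
  have ab : sn l r / sn l (dist x y) * (sn l r' / sn l (dist x y')) ≤ 1 := mul_le_one₀ a1 b0 b1
  have d0 : md l (dist x y - dist x y') ≤ md l (dist y y') := by
    refine Alm.md_le_of_abs_le hl ?_
    rw [abs_dist, dist_comm x y, dist_comm x y']
    exact abs_dist_sub_le y y' x
  have d1 := mul_le_of_le_one_left (sub_nonneg.2 d0) ab
  have d2 := Alm.md_nonneg hl (dist x y - dist x y')
  have e := md_sub hl |r - r'| (-dist y y')
  rw [sub_neg_eq_add, Alm.md_neg, Alm.md_abs] at e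
  have s1 : sn l (-dist y y') ≤ 0 := by
    rw [← Alm.sn_zero l]
    exact (Alm.strictMono_sn hl).monotone (neg_nonpos.2 dist_nonneg)
  have s2 := mul_nonpos_of_nonneg_of_nonpos (Alm.sn_nonneg hl (abs_nonneg (r - r'))) s1
  have s3 := mul_nonneg (mul_nonneg hl (Alm.md_nonneg hl (r - r'))) (Alm.md_nonneg hl (dist y y'))
  exact Alm.le_of_md_le hl dist_nonneg (by positivity) (by linarith)

private theorem h28_md_eq (hl : 0 ≤ l) (t : ℝ) : md l t = 2 * sn l (t / 2) ^ 2 := by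
  have h1 := md_sub hl (t / 2) (-(t / 2))
  have h2 : sn l (-(t / 2)) = -sn l (t / 2) := by
    unfold sn Crest.GeometryTopology.Submanifold.snk
    split_ifs
    · rfl
    · rw [mul_neg, Real.sinh_neg, neg_div]
  rw [sub_neg_eq_add, add_halves, Alm.md_neg, h2] at h1
  have h3 := Alm.sn_sq hl (t / 2)
  linarith

private theorem h28_le_md (hl : 0 ≤ l) (t : ℝ) : t ^ 2 ≤ 2 * md l t := by
  have h1 := Alm.le_sn hl (r := |t| / 2) (by positivity)
  have h2 := pow_le_pow_left₀ (by positivity) h1 2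
  rw [← Alm.md_abs, h28_md_eq hl, ← sq_abs t]
  linarith

private theorem h28_md_le (hl : 0 ≤ l) {η : ℝ} (h0 : 0 < η) (h1 : η ≤ 1) :
    ∀ᶠ t in 𝓝 (0 : ℝ), 2 * md l t ≤ (1 + η) * t ^ 2 := by
  have h := (Alm.hasDerivAt_sn hl 0).isLittleO.def (c := η / 3) (by positivity)
  have ht : Tendsto (fun t : ℝ => t / 2) (𝓝 0) (𝓝 0) := by
    simpa using (continuous_id.div_const (2 : ℝ)).tendsto (0 : ℝ)
  filter_upwards [ht.eventually h] with t h2
  have e : Alm.cs l 0 = 1 := by simp [Alm.cs]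
  rw [Alm.sn_zero, e, sub_zero, sub_zero, smul_eq_mul, mul_one, Real.norm_eq_abs,
    Real.norm_eq_abs] at h2
  have h3 : |sn l (t / 2)| ≤ (1 + η / 3) * |t / 2| := by
    have := abs_sub_abs_le_abs_sub (sn l (t / 2)) (t / 2)
    linarith
  have h4 := pow_le_pow_left₀ (abs_nonneg _) h3 2
  rw [mul_pow, sq_abs, sq_abs] at h4
  have h5 : (1 + η / 3) ^ 2 * (t / 2) ^ 2 ≤ (1 + η) * (t / 2) ^ 2 :=
    mul_le_mul_of_nonneg_right (by nlinarith) (sq_nonneg _)
  rw [h28_md_eq hl]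
  linarith

private theorem h28_qf_le (g : Matrix (Fin m) (Fin m) ℝ) :
    ∃ M : ℝ, 0 ≤ M ∧ ∀ v : Euc m, √(qf g v.ofLp) ≤ M * ‖v‖ := by
  have hS : (0 : ℝ) ≤ ∑ i, ∑ j, |g i j| :=
    Finset.sum_nonneg fun i _ => Finset.sum_nonneg fun j _ => abs_nonneg _
  refine ⟨√(∑ i, ∑ j, |g i j|), Real.sqrt_nonneg _, fun v => ?_⟩
  refine Real.sqrt_le_iff.2 ⟨by positivity, ?_⟩
  rw [mul_pow, Real.sq_sqrt hS, Finset.sum_mul]
  change ∑ i, v.ofLp i * ∑ j, g i j * v.ofLp j ≤ _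
  refine Finset.sum_le_sum fun i _ => ?_
  rw [Finset.mul_sum, Finset.sum_mul]
  refine Finset.sum_le_sum fun j _ => (le_abs_self _).trans ?_
  have h1 : |v.ofLp i| ≤ ‖v‖ := PiLp.norm_apply_le v i
  have h2 : |v.ofLp j| ≤ ‖v‖ := PiLp.norm_apply_le v j
  rw [abs_mul, abs_mul, mul_left_comm, sq]
  exact mul_le_mul_of_nonneg_left (mul_le_mul h1 h2 (abs_nonneg _) (norm_nonneg _)) (abs_nonneg _)

private theorem h28_sq {a A η M t : ℝ} (h0 : 0 ≤ η) (h1 : η ≤ 1) (hM : 1 ≤ M) (ht : 0 ≤ t)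
    (hA : A ≤ M * t) (ha0 : 0 ≤ a) (ha : a ≤ A + η * t) :
    (1 + η) * a ^ 2 ≤ A ^ 2 + 7 * M ^ 2 * (η * t ^ 2) := by
  have u0 : 0 ≤ η * t := mul_nonneg h0 ht
  have u1 : η * t ≤ t := mul_le_of_le_one_left ht h1
  have u2 : t ≤ M * t := le_mul_of_one_le_left ht hM
  have u3 : M * t ≤ M ^ 2 * t := mul_le_mul_of_nonneg_right (by nlinarith) ht
  have a1 : a ^ 2 ≤ (A + η * t) ^ 2 := pow_le_pow_left₀ ha0 ha 2
  have a2 : a ^ 2 ≤ (2 * (M * t)) ^ 2 := pow_le_pow_left₀ ha0 (by linarith) 2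
  have a3 := mul_le_mul_of_nonneg_left a2 h0
  have a4 : (2 * A + η * t) * (η * t) ≤ 3 * (M ^ 2 * t) * (η * t) :=
    mul_le_mul_of_nonneg_right (by linarith) u0
  linarith

private theorem h28_alg {D a A b B d q σ s η M t : ℝ} (h0 : 0 ≤ η) (h1 : η ≤ 1) (hM : 1 ≤ M)
    (ht : 0 ≤ t) (hA : |A| ≤ M * t) (hB : |B| ≤ M * t) (hq0 : 0 ≤ q) (hq : q ≤ M * t)
    (ha : |a - A| ≤ η * t) (hb : |b - B| ≤ η * t) (hd0 : 0 ≤ d) (hd : d ≤ q + η * t)
    (hσ0 : 0 ≤ σ) (hσ1 : σ ≤ 1) (hσ : |σ - s| ≤ η)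
    (hD : D ≤ (1 + η) * a ^ 2 + σ * ((1 + η) * d ^ 2 - b ^ 2)) :
    D ≤ A ^ 2 + s * (q ^ 2 - B ^ 2) + 17 * M ^ 2 * (η * t ^ 2) := by
  have a1 := h28_sq h0 h1 hM ht hA (abs_nonneg a)
    (by linarith [abs_sub_abs_le_abs_sub a A])
  rw [sq_abs, sq_abs] at a1
  have a2 := h28_sq h0 h1 hM ht hq hd0 hd
  have u0 : 0 ≤ M ^ 2 * (η * t ^ 2) := by positivity
  have u3 : M * t ≤ M ^ 2 * t := mul_le_mul_of_nonneg_right (by nlinarith) ht
  have a3 : B ^ 2 - 2 * M ^ 2 * (η * t ^ 2) ≤ b ^ 2 := by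
    have b1 : |B * (b - B)| ≤ M ^ 2 * t * (η * t) := by
      rw [abs_mul]
      exact mul_le_mul (hB.trans u3) hb (abs_nonneg _) (by positivity)
    have b2 := (abs_le.1 b1).1
    nlinarith [sq_nonneg (b - B)]
  have a4 : |q ^ 2 - B ^ 2| ≤ (M * t) ^ 2 := by
    have b1 := pow_le_pow_left₀ hq0 hq 2
    have b2 := pow_le_pow_left₀ (abs_nonneg _) hB 2
    rw [sq_abs] at b2
    exact abs_le.2 ⟨by linarith [sq_nonneg q], by linarith [sq_nonneg B]⟩
  have a5 : (σ - s) * (q ^ 2 - B ^ 2) ≤ η * (M * t) ^ 2 := by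
    refine (le_abs_self _).trans ?_
    rw [abs_mul]
    exact mul_le_mul hσ a4 (abs_nonneg _) h0
  have a6 : σ * ((1 + η) * d ^ 2 - b ^ 2) ≤ σ * (q ^ 2 - B ^ 2 + 9 * (M ^ 2 * (η * t ^ 2))) :=
    mul_le_mul_of_nonneg_left (by linarith) hσ0
  have a7 : σ * (M ^ 2 * (η * t ^ 2)) ≤ M ^ 2 * (η * t ^ 2) := mul_le_of_le_one_left u0 hσ1
  linarith

/-- infinitesimal comparison.  With `h = w - z`: `t²/2 ≤ md t ≤ (1+η) t²/2` for small `t`,
`r w - r z = r' h + o(h)`, `ρ w - ρ z = ρ' h + o(h)`, `dist (φ w) (φ z) ≤ √(qf g h) + o(h)`, all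
`O(h)`, `sn (r w) / sn (ρ w) → sn (r z) / sn (ρ z)`; so `rad_cmp` gives
`dist² ≤ qf G h + o(h²)`, and `√(a + ε² t²) ≤ √a + ε t`. -/
theorem majAt_rad (hl : 0 ≤ l) (x : X) {E : Set (Euc m)} {φ : Euc m → X}
    {g G : Matrix (Fin m) (Fin m) ℝ} {z : Euc m} (hz : z ∈ E) (hg : g.PosSemidef)
    (hM : MajAt E φ g z) {r : Euc m → ℝ} {r' ρ' : Euc m →L[ℝ] ℝ}
    (hr : HasFDerivWithinAt r r' E z) (hρ : HasFDerivWithinAt (fun w => dist x (φ w)) ρ' E z)
    (h01 : ∀ w ∈ E, 0 ≤ r w ∧ r w ≤ dist x (φ w)) (hpos : 0 < dist x (φ z))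
    (hG : ∀ v : Euc m, r' v ^ 2 + (sn l (r z) / sn l (dist x (φ z))) ^ 2 *
      (qf g v.ofLp - ρ' v ^ 2) ≤ qf G v.ofLp) :
    MajAt E (fun w => c.rad x (φ w) (r w)) G z := by
  intro ε hε
  obtain ⟨M0, hM0, hq⟩ := h28_qf_le g
  obtain ⟨M, hM1, hMa, hMb, hMq⟩ : ∃ M : ℝ, 1 ≤ M ∧ ‖r'‖ ≤ M ∧ ‖ρ'‖ ≤ M ∧ M0 ≤ M :=
    ⟨1 + ‖r'‖ + ‖ρ'‖ + M0, by linarith [norm_nonneg r', norm_nonneg ρ'],
      by linarith [norm_nonneg ρ'], by linarith [norm_nonneg r'],
      by linarith [norm_nonneg r', norm_nonneg ρ']⟩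
  obtain ⟨η, h0, h1, hη⟩ : ∃ η : ℝ, 0 < η ∧ η ≤ 1 ∧ 17 * M ^ 2 * η ≤ ε ^ 2 :=
    ⟨min 1 (ε ^ 2 / (17 * M ^ 2)), lt_min one_pos (by positivity), min_le_left _ _, by
      rw [mul_comm, ← le_div_iff₀ (by positivity)]
      exact min_le_right _ _⟩
  have hs : ∀ w ∈ E, 0 ≤ sn l (r w) / sn l (dist x (φ w)) ∧
      sn l (r w) / sn l (dist x (φ w)) ≤ 1 := fun w hw =>
    ⟨div_nonneg (Alm.sn_nonneg hl (h01 w hw).1) (Alm.sn_nonneg hl dist_nonneg),
      div_le_one_of_le₀ ((Alm.strictMono_sn hl).monotone (h01 w hw).2)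
        (Alm.sn_nonneg hl dist_nonneg)⟩
  have cr : Tendsto r (𝓝[E] z) (𝓝 (r z)) := hr.continuousWithinAt
  have cρ : Tendsto (fun w => dist x (φ w)) (𝓝[E] z) (𝓝 (dist x (φ z))) := hρ.continuousWithinAt
  have ca : Tendsto (fun w => r w - r z) (𝓝[E] z) (𝓝 0) := by
    simpa using cr.sub_const (r z)
  have cd : Tendsto (fun w => dist (φ w) (φ z)) (𝓝[E] z) (𝓝 0) := by
    have c1 : Tendsto (fun w : Euc m => (M0 + 1) * ‖w - z‖) (𝓝[E] z) (𝓝 0) := by
      have : Continuous fun w : Euc m => (M0 + 1) * ‖w - z‖ := by fun_prop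
      simpa using (this.tendsto z).mono_left (nhdsWithin_le_nhds (s := E))
    refine squeeze_zero' (Eventually.of_forall fun _ => dist_nonneg) ?_ c1
    filter_upwards [hM 1 one_pos] with w hw
    linarith [hq (w - z)]
  have cσ : Tendsto (fun w => sn l (r w) / sn l (dist x (φ w)) *
      (sn l (r z) / sn l (dist x (φ z)))) (𝓝[E] z)
      (𝓝 ((sn l (r z) / sn l (dist x (φ z))) ^ 2)) := by
    rw [sq]
    exact ((((Alm.continuous_sn hl).tendsto _).comp cr).div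
      (((Alm.continuous_sn hl).tendsto _).comp cρ) (Alm.sn_pos hl hpos).ne').mul_const _
  filter_upwards [self_mem_nhdsWithin, hM η h0, hr.isLittleO.def h0, hρ.isLittleO.def h0,
    ca.eventually (h28_md_le hl h0 h1), cd.eventually (h28_md_le hl h0 h1),
    Metric.tendsto_nhds.1 cσ η h0, cρ.eventually (lt_mem_nhds hpos)]
    with w hw e1 e2 e3 e4 e5 e6 e7
  have hc := c.rad_cmp hl e7 hpos (h01 w hw).1 (h01 w hw).2 (h01 z hz).1 (h01 z hz).2
  have hσ0 := mul_nonneg (hs w hw).1 (hs z hz).1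
  have ht := norm_nonneg (w - z)
  have key := h28_alg (D := dist (c.rad x (φ w) (r w)) (c.rad x (φ z) (r z)) ^ 2) h0.le h1 hM1 ht
    ((r'.le_opNorm (w - z)).trans (mul_le_mul_of_nonneg_right hMa ht))
    ((ρ'.le_opNorm (w - z)).trans (mul_le_mul_of_nonneg_right hMb ht)) (Real.sqrt_nonneg _)
    ((hq (w - z)).trans (mul_le_mul_of_nonneg_right hMq ht)) e2 e3 dist_nonneg e1 hσ0
    (mul_le_one₀ (hs w hw).2 (hs z hz).1 (hs z hz).2) (le_of_lt e6) (by
      have b1 := h28_le_md hl (dist (c.rad x (φ w) (r w)) (c.rad x (φ z) (r z)))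
      have b2 := h28_le_md hl (dist x (φ w) - dist x (φ z))
      have b3 := mul_le_mul_of_nonneg_left (sub_le_sub e5 b2) hσ0
      linarith)
  rw [Real.sq_sqrt (qf_nonneg hg _)] at key
  have k1 := hG (w - z)
  have k2 := mul_le_mul_of_nonneg_right hη (sq_nonneg ‖w - z‖)
  have k3 : qf G (w - z).ofLp ≤ √(qf G (w - z).ofLp) ^ 2 := by
    rw [Real.sq_sqrt']
    exact le_max_left _ _
  have k4 : 0 ≤ √(qf G (w - z).ofLp) * (ε * ‖w - z‖) := by positivity
  refine le_of_sq_le_sq ?_ (by positivity)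
  linarith

end CatSp

/-- at density points of `E ∩ ψ⁻¹ {x}` every matrix is a majorant. -/
theorem ae_majAt_of_eq {E : Set (Euc m)} (hE : MeasurableSet E) {ψ : Euc m → X} {L : ℝ≥0}
    (hψ : LipschitzOnWith L ψ E) (x : X) :
    ∀ᵐ z ∂(volume.restrict E), ψ z = x → ∀ G : Matrix (Fin m) (Fin m) ℝ, MajAt E ψ G z := by
  have hu : LipschitzOnWith 1 (fun y => dist x y) (ψ '' E) :=
    (LipschitzWith.dist_right x).lipschitzOnWith
  filter_upwards [ae_dW_eq_zero_of_eq hE hψ hu 0, ae_hasFDeriv_dW hE hψ hu] with z h1 h2 hz G ε hε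
  rw [h1 (by rw [hz, dist_self])] at h2
  filter_upwards [h2.isLittleO.def hε] with w hw
  rw [hz, dist_self, sub_zero, _root_.zero_apply, sub_zero, Real.norm_eq_abs,
    abs_dist] at hw
  rw [hz, dist_comm]
  linarith [Real.sqrt_nonneg (qf G (w - z).ofLp)]

/-- measurable, everywhere positive semidefinite version of a matrix field. -/
theorem exists_measurable_psd {α : Type*} [MeasurableSpace α] {μ : Measure α}
    {G : α → Matrix (Fin m) (Fin m) ℝ} (hG : ∀ a b, AEMeasurable (fun z => G z a b) μ)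
    (hp : ∀ᵐ z ∂μ, (G z).PosSemidef) :
    ∃ G' : α → Matrix (Fin m) (Fin m) ℝ, (∀ a b, Measurable fun z => G' z a b) ∧
      (∀ z, (G' z).PosSemidef) ∧ ∀ᵐ z ∂μ, G' z = G z := by
  classical
  have h1 : ∀ᵐ z ∂μ, (G z).PosSemidef ∧ ∀ a b, G z a b = (hG a b).mk _ z :=
    hp.and (ae_all_iff.2 fun a => ae_all_iff.2 fun b => (hG a b).ae_eq_mk)
  obtain ⟨N, hN1, hN2, hN3⟩ := exists_measurable_superset_of_null (ae_iff.1 h1)
  have h2 : ∀ z, z ∉ N → (G z).PosSemidef ∧ ∀ a b, G z a b = (hG a b).mk _ z := fun z hz => by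
    by_contra hc
    exact hz (hN1 hc)
  refine ⟨fun z => if z ∈ N then 0 else G z, fun a b => ?_, fun z => ?_, ?_⟩
  · have : (fun z => (if z ∈ N then 0 else G z) a b) =
        fun z => if z ∈ N then 0 else (hG a b).mk _ z := by
      funext z
      split_ifs with hz
      · rfl
      · exact (h2 z hz).2 a b
    rw [this]
    exact Measurable.ite hN2 measurable_const (hG a b).measurable_mk
  · dsimp only
    split_ifs with hz
    · exact Matrix.PosSemidef.zero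
    · exact (h2 z hz).1
  · filter_upwards [measure_eq_zero_iff_ae_notMem.1 hN3] with z hz
    exact if_neg hz

/-- the matrix `s² g + 2 s a ⊙ b + a ⊗ a`. -/
def radG (g : Matrix (Fin m) (Fin m) ℝ) (s : ℝ) (a b : Fin m → ℝ) : Matrix (Fin m) (Fin m) ℝ :=
  Matrix.of fun i j => s ^ 2 * g i j + s * (a i * b j + b i * a j) + a i * a j

theorem qf_radG (g : Matrix (Fin m) (Fin m) ℝ) (s : ℝ) (a b v : Fin m → ℝ) :
    qf (radG g s a b) v =
      s ^ 2 * qf g v + 2 * s * (a ⬝ᵥ v) * (b ⬝ᵥ v) + (a ⬝ᵥ v) ^ 2 := by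
  have e : s ^ 2 * qf g v + 2 * s * (a ⬝ᵥ v) * (b ⬝ᵥ v) + (a ⬝ᵥ v) ^ 2 =
      s ^ 2 * qf g v + s * ((a ⬝ᵥ v) * (b ⬝ᵥ v)) + s * ((b ⬝ᵥ v) * (a ⬝ᵥ v)) +
        (a ⬝ᵥ v) * (a ⬝ᵥ v) := by ring
  rw [e]
  simp only [qf, dotProduct, Matrix.mulVec, radG, Matrix.of_apply, Finset.sum_mul_sum]
  simp only [Finset.mul_sum, ← Finset.sum_add_distrib]
  refine Finset.sum_congr rfl fun i _ => Finset.sum_congr rfl fun j _ => ?_
  ring

theorem psd_radG {g : Matrix (Fin m) (Fin m) ℝ} (hg : g.PosSemidef) (s : ℝ) (a : Fin m → ℝ)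
    {b : Fin m → ℝ} (hb : ∀ v, (b ⬝ᵥ v) ^ 2 ≤ qf g v) : (radG g s a b).PosSemidef := by
  refine posSemidef_of_qf (fun i j => ?_) fun v => ?_
  · simp only [radG, Matrix.of_apply]
    rw [kl_symm hg i j]
    ring
  · rw [qf_radG]
    have h := mul_le_mul_of_nonneg_left (hb v) (sq_nonneg s)
    nlinarith [sq_nonneg (s * (b ⬝ᵥ v) + a ⬝ᵥ v)]

/-- the matrix `0 ⊕ g`. -/
def liftM (g : Matrix (Fin m) (Fin m) ℝ) : Matrix (Fin (m + 1)) (Fin (m + 1)) ℝ :=
  Matrix.of fun i j => Fin.cases 0 (fun i' => Fin.cases 0 (fun j' => g i' j') j) i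

theorem qf_liftM (g : Matrix (Fin m) (Fin m) ℝ) (v : Fin (m + 1) → ℝ) :
    qf (liftM g) v = qf g fun j => v j.succ := by
  simp [qf, liftM, dotProduct, Matrix.mulVec, Fin.sum_univ_succ]

theorem psd_liftM {g : Matrix (Fin m) (Fin m) ℝ} (hg : g.PosSemidef) : (liftM g).PosSemidef := by
  refine posSemidef_of_qf (fun i j => ?_) fun v => ?_
  · refine Fin.cases ?_ (fun i' => ?_) i <;> refine Fin.cases ?_ (fun j' => ?_) j <;>
      simp [liftM, kl_symm hg]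
  · rw [qf_liftM]
    exact qf_nonneg hg _

theorem measurable_liftM {α : Type*} [MeasurableSpace α] {g : α → Matrix (Fin m) (Fin m) ℝ}
    (hg : ∀ a b, Measurable fun z => g z a b) (a b : Fin (m + 1)) :
    Measurable fun z => liftM (g z) a b := by
  refine Fin.cases ?_ (fun i' => ?_) a <;> refine Fin.cases ?_ (fun j' => ?_) b <;>
    simp [liftM, hg]

/-- the majorant metric of a radial map (`majAt_rad` where `φ z ≠ x`, `ae_majAt_of_eq` where
`φ z = x`; the map is Lipschitz by `dist_rad_le`). -/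
theorem CatSp.exists_rad_metric (c : CatSp l X) (hl : 0 ≤ l) (x : X) {E : Set (Euc m)}
    (hE : MeasurableSet E) {φ : Euc m → X} {L : ℝ≥0} (hφ : LipschitzOnWith L φ E)
    {g : Euc m → Matrix (Fin m) (Fin m) ℝ} (mg : ∀ a b, Measurable fun z => g z a b)
    (psd : ∀ z, (g z).PosSemidef) (maj : ∀ᵐ z ∂(volume.restrict E), MajAt E φ (g z) z)
    {r : Euc m → ℝ} {K : ℝ≥0} (hr : LipschitzOnWith K r E)
    (h01 : ∀ w ∈ E, 0 ≤ r w ∧ r w ≤ dist x (φ w)) {s : Euc m → ℝ}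
    (hs : AEMeasurable s (volume.restrict E))
    (he : ∀ z ∈ E, dist x (φ z) ≠ 0 → s z = sn l (r z) / sn l (dist x (φ z))) :
    ∃ G : Euc m → Matrix (Fin m) (Fin m) ℝ, (∀ a b, Measurable fun z => G z a b) ∧
      (∀ z, (G z).PosSemidef) ∧ ∀ᵐ z ∂(volume.restrict E),
        MajAt E (fun w => c.rad x (φ w) (r w)) (G z) z ∧
        G z = radG (g z) (s z) (cv (fderivWithin ℝ r E z) - s z • dv E φ (dist x) z)
          (dv E φ (dist x) z) := by
  have hu : LipschitzOnWith 1 (dist x) (φ '' E) := (LipschitzWith.dist_right x).lipschitzOnWith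
  have hψ : LipschitzOnWith (K + L) (fun w => c.rad x (φ w) (r w)) E := by
    refine LipschitzOnWith.of_dist_le_mul fun w hw w' hw' => ?_
    refine (c.dist_rad_le hl x _ _ (h01 w hw).1 (h01 w hw).2 (h01 w' hw').1 (h01 w' hw').2).trans ?_
    have h1 := hr.dist_le_mul w hw w' hw'
    have h2 := hφ.dist_le_mul w hw w' hw'
    rw [Real.dist_eq] at h1
    rw [NNReal.coe_add]
    linarith
  have mb : ∀ j, AEMeasurable (fun z => dv E φ (dist x) z j) (volume.restrict E) :=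
    aemeasurable_dv hE hφ hu
  have ma : ∀ j, AEMeasurable
      (fun z => (cv (fderivWithin ℝ r E z) - s z • dv E φ (dist x) z) j) (volume.restrict E) :=
    fun j => (aemeasurable_fderivWithin hE hr _).sub (hs.mul (mb j))
  obtain ⟨G, hGm, hGp, hGe⟩ := exists_measurable_psd (μ := volume.restrict E)
    (G := fun z => radG (g z) (s z) (cv (fderivWithin ℝ r E z) - s z • dv E φ (dist x) z)
      (dv E φ (dist x) z))
    (fun i j => ((((hs.pow_const 2).mul (mg i j).aemeasurable).add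
      (hs.mul (((ma i).mul (mb j)).add ((mb i).mul (ma j))))).add ((ma i).mul (ma j))))
    (by
      filter_upwards [maj, ae_dens hE, ae_hasFDeriv_dW hE hφ hu] with z h1 h2 h3
      refine psd_radG (psd z) _ _ fun v => ?_
      simpa [dv] using h1.sq_le h2 (psd z) hu h3 v)
  refine ⟨G, hGm, hGp, ?_⟩
  filter_upwards [hGe, maj, ae_restrict_mem hE, ae_hasFDeriv_dW hE hφ hu,
    ae_hasFDerivWithinAt hE hr, ae_majAt_of_eq hE hψ x] with z h0 h1 hz h3 h4 h5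
  refine ⟨?_, h0⟩
  rcases (dist_nonneg : 0 ≤ dist x (φ z)).eq_or_lt with hd | hd
  · refine h5 ?_ _
    have hr0 : r z = 0 := le_antisymm ((h01 z hz).2.trans hd.symm.le) (h01 z hz).1
    rw [hr0, c.rad_zero]
  · refine c.majAt_rad hl x hz (psd z) h1 h4 h3 h01 hd fun v => le_of_eq ?_
    rw [h0, qf_radG, ← he z hz hd.ne', sub_dotProduct, smul_dotProduct, clm_apply_eq,
      clm_apply_eq (dW E φ (dist x) z), smul_eq_mul, dv]
    ring

end Crest.Agent.R241
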