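import Crest.Agent.R241.MDet

/-! Row 241, block M (helper3): cylinders `[0,1] × E ⊆ Euc (k+1)`: Fubini, Lipschitz bounds,
derivatives. -/

set_option autoImplicit false
open MeasureTheory Filter Topology Set
open Crest.GeometryTopology.Submanifold (Euc)

namespace Crest.Agent.R241

variable {k : ℕ}

/-- `tl` as a continuous linear map. -/
noncomputable def tlL (k : ℕ) : Euc (k + 1) →L[ℝ] Euc k :=
  LinearMap.toContinuousLinearMap
    { toFun := tl
      map_add' := fun p q => by ext i; simp [tl]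
      map_smul' := fun c p => by ext i; simp [tl] }

@[simp] theorem tlL_apply (p : Euc (k + 1)) : tlL k p = tl p := rfl

/-- the splitting `Euc (k+1) ≃ ℝ × Euc k`. -/
noncomputable def cnL (k : ℕ) : (ℝ × Euc k) ≃L[ℝ] Euc (k + 1) :=
  LinearEquiv.toContinuousLinearEquiv
    { toFun := fun q => cn q.1 q.2
      invFun := fun p => (p 0, tl p)
      map_add' := fun p q => by
        ext i; refine Fin.cases ?_ (fun j => ?_) i <;> simp [cn]
      map_smul' := fun c p => by
        ext i; refine Fin.cases ?_ (fun j => ?_) i <;> simp [cn]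
      left_inv := fun q => by simp
      right_inv := fun p => cn_tl p }

@[simp] theorem cnL_apply (q : ℝ × Euc k) : cnL k q = cn q.1 q.2 := rfl
@[simp] theorem cnL_symm_apply (p : Euc (k + 1)) : (cnL k).symm p = (p 0, tl p) := rfl

@[simp] theorem cn_succ (t : ℝ) (z : Euc k) (j : Fin k) : cn t z j.succ = z j := by simp [cn]
@[simp] theorem tl_apply (p : Euc (k + 1)) (j : Fin k) : tl p j = p j.succ := rfl

theorem tl_sub (p q : Euc (k + 1)) : tl (p - q) = tl p - tl q := map_sub (tlL k) p q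
theorem tl_add (p q : Euc (k + 1)) : tl (p + q) = tl p + tl q := map_add (tlL k) p q
theorem tl_smul (c : ℝ) (p : Euc (k + 1)) : tl (c • p) = c • tl p := map_smul (tlL k) c p

@[simp] theorem tl_single_zero : tl (EuclideanSpace.single (0 : Fin (k + 1)) (1 : ℝ)) = 0 := by
  ext j; simp

@[simp] theorem tl_single_succ (j : Fin k) :
    tl (EuclideanSpace.single j.succ (1 : ℝ)) = EuclideanSpace.single j 1 := by
  ext i; simp

theorem norm_sq_eq_tl (p : Euc (k + 1)) : ‖p‖ ^ 2 = p 0 ^ 2 + ‖tl p‖ ^ 2 := by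
  simp [EuclideanSpace.norm_sq_eq, Fin.sum_univ_succ]

theorem norm_tl_le (p : Euc (k + 1)) : ‖tl p‖ ≤ ‖p‖ := by
  have := norm_sq_eq_tl p
  exact abs_le_of_sq_le_sq' (by nlinarith [sq_nonneg (p 0)]) (norm_nonneg _) |>.2

theorem abs_zero_le_norm (p : Euc (k + 1)) : |p 0| ≤ ‖p‖ := by
  simpa using PiLp.norm_apply_le p 0

theorem norm_cn_le (t : ℝ) (z : Euc k) : ‖cn t z‖ ≤ |t| + ‖z‖ := by
  have := norm_sq_eq_tl (cn t z)
  simp only [cn_zero, tl_cn] at this
  refine abs_le_of_sq_le_sq' ?_ (by positivity) |>.2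
  rw [this, ← sq_abs t]
  nlinarith [abs_nonneg t, norm_nonneg z]

theorem lipschitz_tl : LipschitzWith 1 (tl : Euc (k + 1) → Euc k) :=
  LipschitzWith.of_dist_le_mul fun p q => by
    simpa [dist_eq_norm, ← tl_sub] using norm_tl_le (p - q)

theorem lipschitz_zero : LipschitzWith 1 (fun p : Euc (k + 1) => p 0) :=
  LipschitzWith.of_dist_le_mul fun p q => by
    simpa [dist_eq_norm] using abs_zero_le_norm (p - q)

theorem continuous_tl : Continuous (tl : Euc (k + 1) → Euc k) := lipschitz_tl.continuous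
theorem measurable_tl : Measurable (tl : Euc (k + 1) → Euc k) := continuous_tl.measurable
theorem continuous_cn : Continuous fun q : ℝ × Euc k => cn q.1 q.2 := (cnL k).continuous
theorem measurable_zero' : Measurable (fun p : Euc (k + 1) => p 0) :=
  lipschitz_zero.continuous.measurable

theorem isometry_cn (t : ℝ) : Isometry (cn t : Euc k → Euc (k + 1)) :=
  Isometry.of_dist_eq fun z w => by
    have h : cn t z - cn t w = cn 0 (z - w) := by
      ext i; refine Fin.cases ?_ (fun j => ?_) i <;> simp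
    have := norm_sq_eq_tl (cn 0 (z - w))
    simp only [cn_zero, tl_cn] at this
    rw [dist_eq_norm, dist_eq_norm, h]
    exact (sq_eq_sq₀ (norm_nonneg _) (norm_nonneg _)).1 (by rw [this]; ring)

/-- `cn` as a measurable equivalence. -/
noncomputable def cnM (k : ℕ) : (ℝ × Euc k) ≃ᵐ Euc (k + 1) :=
  (cnL k).toHomeomorph.toMeasurableEquiv

@[simp] theorem cnM_apply (q : ℝ × Euc k) : cnM k q = cn q.1 q.2 := rfl

theorem measurePreserving_cnM (k : ℕ) : MeasurePreserving (cnM k) volume volume := by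
  have h1 := PiLp.volume_preserving_toLp (Fin (k + 1))
  have h2 := (volume_preserving_piFinSuccAbove (fun _ : Fin (k + 1) => ℝ) 0).symm
  have h3 : MeasurePreserving (Prod.map (id : ℝ → ℝ) (WithLp.ofLp : Euc k → Fin k → ℝ))
      volume volume :=
    (MeasurePreserving.id volume).prod (PiLp.volume_preserving_ofLp (Fin k))
  have h := h1.comp (h2.comp h3)
  have e : (cnM k : ℝ × Euc k → Euc (k + 1)) = WithLp.toLp 2 ∘
      (MeasurableEquiv.piFinSuccAbove (fun _ : Fin (k + 1) => ℝ) 0).symm ∘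
        Prod.map id WithLp.ofLp := by
    funext q
    ext i
    refine Fin.cases ?_ (fun j => ?_) i <;> simp [cn, MeasurableEquiv.piFinSuccAbove]
  rw [e]
  exact h

theorem cn_mem_cyl {E : Set (Euc k)} {t : ℝ} {z : Euc k} :
    cn t z ∈ cyl E ↔ t ∈ Icc (0 : ℝ) 1 ∧ z ∈ E := by simp [cyl]

theorem preimage_cyl (E : Set (Euc k)) : cnM k ⁻¹' cyl E = Icc (0 : ℝ) 1 ×ˢ E := by
  ext q; simp [cyl]

theorem image_cyl (E : Set (Euc k)) : cnL k '' (Icc (0 : ℝ) 1 ×ˢ E) = cyl E := by
  ext p
  constructor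
  · rintro ⟨q, hq, rfl⟩
    exact cn_mem_cyl.2 hq
  · intro hp
    exact ⟨(p 0, tl p), hp, cn_tl p⟩

theorem measurableSet_cyl {E : Set (Euc k)} (hE : MeasurableSet E) : MeasurableSet (cyl E) :=
  (measurable_zero' measurableSet_Icc).inter (measurable_tl hE)

theorem isBounded_cyl {E : Set (Euc k)} (hE : Bornology.IsBounded E) :
    Bornology.IsBounded (cyl E) := by
  rw [← image_cyl]
  exact (cnL k).lipschitz.isBounded_image ((Metric.isBounded_Icc 0 1).prod hE)

theorem measurePreserving_cyl (E : Set (Euc k)) :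
    MeasurePreserving (cnM k) ((volume.restrict (Icc (0 : ℝ) 1)).prod (volume.restrict E))
      (volume.restrict (cyl E)) := by
  have := (measurePreserving_cnM k).restrict_preimage_emb (cnM k).measurableEmbedding (cyl E)
  rwa [preimage_cyl, Measure.volume_eq_prod, ← Measure.prod_restrict] at this

theorem measurePreserving_tl_cyl (E : Set (Euc k)) :
    MeasurePreserving (tl : Euc (k + 1) → Euc k) (volume.restrict (cyl E)) (volume.restrict E) := by
  have h1 := (measurePreserving_cyl E).symm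
  have : IsProbabilityMeasure ((volume : Measure ℝ).restrict (Icc (0 : ℝ) 1)) := ⟨by simp⟩
  exact (measurePreserving_snd (μ := volume.restrict (Icc (0 : ℝ) 1))
    (ν := volume.restrict E)).comp h1

theorem ae_cyl_of_ae {E : Set (Euc k)} {P : Euc k → Prop} (h : ∀ᵐ z ∂(volume.restrict E), P z) :
    ∀ᵐ p ∂(volume.restrict (cyl E)), P (tl p) :=
  (measurePreserving_tl_cyl E).quasiMeasurePreserving.ae h

theorem ae_ae_of_ae_cyl {E : Set (Euc k)} {P : Euc (k + 1) → Prop}
    (h : ∀ᵐ p ∂(volume.restrict (cyl E)), P p) :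
    ∀ᵐ t ∂(volume.restrict (Icc (0 : ℝ) 1)), ∀ᵐ z ∂(volume.restrict E), P (cn t z) :=
  Measure.ae_ae_of_ae_prod ((measurePreserving_cyl E).quasiMeasurePreserving.ae h)

theorem integrableOn_comp_tl {E : Set (Euc k)} {g : Euc k → ℝ} (hg : IntegrableOn g E) :
    IntegrableOn (fun p => g (tl p)) (cyl E) :=
  (measurePreserving_tl_cyl E).integrable_comp_of_integrable hg

theorem integrable_prod_cyl {E : Set (Euc k)} {F : Euc (k + 1) → ℝ} (hF : IntegrableOn F (cyl E)) :
    Integrable (fun q : ℝ × Euc k => F (cn q.1 q.2))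
      ((volume.restrict (Icc (0 : ℝ) 1)).prod (volume.restrict E)) :=
  (measurePreserving_cyl E).integrable_comp_of_integrable hF

/-- Fubini, `t` outside. -/
theorem integral_cyl {E : Set (Euc k)} {F : Euc (k + 1) → ℝ} (hF : IntegrableOn F (cyl E)) :
    ∫ p in cyl E, F p = ∫ t in Icc (0 : ℝ) 1, ∫ z in E, F (cn t z) := by
  rw [← (measurePreserving_cyl E).integral_comp' F]
  exact integral_prod _ (integrable_prod_cyl hF)

/-- Fubini, `z` outside. -/
theorem integral_cyl' {E : Set (Euc k)} {F : Euc (k + 1) → ℝ} (hF : IntegrableOn F (cyl E)) :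
    ∫ p in cyl E, F p = ∫ z in E, ∫ t in Icc (0 : ℝ) 1, F (cn t z) := by
  rw [← (measurePreserving_cyl E).integral_comp' F]
  exact integral_prod_symm _ (integrable_prod_cyl hF)

theorem lintegral_cyl {E : Set (Euc k)} {F : Euc (k + 1) → ENNReal}
    (hF : AEMeasurable F (volume.restrict (cyl E))) :
    ∫⁻ p in cyl E, F p = ∫⁻ t in Icc (0 : ℝ) 1, ∫⁻ z in E, F (cn t z) := by
  rw [← (measurePreserving_cyl E).lintegral_comp_emb (cnM k).measurableEmbedding F]
  exact lintegral_prod _ (hF.comp_quasiMeasurePreserving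
    (measurePreserving_cyl E).quasiMeasurePreserving)

theorem lintegral_cyl' {E : Set (Euc k)} {F : Euc (k + 1) → ENNReal}
    (hF : AEMeasurable F (volume.restrict (cyl E))) :
    ∫⁻ p in cyl E, F p = ∫⁻ z in E, ∫⁻ t in Icc (0 : ℝ) 1, F (cn t z) := by
  rw [← (measurePreserving_cyl E).lintegral_comp_emb (cnM k).measurableEmbedding F]
  exact lintegral_prod_symm _ (hF.comp_quasiMeasurePreserving
    (measurePreserving_cyl E).quasiMeasurePreserving)

theorem uniqueDiffWithinAt_cyl {E : Set (Euc k)} {z : Euc k} (hz : UniqueDiffWithinAt ℝ E z)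
    {t : ℝ} (ht : t ∈ Icc (0 : ℝ) 1) : UniqueDiffWithinAt ℝ (cyl E) (cn t z) := by
  have h1 : UniqueDiffWithinAt ℝ (Icc (0 : ℝ) 1 ×ˢ E) (t, z) :=
    (uniqueDiffOn_Icc zero_lt_one t ht).prod hz
  have := ((cnL k).hasFDerivWithinAt (s := Icc (0 : ℝ) 1 ×ˢ E)
    (x := (t, z))).uniqueDiffWithinAt_of_continuousLinearEquiv (cnL k) h1
  rwa [image_cyl] at this

theorem mapsTo_tl_cyl (E : Set (Euc k)) : MapsTo tl (cyl E) E := fun _ hp => hp.2

theorem hasFDerivWithinAt_comp_tl {F : Type*} [NormedAddCommGroup F] [NormedSpace ℝ F]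
    {E : Set (Euc k)} {a : Euc k → F} {a' : Euc k →L[ℝ] F} {p : Euc (k + 1)}
    (ha : HasFDerivWithinAt a a' E (tl p)) :
    HasFDerivWithinAt (fun q => a (tl q)) (a'.comp (tlL k)) (cyl E) p :=
  ha.comp p (tlL k).hasFDerivWithinAt (mapsTo_tl_cyl E)

theorem hasFDerivAt_zero' (p : Euc (k + 1)) :
    HasFDerivAt (fun q : Euc (k + 1) => q 0) (EuclideanSpace.proj (0 : Fin (k + 1)) :
      Euc (k + 1) →L[ℝ] ℝ) p :=
  (EuclideanSpace.proj (0 : Fin (k + 1)) : Euc (k + 1) →L[ℝ] ℝ).hasFDerivAt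

/-- a jointly Lipschitz function of `(t, φ z)` is Lipschitz on the cylinder. -/
theorem lipschitzOnWith_cyl {X Y : Type*} [PseudoMetricSpace X] [PseudoMetricSpace Y]
    {E : Set (Euc k)} {φ : Euc k → X} {K L : NNReal} (hφ : LipschitzOnWith K φ E)
    {h : ℝ → X → Y} {B : Set X} (hB : MapsTo φ E B)
    (hh : LipschitzOnWith L (fun q : ℝ × X => h q.1 q.2) (Icc (0 : ℝ) 1 ×ˢ B)) :
    LipschitzOnWith (L * max 1 K) (fun p => h (p 0) (φ (tl p))) (cyl E) := by
  have h1 : LipschitzOnWith (max 1 K) (fun p : Euc (k + 1) => (p 0, φ (tl p))) (cyl E) := by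
    have h2 : LipschitzOnWith (K * 1) (fun p : Euc (k + 1) => φ (tl p)) (cyl E) :=
      hφ.comp lipschitz_tl.lipschitzOnWith (mapsTo_tl_cyl E)
    rw [mul_one] at h2
    exact lipschitz_zero.lipschitzOnWith.prodMk h2
  exact hh.comp h1 fun p hp => ⟨hp.1, hB hp.2⟩

end Crest.Agent.R241
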