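import Mathlib

/-! Row 241, block M (helper3): algebra for the homotopy formula: determinant of a bordered
matrix, quadrature for polynomials, piecewise linear interpolation. -/

set_option autoImplicit false
open MeasureTheory Filter Topology Set

namespace Crest.Agent.R241

variable {k : ℕ}

theorem hm_det_border (b : Fin (k + 1) → ℝ) (r : Fin (k + 1) → Fin k → ℝ) :
    (Matrix.of fun a => (Fin.cons (b a) (r a) : Fin (k + 1) → ℝ)).det =
      b 0 * (Matrix.of fun a : Fin k => r a.succ).det -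
        ∑ a : Fin k, b a.succ * ((Matrix.of fun a : Fin k => r a.succ).updateRow a (r 0)).det := by
  rw [Matrix.det_succ_column_zero, Fin.sum_univ_succ]
  have h0 : ((Matrix.of fun a => (Fin.cons (b a) (r a) : Fin (k + 1) → ℝ)).submatrix
      (Fin.succAbove 0) Fin.succ) = Matrix.of fun a : Fin k => r a.succ := by
    ext a c; simp
  rw [h0, sub_eq_add_neg, ← Finset.sum_neg_distrib]
  congr 1
  · simp
  refine Finset.sum_congr rfl fun a _ => ?_
  have h1 : ((Matrix.of fun a => (Fin.cons (b a) (r a) : Fin (k + 1) → ℝ)).submatrix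
      (Fin.succAbove a.succ) Fin.succ) =
      ((Matrix.of fun a : Fin k => r a.succ).updateRow a (r 0)).submatrix
        (Fin.cycleRange a).symm id := by
    ext c d
    simp only [Matrix.submatrix_apply, Matrix.of_apply, Fin.cons_succ, id]
    obtain ⟨m, rfl⟩ : ∃ m, k = m + 1 := ⟨k - 1, by have := a.pos; omega⟩
    refine Fin.cases ?_ (fun c' => ?_) c
    · simp
    · rw [Fin.cycleRange_symm_succ, Matrix.updateRow_ne (Fin.succAbove_ne a c')]
      simp
  rw [h1, Matrix.det_permute]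
  simp only [Matrix.of_apply, Fin.cons_zero, Fin.val_succ, Equiv.Perm.sign_symm,
    Fin.sign_cycleRange]
  have : ((-1 : ℝ)) ^ (a : ℕ) * (-1) ^ (a : ℕ) = 1 := by
    rw [← mul_pow]; simp
  push_cast
  rw [pow_succ]
  linear_combination (-(b a.succ * ((Matrix.of fun a : Fin k => r a.succ).updateRow a
    (r 0)).det)) * this

theorem hm_hasDerivAt_det (A B : Matrix (Fin k) (Fin k) ℝ) (t : ℝ) :
    HasDerivAt (fun s : ℝ => (A + s • B).det)
      (∑ a, ((A + t • B).updateRow a (B a)).det) t := by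
  have h : ∀ σ : Equiv.Perm (Fin k), HasDerivAt (fun s : ℝ => ∏ i, (A + s • B) i (σ i))
      (∑ a, ∏ i, ((A + t • B).updateRow a (B a)) i (σ i)) t := by
    intro σ
    have h1 : ∀ i ∈ (Finset.univ : Finset (Fin k)),
        HasDerivAt (fun s : ℝ => (A + s • B) i (σ i)) (B i (σ i)) t := by
      intro i _
      simpa using ((hasDerivAt_id t).mul_const (B i (σ i))).const_add (A i (σ i))
    refine (HasDerivAt.fun_finsetProd h1).congr_deriv ?_
    symm
    refine Finset.sum_congr rfl fun a _ => ?_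
    rw [← Finset.mul_prod_erase _ _ (Finset.mem_univ a), Matrix.updateRow_self, smul_eq_mul,
      mul_comm]
    congr 1
    exact Finset.prod_congr rfl fun i hi => by
      rw [Matrix.updateRow_ne (Finset.ne_of_mem_erase hi)]
  have e : ∀ M : Matrix (Fin k) (Fin k) ℝ,
      M.det = ∑ σ : Equiv.Perm (Fin k), (Equiv.Perm.sign σ : ℝ) * ∏ i, M i (σ i) := by
    intro M
    rw [← Matrix.det_transpose, Matrix.det_apply']
    rfl
  simp only [e]
  rw [Finset.sum_comm]
  simp only [← Finset.mul_sum]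
  exact HasDerivAt.fun_sum fun σ _ => (h σ).const_mul _

theorem hm_continuous_det (A B : Matrix (Fin k) (Fin k) ℝ) :
    Continuous fun s : ℝ => (A + s • B).det :=
  continuous_iff_continuousAt.2 fun t => (hm_hasDerivAt_det A B t).continuousAt

theorem hm_quad (k : ℕ) (s s' : ℝ) : ∃ t c : Fin (k + 1) → ℝ,
    ∀ A B : Matrix (Fin k) (Fin k) ℝ,
      ∫ x in s..s', (A + x • B).det = ∑ j, c j * (A + t j • B).det := by
  let t : Fin (k + 1) → ℝ := fun j => j
  have hinj : Set.InjOn t (Finset.univ : Finset (Fin (k + 1))) := by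
    intro a _ b _ hab
    exact Fin.ext (by simpa [t] using hab)
  refine ⟨t, fun j => ∫ x in s..s', (Lagrange.basis Finset.univ t j).eval x, fun A B => ?_⟩
  set P : Polynomial ℝ := ((Polynomial.X : Polynomial ℝ) • B.map Polynomial.C +
    A.map Polynomial.C).det with hP
  have hev : ∀ x, P.eval x = (A + x • B).det := by
    intro x
    rw [hP, ← Polynomial.coe_evalRingHom, RingHom.map_det]
    congr 1
    ext a b
    simp; ring
  have hd : P.degree < ((Finset.univ : Finset (Fin (k + 1))).card : ℕ) := by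
    have h2 := Polynomial.natDegree_det_X_add_C_le B A
    simp only [Finset.card_univ, Fintype.card_fin] at h2 ⊢
    exact lt_of_le_of_lt Polynomial.degree_le_natDegree (by exact_mod_cast Nat.lt_succ_of_le h2)
  have h := Lagrange.eq_interpolate hinj hd
  simp only [← hev]
  conv_lhs => rw [h]
  simp only [Lagrange.interpolate_apply, Polynomial.eval_finsetSum, Polynomial.eval_mul,
    Polynomial.eval_C]
  rw [intervalIntegral.integral_finsetSum
    (f := fun j x => P.eval (t j) * (Lagrange.basis Finset.univ t j).eval x) fun j _ =>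
    (continuous_const.mul (Polynomial.continuous _)).intervalIntegrable _ _]
  refine Finset.sum_congr rfl fun j _ => ?_
  rw [intervalIntegral.integral_const_mul, mul_comm]

/-- the pointwise homotopy identity on a strip. -/
theorem hm_strip (k : ℕ) (s s' : ℝ) : ∃ t c : Fin (k + 1) → ℝ,
    ∀ (a b : Fin (k + 1) → ℝ) (A B : Fin (k + 1) → Fin k → ℝ),
      ∫ x in s..s', (Matrix.of fun r => (Fin.cons (b r) (A r + x • B r) : Fin (k + 1) → ℝ)).det =
        (a 0 + s' * b 0) * (Matrix.of fun r : Fin k => A r.succ + s' • B r.succ).det -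
        (a 0 + s * b 0) * (Matrix.of fun r : Fin k => A r.succ + s • B r.succ).det -
        ∑ r : Fin k, ∑ j, c j * ((Matrix.of fun r : Fin k => A r.succ + t j • B r.succ).updateRow r
          ((a 0 + t j * b 0) • B r.succ + b r.succ • (A 0 + t j • B 0))).det := by
  obtain ⟨t, c, h⟩ := hm_quad k s s'
  refine ⟨t, c, fun a b A B => ?_⟩
  let A' : Matrix (Fin k) (Fin k) ℝ := Matrix.of fun r => A r.succ
  let B' : Matrix (Fin k) (Fin k) ℝ := Matrix.of fun r => B r.succ
  have e1 : ∀ x : ℝ, (Matrix.of fun r : Fin k => A r.succ + x • B r.succ) = A' + x • B' :=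
    fun x => rfl
  let C : Fin k → Matrix (Fin k) (Fin k) ℝ := fun r =>
    A'.updateRow r (a 0 • B r.succ + b r.succ • A 0)
  let D : Fin k → Matrix (Fin k) (Fin k) ℝ := fun r =>
    B'.updateRow r (b 0 • B r.succ + b r.succ • B 0)
  have e2 : ∀ (r : Fin k) (x : ℝ), (A' + x • B').updateRow r
      ((a 0 + x * b 0) • B r.succ + b r.succ • (A 0 + x • B 0)) = C r + x • D r := by
    intro r x
    ext p q
    by_cases hp : p = r
    · subst hp; simp [C, D]; ring
    · simp [C, D, Matrix.updateRow_ne hp]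
  simp only [e1, e2, ← h]
  have hder : ∀ x : ℝ, HasDerivAt (fun x : ℝ => (a 0 + x * b 0) * (A' + x • B').det)
      ((Matrix.of fun r => (Fin.cons (b r) (A r + x • B r) : Fin (k + 1) → ℝ)).det +
        ∑ r, (C r + x • D r).det) x := by
    intro x
    have h1 : HasDerivAt (fun x : ℝ => a 0 + x * b 0) (b 0) x := by
      simpa using ((hasDerivAt_id x).mul_const (b 0)).const_add (a 0)
    refine (h1.mul (hm_hasDerivAt_det A' B' x)).congr_deriv ?_
    symm
    rw [hm_det_border b fun r => A r + x • B r]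
    simp only [e1, ← e2, Matrix.det_updateRow_add, Matrix.det_updateRow_smul,
      Finset.sum_add_distrib, Finset.mul_sum]
    have : ∀ r, B' r = B r.succ := fun r => rfl
    simp only [this]
    ring
  have hc2 : ∀ r, Continuous fun x : ℝ => (C r + x • D r).det := fun r => hm_continuous_det _ _
  have hc1 : Continuous fun x : ℝ =>
      (Matrix.of fun r => (Fin.cons (b r) (A r + x • B r) : Fin (k + 1) → ℝ)).det := by
    have := hm_continuous_det
      (Matrix.of fun r => (Fin.cons (b r) (A r) : Fin (k + 1) → ℝ))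
      (Matrix.of fun r => (Fin.cons 0 (B r) : Fin (k + 1) → ℝ))
    convert this using 3 with x
    ext p q
    refine Fin.cases ?_ (fun q' => ?_) q <;> simp
  have hftc := intervalIntegral.integral_eq_sub_of_hasDerivAt (a := s) (b := s')
    (fun x _ => hder x) ((hc1.add (continuous_finsetSum _ fun r _ => hc2 r)).intervalIntegrable _ _)
  rw [intervalIntegral.integral_add (hc1.intervalIntegrable _ _)
    ((continuous_finsetSum _ fun r _ => hc2 r).intervalIntegrable _ _),
    intervalIntegral.integral_finsetSum fun r _ => (hc2 r).intervalIntegrable _ _] at hftc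
  linarith

/-! ### piecewise linear interpolation on `[0,1]` -/

/-- piecewise linear interpolation of `w` at the nodes `j / N`. -/
noncomputable def hmPL (N : ℕ) (w : ℝ → ℝ) (t : ℝ) : ℝ :=
  w 0 + ∑ j ∈ Finset.range N, max 0 (min (N * t - j) 1) * (w (((j + 1 : ℕ) : ℝ) / N) - w (j / N))

theorem hmPL_eq {N m : ℕ} (hm : m < N) (w : ℝ → ℝ) {t : ℝ}
    (ht : t ∈ Icc ((m : ℝ) / N) (((m + 1 : ℕ) : ℝ) / N)) :
    hmPL N w t = w (m / N) + (N * t - m) * (w (((m + 1 : ℕ) : ℝ) / N) - w (m / N)) := by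
  have hN : (0 : ℝ) < N := by exact_mod_cast (Nat.zero_le m).trans_lt hm
  have h1 : (m : ℝ) ≤ N * t := by have := ht.1; rwa [div_le_iff₀ hN, mul_comm] at this
  have h2 : N * t ≤ m + 1 := by
    have := ht.2; rw [le_div_iff₀ hN, mul_comm] at this; push_cast at this; exact this
  unfold hmPL
  rw [← Finset.sum_range_add_sum_Ico _ (Nat.succ_le_of_lt hm), Finset.sum_range_succ]
  have e1 : ∑ j ∈ Finset.range m, max 0 (min (N * t - j) 1) *
      (w (((j + 1 : ℕ) : ℝ) / N) - w (j / N)) = w (m / N) - w 0 := by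
    have := Finset.sum_range_sub (fun j : ℕ => w (j / N)) m
    simp only [Nat.cast_zero, zero_div] at this
    rw [← this]
    refine Finset.sum_congr rfl fun j hj => ?_
    have : (j : ℝ) + 1 ≤ m := by exact_mod_cast Finset.mem_range.1 hj
    rw [min_eq_right (by linarith), max_eq_right zero_le_one, one_mul]
  have e2 : ∑ j ∈ Finset.Ico (m + 1) N, max 0 (min (N * t - j) 1) *
      (w (((j + 1 : ℕ) : ℝ) / N) - w (j / N)) = 0 := by
    refine Finset.sum_eq_zero fun j hj => ?_
    have : (m : ℝ) + 1 ≤ j := by exact_mod_cast (Finset.mem_Ico.1 hj).1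
    rw [max_eq_left (min_le_of_left_le (by linarith)), zero_mul]
  rw [e1, e2, min_eq_left (by linarith), max_eq_right (by linarith)]
  ring

theorem hm_exists_cell {N : ℕ} (hN : 0 < N) {t : ℝ} (ht : t ∈ Icc (0 : ℝ) 1) :
    ∃ m < N, t ∈ Icc ((m : ℝ) / N) (((m + 1 : ℕ) : ℝ) / N) := by
  have hN' : (0 : ℝ) < N := by exact_mod_cast hN
  rcases ht.2.eq_or_lt with h | h
  · refine ⟨N - 1, by omega, ?_, ?_⟩
    · rw [h, div_le_one hN']; exact_mod_cast Nat.sub_le N 1
    · rw [h, Nat.sub_add_cancel hN, div_self hN'.ne']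
  · have h0 : 0 ≤ N * t := mul_nonneg hN'.le ht.1
    refine ⟨⌊N * t⌋₊, ?_, ?_, ?_⟩
    · rw [Nat.floor_lt h0]; nlinarith
    · rw [div_le_iff₀ hN', mul_comm t]; exact Nat.floor_le h0
    · rw [le_div_iff₀ hN', mul_comm t]; push_cast; exact (Nat.lt_floor_add_one _).le

theorem hm_node_mem {N m : ℕ} (hm : m ≤ N) : (m : ℝ) / N ∈ Icc (0 : ℝ) 1 :=
  ⟨by positivity, div_le_one_of_le₀ (by exact_mod_cast hm) (by positivity)⟩

theorem hm_cell_coef {N m : ℕ} (hm : m < N) {t : ℝ}
    (ht : t ∈ Icc ((m : ℝ) / N) (((m + 1 : ℕ) : ℝ) / N)) : N * t - m ∈ Icc (0 : ℝ) 1 := by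
  have hN : (0 : ℝ) < N := by exact_mod_cast (Nat.zero_le m).trans_lt hm
  have h1 : (m : ℝ) ≤ N * t := by have := ht.1; rwa [div_le_iff₀ hN, mul_comm] at this
  have h2 : N * t ≤ m + 1 := by
    have := ht.2; rw [le_div_iff₀ hN, mul_comm] at this; push_cast at this; exact this
  constructor <;> linarith

theorem hmPL_sub_le {N : ℕ} (hN : 0 < N) {w w' : ℝ → ℝ} {C : ℝ}
    (h : ∀ s ∈ Icc (0 : ℝ) 1, |w s - w' s| ≤ C) {t : ℝ} (ht : t ∈ Icc (0 : ℝ) 1) :
    |hmPL N w t - hmPL N w' t| ≤ C := by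
  obtain ⟨m, hm, hc⟩ := hm_exists_cell hN ht
  have hτ := hm_cell_coef hm hc
  rw [hmPL_eq hm w hc, hmPL_eq hm w' hc]
  have h1 := abs_le.1 (h _ (hm_node_mem hm.le))
  have h2 := abs_le.1 (h _ (hm_node_mem (Nat.succ_le_of_lt hm)))
  rw [abs_le]
  constructor <;> nlinarith [hτ.1, hτ.2, h1.1, h1.2, h2.1, h2.2]

theorem hmPL_lip {N : ℕ} (hN : 0 < N) {w : ℝ → ℝ} {L : ℝ} (hL : 0 ≤ L)
    (h : ∀ s ∈ Icc (0 : ℝ) 1, ∀ s' ∈ Icc (0 : ℝ) 1, |w s - w s'| ≤ L * |s - s'|) {t t' : ℝ}
    (ht : t ∈ Icc (0 : ℝ) 1) (ht' : t' ∈ Icc (0 : ℝ) 1) :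
    |hmPL N w t - hmPL N w t'| ≤ L * |t - t'| := by
  have hN' : (0 : ℝ) < N := by exact_mod_cast hN
  wlog htt : t' ≤ t generalizing t t'
  · rw [abs_sub_comm, abs_sub_comm t]; exact this ht' ht (le_of_not_ge htt)
  have hid : ∀ x ∈ Icc (0 : ℝ) 1, ∑ j ∈ Finset.range N, max 0 (min (N * x - j) 1) = N * x := by
    intro x hx
    obtain ⟨m, hm, hc⟩ := hm_exists_cell hN hx
    have h1 := hmPL_eq hm (fun s => N * s) hc
    unfold hmPL at h1
    have e : ∀ j : ℕ, (N : ℝ) * (((j + 1 : ℕ) : ℝ) / N) - N * (j / N) = 1 := by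
      intro j; field_simp; push_cast; ring
    simp only [e, mul_one, mul_zero, zero_add] at h1
    rw [h1]; field_simp; ring
  unfold hmPL
  rw [add_sub_add_left_eq_sub, ← Finset.sum_sub_distrib]
  refine (Finset.abs_sum_le_sum_abs _ _).trans ?_
  have hb : ∀ j ∈ Finset.range N, |max 0 (min (N * t - j) 1) *
      (w (((j + 1 : ℕ) : ℝ) / N) - w (j / N)) - max 0 (min (N * t' - j) 1) *
      (w (((j + 1 : ℕ) : ℝ) / N) - w (j / N))| ≤
      (max 0 (min (N * t - j) 1) - max 0 (min (N * t' - j) 1)) * (L / N) := by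
    intro j hj
    have hj' := Finset.mem_range.1 hj
    have hmono : max 0 (min (N * t' - j) 1) ≤ max (0 : ℝ) (min (N * t - j) 1) := by
      gcongr
    rw [← sub_mul, abs_mul, abs_of_nonneg (sub_nonneg.2 hmono)]
    refine mul_le_mul_of_nonneg_left ?_ (sub_nonneg.2 hmono)
    refine (h _ (hm_node_mem (Nat.succ_le_of_lt hj')) _ (hm_node_mem hj'.le)).trans_eq ?_
    have : ((j + 1 : ℕ) : ℝ) / N - j / N = 1 / N := by push_cast; ring
    rw [this, abs_of_pos (by positivity)]; ring
  refine (Finset.sum_le_sum hb).trans_eq ?_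
  rw [← Finset.sum_mul, Finset.sum_sub_distrib, hid t ht, hid t' ht',
    abs_of_nonneg (sub_nonneg.2 htt)]
  field_simp

theorem hmPL_approx {N : ℕ} (hN : 0 < N) {w : ℝ → ℝ} {L : ℝ} (hL : 0 ≤ L)
    (h : ∀ s ∈ Icc (0 : ℝ) 1, ∀ s' ∈ Icc (0 : ℝ) 1, |w s - w s'| ≤ L * |s - s'|) {t : ℝ}
    (ht : t ∈ Icc (0 : ℝ) 1) : |hmPL N w t - w t| ≤ 2 * L / N := by
  have hN' : (0 : ℝ) < N := by exact_mod_cast hN
  obtain ⟨m, hm, hc⟩ := hm_exists_cell hN ht
  have hc' : (m : ℝ) / N ∈ Icc ((m : ℝ) / N) (((m + 1 : ℕ) : ℝ) / N) := ⟨le_rfl, hc.1.trans hc.2⟩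
  have e : hmPL N w (m / N) = w (m / N) := by
    rw [hmPL_eq hm w hc', mul_div_cancel₀ _ hN'.ne', sub_self, zero_mul, add_zero]
  have h1 := hmPL_lip hN hL h ht (hm_node_mem hm.le)
  have h2 := h _ (hm_node_mem hm.le) _ ht
  have h3 : |t - m / N| ≤ 1 / N := by
    rw [abs_of_nonneg (sub_nonneg.2 hc.1)]
    have := hc.2
    have e : ((m + 1 : ℕ) : ℝ) / N = m / N + 1 / N := by push_cast; ring
    linarith
  rw [abs_sub_comm ((m : ℝ) / N)] at h2
  rw [e] at h1
  have h4 : L * |t - m / N| ≤ L * (1 / N) := by gcongr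
  calc |hmPL N w t - w t| ≤ |hmPL N w t - w (m / N)| + |w (m / N) - w t| := abs_sub_le _ _ _
    _ ≤ L * (1 / N) + L * (1 / N) := by linarith
    _ = 2 * L / N := by ring

end Crest.Agent.R241
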