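import Crest.Agent.R241.KMaj
import Crest.Agent.R241.MCyl
import Crest.Agent.R241.MHomA

/-! Row 241, block M (helper3): the homotopy formula for Lipschitz chains. -/

set_option autoImplicit false
open MeasureTheory Filter Topology Set
open scoped NNReal ENNReal Matrix
open Crest.GeometryTopology.Submanifold (Euc)

namespace Crest.Agent.R241

universe u
variable {X : Type u} [MetricSpace X] {k : ℕ}

theorem hm_lip_add {f g : X → ℝ} (hf : Lip f) (hg : Lip g) : Lip fun x => f x + g x :=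
  let ⟨_, h1⟩ := hf; let ⟨_, h2⟩ := hg; ⟨_, h1.add h2⟩

theorem hm_lip_sub {f g : X → ℝ} (hf : Lip f) (hg : Lip g) : Lip fun x => f x - g x :=
  let ⟨_, h1⟩ := hf; let ⟨_, h2⟩ := hg; ⟨_, h1.sub h2⟩

theorem hm_lip_const_mul (c : ℝ) {f : X → ℝ} (hf : Lip f) : Lip fun x => c * f x :=
  let ⟨_, h1⟩ := hf; ⟨_, (lipschitzWith_smul c).comp h1⟩

theorem hm_lip_const (c : ℝ) : Lip fun _ : X => c := ⟨_, LipschitzWith.const c⟩

theorem hm_bdd [CompactSpace X] {f : X → ℝ} (hf : Lip f) : ∃ C : ℝ, 0 ≤ C ∧ ∀ x, |f x| ≤ C := by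
  obtain ⟨_, h⟩ := hf
  obtain ⟨C, hC⟩ := (isCompact_range h.continuous.abs).bddAbove
  exact ⟨max C 0, le_max_right _ _, fun x => le_max_of_le_left (hC ⟨x, rfl⟩)⟩

theorem hm_lip_mul [CompactSpace X] {f g : X → ℝ} (hf : Lip f) (hg : Lip g) :
    Lip fun x => f x * g x := by
  obtain ⟨A, hA0, hA⟩ := hm_bdd hf
  obtain ⟨B, hB0, hB⟩ := hm_bdd hg
  obtain ⟨K, hf⟩ := hf
  obtain ⟨K', hg⟩ := hg
  refine ⟨⟨A * K' + B * K, by positivity⟩, LipschitzWith.of_dist_le_mul fun x y => ?_⟩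
  have h1 := hf.dist_le_mul x y
  have h2 := hg.dist_le_mul x y
  rw [Real.dist_eq] at h1 h2 ⊢
  have e : f x * g x - f y * g y = f x * (g x - g y) + g y * (f x - f y) := by ring
  rw [e]
  refine (abs_add_le _ _).trans ?_
  rw [abs_mul, abs_mul]
  change _ ≤ (A * K' + B * K) * dist x y
  have := mul_le_mul (hA x) h2 (abs_nonneg _) hA0
  have := mul_le_mul (hB y) h1 (abs_nonneg _) hB0
  nlinarith

theorem hm_lip_update {π : Fin k → X → ℝ} (hπ : ∀ a, Lip (π a)) (r : Fin k) {g : X → ℝ}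
    (hg : Lip g) : ∀ a, Lip (Function.update π r g a) := by
  intro a
  by_cases h : a = r
  · subst h; simpa using hg
  · simpa [Function.update_of_ne h] using hπ a

theorem ae_cyl_Ioo (E : Set (Euc k)) :
    ∀ᵐ p ∂(volume.restrict (cyl E)), p 0 ∈ Ioo (0 : ℝ) 1 := by
  have h1 : ∀ᵐ t ∂((volume : Measure ℝ).restrict (Icc (0 : ℝ) 1)), t ∈ Ioo (0 : ℝ) 1 := by
    rw [← Measure.restrict_congr_set Ioo_ae_eq_Icc]
    exact ae_restrict_mem measurableSet_Ioo
  have h2 : ∀ᵐ q ∂(((volume : Measure ℝ).restrict (Icc (0 : ℝ) 1)).prod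
      ((volume : Measure (Euc k)).restrict E)), q.1 ∈ Ioo (0 : ℝ) 1 :=
    Measure.quasiMeasurePreserving_fst.ae h1
  exact (measurePreserving_cyl E).symm.quasiMeasurePreserving.ae h2

theorem cn_one_zero : cn (1 : ℝ) (0 : Euc k) = EuclideanSpace.single 0 1 := by
  ext i; refine Fin.cases ?_ (fun j => ?_) i <;> simp

theorem cn_zero_single (j : Fin k) :
    cn (0 : ℝ) (EuclideanSpace.single j (1 : ℝ)) = EuclideanSpace.single j.succ 1 := by
  ext i; refine Fin.cases ?_ (fun j => ?_) i <;> simp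

/-- `w ↦ cn 0 w` as a linear map. -/
noncomputable def cnR (k : ℕ) : Euc k →L[ℝ] Euc (k + 1) :=
  (cnL k : (ℝ × Euc k) →L[ℝ] Euc (k + 1)).comp (ContinuousLinearMap.inr ℝ ℝ (Euc k))

@[simp] theorem cnR_apply (w : Euc k) : cnR k w = cn 0 w := rfl

theorem hasFDerivAt_cn_right (t : ℝ) (z : Euc k) : HasFDerivAt (cn t) (cnR k) z :=
  (cnL k).hasFDerivAt.comp z (hasFDerivAt_prodMk_right t z)

theorem hasDerivAt_cn_left (t : ℝ) (z : Euc k) :
    HasDerivAt (fun s : ℝ => cn s z) (EuclideanSpace.single 0 1) t := by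
  have h : HasDerivAt (fun s : ℝ => ((s, z) : ℝ × Euc k)) (1, 0) t :=
    (hasDerivAt_id t).prodMk (hasDerivAt_const t z)
  have := (cnL k).hasFDerivAt.comp_hasDerivAt t h
  rw [← cn_one_zero]
  exact this

theorem cv_eq_cons (D : Euc (k + 1) →L[ℝ] ℝ) :
    cv D = Fin.cons (D (EuclideanSpace.single 0 1)) (cv (D.comp (cnR k))) := by
  funext j
  refine Fin.cases rfl (fun j => ?_) j
  simp [cv, cn_zero_single]

theorem hm_lip_slice {u : ℝ → X → ℝ} {L : ℝ≥0}
    (hu : LipschitzOnWith L (fun q : ℝ × X => u q.1 q.2) (Icc (0 : ℝ) 1 ×ˢ univ)) {t : ℝ}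
    (ht : t ∈ Icc (0 : ℝ) 1) : LipschitzWith L (u t) :=
  LipschitzWith.of_dist_le_mul fun x y => by
    simpa using hu.dist_le_mul (t, x) ⟨ht, trivial⟩ (t, y) ⟨ht, trivial⟩

theorem hm_lip_slice' {u : ℝ → X → ℝ} {L : ℝ≥0}
    (hu : LipschitzOnWith L (fun q : ℝ × X => u q.1 q.2) (Icc (0 : ℝ) 1 ×ˢ univ)) (x : X) :
    ∀ s ∈ Icc (0 : ℝ) 1, ∀ s' ∈ Icc (0 : ℝ) 1, |u s x - u s' x| ≤ L * |s - s'| := by
  intro s hs s' hs'
  simpa [Real.dist_eq] using hu.dist_le_mul (s, x) ⟨hs, trivial⟩ (s', x) ⟨hs', trivial⟩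

theorem hm_cont_border (b : Fin (k + 1) → ℝ) (A B : Fin (k + 1) → Fin k → ℝ) :
    Continuous fun x : ℝ =>
      (Matrix.of fun r => (Fin.cons (b r) (A r + x • B r) : Fin (k + 1) → ℝ)).det := by
  have := hm_continuous_det
    (Matrix.of fun r => (Fin.cons (b r) (A r) : Fin (k + 1) → ℝ))
    (Matrix.of fun r => (Fin.cons 0 (B r) : Fin (k + 1) → ℝ))
  convert this using 3 with x
  ext p q
  refine Fin.cases ?_ (fun q' => ?_) q <;> simp

theorem hm_lip_PL {N : ℕ} (hN : 0 < N) {u : ℝ → X → ℝ} {L : ℝ≥0}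
    (hu : LipschitzOnWith L (fun q : ℝ × X => u q.1 q.2) (Icc (0 : ℝ) 1 ×ˢ univ)) :
    LipschitzOnWith (2 * L) (fun q : ℝ × X => hmPL N (fun s => u s q.2) q.1)
      (Icc (0 : ℝ) 1 ×ˢ univ) := by
  refine LipschitzOnWith.of_dist_le_mul fun p hp q hq => ?_
  have h1 := hmPL_lip hN L.2 (hm_lip_slice' hu p.2) hp.1 hq.1
  have h2 := hmPL_sub_le hN (w := fun s => u s p.2) (w' := fun s => u s q.2)
    (C := L * dist p.2 q.2) (fun s hs => (hm_lip_slice hu hs).dist_le_mul _ _) hq.1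
  have h3 : |p.1 - q.1| ≤ dist p q := le_max_left _ _
  have h4 : dist p.2 q.2 ≤ dist p q := le_max_right _ _
  have h5 := mul_le_mul_of_nonneg_left h3 L.2
  have h6 := mul_le_mul_of_nonneg_left h4 L.2
  rw [Real.dist_eq]
  refine (abs_sub_le _ (hmPL N (fun s => u s p.2) q.1) _).trans ?_
  push_cast
  change _ ≤ 2 * (L : ℝ) * _
  have e : (L : ℝ) = L.1 := rfl
  rw [e] at h2 ⊢
  linarith

namespace Chain
variable (T : Chain X k)

theorem hm_wt_int (i : T.ι) : IntegrableOn (T.wt i) (T.E i) := by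
  refine ⟨(T.measurable_wt i).aestronglyMeasurable, ?_⟩
  rw [hasFiniteIntegral_iff_ofReal (.of_forall (T.wt_nonneg i))]
  exact lt_of_le_of_lt (ENNReal.le_tsum i) T.fin.lt_top

theorem hm_wt_summable : Summable fun i => ∫ z in T.E i, T.wt i z := by
  refine (ENNReal.summable_toReal T.fin).congr fun i => ?_
  rw [integral_eq_lintegral_of_nonneg_ae (.of_forall (T.wt_nonneg i))
    (T.measurable_wt i).aestronglyMeasurable]
  rfl

theorem hm_term_int [CompactSpace X] (i : T.ι) {f : X → ℝ} (hf : Lip f) {π : Fin k → X → ℝ}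
    (hπ : ∀ a, Lip (π a)) :
    IntegrableOn (fun z => (T.θ i z : ℝ) * f (T.φ i z) * jdet (T.E i) (T.φ i) π z) (T.E i) := by
  obtain ⟨C, -, hC⟩ := hm_bdd hf
  obtain ⟨K, hK⟩ := T.lip i
  obtain ⟨K', hf⟩ := hf
  have h1 : IntegrableOn (fun z => (T.θ i z : ℝ) * f (T.φ i z)) (T.E i) :=
    Integrable.mul_bdd (T.iθ i)
      ((hf.continuous.comp_continuousOn hK.continuousOn).aestronglyMeasurable (T.mE i))
      (.of_forall fun z => hC _)
  exact integrableOn_mul_jdW (T.mE i) h1 (u := fun a w => π a (T.φ i w)) fun a =>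
    let ⟨_, h⟩ := hπ a; ⟨_, h.comp_lipschitzOnWith hK⟩

theorem hm_term_summable [CompactSpace X] {f : X → ℝ} (hf : Lip f) {π : Fin k → X → ℝ}
    (hπ : ∀ a, Lip (π a)) :
    Summable fun i => ∫ z in T.E i, (T.θ i z : ℝ) * f (T.φ i z) * jdet (T.E i) (T.φ i) π z := by
  obtain ⟨C, hC0, hC⟩ := hm_bdd hf
  choose K hK using hπ
  refine Summable.of_norm_bounded (T.hm_wt_summable.mul_left (C * ∏ a, (K a : ℝ))) fun i => ?_
  rw [← integral_const_mul]
  refine norm_integral_le_of_norm_le ((T.hm_wt_int i).const_mul _) ?_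
  filter_upwards [T.ae_abs_jdet_le i hK] with z hz
  rw [Real.norm_eq_abs, abs_mul, abs_mul, wt]
  have := mul_le_mul (mul_le_mul_of_nonneg_left (hC (T.φ i z)) (abs_nonneg (T.θ i z : ℝ))) hz
    (abs_nonneg _) (by positivity)
  linarith

/-- Hadamard bound on the cylinder. -/
theorem ae_abs_jdW_cyl_le (i : T.ι) {u : Fin (k + 1) → ℝ → X → ℝ} {L : ℝ≥0}
    (hu : ∀ a, LipschitzOnWith L (fun q : ℝ × X => u a q.1 q.2) (Icc (0 : ℝ) 1 ×ˢ univ)) :
    ∀ᵐ p ∂(volume.restrict (cyl (T.E i))),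
      |jdW (cyl (T.E i)) (fun a p => u a (p 0) (T.φ i (tl p))) p| ≤
        (k + 1) * (L : ℝ) ^ (k + 1) * √(T.g i (tl p)).det := by
  obtain ⟨K, hK⟩ := T.lip i
  have hU : ∀ a, LipschitzOnWith (L * max 1 K) (fun p => u a (p 0) (T.φ i (tl p)))
      (cyl (T.E i)) := fun a => lipschitzOnWith_cyl hK (mapsTo_univ _ _) (hu a)
  filter_upwards [ae_cyl_Ioo (T.E i), ae_cyl_of_ae (ae_dens (T.mE i)), ae_cyl_of_ae (T.maj i),
    ae_all_iff.2 fun a => ae_hasFDerivWithinAt (measurableSet_cyl (T.mE i)) (hU a)]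
    with p ht hd hm hD
  set D : Fin (k + 1) → Euc (k + 1) →L[ℝ] ℝ := fun a =>
    fderivWithin ℝ (fun p => u a (p 0) (T.φ i (tl p))) (cyl (T.E i)) p with hDdef
  have ht' : p 0 ∈ Icc (0 : ℝ) 1 := Ioo_subset_Icc_self ht
  have hD' : ∀ a, HasFDerivWithinAt (fun p => u a (p 0) (T.φ i (tl p))) (D a) (cyl (T.E i))
      (cn (p 0) (tl p)) := fun a => by rw [cn_tl]; exact hD a
  have hrow : ∀ a v, (cv ((D a).comp (cnR k)) ⬝ᵥ v) ^ 2 ≤ (L : ℝ) ^ 2 * qf (T.g i (tl p)) v := by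
    intro a v
    refine hm.sq_le hd (T.psd i _) (hm_lip_slice (hu a) ht').lipschitzOnWith ?_ v
    have := (hD' a).comp (tl p) (hasFDerivAt_cn_right (p 0) (tl p)).hasFDerivWithinAt
      (s := T.E i) fun w hw => cn_mem_cyl.2 ⟨ht', hw⟩
    simpa [Function.comp_def] using this
  have hcol : ∀ a, |D a (EuclideanSpace.single 0 1)| ≤ L := by
    intro a
    have h1 := (hD' a).comp_hasDerivWithinAt (p 0)
      (hasDerivAt_cn_left (p 0) (tl p)).hasDerivWithinAt (s := Icc (0 : ℝ) 1)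
      fun s hs => cn_mem_cyl.2 ⟨hs, hd.1⟩
    have h2 := h1.hasDerivAt (Icc_mem_nhds ht.1 ht.2)
    have h3 : LipschitzOnWith L ((fun p : Euc (k + 1) => u a (p 0) (T.φ i (tl p))) ∘
        fun s : ℝ => cn s (tl p)) (Icc (0 : ℝ) 1) := by
      refine LipschitzOnWith.of_dist_le_mul fun s hs s' hs' => ?_
      simpa [Real.dist_eq] using hm_lip_slice' (hu a) (T.φ i (tl p)) s hs s' hs'
    simpa using h2.le_of_lipschitzOn (Icc_mem_nhds ht.1 ht.2) h3
  change |(Matrix.of fun a => cv (D a)).det| ≤ _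
  rw [Matrix.det_succ_column_zero]
  refine (Finset.abs_sum_le_sum_abs _ _).trans ?_
  have hb : ∀ r ∈ (Finset.univ : Finset (Fin (k + 1))),
      |(-1 : ℝ) ^ (r : ℕ) * (Matrix.of fun a => cv (D a)) r 0 *
        ((Matrix.of fun a => cv (D a)).submatrix r.succAbove Fin.succ).det| ≤
        (L : ℝ) ^ (k + 1) * √(T.g i (tl p)).det := by
    intro r _
    have e : (Matrix.of fun a => cv (D a)).submatrix r.succAbove Fin.succ =
        Matrix.of fun a => cv ((D (r.succAbove a)).comp (cnR k)) := by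
      ext a b
      simp only [Matrix.submatrix_apply, Matrix.of_apply]
      rw [cv_eq_cons, Fin.cons_succ]
    have h1 := abs_det_le (T.psd i (tl p)) (C := fun _ => (L : ℝ)) (fun _ => L.2)
      fun a v => hrow (r.succAbove a) v
    rw [e, abs_mul, abs_mul, abs_pow, abs_neg, abs_one, one_pow, one_mul]
    simp only [Finset.prod_const, Finset.card_univ, Fintype.card_fin] at h1
    have := mul_le_mul (hcol r) h1 (abs_nonneg _) L.2
    rw [pow_succ]
    exact le_of_le_of_eq this (by ring)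
  refine (Finset.sum_le_sum hb).trans_eq ?_
  simp [mul_assoc]

theorem hm_cyl_int (i : T.ι) {u : Fin (k + 1) → ℝ → X → ℝ} {L : ℝ≥0}
    (hu : ∀ a, LipschitzOnWith L (fun q : ℝ × X => u a q.1 q.2) (Icc (0 : ℝ) 1 ×ˢ univ)) :
    IntegrableOn (fun p => (T.θ i (tl p) : ℝ) *
      jdW (cyl (T.E i)) (fun a p => u a (p 0) (T.φ i (tl p))) p) (cyl (T.E i)) := by
  obtain ⟨K, hK⟩ := T.lip i
  exact integrableOn_mul_jdW (measurableSet_cyl (T.mE i)) (integrableOn_comp_tl (T.iθ i))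
    fun a => ⟨_, lipschitzOnWith_cyl hK (mapsTo_univ _ _) (hu a)⟩

theorem hm_cyl_bound (i : T.ι) {u : Fin (k + 1) → ℝ → X → ℝ} {L : ℝ≥0}
    (hu : ∀ a, LipschitzOnWith L (fun q : ℝ × X => u a q.1 q.2) (Icc (0 : ℝ) 1 ×ˢ univ)) :
    ‖∫ p in cyl (T.E i), (T.θ i (tl p) : ℝ) *
      jdW (cyl (T.E i)) (fun a p => u a (p 0) (T.φ i (tl p))) p‖ ≤
      (k + 1) * (L : ℝ) ^ (k + 1) * ∫ z in T.E i, T.wt i z := by
  have h1 : ∫ z in T.E i, T.wt i z = ∫ p in cyl (T.E i), T.wt i (tl p) := by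
    rw [integral_cyl' (integrableOn_comp_tl (T.hm_wt_int i))]
    simp
  rw [h1, ← integral_const_mul]
  refine norm_integral_le_of_norm_le ((integrableOn_comp_tl (T.hm_wt_int i)).const_mul _) ?_
  filter_upwards [T.ae_abs_jdW_cyl_le i hu] with p hp
  rw [Real.norm_eq_abs, abs_mul, wt]
  have := mul_le_mul_of_nonneg_left hp (abs_nonneg (T.θ i (tl p) : ℝ))
  linarith

/-- the strip integrand. -/
noncomputable def hmI (i : T.ι) (α β : Fin (k + 1) → X → ℝ) (z : Euc k) (x : ℝ) : ℝ :=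
  (Matrix.of fun r => (Fin.cons (β r (T.φ i z))
    (dv (T.E i) (T.φ i) (α r) z + x • dv (T.E i) (T.φ i) (β r) z) : Fin (k + 1) → ℝ)).det

theorem hm_strip_sum [CompactSpace X] (hT : T.Cyc) {α β : Fin (k + 1) → X → ℝ}
    (hα : ∀ r, Lip (α r)) (hβ : ∀ r, Lip (β r)) (s s' : ℝ) :
    (∀ i, IntegrableOn (fun z => (T.θ i z : ℝ) * ∫ x in s..s', T.hmI i α β z x) (T.E i)) ∧
    HasSum (fun i => ∫ z in T.E i, (T.θ i z : ℝ) * ∫ x in s..s', T.hmI i α β z x)
      (T.act (fun y => α 0 y + s' * β 0 y) (fun a y => α a.succ y + s' * β a.succ y) -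
        T.act (fun y => α 0 y + s * β 0 y) (fun a y => α a.succ y + s * β a.succ y)) := by
  obtain ⟨t, c, h⟩ := hm_strip k s s'
  let w : ℝ → Fin (k + 1) → X → ℝ := fun x r y => α r y + x * β r y
  have hw : ∀ x r, Lip (w x r) := fun x r => hm_lip_add (hα r) (hm_lip_const_mul x (hβ r))
  let ρ : Fin k → Fin (k + 1) → Fin k → X → ℝ := fun r j =>
    Function.update (fun a => w (t j) a.succ) r fun y => w (t j) 0 y * β r.succ y
  have hρ : ∀ r j a, Lip (ρ r j a) := fun r j =>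
    hm_lip_update (fun a => hw _ _) r (hm_lip_mul (hw _ _) (hβ _))
  let F : (X → ℝ) → (Fin k → X → ℝ) → (i : T.ι) → Euc k → ℝ := fun f π i z =>
    (T.θ i z : ℝ) * f (T.φ i z) * jdet (T.E i) (T.φ i) π z
  have hae : ∀ i, ∀ᵐ z ∂(volume.restrict (T.E i)),
      (T.θ i z : ℝ) * ∫ x in s..s', T.hmI i α β z x =
        F (w s' 0) (fun a => w s' a.succ) i z - F (w s 0) (fun a => w s a.succ) i z -
          ∑ r, ∑ j, c j * F (fun _ => 1) (ρ r j) i z := by
    intro i
    filter_upwards [ae_dens (T.mE i), ae_all_iff.2 fun r => T.ae_hasFDeriv i (hα r),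
      ae_all_iff.2 fun r => T.ae_hasFDeriv i (hβ r)] with z hz h1 h2
    have hd : ∀ x r, HasFDerivWithinAt (fun q => w x r (T.φ i q))
        (dW (T.E i) (T.φ i) (α r) z + x • dW (T.E i) (T.φ i) (β r) z) (T.E i) z :=
      fun x r => (h1 r).add ((h2 r).const_mul x)
    have e1 : ∀ x r, dv (T.E i) (T.φ i) (w x r) z =
        dv (T.E i) (T.φ i) (α r) z + x • dv (T.E i) (T.φ i) (β r) z := by
      intro x r
      have : dW (T.E i) (T.φ i) (w x r) z = _ := hz.fderivWithin_eq (hd x r)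
      rw [dv, this]; rfl
    have e2 : ∀ x r, dv (T.E i) (T.φ i) (fun y => w x 0 y * β r y) z =
        w x 0 (T.φ i z) • dv (T.E i) (T.φ i) (β r) z + β r (T.φ i z) •
          (dv (T.E i) (T.φ i) (α 0) z + x • dv (T.E i) (T.φ i) (β 0) z) := by
      intro x r
      have : dW (T.E i) (T.φ i) (fun y => w x 0 y * β r y) z = _ :=
        hz.fderivWithin_eq ((hd x 0).mul (h2 r))
      rw [dv, this]; rfl
    have e3 : ∀ r j, jdet (T.E i) (T.φ i) (ρ r j) z =
        ((Matrix.of fun r : Fin k => dv (T.E i) (T.φ i) (α r.succ) z +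
          t j • dv (T.E i) (T.φ i) (β r.succ) z).updateRow r
          ((α 0 (T.φ i z) + t j * β 0 (T.φ i z)) • dv (T.E i) (T.φ i) (β r.succ) z +
            β r.succ (T.φ i z) •
              (dv (T.E i) (T.φ i) (α 0) z + t j • dv (T.E i) (T.φ i) (β 0) z))).det := by
      intro r j
      unfold jdet
      congr 1
      ext a b
      by_cases hab : a = r
      · subst hab
        simp only [ρ, Matrix.of_apply, Function.update_self, Matrix.updateRow_self, e2, w]
      · simp only [ρ, Matrix.of_apply, Function.update_of_ne hab, Matrix.updateRow_ne hab, e1]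
    unfold hmI
    rw [h (fun r => α r (T.φ i z))]
    simp only [F, e3]
    simp only [jdet, e1, w, mul_sub, Finset.mul_sum]
    congr 1
    · ring
    · exact Finset.sum_congr rfl fun r _ => Finset.sum_congr rfl fun j _ => by ring
  have i1 : ∀ i x, IntegrableOn (fun z => F (w x 0) (fun a => w x a.succ) i z) (T.E i) :=
    fun i x => T.hm_term_int i (hw x 0) fun a => hw x a.succ
  have i2 : ∀ i r j, IntegrableOn (fun z => F (fun _ => 1) (ρ r j) i z) (T.E i) :=
    fun i r j => T.hm_term_int i (hm_lip_const 1) (hρ r j)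
  have i4 : ∀ i, IntegrableOn (fun z => F (w s' 0) (fun a => w s' a.succ) i z -
      F (w s 0) (fun a => w s a.succ) i z) (T.E i) := fun i => (i1 i s').sub (i1 i s)
  have i3 : ∀ i, IntegrableOn (fun z => ∑ r, ∑ j, c j * F (fun _ => 1) (ρ r j) i z) (T.E i) :=
    fun i => integrable_finsetSum _ fun r _ => integrable_finsetSum _ fun j _ =>
      (i2 i r j).const_mul _
  refine ⟨fun i => (((i1 i s').sub (i1 i s)).sub (i3 i)).congr ((hae i).mono fun z hz => hz.symm),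
    ?_⟩
  have hs : HasSum (fun i => (∫ z in T.E i, F (w s' 0) (fun a => w s' a.succ) i z) -
      (∫ z in T.E i, F (w s 0) (fun a => w s a.succ) i z) -
      ∑ r, ∑ j, c j * ∫ z in T.E i, F (fun _ => 1) (ρ r j) i z)
      (T.act (w s' 0) (fun a => w s' a.succ) - T.act (w s 0) (fun a => w s a.succ) -
        ∑ r, ∑ j, c j * T.act (fun _ => 1) (ρ r j)) :=
    (((T.hm_term_summable (hw s' 0) fun a => hw s' a.succ).hasSum).sub
      ((T.hm_term_summable (hw s 0) fun a => hw s a.succ).hasSum)).sub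
      (hasSum_sum fun r _ => hasSum_sum fun j _ =>
        ((T.hm_term_summable (hm_lip_const 1) (hρ r j)).hasSum).mul_left _)
  simp only [hT _ (hρ _ _), mul_zero, Finset.sum_const_zero, sub_zero] at hs
  convert hs using 2 with i
  rw [integral_congr_ae (hae i), integral_sub (i4 i) (i3 i),
    integral_sub (i1 i s') (i1 i s), integral_finsetSum _ fun r _ =>
      integrable_finsetSum _ fun j _ => (i2 i r j).const_mul _]
  congr 1
  refine Finset.sum_congr rfl fun r _ => ?_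
  rw [integral_finsetSum _ fun j _ => (i2 i r j).const_mul _]
  exact Finset.sum_congr rfl fun j _ => integral_const_mul _ _

theorem hm_PL_hasSum [CompactSpace X] (hT : T.Cyc) {u : Fin (k + 1) → ℝ → X → ℝ} {L : ℝ≥0}
    (hu : ∀ a, LipschitzOnWith L (fun q : ℝ × X => u a q.1 q.2) (Icc (0 : ℝ) 1 ×ˢ univ))
    {N : ℕ} (hN : 0 < N) :
    HasSum (fun i => ∫ p in cyl (T.E i), (T.θ i (tl p) : ℝ) *
      jdW (cyl (T.E i)) (fun a p => hmPL N (fun s => u a s (T.φ i (tl p))) (p 0)) p)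
      (T.act (u 0 1) (fun a => u a.succ 1) - T.act (u 0 0) (fun a => u a.succ 0)) := by
  have hN' : (0 : ℝ) < N := by exact_mod_cast hN
  let τ : ℕ → ℝ := fun j => j / N
  let α : ℕ → Fin (k + 1) → X → ℝ := fun j r y =>
    u r (τ j) y - j * (u r (τ (j + 1)) y - u r (τ j) y)
  let β : ℕ → Fin (k + 1) → X → ℝ := fun j r y => N * (u r (τ (j + 1)) y - u r (τ j) y)
  have hl : ∀ j ≤ N, ∀ r, Lip (u r (τ j)) := fun j hj r =>
    ⟨_, hm_lip_slice (hu r) (hm_node_mem hj)⟩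
  have hα : ∀ j < N, ∀ r, Lip (α j r) := fun j hj r =>
    hm_lip_sub (hl j hj.le r) (hm_lip_const_mul _ (hm_lip_sub (hl _ hj r) (hl j hj.le r)))
  have hβ : ∀ j < N, ∀ r, Lip (β j r) := fun j hj r =>
    hm_lip_const_mul _ (hm_lip_sub (hl _ hj r) (hl j hj.le r))
  have e0 : ∀ j r, (fun y => α j r y + τ j * β j r y) = u r (τ j) := by
    intro j r; funext y; simp only [α, β, τ]; field_simp; ring
  have e1 : ∀ j r, (fun y => α j r y + τ (j + 1) * β j r y) = u r (τ (j + 1)) := by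
    intro j r; funext y; simp only [α, β, τ]; field_simp; push_cast; ring
  have hs := fun j (hj : j < N) => T.hm_strip_sum hT (hα j hj) (hβ j hj) (τ j) (τ (j + 1))
  have e2 : ∀ j, (fun (a : Fin k) y => α j a.succ y + τ j * β j a.succ y) =
      fun a => u a.succ (τ j) := fun j => funext fun a => e0 j a.succ
  have e3 : ∀ j, (fun (a : Fin k) y => α j a.succ y + τ (j + 1) * β j a.succ y) =
      fun a => u a.succ (τ (j + 1)) := fun j => funext fun a => e1 j a.succ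
  simp only [e0, e1, e2, e3] at hs
  have hsum := hasSum_sum (s := Finset.range N) fun j hj => (hs j (Finset.mem_range.1 hj)).2
  rw [Finset.sum_range_sub fun j => T.act (u 0 (τ j)) fun a => u a.succ (τ j)] at hsum
  have t0 : τ 0 = 0 := by simp [τ]
  have tN : τ N = 1 := div_self hN'.ne'
  rw [t0, tN] at hsum
  convert hsum using 2 with i
  have hint := T.hm_cyl_int i (u := fun a t x => hmPL N (fun s => u a s x) t)
    fun a => hm_lip_PL hN (hu a)
  rw [integral_cyl' hint, ← integral_finsetSum _ fun j hj => (hs j (Finset.mem_range.1 hj)).1 i]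
  refine integral_congr_ae ?_
  filter_upwards [ae_dens (T.mE i),
    ae_all_iff.2 fun j : Fin N => ae_all_iff.2 fun r => T.ae_hasFDeriv i (hα j j.2 r),
    ae_all_iff.2 fun j : Fin N => ae_all_iff.2 fun r => T.ae_hasFDeriv i (hβ j j.2 r)]
    with z hz h1 h2
  have hτ : ∀ j, τ j ≤ τ (j + 1) := fun j => by simp only [τ]; gcongr; omega
  have key : ∀ j < N, ∀ t ∈ Ioo (τ j) (τ (j + 1)),
      jdW (cyl (T.E i)) (fun a p => hmPL N (fun s => u a s (T.φ i (tl p))) (p 0)) (cn t z) =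
        T.hmI i (α j) (β j) z t := by
    intro j hj t ht
    have ht1 : t ∈ Icc (0 : ℝ) 1 :=
      ⟨(hm_node_mem hj.le).1.trans ht.1.le, ht.2.le.trans (hm_node_mem hj).2⟩
    unfold jdW hmI
    congr 1
    ext r c
    have ha := hasFDerivWithinAt_comp_tl (p := cn t z) (by rw [tl_cn]; exact h1 ⟨j, hj⟩ r)
    have hb := hasFDerivWithinAt_comp_tl (p := cn t z) (by rw [tl_cn]; exact h2 ⟨j, hj⟩ r)
    have hV := ha.add ((hasFDerivAt_zero' (cn t z)).hasFDerivWithinAt.mul hb)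
    have hev : (fun p : Euc (k + 1) => hmPL N (fun s => u r s (T.φ i (tl p))) (p 0)) =ᶠ[𝓝 (cn t z)]
        fun p => α j r (T.φ i (tl p)) + p 0 * β j r (T.φ i (tl p)) := by
      have : ∀ᶠ p : Euc (k + 1) in 𝓝 (cn t z), p 0 ∈ Ioo (τ j) (τ (j + 1)) :=
        lipschitz_zero.continuous.continuousAt.eventually
          (Ioo_mem_nhds (by simpa using ht.1) (by simpa using ht.2))
      filter_upwards [this] with p hp
      rw [hmPL_eq hj _ (Ioo_subset_Icc_self hp)]
      simp only [α, β, τ]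
      ring
    have hD := (hV.congr_of_eventuallyEq (hev.filter_mono nhdsWithin_le_nhds)
      hev.eq_of_nhds).fderivWithin (uniqueDiffWithinAt_cyl hz.uniqueDiff ht1)
    simp only [Matrix.of_apply]
    rw [hD]
    refine Fin.cases ?_ (fun c' => ?_) c <;> simp [cv, dv]
  simp only [tl_cn]
  rw [integral_const_mul, ← Finset.mul_sum, integral_Icc_eq_integral_Ioc,
    ← intervalIntegral.integral_of_le zero_le_one]
  congr 1
  conv_lhs => rw [← t0, ← tN]
  rw [← intervalIntegral.sum_integral_adjacent_intervals]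
  · refine Finset.sum_congr rfl fun j hj => ?_
    rw [intervalIntegral.integral_of_le (hτ j), intervalIntegral.integral_of_le (hτ j),
      integral_Ioc_eq_integral_Ioo, integral_Ioc_eq_integral_Ioo]
    exact setIntegral_congr_fun measurableSet_Ioo (key j (Finset.mem_range.1 hj))
  · intro j hj
    rw [intervalIntegrable_iff_integrableOn_Ioo_of_le (hτ j)]
    have hc : IntervalIntegrable (T.hmI i (α j) (β j) z) volume (τ j) (τ (j + 1)) :=
      (hm_cont_border _ _ _).intervalIntegrable _ _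
    rw [intervalIntegrable_iff_integrableOn_Ioo_of_le (hτ j)] at hc
    exact hc.congr_fun (fun t ht => (key j hj t ht).symm) measurableSet_Ioo

/-- **Homotopy formula.** -/
theorem htpy_formula [CompactSpace X] (hT : T.Cyc) {u : Fin (k + 1) → ℝ → X → ℝ} {L : ℝ≥0}
    (hu : ∀ a, LipschitzOnWith L (fun q : ℝ × X => u a q.1 q.2) (Icc (0 : ℝ) 1 ×ˢ univ)) :
    ∑' i, ∫ p in cyl (T.E i), (T.θ i (tl p) : ℝ) *
      jdW (cyl (T.E i)) (fun a p => u a (p 0) (T.φ i (tl p))) p =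
      T.act (u 0 1) (fun a => u a.succ 1) - T.act (u 0 0) (fun a => u a.succ 0) := by
  have hlim : Tendsto (fun n : ℕ => ∑' i, ∫ p in cyl (T.E i), (T.θ i (tl p) : ℝ) *
      jdW (cyl (T.E i)) (fun a p => hmPL (n + 1) (fun s => u a s (T.φ i (tl p))) (p 0)) p) atTop
      (𝓝 (∑' i, ∫ p in cyl (T.E i), (T.θ i (tl p) : ℝ) *
        jdW (cyl (T.E i)) (fun a p => u a (p 0) (T.φ i (tl p))) p)) := by
    refine tendsto_tsum_of_dominated_convergence
      (T.hm_wt_summable.mul_left ((k + 1) * ((2 * L : ℝ≥0) : ℝ) ^ (k + 1))) (fun i => ?_)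
      (.of_forall fun n i => T.hm_cyl_bound i (u := fun a t x => hmPL (n + 1) (fun s => u a s x) t)
        fun a => hm_lip_PL n.succ_pos (hu a))
    obtain ⟨K, hK⟩ := T.lip i
    refine tendsto_integral_jdW (measurableSet_cyl (T.mE i)) (isBounded_cyl (T.bE i))
      (integrableOn_comp_tl (T.iθ i)) (C := 2 * L * max 1 K)
      (fun n a => lipschitzOnWith_cyl (h := fun t x => hmPL (n + 1) (fun s => u a s x) t) hK
        (mapsTo_univ _ _) (hm_lip_PL n.succ_pos (hu a))) fun a p hp => ?_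
    rw [tendsto_iff_norm_sub_tendsto_zero]
    have h0 : Tendsto (fun n : ℕ => 2 * (L : ℝ) / ((n + 1 : ℕ) : ℝ)) atTop (𝓝 0) :=
      (tendsto_const_div_atTop_nhds_zero_nat _).comp (tendsto_add_atTop_nat 1)
    exact squeeze_zero (fun _ => norm_nonneg _)
      (fun n => hmPL_approx n.succ_pos L.2 (hm_lip_slice' (hu a) _) hp.1) h0
  simp only [fun n : ℕ => (T.hm_PL_hasSum hT hu n.succ_pos).tsum_eq] at hlim
  exact (tendsto_nhds_unique tendsto_const_nhds hlim).symm

/-- the homotopy chain `h([0,1] × T)` for a given majorant metric `G`. -/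
noncomputable def htpy {Y : Type*} [MetricSpace Y] (h : ℝ → X → Y) {L : ℝ≥0}
    (hh : LipschitzOnWith L (fun q : ℝ × X => h q.1 q.2) (Icc (0 : ℝ) 1 ×ˢ univ))
    (G : T.ι → Euc (k + 1) → Matrix (Fin (k + 1)) (Fin (k + 1)) ℝ)
    (mG : ∀ i a b, Measurable fun p => G i p a b) (psdG : ∀ i p, (G i p).PosSemidef)
    (majG : ∀ i, ∀ᵐ p ∂(volume.restrict (cyl (T.E i))),
      MajAt (cyl (T.E i)) (fun p => h (p 0) (T.φ i (tl p))) (G i p) p)
    (finG : ∑' i, ∫⁻ p in cyl (T.E i),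
      ENNReal.ofReal (|(T.θ i (tl p) : ℝ)| * √(G i p).det) ≠ ⊤) : Chain Y (k + 1) where
  ι := T.ι
  cnt := T.cnt
  E i := cyl (T.E i)
  φ i p := h (p 0) (T.φ i (tl p))
  θ i p := T.θ i (tl p)
  g := G
  mE i := measurableSet_cyl (T.mE i)
  bE i := isBounded_cyl (T.bE i)
  lip i := let ⟨_, hK⟩ := T.lip i; ⟨_, lipschitzOnWith_cyl hK (mapsTo_univ _ _) hh⟩
  mθ i := (T.mθ i).comp measurable_tl
  iθ i := integrableOn_comp_tl (T.iθ i)
  mg := mG
  psd := psdG
  maj := majG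
  fin := finG

/-- boundary of the homotopy chain of a cycle. -/
theorem htpy_act [CompactSpace X] (hT : T.Cyc) {Y : Type*} [MetricSpace Y] (h : ℝ → X → Y)
    {L : ℝ≥0} (hh : LipschitzOnWith L (fun q : ℝ × X => h q.1 q.2) (Icc (0 : ℝ) 1 ×ˢ univ))
    (G : T.ι → Euc (k + 1) → Matrix (Fin (k + 1)) (Fin (k + 1)) ℝ) (mG psdG majG finG)
    {f : Y → ℝ} {π : Fin k → Y → ℝ} (hf : Lip f) (hπ : ∀ a, Lip (π a)) :
    (T.htpy h hh G mG psdG majG finG).act (fun _ => 1) (Fin.cons f π) =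
      T.act (fun x => f (h 1 x)) (fun a x => π a (h 1 x)) -
        T.act (fun x => f (h 0 x)) (fun a x => π a (h 0 x)) := by
  have hl : ∀ a, Lip ((Fin.cons f π : Fin (k + 1) → Y → ℝ) a) := fun a =>
    Fin.cases hf hπ a
  choose K hK using hl
  obtain ⟨M, hM⟩ := (Set.finite_range K).bddAbove
  have := T.htpy_formula hT (u := fun a t x => (Fin.cons f π : Fin (k + 1) → Y → ℝ) a (h t x))
    (L := M * L) fun a => ((hK a).weaken (hM ⟨a, rfl⟩)).comp_lipschitzOnWith hh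
  simp only [Fin.cons_zero, Fin.cons_succ] at this
  rw [← this]
  unfold act
  simp only [mul_one]
  rfl

theorem htpy_In {Y : Type*} [MetricSpace Y] (h : ℝ → X → Y)
    {L : ℝ≥0} (hh : LipschitzOnWith L (fun q : ℝ × X => h q.1 q.2) (Icc (0 : ℝ) 1 ×ˢ univ))
    (G : T.ι → Euc (k + 1) → Matrix (Fin (k + 1)) (Fin (k + 1)) ℝ) (mG psdG majG finG)
    {A : Set X} {B : Set Y} (hA : T.In A) (hB : ∀ t ∈ Icc (0 : ℝ) 1, ∀ x ∈ A, h t x ∈ B) :
    (T.htpy h hh G mG psdG majG finG).In B := fun i _ hp => hB _ hp.1 _ (hA i _ hp.2)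

end Chain

end Crest.Agent.R241
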