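import Crest.Agent.R241.KRadA
import Crest.Agent.R241.MHomB
import Crest.Agent.R241.MOps
import Crest.Agent.R241.KChainDV

/-! Row 241, block K: the radial homotopy chain. -/

set_option autoImplicit false
open MeasureTheory Filter Topology Set Matrix
open scoped NNReal ENNReal
open Crest.GeometryTopology.Submanifold (Euc)

namespace Crest.Agent.R241

universe u

variable {X : Type u} [MetricSpace X] {l : ℝ} {k : ℕ}

/-- the radius `r + τ (ρ - r)` of the homotopy. -/
noncomputable def hr (x : X) (r : X → ℝ) (τ : ℝ) (y : X) : ℝ := r y + τ * (dist x y - r y)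

theorem hr_mem {x : X} {r : X → ℝ} (h01 : ∀ y, 0 ≤ r y ∧ r y ≤ dist x y) {τ : ℝ}
    (hτ : τ ∈ Icc (0 : ℝ) 1) (y : X) : 0 ≤ hr x r τ y ∧ hr x r τ y ≤ dist x y := by
  have h := h01 y
  unfold hr
  constructor <;> nlinarith [hτ.1, hτ.2, h.1, h.2]

theorem lip_hr [CompactSpace X] (x : X) {r : X → ℝ} (hlip : Lip r) :
    ∃ K : ℝ≥0, LipschitzOnWith K (fun q : ℝ × X => hr x r q.1 q.2) (Icc (0 : ℝ) 1 ×ˢ univ) := by
  have hu : Lip fun y => dist x y - r y := hm_lip_sub ⟨1, LipschitzWith.dist_right x⟩ hlip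
  obtain ⟨B, hB0, hB⟩ := hm_bdd hu
  obtain ⟨K, hK⟩ := hlip
  obtain ⟨K', hK'⟩ := hu
  refine ⟨⟨K + K' + B, by positivity⟩, LipschitzOnWith.of_dist_le_mul fun q hq q' _ => ?_⟩
  have h1 := hK.dist_le_mul q.2 q'.2
  have h2 := hK'.dist_le_mul q.2 q'.2
  have h3 : dist q.1 q'.1 ≤ dist q q' := le_max_left _ _
  have h4 : dist q.2 q'.2 ≤ dist q q' := le_max_right _ _
  rw [Real.dist_eq] at h1 h2 h3 ⊢
  have e : hr x r q.1 q.2 - hr x r q'.1 q'.2 = (r q.2 - r q'.2) +
      (q.1 * ((dist x q.2 - r q.2) - (dist x q'.2 - r q'.2)) +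
        (dist x q'.2 - r q'.2) * (q.1 - q'.1)) := by
    unfold hr; ring
  rw [e]
  refine (abs_add_le _ _).trans ((add_le_add le_rfl (abs_add_le _ _)).trans ?_)
  rw [abs_mul, abs_mul, abs_of_nonneg hq.1.1]
  change _ ≤ ((K : ℝ) + K' + B) * dist q q'
  have h5 := mul_le_mul_of_nonneg_left h4 K.2
  have h6 := mul_le_mul_of_nonneg_left h4 K'.2
  have h7 := mul_le_mul (hB q'.2) h3 (abs_nonneg _) hB0
  have h8 := mul_le_of_le_one_left
    (abs_nonneg ((dist x q.2 - r q.2) - (dist x q'.2 - r q'.2))) hq.1.2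
  simp only [NNReal.val_eq_coe] at h5 h6
  linarith

theorem lip_hrad [CompactSpace X] (c : CatSp l X) (hl : 0 ≤ l) (x : X) {r : X → ℝ} (hlip : Lip r)
    (h01 : ∀ y, 0 ≤ r y ∧ r y ≤ dist x y) :
    ∃ K : ℝ≥0, LipschitzOnWith K (fun q : ℝ × X => c.rad x q.2 (hr x r q.1 q.2))
      (Icc (0 : ℝ) 1 ×ˢ univ) := by
  obtain ⟨K, hK⟩ := lip_hr x hlip
  refine ⟨K + 1, LipschitzOnWith.of_dist_le_mul fun q hq q' hq' => ?_⟩
  have h1 := hr_mem h01 hq.1 q.2
  have h2 := hr_mem h01 hq'.1 q'.2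
  have h3 := hK.dist_le_mul q hq q' hq'
  have h4 : dist q.2 q'.2 ≤ dist q q' := le_max_right _ _
  rw [Real.dist_eq] at h3
  refine (c.dist_rad_le hl x q.2 q'.2 h1.1 h1.2 h2.1 h2.2).trans ?_
  push_cast
  linarith

private theorem h52_maj {E : Set (Euc k)} {φ : Euc k → X} {g : Matrix (Fin k) (Fin k) ℝ}
    {p : Euc (k + 1)} (h : MajAt E φ g (tl p)) :
    MajAt (cyl E) (fun q => φ (tl q)) (liftM g) p := by
  intro ε hε
  have ht : Tendsto tl (𝓝[cyl E] p) (𝓝[E] (tl p)) :=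
    continuous_tl.continuousWithinAt.tendsto_nhdsWithin (mapsTo_tl_cyl E)
  filter_upwards [ht.eventually (h ε hε)] with w hw
  rw [← tl_sub] at hw
  rw [qf_liftM]
  exact hw.trans (add_le_add le_rfl (mul_le_mul_of_nonneg_left (norm_tl_le _) hε.le))

private theorem h52_cv (a : Euc k →L[ℝ] ℝ) : cv (a.comp (tlL k)) = Fin.cons 0 (cv a) := by
  funext j
  refine Fin.cases ?_ (fun j => ?_) j <;> simp [cv]

/-- `exists_rad_metric` on `cyl E` for `φ ∘ tl`, `liftM (g (tl p))`, radius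
`hr x r (p 0) (φ (tl p))`, `s p = sn (radius) / sn ρ`; a.e. the covector `dv (dist x)` on the
cylinder is `Fin.cons 0 (dv ..)` and the `0`-th coordinate of the derivative of the radius is
`ρ - r` (`hasFDerivWithinAt_comp_tl`, `hasFDerivAt_zero'`, `ae_cyl_of_ae`, `ae_dens`); then
`det_htpy_le` with `D = 1/2`. -/
theorem exists_htpy_metric [CompactSpace X] (c : CatSp l X) (hl : 0 ≤ l) (T : Chain X k) (x : X)
    {r : X → ℝ} (hlip : Lip r) (h01 : ∀ y, 0 ≤ r y ∧ r y ≤ dist x y) (i : T.ι) :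
    ∃ G : Euc (k + 1) → Matrix (Fin (k + 1)) (Fin (k + 1)) ℝ,
      (∀ a b, Measurable fun p => G p a b) ∧ (∀ p, (G p).PosSemidef) ∧
      ∀ᵐ p ∂(volume.restrict (cyl (T.E i))),
        MajAt (cyl (T.E i))
          (fun p => c.rad x (T.φ i (tl p)) (hr x r (p 0) (T.φ i (tl p)))) (G p) p ∧
        √(G p).det ≤ (dist x (T.φ i (tl p)) - r (T.φ i (tl p))) *
          (sn l (hr x r (p 0) (T.φ i (tl p))) / sn l (dist x (T.φ i (tl p)))) ^ k *
          √(T.g i (tl p)).det * √(1 - T.G (dist x) (dist x) i (tl p)) := by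
  obtain ⟨L, hL⟩ := T.lip i
  obtain ⟨K, hK⟩ := lip_hr x hlip
  have hE := measurableSet_cyl (T.mE i)
  have hφ : LipschitzOnWith (L * 1) (fun p => T.φ i (tl p)) (cyl (T.E i)) :=
    hL.comp lipschitz_tl.lipschitzOnWith (mapsTo_tl_cyl _)
  have hR := lipschitzOnWith_cyl hL (mapsTo_univ _ _) hK
  have hs : AEMeasurable (fun p : Euc (k + 1) => sn l (hr x r (p 0) (T.φ i (tl p))) /
      sn l (dist x (T.φ i (tl p)))) (volume.restrict (cyl (T.E i))) :=
    (((Alm.continuous_sn hl).comp_continuousOn hR.continuousOn).aemeasurable hE).div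
      (((Alm.continuous_sn hl).comp_continuousOn
        ((LipschitzWith.dist_right x).continuous.comp_continuousOn hφ.continuousOn)).aemeasurable hE)
  obtain ⟨G, mG, pG, hG⟩ := c.exists_rad_metric hl x hE hφ
    (g := fun p => liftM (T.g i (tl p)))
    (measurable_liftM fun a b => (T.mg i a b).comp measurable_tl)
    (fun p => psd_liftM (T.psd i _))
    ((ae_cyl_of_ae (T.maj i)).mono fun p hp => h52_maj hp) hR
    (fun w hw => hr_mem h01 hw.1 _) hs (fun _ _ _ => rfl)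
  refine ⟨G, mG, pG, ?_⟩
  filter_upwards [hG, ae_dens hE,
    ae_cyl_of_ae (T.ae_hasFDeriv i (u := dist x) ⟨1, LipschitzWith.dist_right x⟩),
    ae_cyl_of_ae (T.ae_hasFDeriv i hlip),
    ae_cyl_of_ae (T.ae_dv_sq_le i (LipschitzWith.dist_right x))] with p hp hD hρ hr' hb
  refine ⟨hp.1, ?_⟩
  set s := sn l (hr x r (p 0) (T.φ i (tl p))) / sn l (dist x (T.φ i (tl p))) with hsd
  have hm := hr_mem h01 hD.1.1 (T.φ i (tl p))
  have hs0 : 0 ≤ s := div_nonneg (Alm.sn_nonneg hl hm.1) (Alm.sn_nonneg hl dist_nonneg)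
  have hc0 : 0 ≤ dist x (T.φ i (tl p)) - r (T.φ i (tl p)) := sub_nonneg.2 (h01 _).2
  have d1 := hasFDerivWithinAt_comp_tl hρ
  have d2 := hasFDerivWithinAt_comp_tl hr'
  have d3 := d2.add ((hasFDerivAt_zero' p).hasFDerivWithinAt.mul (d1.sub d2))
  have e1 : dv (cyl (T.E i)) (fun p => T.φ i (tl p)) (dist x) p =
      Fin.cons 0 (dv (T.E i) (T.φ i) (dist x) (tl p)) := by
    rw [dv, dW, hD.fderivWithin_eq d1, h52_cv, dv]
  have e2 : fderivWithin ℝ (fun p : Euc (k + 1) => hr x r (p 0) (T.φ i (tl p))) (cyl (T.E i)) p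
      (EuclideanSpace.single 0 1) = dist x (T.φ i (tl p)) - r (T.φ i (tl p)) := by
    have := hD.fderivWithin_eq d3
    refine (congrArg (fun D : Euc (k + 1) →L[ℝ] ℝ => D (EuclideanSpace.single 0 1)) this).trans ?_
    simp
  have h1 := det_htpy_le (T.psd i (tl p)) (pG p) (D := 1 / 2) (s := s)
    (c := dist x (T.φ i (tl p)) - r (T.φ i (tl p)))
    (a := cv ((fderivWithin ℝ (fun p : Euc (k + 1) => hr x r (p 0) (T.φ i (tl p)))
      (cyl (T.E i)) p).comp (cnR k)) - s • dv (T.E i) (T.φ i) (dist x) (tl p))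
    (b := dv (T.E i) (T.φ i) (dist x) (tl p))
    (fun v => by simpa using hb v) (by norm_num) fun τ v => by
      rw [hp.2, qf_radG, qf_liftM, e1, cv_eq_cons, e2]
      refine le_of_eq ?_
      simp only [sub_dotProduct, smul_dotProduct, smul_eq_mul, Fin.cons_succ]
      simp only [dotProduct, Fin.sum_univ_succ, Fin.cons_zero, Fin.cons_succ]
      ring
  refine (Real.sqrt_le_sqrt h1).trans_eq ?_
  have e3 : (dist x (T.φ i (tl p)) - r (T.φ i (tl p))) ^ 2 * s ^ (2 * k) =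
      ((dist x (T.φ i (tl p)) - r (T.φ i (tl p))) * s ^ k) ^ 2 := by ring
  rw [Real.sqrt_mul (mul_nonneg (by positivity) (T.psd i _).det_nonneg),
    Real.sqrt_mul (by positivity), e3, Real.sqrt_sq (by positivity)]
  congr 2
  simp [Chain.G, gam]

theorem h55_ae_ae {E : Set (Euc k)} {P : Euc (k + 1) → Prop}
    (h : ∀ᵐ p ∂(volume.restrict (cyl E)), P p) :
    ∀ᵐ z ∂(volume.restrict E), ∀ᵐ t ∂(volume.restrict (Icc (0 : ℝ) 1)), P (cn t z) :=
  Measure.ae_ae_of_ae_prod (p := fun q : Euc k × ℝ => P (cn q.2 q.1))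
    (Measure.measurePreserving_swap.quasiMeasurePreserving.ae
      ((measurePreserving_cyl E).quasiMeasurePreserving.ae h))

/-- the homotopy chain (`Chain.htpy`, `htpy_act`, `rad_self`; mass by `lintegral_cyl'`). -/
theorem exists_htpy [CompactSpace X] [MeasurableSpace X] [BorelSpace X] (c : CatSp l X)
    (hl : 0 ≤ l) (T : Chain X k) (hT : T.Cyc) (x : X) {r : X → ℝ} (hlip : Lip r)
    (h01 : ∀ y, 0 ≤ r y ∧ r y ≤ dist x y) {W : X → ℝ} (hW : BM W)
    (hWle : ∀ y, ∫ τ in (0 : ℝ)..1,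
      (dist x y - r y) * (sn l (hr x r τ y) / sn l (dist x y)) ^ k ≤ W y) :
    ∃ H : Chain X (k + 1),
      (∀ (f : X → ℝ) (π : Fin k → X → ℝ), Lip f → (∀ a, Lip (π a)) →
        H.act (fun _ => 1) (Fin.cons f π) = T.act f π -
          T.act (fun y => f (c.rad x y (r y))) fun a y => π a (c.rad x y (r y))) ∧
      H.mass ≤ T.I (fun p t => W p * √(1 - t)) (dist x) (dist x) := by
  choose G mG psdG hG using exists_htpy_metric c hl T x hlip h01
  obtain ⟨K, hK⟩ := lip_hrad c hl x hlip h01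
  have hρ : Lip (dist x) := ⟨1, LipschitzWith.dist_right x⟩
  obtain ⟨a, ha⟩ : ∃ a : X → ℝ → ℝ, a = fun y τ =>
    (dist x y - r y) * (sn l (hr x r τ y) / sn l (dist x y)) ^ k := ⟨_, rfl⟩
  have hac : ∀ y, Continuous (a y) := fun y => by
    have h1 : Continuous fun τ => hr x r τ y :=
      continuous_const.add (continuous_id.mul continuous_const)
    rw [ha]
    exact continuous_const.mul ((((Alm.continuous_sn hl).comp h1).div_const _).pow k)
  have ha0 : ∀ y, ∀ τ ∈ Icc (0 : ℝ) 1, 0 ≤ a y τ := fun y τ hτ => by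
    rw [ha]
    exact mul_nonneg (sub_nonneg.2 (h01 y).2) (pow_nonneg (div_nonneg
      (Alm.sn_nonneg hl (hr_mem h01 hτ y).1) (Alm.sn_nonneg hl dist_nonneg)) k)
  have haW : ∀ y, ∫ τ in Icc (0 : ℝ) 1, a y τ ≤ W y := fun y => by
    rw [integral_Icc_eq_integral_Ioc, ← intervalIntegral.integral_of_le zero_le_one, ha]
    exact hWle y
  have hW0 : ∀ y, 0 ≤ W y := fun y =>
    (setIntegral_nonneg measurableSet_Icc (ha0 y)).trans (haW y)
  have hB : T.BFam fun i z => W (T.φ i z) * √(1 - T.G (dist x) (dist x) i z) :=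
    (Chain.bFam_φ hW).mul ((Chain.bFam_G hρ hρ).comp (Φ := fun t => √(1 - t)) (by fun_prop))
  have hF0 : ∀ i z, 0 ≤ T.wt i z * (W (T.φ i z) * √(1 - T.G (dist x) (dist x) i z)) :=
    fun i z => mul_nonneg (T.wt_nonneg i z) (mul_nonneg (hW0 _) (Real.sqrt_nonneg _))
  have key : ∀ i, ∫⁻ p in cyl (T.E i), ENNReal.ofReal (|(T.θ i (tl p) : ℝ)| * √(G i p).det) ≤
      ENNReal.ofReal (∫ z in T.E i,
        T.wt i z * (W (T.φ i z) * √(1 - T.G (dist x) (dist x) i z))) := by
    intro i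
    have hm : Measurable fun p : Euc (k + 1) =>
        ENNReal.ofReal (|(T.θ i (tl p) : ℝ)| * √(G i p).det) :=
      ((continuous_abs.measurable.comp ((measurable_of_countable (fun n : ℤ => (n : ℝ))).comp
        ((T.mθ i).comp measurable_tl))).mul (measurable_det (mG i)).sqrt).ennreal_ofReal
    rw [lintegral_cyl' hm.aemeasurable, ofReal_integral_eq_lintegral_ofReal (hB.integrable i)
      (Eventually.of_forall (hF0 i))]
    refine lintegral_mono_ae ?_
    filter_upwards [h55_ae_ae (hG i)] with z hz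
    obtain ⟨b, hb⟩ : ∃ b : ℝ, b = T.wt i z * √(1 - T.G (dist x) (dist x) i z) := ⟨_, rfl⟩
    have hb0 : 0 ≤ b := hb ▸ mul_nonneg (T.wt_nonneg i z) (Real.sqrt_nonneg _)
    calc _ ≤ ∫⁻ t in Icc (0 : ℝ) 1, ENNReal.ofReal (b * a (T.φ i z) t) := by
          refine lintegral_mono_ae ?_
          filter_upwards [hz] with t ht
          have h2 := ht.2
          simp only [tl_cn, cn_zero] at h2 ⊢
          refine ENNReal.ofReal_le_ofReal ((mul_le_mul_of_nonneg_left h2 (abs_nonneg _)).trans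
            (le_of_eq ?_))
          rw [hb, ha, Chain.wt]
          ring
      _ = ENNReal.ofReal (∫ t in Icc (0 : ℝ) 1, b * a (T.φ i z) t) := by
          refine (ofReal_integral_eq_lintegral_ofReal
            ((continuous_const.mul (hac _)).continuousOn.integrableOn_Icc) ?_).symm
          filter_upwards [ae_restrict_mem measurableSet_Icc] with t ht
          exact mul_nonneg hb0 (ha0 _ t ht)
      _ ≤ _ := by
          refine ENNReal.ofReal_le_ofReal ?_
          rw [integral_const_mul]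
          refine (mul_le_mul_of_nonneg_left (haW _) hb0).trans (le_of_eq ?_)
          rw [hb]
          ring
  have hsum : ∑' i, ∫⁻ p in cyl (T.E i), ENNReal.ofReal (|(T.θ i (tl p) : ℝ)| * √(G i p).det) ≤
      ENNReal.ofReal (T.I (fun p t => W p * √(1 - t)) (dist x) (dist x)) := by
    refine (ENNReal.tsum_le_tsum key).trans (le_of_eq ?_)
    exact (ENNReal.ofReal_tsum_of_nonneg (fun i => integral_nonneg (hF0 i)) hB.summable).symm
  refine ⟨T.htpy (fun τ y => c.rad x y (hr x r τ y)) hK G mG psdG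
    (fun i => (hG i).mono fun p hp => hp.1) (ne_top_of_le_ne_top ENNReal.ofReal_ne_top hsum),
    fun f π hf hπ => ?_, ?_⟩
  · rw [T.htpy_act hT _ hK G mG psdG _ _ hf hπ]
    have e1 : ∀ y, hr x r 1 y = dist x y := fun y => by unfold hr; ring
    have e0 : ∀ y, hr x r 0 y = r y := fun y => by unfold hr; ring
    simp only [e1, e0, c.rad_self]
  · exact ENNReal.toReal_le_of_le_ofReal (tsum_nonneg fun i => integral_nonneg (hF0 i)) hsum

/-- the pushed chain (`Chain.remap`, `exists_rad_metric`, `det_deform_le` with `D = 1/2`; where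
`det g = 0` also `det G = 0`, elsewhere apply `hJ` to `t = √det G / √det g`). -/
theorem exists_push [CompactSpace X] [MeasurableSpace X] [BorelSpace X] (c : CatSp l X)
    (hl : 0 ≤ l) (T : Chain X k) (x : X) {r : X → ℝ} (hlip : Lip r)
    (h01 : ∀ y, 0 ≤ r y ∧ r y ≤ dist x y) {s : X → ℝ} (hs : Measurable s) (hs0 : ∀ y, 0 < s y)
    (he : ∀ y, dist x y ≠ 0 → s y = sn l (r y) / sn l (dist x y))
    {J : T.ι → Euc k → ℝ} (hB : T.BFam J)
    (hJ : ∀ i, ∀ᵐ z ∂(volume.restrict (T.E i)), ∀ t : ℝ, 0 ≤ t →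
      s (T.φ i z) ^ 2 * t ^ 2 ≤ s (T.φ i z) ^ (2 * k) *
        ((s (T.φ i z) + (T.G r (dist x) i z - s (T.φ i z) * T.G (dist x) (dist x) i z)) ^ 2 +
          (T.G r r i z - 2 * s (T.φ i z) * T.G r (dist x) i z +
            s (T.φ i z) ^ 2 * T.G (dist x) (dist x) i z) * (1 - T.G (dist x) (dist x) i z)) →
      t ≤ J i z) :
    ∃ T' : Chain X k,
      (∀ (f : X → ℝ) (π : Fin k → X → ℝ), T'.act f π =
        T.act (fun y => f (c.rad x y (r y))) fun a y => π a (c.rad x y (r y))) ∧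
      T'.mass ≤ T.SI J := by
  obtain ⟨K, hK⟩ := hlip
  have hd : LipschitzWith 1 (dist x) := LipschitzWith.dist_right x
  have hex : ∀ i, ∃ G : Euc k → Matrix (Fin k) (Fin k) ℝ, (∀ a b, Measurable fun z => G z a b) ∧
      (∀ z, (G z).PosSemidef) ∧ ∀ᵐ z ∂(volume.restrict (T.E i)),
        MajAt (T.E i) (fun w => c.rad x (T.φ i w) (r (T.φ i w))) (G z) z ∧
        |(T.θ i z : ℝ)| * √(G z).det ≤ T.wt i z * J i z := by
    intro i
    obtain ⟨L, hL⟩ := T.lip i
    obtain ⟨G, mG, pG, hG⟩ := c.exists_rad_metric hl x (T.mE i) hL (T.mg i) (T.psd i) (T.maj i)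
      (r := fun w => r (T.φ i w)) (hK.comp_lipschitzOnWith hL) (fun w _ => h01 _)
      (s := fun w => s (T.φ i w)) (hs.comp_aemeasurable (T.aemeasurable_φ i))
      (fun z _ hz => he _ hz)
    refine ⟨G, mG, pG, ?_⟩
    filter_upwards [hG, hJ i, T.ae_dv_sq_le i hK, T.ae_dv_sq_le i hd] with z h1 h2 h3 h4
    refine ⟨h1.1, ?_⟩
    have hG1 := h1.2
    set σ := s (T.φ i z) with hσ
    have hσ0 : 0 < σ := hs0 _
    set p := dv (T.E i) (T.φ i) r z with hp
    set b := dv (T.E i) (T.φ i) (dist x) z with hb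
    have hG2 : G z = radG (T.g i z) σ (p - σ • b) b := hG1
    have hb' : ∀ v, (b ⬝ᵥ v) ^ 2 ≤ 2 * (1 / 2) * qf (T.g i z) v := fun v => by
      simpa using h4 v
    have ha' : ∀ v, ((p - σ • b) ⬝ᵥ v) ^ 2 ≤ (2 * (K : ℝ) ^ 2 + 2 * σ ^ 2) * qf (T.g i z) v := by
      intro v
      have e1 := h3 v
      have e2 := mul_le_mul_of_nonneg_left (hb' v) (sq_nonneg σ)
      rw [sub_dotProduct, smul_dotProduct, smul_eq_mul]
      nlinarith [sq_nonneg (p ⬝ᵥ v + σ * (b ⬝ᵥ v))]
    have hdet := det_deform_le (T.psd i z) (pG z) (s := σ) (D := 1 / 2) ha' hb' (fun v => by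
      rw [hG2, qf_radG]
      linarith)
    have e1 : (p - σ • b) ⬝ᵥ (T.g i z)⁻¹ *ᵥ b = T.G r (dist x) i z - σ * T.G (dist x) (dist x) i z := by
      have := gam_sub_left (T.g i z) p (σ • b) b
      rw [gam_smul_left] at this
      exact this
    have e2 : (p - σ • b) ⬝ᵥ (T.g i z)⁻¹ *ᵥ (p - σ • b) =
        T.G r r i z - 2 * σ * T.G r (dist x) i z + σ ^ 2 * T.G (dist x) (dist x) i z := by
      show gam _ (p - σ • b) (p - σ • b) = gam _ p p - 2 * σ * gam _ p b + σ ^ 2 * gam _ b b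
      have a2 : ∀ u, gam (T.g i z) u (p - σ • b) = gam (T.g i z) u p - σ * gam (T.g i z) u b := by
        intro u
        rw [gam_comm (T.psd i z) u, gam_sub_left, gam_smul_left, gam_comm (T.psd i z) p u,
          gam_comm (T.psd i z) b u]
      rw [gam_sub_left, gam_smul_left, a2, a2, gam_comm (T.psd i z) b p]
      ring
    have e3 : b ⬝ᵥ (T.g i z)⁻¹ *ᵥ b = T.G (dist x) (dist x) i z := rfl
    rw [e1, e2, e3] at hdet
    have hg0 : 0 ≤ (T.g i z).det := (T.psd i z).det_nonneg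
    have hG0 : 0 ≤ (G z).det := (pG z).det_nonneg
    rcases hg0.eq_or_lt with h0 | h0
    · have : (G z).det = 0 := by
        rw [← h0, mul_zero, zero_mul] at hdet
        have : (G z).det ≤ 0 := by
          by_contra hc
          push Not at hc
          have := mul_pos (pow_pos hσ0 2) hc
          linarith
        linarith
      simp [Chain.wt, this, ← h0]
    · have hsq : 0 < √(T.g i z).det := Real.sqrt_pos.2 h0
      have ht := h2 (√(G z).det / √(T.g i z).det) (by positivity) (by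
        rw [div_pow, Real.sq_sqrt hG0, Real.sq_sqrt hg0, ← mul_div_assoc, div_le_iff₀ h0]
        refine hdet.trans_eq ?_
        ring)
      rw [div_le_iff₀ hsq] at ht
      rw [Chain.wt, mul_assoc, mul_comm (√(T.g i z).det)]
      exact mul_le_mul_of_nonneg_left ht (abs_nonneg _)
  choose G mG pG hG using hex
  have hlp : ∀ i, ∃ L : ℝ≥0, LipschitzOnWith L (fun w => c.rad x (T.φ i w) (r (T.φ i w))) (T.E i) := by
    intro i
    obtain ⟨L, hL⟩ := T.lip i
    refine ⟨K * L + L, LipschitzOnWith.of_dist_le_mul fun w hw w' hw' => ?_⟩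
    refine (c.dist_rad_le hl x _ _ (h01 _).1 (h01 _).2 (h01 _).1 (h01 _).2).trans ?_
    have a1 := hK.dist_le_mul (T.φ i w) (T.φ i w')
    have a2 := hL.dist_le_mul w hw w' hw'
    rw [Real.dist_eq] at a1
    have a3 := mul_le_mul_of_nonneg_left a2 K.coe_nonneg
    push_cast
    nlinarith
  obtain ⟨M, hM⟩ := hB.2
  have hfin : ∑' i, ∫⁻ z in T.E i, ENNReal.ofReal (|(T.θ i z : ℝ)| * √(G i z).det) ≠ ⊤ := by
    refine ne_top_of_le_ne_top
      (ENNReal.mul_ne_top (ENNReal.ofReal_ne_top (r := M)) T.fin) ?_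
    rw [← ENNReal.tsum_mul_left]
    refine ENNReal.tsum_le_tsum fun i => ?_
    rw [← lintegral_const_mul' _ _ ENNReal.ofReal_ne_top]
    refine lintegral_mono_ae ?_
    filter_upwards [hG i, hM i] with z h1 h2
    rw [← ENNReal.ofReal_mul ((abs_nonneg _).trans h2)]
    refine ENNReal.ofReal_le_ofReal (h1.2.trans ?_)
    rw [mul_comm]
    exact mul_le_mul_of_nonneg_right ((le_abs_self _).trans h2) (T.wt_nonneg i z)
  set T' : Chain X k := T.remap (fun i w => c.rad x (T.φ i w) (r (T.φ i w))) G hlp mG pG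
    (fun i => (hG i).mono fun _ h => h.1) hfin with hT'
  refine ⟨T', fun _ _ => rfl, ?_⟩
  rw [T'.kmass_eq]
  refine T'.ksummable_wt.tsum_le_tsum (fun i => ?_) hB.summable
  refine integral_mono_ae (T'.kintegrable_wt i) (hB.integrable i) ?_
  exact (hG i).mono fun _ h => h.2

end Crest.Agent.R241
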