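import Crest.Agent.R241.KRadB
import Crest.Agent.R241.A
import Crest.Agent.R241.Geo

/-! Row 241, block K: cones and deformations. -/

set_option autoImplicit false
open MeasureTheory Filter Topology Set Matrix
open scoped NNReal ENNReal
open Crest.GeometryTopology.Submanifold (Euc)

namespace Crest.Agent.R241

universe u

variable {X : Type u} [MetricSpace X] {l : ℝ} {n : ℕ}

theorem jac_mul_aux {t a b A B K L x y : ℝ} (ht0 : 0 ≤ t) (ht1 : t ≤ 1) (ha : |a| ≤ A)
    (hb : |b| ≤ B) (hK : 0 ≤ K) (hL : 0 ≤ L) (hx : |x - (1 - t * a)| ≤ K * t ^ 2)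
    (hy : |y - (1 - t * b)| ≤ L * t ^ 2) :
    |x * y - (1 - t * (a + b))| ≤ (A * B + K * (1 + B) + L * (1 + A) + K * L) * t ^ 2 := by
  have hA : 0 ≤ A := (abs_nonneg _).trans ha
  have hB : 0 ≤ B := (abs_nonneg _).trans hb
  set e := x - (1 - t * a) with he
  set f := y - (1 - t * b) with hf
  have h1 : x * y - (1 - t * (a + b)) =
      a * b * t ^ 2 + e * (1 - t * b) + f * (1 - t * a) + e * f := by
    rw [he, hf]; ring
  have ht2 : t ^ 2 ≤ 1 := pow_le_one₀ ht0 ht1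
  have hb' : |1 - t * b| ≤ 1 + B := by
    refine (abs_sub _ _).trans ?_
    rw [abs_one, abs_mul, abs_of_nonneg ht0]
    have := mul_le_mul ht1 hb (abs_nonneg _) zero_le_one
    linarith
  have ha' : |1 - t * a| ≤ 1 + A := by
    refine (abs_sub _ _).trans ?_
    rw [abs_one, abs_mul, abs_of_nonneg ht0]
    have := mul_le_mul ht1 ha (abs_nonneg _) zero_le_one
    linarith
  have p1 : |a * b * t ^ 2| ≤ A * B * t ^ 2 := by
    rw [abs_mul, abs_mul, abs_of_nonneg (sq_nonneg t)]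
    exact mul_le_mul_of_nonneg_right (mul_le_mul ha hb (abs_nonneg _) hA) (sq_nonneg t)
  have p2 : |e * (1 - t * b)| ≤ K * t ^ 2 * (1 + B) := by
    rw [abs_mul]
    exact mul_le_mul hx hb' (abs_nonneg _) (by positivity)
  have p3 : |f * (1 - t * a)| ≤ L * t ^ 2 * (1 + A) := by
    rw [abs_mul]
    exact mul_le_mul hy ha' (abs_nonneg _) (by positivity)
  have p4 : |e * f| ≤ K * t ^ 2 * L := by
    rw [abs_mul]
    refine mul_le_mul hx (hy.trans ?_) (abs_nonneg _) (by positivity)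
    nlinarith
  rw [h1]
  calc |a * b * t ^ 2 + e * (1 - t * b) + f * (1 - t * a) + e * f|
      ≤ |a * b * t ^ 2| + |e * (1 - t * b)| + |f * (1 - t * a)| + |e * f| := by
        refine (abs_add_le _ _).trans ?_
        gcongr
        refine (abs_add_le _ _).trans ?_
        gcongr
        exact abs_add_le _ _
    _ ≤ _ := by nlinarith

theorem jac_pow_aux (n : ℕ) {A : ℝ} (hA : 0 ≤ A) : ∃ K : ℝ, 0 ≤ K ∧ ∀ t s α : ℝ, 0 ≤ t → t ≤ 1 →
    |α| ≤ A → |s - (1 - t * α)| ≤ A * t ^ 2 → |s ^ n - (1 - t * (n * α))| ≤ K * t ^ 2 := by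
  induction n with
  | zero => exact ⟨0, le_rfl, fun t s α _ _ _ _ => by simp⟩
  | succ n ih =>
    obtain ⟨K, hK, h⟩ := ih
    refine ⟨n * A * A + K * (1 + A) + A * (1 + n * A) + K * A, by positivity,
      fun t s α ht0 ht1 hα hs => ?_⟩
    have hn : |(n : ℝ) * α| ≤ n * A := by
      rw [abs_mul, Nat.abs_cast]
      exact mul_le_mul_of_nonneg_left hα (Nat.cast_nonneg n)
    have := jac_mul_aux ht0 ht1 hn hα hK hA (h t s α ht0 ht1 hα hs) hs
    rw [pow_succ]
    convert this using 4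
    push_cast
    ring

/-- second order expansion of the Jacobian: `√(a² + b) ≤ a + b` for `a ≥ 1/2`, and
`|s^j - (1 - j t α)| ≤ C t²`. -/
theorem jac_expand (n : ℕ) {A : ℝ} (hA : 0 ≤ A) : ∃ C t₀ : ℝ, 0 < t₀ ∧
    ∀ t ∈ Ioc (0 : ℝ) t₀, ∀ s α β γ ω J : ℝ, |α| ≤ A → |β| ≤ A → |s - (1 - t * α)| ≤ A * t ^ 2 →
      |γ + t * β| ≤ A * t ^ 2 → ω ≤ A * t ^ 2 → 0 ≤ J →
      s ^ 2 * J ^ 2 ≤ s ^ (2 * n) * ((s + γ) ^ 2 + ω) → J ≤ 1 - t * (n * α + β) + C * t ^ 2 := by
  obtain ⟨K, hK, hpow⟩ := jac_pow_aux n hA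
  set M : ℝ := n * A * (2 * A) + K * (1 + 2 * A) + 3 * A * (1 + n * A) + K * (3 * A) with hM
  set M' : ℝ := A * (n * A + A) + A * (1 + (n * A + A)) + 0 * (1 + A) + A * 0 with hM'
  have hM0 : 0 ≤ M := by positivity
  have hM0' : 0 ≤ M' := by positivity
  refine ⟨2 * (M + M'), 1 / (8 * (A + 1)), by positivity, ?_⟩
  rintro t ⟨ht0, ht1⟩ s α β γ ω J hα hβ hs hγ hω hJ hle
  have h8 : t * (8 * (A + 1)) ≤ 1 := by
    rwa [le_div_iff₀ (by positivity)] at ht1
  have htA : 0 ≤ t * A := by positivity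
  have ht1' : t ≤ 1 := by nlinarith
  have htA' : t * A ≤ 1 / 8 := by nlinarith
  have hAt2 : A * t ^ 2 ≤ t * A := by nlinarith
  have hAt0 : 0 ≤ A * t ^ 2 := by positivity
  have htα : |t * α| ≤ t * A := by
    rw [abs_mul, abs_of_pos ht0]
    exact mul_le_mul_of_nonneg_left hα ht0.le
  have htβ : |t * β| ≤ t * A := by
    rw [abs_mul, abs_of_pos ht0]
    exact mul_le_mul_of_nonneg_left hβ ht0.le
  obtain ⟨hs1, hs2⟩ := abs_le.1 hs
  obtain ⟨hγ1, hγ2⟩ := abs_le.1 hγ
  obtain ⟨ha1, ha2⟩ := abs_le.1 htα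
  obtain ⟨hb1, hb2⟩ := abs_le.1 htβ
  have hs0 : 1 / 2 ≤ s := by linarith
  have hsp : 0 < s := by linarith
  have ha0 : 1 / 2 ≤ s + γ := by linarith
  have h1 : s * J ≤ s ^ n * (s + γ + A * t ^ 2) := by
    refine (pow_le_pow_iff_left₀ (by positivity) (by positivity) two_ne_zero).1 ?_
    calc (s * J) ^ 2 = s ^ 2 * J ^ 2 := by ring
      _ ≤ s ^ (2 * n) * ((s + γ) ^ 2 + ω) := hle
      _ ≤ s ^ (2 * n) * (s + γ + A * t ^ 2) ^ 2 := by
          refine mul_le_mul_of_nonneg_left ?_ (by positivity)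
          nlinarith
      _ = (s ^ n * (s + γ + A * t ^ 2)) ^ 2 := by ring
  have hn : |(n : ℝ) * α| ≤ n * A := by
    rw [abs_mul, Nat.abs_cast]
    exact mul_le_mul_of_nonneg_left hα (Nat.cast_nonneg n)
  have hab : |α + β| ≤ 2 * A := (abs_add_le _ _).trans (by linarith)
  have hnab : |n * α + β| ≤ n * A + A := (abs_add_le _ _).trans (by linarith)
  have hy : |s + γ + A * t ^ 2 - (1 - t * (α + β))| ≤ 3 * A * t ^ 2 := by
    rw [abs_le]
    constructor <;> nlinarith
  have q1 := jac_mul_aux ht0.le ht1' hn hab hK (by positivity) (hpow t s α ht0.le ht1' hα hs) hy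
  have q2 := jac_mul_aux (y := 1 - t * (n * α + β)) (L := 0) ht0.le ht1' hα hnab hA le_rfl hs
    (by simp)
  rw [← hM] at q1
  rw [← hM'] at q2
  obtain ⟨-, q1⟩ := abs_le.1 q1
  obtain ⟨q2, -⟩ := abs_le.1 q2
  have h2 : s * J ≤ s * (1 - t * (n * α + β) + 2 * (M + M') * t ^ 2) := by
    have h3 : (M + M') * t ^ 2 ≤ s * (2 * (M + M') * t ^ 2) := by
      have : 0 ≤ (M + M') * t ^ 2 := by positivity
      nlinarith
    nlinarith
  exact le_of_mul_le_mul_left h2 hsp

/-- `0 ≤ sn (ρ - δ) - sn ρ + δ cs ρ ≤ l δ² sn ρ`. -/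
theorem sn_taylor (hl : 0 ≤ l) {ρ δ : ℝ} (h0 : 0 ≤ δ) (h1 : δ ≤ ρ) :
    |sn l (ρ - δ) - (sn l ρ - δ * (1 + l * md l ρ))| ≤ l * δ ^ 2 * sn l ρ := by
  have hm1 : ρ - δ ∈ Icc (ρ - δ) ρ := ⟨le_rfl, by linarith⟩
  have hm2 : ρ ∈ Icc (ρ - δ) ρ := ⟨by linarith, le_rfl⟩
  have hA : ∀ y ∈ Icc (ρ - δ) ρ, |md l y - md l ρ| ≤ sn l ρ * δ := by
    intro y hy
    have h := (convex_Icc (ρ - δ) ρ).norm_image_sub_le_of_norm_hasDerivWithin_le (C := sn l ρ)
      (f := md l) (f' := sn l) (fun y _ => (hasDerivAt_md hl y).hasDerivWithinAt)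
      (fun y hy => by
        rw [Real.norm_of_nonneg (sn_nonneg hl (by linarith [hy.1]))]
        exact (sn_strictMono hl).monotone hy.2) hm2 hy
    refine h.trans (mul_le_mul_of_nonneg_left ?_ (sn_nonneg hl (h0.trans h1)))
    rw [Real.norm_eq_abs, abs_le]
    constructor <;> linarith [hy.1, hy.2]
  have h := (convex_Icc (ρ - δ) ρ).norm_image_sub_le_of_norm_hasDerivWithin_le
    (C := l * (sn l ρ * δ)) (f := fun y => sn l y - y * (1 + l * md l ρ))
    (f' := fun y => (1 + l * md l y) - 1 * (1 + l * md l ρ))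
    (fun y _ => ((hasDerivAt_sn hl y).sub ((hasDerivAt_id y).mul_const _)).hasDerivWithinAt)
    (fun y hy => by
      rw [show (1 + l * md l y) - 1 * (1 + l * md l ρ) = l * (md l y - md l ρ) by ring,
        Real.norm_eq_abs, abs_mul, abs_of_nonneg hl]
      exact mul_le_mul_of_nonneg_left (hA y hy) hl) hm2 hm1
  rw [Real.norm_eq_abs, Real.norm_eq_abs, show ρ - δ - ρ = -δ by ring, abs_neg,
    abs_of_nonneg h0] at h
  convert h using 1
  · congr 1; ring
  · ring

theorem sn_le_mul (hl : 0 ≤ l) {ρ R : ℝ} (h0 : 0 ≤ ρ) (h1 : ρ ≤ R) :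
    sn l ρ ≤ ρ * (1 + l * md l R) := by
  have h := (convex_Icc 0 R).norm_image_sub_le_of_norm_hasDerivWithin_le (C := 1 + l * md l R)
    (f := sn l) (f' := fun y => 1 + l * md l y) (fun y _ => (hasDerivAt_sn hl y).hasDerivWithinAt)
    (fun y hy => by
      have h2 := md_nonneg hl y
      have h3 := (md_strictMonoOn hl).monotoneOn hy.1 (h0.trans h1) hy.2
      rw [Real.norm_of_nonneg (by positivity)]
      nlinarith) ⟨le_rfl, h0.trans h1⟩ ⟨h0, h1⟩
  rw [sn_zero, sub_zero, sub_zero, Real.norm_of_nonneg h0, mul_comm] at h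
  exact (le_abs_self _).trans h

theorem integral_cone (l : ℝ) (n : ℕ) (ρ : ℝ) :
    ∫ τ in (0 : ℝ)..1, (ρ - 0) * (sn l (0 + τ * (ρ - 0)) / sn l ρ) ^ n = coneW n l ρ := by
  have h := intervalIntegral.smul_integral_comp_mul_right
    (fun t => (sn l t / sn l ρ) ^ n) (a := 0) (b := 1) ρ
  simp only [sub_zero, zero_add, intervalIntegral.integral_const_mul]
  simpa [coneW] using h

variable [CompactSpace X] [MeasurableSpace X] [BorelSpace X]

/-- `exists_htpy` with `r = 0`; the second term is `T.act (fun _ => f x) (fun a _ => π a x) = 0`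
by `act_const_mul` and `Cyc`. -/
theorem kcone_fill (c : CatSp l X) (hl : 0 ≤ l) (T : Chain X n) (hT : T.Cyc) (x : X) :
    ∃ S : Chain X (n + 1), S.Bd T ∧
      S.mass ≤ T.I (fun p t => coneW n l (dist x p) * √(1 - t)) (dist x) (dist x) := by
  obtain ⟨B, hB⟩ := Lip.bdd (f := dist x) ⟨1, lip_dist x⟩
  have hW : BM fun p => coneW n l (dist x p) := by
    refine ⟨(measurable_coneW n l).comp (lip_dist x).continuous.measurable, B, fun p => ?_⟩
    rw [abs_of_nonneg (coneW_nonneg hl n dist_nonneg)]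
    refine (coneW_le hl n dist_nonneg).trans ((div_le_self dist_nonneg ?_).trans
      ((le_abs_self _).trans (hB p)))
    linarith [n.cast_nonneg (α := ℝ)]
  obtain ⟨H, h1, h2⟩ := exists_htpy c hl T hT x (r := fun _ => 0) (Lip.const 0)
    (fun _ => ⟨le_rfl, dist_nonneg⟩) hW fun y => (integral_cone l n (dist x y)).le
  refine ⟨H, fun f π hf hπ => ?_, h2⟩
  rw [h1 f π hf hπ]
  simp only [c.rad_zero]
  have h3 := T.act_const_mul (f x) (fun _ => 1) fun a _ => π a x
  rw [hT _ fun a => Lip.const (π a x), mul_zero] at h3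
  simp only [mul_one] at h3
  rw [h3, sub_zero]

/-- the gradients of `r = ρ - t η sn ρ` and of `Dx = md ρ` in terms of `ρ = dist x` and `η`. -/
theorem ae_G_defo (hl : 0 ≤ l) (T : Chain X n) (x : X) {η : X → ℝ} (hη : Lip η) (t : ℝ) (i : T.ι)
    (v : X → ℝ) : ∀ᵐ z ∂(volume.restrict (T.E i)),
      T.G (fun y => dist x y - t * η y * sn l (dist x y)) v i z =
        (1 - t * η (T.φ i z) * (1 + l * Dx l x (T.φ i z))) * T.G (dist x) v i z -
          t * sn l (dist x (T.φ i z)) * T.G η v i z ∧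
      T.G (Dx l x) v i z = sn l (dist x (T.φ i z)) * T.G (dist x) v i z := by
  have hρ : Lip (dist x) := ⟨1, lip_dist x⟩
  have hs : Lip fun y => sn l (dist x y) := hρ.comp_contDiff ((contDiff_sn l).of_le (by simp))
  have hd1 : Differentiable ℝ (sn l) := fun y => (hasDerivAt_sn hl y).differentiableAt
  have hd2 : Differentiable ℝ (md l) := fun y => (hasDerivAt_md hl y).differentiableAt
  have e : (fun y => dist x y - t * η y * sn l (dist x y)) =
      fun y => dist x y + (fun u => -t * u) (η y * sn l (dist x y)) := by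
    funext y; ring
  have hd3 : Differentiable ℝ fun u : ℝ => -t * u := by fun_prop
  filter_upwards [T.ae_G_add i hρ ((hη.mul hs).const_mul (-t)) v,
    T.ae_G_comp i (hη.mul hs) hd3 v, T.ae_G_mul i hη hs v, T.ae_G_comp i hρ hd1 v,
    T.ae_G_comp i hρ hd2 v] with z h1 h2 h3 h4 h5
  refine ⟨?_, ?_⟩
  · rw [e, h1, h2, h3, h4, (hasDerivAt_sn hl _).deriv]
    have : deriv (fun u : ℝ => -t * u) (η (T.φ i z) * sn l (dist x (T.φ i z))) = -t := by
      simp
    rw [this, Dx]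
    ring
  · rw [← (hasDerivAt_md hl _).deriv]
    exact h5

/-- the bound for the error term `ω` -/
private theorem h50_omega {κ a b d σ t A₁ S L : ℝ} (ht0 : 0 < t) (ht1 : t ≤ 1)
    (hκ : |κ| ≤ A₁ * t ^ 2) (hA₁ : 0 ≤ A₁) (ha0 : 0 ≤ a) (ha1 : a ≤ 1) (hb : |b| ≤ L)
    (hd0 : 0 ≤ d) (hd : d ≤ L ^ 2) (hσ0 : 0 ≤ σ) (hσ : σ ≤ S) :
    (κ ^ 2 * a - 2 * κ * (t * σ * b) + t ^ 2 * σ ^ 2 * d) * (1 - a) ≤
      (A₁ ^ 2 + 2 * A₁ * S * L + S ^ 2 * L ^ 2) * t ^ 2 := by
  have hL : 0 ≤ L := (abs_nonneg _).trans hb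
  have hS : 0 ≤ S := hσ0.trans hσ
  have ht2 : t ^ 2 ≤ t := by nlinarith
  have hκ1 : |κ| ≤ A₁ * t := hκ.trans (mul_le_mul_of_nonneg_left ht2 hA₁)
  have e1 : κ ^ 2 * a ≤ A₁ ^ 2 * t ^ 2 := by
    have h1 : κ ^ 2 ≤ (A₁ * t) ^ 2 := by
      rw [← sq_abs κ]; exact pow_le_pow_left₀ (abs_nonneg _) hκ1 2
    nlinarith [sq_nonneg κ]
  have e2 : -(κ * (t * σ * b)) ≤ A₁ * S * L * t ^ 2 := by
    have h1 : |t * σ * b| ≤ t * S * L := by
      rw [abs_mul, abs_mul, abs_of_pos ht0, abs_of_nonneg hσ0]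
      exact mul_le_mul (mul_le_mul_of_nonneg_left hσ ht0.le) hb (abs_nonneg _) (by positivity)
    have h2 : |κ * (t * σ * b)| ≤ A₁ * t * (t * S * L) := by
      rw [abs_mul]
      exact mul_le_mul hκ1 h1 (abs_nonneg _) (by positivity)
    have h3 := neg_abs_le (κ * (t * σ * b))
    nlinarith
  have e3 : t ^ 2 * σ ^ 2 * d ≤ S ^ 2 * L ^ 2 * t ^ 2 := by
    have h1 : σ ^ 2 * d ≤ S ^ 2 * L ^ 2 :=
      mul_le_mul (pow_le_pow_left₀ hσ0 hσ 2) hd hd0 (by positivity)
    nlinarith [sq_nonneg t]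
  have e4 : κ ^ 2 * a - 2 * κ * (t * σ * b) + t ^ 2 * σ ^ 2 * d ≤
      (A₁ ^ 2 + 2 * A₁ * S * L + S ^ 2 * L ^ 2) * t ^ 2 := by nlinarith
  have e5 : 0 ≤ (A₁ ^ 2 + 2 * A₁ * S * L + S ^ 2 * L ^ 2) * t ^ 2 := by positivity
  calc _ ≤ (A₁ ^ 2 + 2 * A₁ * S * L + S ^ 2 * L ^ 2) * t ^ 2 * (1 - a) :=
        mul_le_mul_of_nonneg_right e4 (by linarith)
    _ ≤ _ := by nlinarith

/-- `r = ρ - t η sn ρ`, `s y = if ρ = 0 then 1 - t η else sn r / sn ρ`; `exists_htpy` with
`W = t η sn ρ`; `exists_push` with `J = 1 - t (n η cs + G η Dx) + C t²` through `jac_expand`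
(`α = η cs`, `β = G η Dx`, `κ = 1 - t α - s`, `γ = κ G ρ ρ - t sn G η ρ`,
`ω = (κ² G ρ ρ - 2 κ t sn G η ρ + t² sn² G η η)(1 - G ρ ρ)`), `sn_taylor`, `ae_G_defo`. -/
theorem kdeform (c : CatSp l X) (hl : 0 ≤ l) (x : X) {η : X → ℝ} (hη : Lip η)
    (h0 : ∀ p, 0 ≤ η p) :
    ∃ C s₀ : ℝ, 0 < s₀ ∧ ∀ T : Chain X n, T.Cyc → ∀ s ∈ Ioc 0 s₀,
      ∃ (T' : Chain X n) (S : Chain X (n + 1)), T.Hom T' S ∧
        T'.mass ≤ T.mass - s * (T.B (fun _ => 1) η (Dx l x) +
          n * ∫ p, η p * (1 + l * Dx l x p) ∂T.μ) + C * s ^ 2 * T.mass ∧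
        S.mass ≤ s * T.I (fun p t => η p * sn l (dist x p) * √(1 - t)) (dist x) (dist x) := by
  classical
  have hρl : Lip (dist x) := ⟨1, lip_dist x⟩
  obtain ⟨R, hR0, hR⟩ := KU.exists_abs_le hρl.continuous
  obtain ⟨H, hH0, hH⟩ := KU.exists_abs_le hη.continuous
  have hR' : ∀ y, dist x y ≤ R := fun y => (le_abs_self _).trans (hR y)
  have hH' : ∀ y, η y ≤ H := fun y => (le_abs_self _).trans (hH y)
  obtain ⟨L, hL⟩ := hη
  have hη : Lip η := ⟨L, hL⟩
  set c₀ : ℝ := 1 + l * md l R with hc₀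
  have hc₀1 : 1 ≤ c₀ := by have := mul_nonneg hl (md_nonneg hl R); linarith
  have hcs : ∀ y, 0 ≤ 1 + l * Dx l x y ∧ 1 + l * Dx l x y ≤ c₀ := by
    intro y
    have h1 : Dx l x y ≤ md l R :=
      (md_strictMonoOn hl).monotoneOn (mem_Ici.2 dist_nonneg) (mem_Ici.2 hR0) (hR' y)
    have h2 : 0 ≤ Dx l x y := md_nonneg hl _
    have h3 := mul_nonneg hl h2
    have h4 := mul_le_mul_of_nonneg_left h1 hl
    constructor <;> linarith
  have hsn0 : ∀ y, 0 ≤ sn l (dist x y) := fun y => sn_nonneg hl dist_nonneg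
  have hsn1 : ∀ y, sn l (dist x y) ≤ dist x y * c₀ := fun y => sn_le_mul hl dist_nonneg (hR' y)
  have hsn2 : ∀ y, sn l (dist x y) ≤ R * c₀ := fun y =>
    (hsn1 y).trans (mul_le_mul_of_nonneg_right (hR' y) (by linarith))
  have hsnl : Lip fun y => sn l (dist x y) :=
    hρl.comp_contDiff ((contDiff_sn l).of_le (by simp))
  set S : ℝ := R * c₀ with hS
  have hS0 : 0 ≤ S := mul_nonneg hR0 (by linarith)
  set A₁ : ℝ := l * (H * S) ^ 2 with hA₁
  have hA₁0 : 0 ≤ A₁ := by positivity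
  have hL0 : (0 : ℝ) ≤ L := L.2
  have hHc : 0 ≤ H * c₀ := mul_nonneg hH0 (by linarith)
  set A₂ : ℝ := A₁ ^ 2 + 2 * A₁ * S * L + S ^ 2 * (L : ℝ) ^ 2 with hA₂
  have hA₂0 : 0 ≤ A₂ := by positivity
  have hSL : 0 ≤ S * L := mul_nonneg hS0 hL0
  obtain ⟨C, t₀, ht₀, hjac⟩ := jac_expand n (A := H * c₀ + S * L + A₁ + A₂) (by positivity)
  refine ⟨C, min t₀ (1 / (2 * (H * c₀ + 1))), lt_min ht₀ (by positivity), fun T hT t ht => ?_⟩
  have ht0 : 0 < t := ht.1
  have htt : t ∈ Ioc 0 t₀ := ⟨ht0, ht.2.trans (min_le_left _ _)⟩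
  have hts : t * (2 * (H * c₀ + 1)) ≤ 1 :=
    (le_div_iff₀ (by positivity)).1 (ht.2.trans (min_le_right _ _))
  have ht1 : t ≤ 1 := by nlinarith
  have htH : t * H * c₀ ≤ 1 / 2 := by nlinarith
  have htη : ∀ y, t * η y * c₀ ≤ 1 / 2 := fun y =>
    (mul_le_mul_of_nonneg_right (mul_le_mul_of_nonneg_left (hH' y) ht0.le) (by linarith)).trans htH
  have hδ0 : ∀ y, 0 ≤ t * η y * sn l (dist x y) := fun y =>
    mul_nonneg (mul_nonneg ht0.le (h0 y)) (hsn0 y)
  have hδ1 : ∀ y, t * η y * sn l (dist x y) ≤ dist x y / 2 := by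
    intro y
    have h1 := mul_le_mul_of_nonneg_left (hsn1 y) (mul_nonneg ht0.le (h0 y))
    have h2 := mul_le_mul_of_nonneg_right (htη y) (dist_nonneg (x := x) (y := y))
    nlinarith
  set r : X → ℝ := fun y => dist x y - t * η y * sn l (dist x y) with hr
  have hWl : Lip fun y => t * η y * sn l (dist x y) := (hη.const_mul t).mul hsnl
  have hrl : Lip r := hρl.sub hWl
  have h01 : ∀ y, 0 ≤ r y ∧ r y ≤ dist x y := fun y => by
    have h1 := hδ0 y
    have h2 := hδ1 y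
    have h3 : 0 ≤ dist x y := dist_nonneg
    simp only [hr]
    constructor <;> linarith
  obtain ⟨Hc, hHc1, hHc2⟩ := exists_htpy c hl T hT x hrl h01 hWl.bm (fun y => by
    have h1 := intervalIntegral.norm_integral_le_of_norm_le_const (a := 0) (b := 1)
      (f := fun τ => (dist x y - r y) * (sn l (R241.hr x r τ y) / sn l (dist x y)) ^ n)
      (C := t * η y * sn l (dist x y)) (fun τ hτ => by
        rw [uIoc_of_le zero_le_one] at hτ
        obtain ⟨h2, h3⟩ := hr_mem h01 (Ioc_subset_Icc_self hτ) y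
        have h4 : 0 ≤ sn l (R241.hr x r τ y) / sn l (dist x y) :=
          div_nonneg (sn_nonneg hl h2) (hsn0 y)
        have h5 : sn l (R241.hr x r τ y) / sn l (dist x y) ≤ 1 :=
          div_le_one_of_le₀ ((sn_strictMono hl).monotone h3) (hsn0 y)
        have e : dist x y - r y = t * η y * sn l (dist x y) := by simp only [hr]; ring
        rw [e, Real.norm_eq_abs, abs_of_nonneg (mul_nonneg (hδ0 y) (pow_nonneg h4 _))]
        exact mul_le_of_le_one_right (hδ0 y) (pow_le_one₀ h4 h5))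
    rw [sub_zero, abs_one, mul_one] at h1
    exact (le_abs_self _).trans h1)
  set s : X → ℝ := fun y => if dist x y = 0 then 1 - t * η y else sn l (r y) / sn l (dist x y)
    with hs
  have hsm : Measurable s :=
    Measurable.ite (measurableSet_eq_fun hρl.continuous.measurable measurable_const)
      (measurable_const.sub (hη.continuous.measurable.const_mul t))
      (((contDiff_sn l).continuous.comp hrl.continuous).measurable.div hsnl.continuous.measurable)
  have hs0 : ∀ y, 0 < s y := by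
    intro y
    simp only [hs]
    split_ifs with h
    · have h1 := htη y
      have h2 := mul_le_mul_of_nonneg_left hc₀1 (mul_nonneg ht0.le (h0 y))
      linarith
    · have h1 : 0 < dist x y := lt_of_le_of_ne dist_nonneg (Ne.symm h)
      refine div_pos (sn_pos hl ?_) (sn_pos hl h1)
      have := hδ1 y
      simp only [hr]
      linarith
  have hκ : ∀ y, |s y - (1 - t * (η y * (1 + l * Dx l x y)))| ≤ A₁ * t ^ 2 := by
    intro y
    simp only [hs]
    split_ifs with h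
    · have e : Dx l x y = 0 := by simp only [Dx, h, md_zero]
      rw [e]
      simp only [mul_zero, add_zero, mul_one, sub_self, abs_zero]
      positivity
    · have h1 : 0 < dist x y := lt_of_le_of_ne dist_nonneg (Ne.symm h)
      have h2 := sn_pos hl h1
      have h3 := sn_taylor hl (hδ0 y) ((hδ1 y).trans (by linarith : dist x y / 2 ≤ dist x y))
      have e : sn l (r y) / sn l (dist x y) - (1 - t * (η y * (1 + l * Dx l x y))) =
          (sn l (dist x y - t * η y * sn l (dist x y)) - (sn l (dist x y) -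
            t * η y * sn l (dist x y) * (1 + l * md l (dist x y)))) / sn l (dist x y) := by
        simp only [hr, Dx]
        field_simp
      rw [e, abs_div, abs_of_pos h2, div_le_iff₀ h2]
      refine h3.trans (mul_le_mul_of_nonneg_right ?_ h2.le)
      have h4 : t * η y * sn l (dist x y) ≤ t * (H * S) := by
        rw [mul_assoc]
        exact mul_le_mul_of_nonneg_left (mul_le_mul (hH' y) (hsn2 y) (hsn0 y) hH0) ht0.le
      have h5 := mul_le_mul_of_nonneg_left (pow_le_pow_left₀ (hδ0 y) h4 2) hl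
      calc _ ≤ l * (t * (H * S)) ^ 2 := h5
        _ = _ := by rw [hA₁]; ring
  have hDx : Lip (Dx l x) := lip_Dx l x
  have hαb : BM fun y => η y * (1 + l * Dx l x y) :=
    (hη.mul ((Lip.const 1).add (hDx.const_mul l))).bm
  have hB1 : T.BFam fun _ _ => (1 + C * t ^ 2) * 1 := Chain.bFam_const _
  have hB2 : T.BFam fun i z => -(t * n) * (η (T.φ i z) * (1 + l * Dx l x (T.φ i z))) :=
    (Chain.bFam_const _).mul (Chain.bFam_φ hαb)
  have hB3 : T.BFam fun i z => -t * (1 * T.G η (Dx l x) i z) :=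
    (Chain.bFam_const _).mul ((Chain.bFam_const _).mul (Chain.bFam_G hη hDx))
  obtain ⟨T', hT'1, hT'2⟩ := exists_push c hl T x hrl h01 hsm hs0
    (fun y hy => by simp only [hs, if_neg hy]) (hB1.add (hB2.add hB3)) (fun i => by
      filter_upwards [ae_G_defo hl T x hη t i (dist x), ae_G_defo hl T x hη t i r,
        ae_G_defo hl T x hη t i η, T.G_le (lip_dist x) i, T.G_le hL i,
        T.abs_G_le (lip_dist x) hL i] with z g1 g2 g3 b1 b2 b3 J hJ0 hJ
      have g1' : T.G r (dist x) i z = _ := g1.1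
      have g2' : T.G r r i z = _ := g2.1
      have g3' : T.G r η i z = _ := g3.1
      rw [T.G_symm (dist x) r, T.G_symm η r, g1', g3', T.G_symm η (dist x)] at g2'
      rw [T.G_symm η (dist x)] at g1'
      have g4 : T.G η (Dx l x) i z = _ := (T.G_symm _ _ i z).trans g3.2
      have a0 := T.G_nonneg i (dist x) z
      have d0 := T.G_nonneg i η z
      simp only [NNReal.coe_one, one_pow, one_mul] at b1 b3
      have k1 := hκ (T.φ i z)
      have k2 := hcs (T.φ i z)
      have k3 := hsn0 (T.φ i z)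
      have k4 := hsn2 (T.φ i z)
      have k5 := h0 (T.φ i z)
      have k6 := hH' (T.φ i z)
      rw [g4]
      rw [g1', g2'] at hJ
      generalize T.G (dist x) (dist x) i z = a at *
      generalize T.G (dist x) η i z = b at *
      generalize T.G η η i z = d at *
      generalize sn l (dist x (T.φ i z)) = σ at *
      generalize s (T.φ i z) = s' at *
      generalize η (T.φ i z) = e at *
      generalize 1 + l * Dx l x (T.φ i z) = cs at *
      have ht2 : 0 ≤ t ^ 2 := sq_nonneg t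
      have k1' : |1 - t * (e * cs) - s'| ≤ A₁ * t ^ 2 := by rwa [abs_sub_comm]
      have hω := h50_omega ht0 ht1 k1' hA₁0 a0 b1 b3 d0 b2 k3 k4
      have := hjac t htt s' (e * cs) (σ * b) ((1 - t * e * cs) * a - t * σ * b - s' * a) _ J
        (by
          rw [abs_of_nonneg (mul_nonneg k5 k2.1)]
          have := mul_le_mul k6 k2.2 k2.1 hH0
          linarith)
        (by
          rw [abs_mul, abs_of_nonneg k3]
          have := mul_le_mul k4 b3 (abs_nonneg _) hS0
          linarith)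
        (k1.trans (mul_le_mul_of_nonneg_right (by linarith) ht2))
        (by
          have e1 : (1 - t * e * cs) * a - t * σ * b - s' * a + t * (σ * b) =
              (1 - t * (e * cs) - s') * a := by ring
          rw [e1, abs_mul, abs_of_nonneg a0]
          refine (mul_le_of_le_one_right (abs_nonneg _) b1).trans (k1'.trans ?_)
          exact mul_le_mul_of_nonneg_right (by linarith) ht2)
        (hω.trans (mul_le_mul_of_nonneg_right (by linarith) ht2)) hJ0
        (hJ.trans (le_of_eq (by ring)))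
      linarith)
  refine ⟨T', Hc, fun f π hf hπ => by rw [hHc1 f π hf hπ, hT'1 f π], ?_, ?_⟩
  · rw [Chain.SI_add hB1 (hB2.add hB3), Chain.SI_add hB2 hB3, Chain.SI_const_mul,
      Chain.SI_const_mul, Chain.SI_const_mul, Chain.SI_one, ← T.kintegral_μ hαb] at hT'2
    have e : T.B (fun _ => 1) η (Dx l x) = T.SI fun i z => 1 * T.G η (Dx l x) i z := rfl
    rw [e]
    linarith
  · refine hHc2.trans (le_of_eq ?_)
    rw [Chain.I_eq_SI, Chain.I_eq_SI, ← Chain.SI_const_mul]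
    congr 1
    funext i z
    ring

end Crest.Agent.R241
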