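import Crest.Agent.R241.KeyK

/-! Row 241, block KEY: the constant. -/

set_option autoImplicit false

open MeasureTheory Set Filter Topology
open scoped ENNReal NNReal

namespace Crest.Agent.R241.Key

open Crest.GeometryTopology.Submanifold

noncomputable section

universe u



theorem h49_beta {α β : ℝ} (hα : 0 < α) (hβ : 0 < β) :
    ∫ x in Ioo (0 : ℝ) 1, x ^ (α - 1) * (1 - x) ^ (β - 1) =
      Real.Gamma α * Real.Gamma β / Real.Gamma (α + β) := by
  have h1 := ProbabilityTheory.beta_eq_betaIntegralReal α β hα hβ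
  have h2 : Complex.betaIntegral α β =
      ((∫ x in (0 : ℝ)..1, x ^ (α - 1) * (1 - x) ^ (β - 1) : ℝ) : ℂ) := by
    rw [Complex.betaIntegral, ← intervalIntegral.integral_ofReal]
    refine intervalIntegral.integral_congr fun x hx => ?_
    rw [uIcc_of_le zero_le_one] at hx
    have h0 : (0 : ℝ) ≤ 1 - x := by linarith [hx.2]
    simp only [Complex.ofReal_mul, Complex.ofReal_cpow hx.1, Complex.ofReal_cpow h0]
    push_cast
    rfl
  rw [h2, Complex.ofReal_re, intervalIntegral.integral_of_le zero_le_one,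
    integral_Ioc_eq_integral_Ioo] at h1
  rw [← h1]
  rfl

/-- `aB a = a Γ(a) Γ(a+2) / Γ(2a+2)` (substitute `t = u/(1-u)` in the Beta integral, or use
`∫₀^∞ e^(-(1+t)y) y^(2a+1) dy` and Fubini). -/
theorem aB_eq {a : ℝ} (ha : 0 < a) :
    aB a = Real.Gamma (a + 1) * Real.Gamma (a + 2) / Real.Gamma (2 * a + 2) := by
  have himg : (fun u : ℝ => u / (1 - u)) '' Ioo 0 1 = Ioi 0 := by
    ext t
    constructor
    · rintro ⟨u, hu, rfl⟩
      exact div_pos hu.1 (by linarith [hu.2])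
    · intro ht
      have ht' : (0 : ℝ) < t := ht
      refine ⟨t / (1 + t), ⟨by positivity, by rw [div_lt_one (by positivity)]; linarith⟩, ?_⟩
      have : (1 : ℝ) + t ≠ 0 := by positivity
      simp only
      field_simp
      ring
  have hd : ∀ u ∈ Ioo (0 : ℝ) 1,
      HasDerivWithinAt (fun u : ℝ => u / (1 - u)) (1 / (1 - u) ^ 2) (Ioo 0 1) u := by
    intro u hu
    have h1 : (1 : ℝ) - u ≠ 0 := by linarith [hu.2]
    have := ((hasDerivAt_id u).div ((hasDerivAt_id u).const_sub 1) h1)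
    refine HasDerivAt.hasDerivWithinAt (this.congr_deriv ?_)
    simp only [id]
    congr 1
    ring
  have hinj : InjOn (fun u : ℝ => u / (1 - u)) (Ioo 0 1) := by
    intro u hu v hv h
    have h1 : (1 : ℝ) - u ≠ 0 := by linarith [hu.2]
    have h2 : (1 : ℝ) - v ≠ 0 := by linarith [hv.2]
    simp only at h
    rw [div_eq_div_iff h1 h2] at h
    linarith
  have key : ∫ t in Ioi (0 : ℝ), t ^ (a - 1) * (1 + t) ^ (-(2 * a + 2)) =
      ∫ x in Ioo (0 : ℝ) 1, x ^ (a - 1) * (1 - x) ^ (a + 2 - 1) := by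
    rw [← himg, integral_image_eq_integral_abs_deriv_smul measurableSet_Ioo hd hinj]
    refine setIntegral_congr_fun measurableSet_Ioo fun u hu => ?_
    have h1 : (0 : ℝ) < 1 - u := by linarith [hu.2]
    have h2 : 1 + u / (1 - u) = (1 - u)⁻¹ := by field_simp; ring
    have h3 : (1 - u) ^ (a + 2 - 1) =
        (1 - u) ^ (2 * a + 2) / ((1 - u) ^ 2 * (1 - u) ^ (a - 1)) := by
      rw [← Real.rpow_two, ← Real.rpow_add h1, ← Real.rpow_sub h1]
      congr 1
      ring
    simp only [smul_eq_mul]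
    rw [h2, h3, abs_of_pos (by positivity), Real.div_rpow hu.1.le h1.le, Real.inv_rpow h1.le,
      Real.rpow_neg h1.le, inv_inv]
    have h4 : (1 - u) ^ (a - 1) ≠ 0 := (Real.rpow_pos_of_pos h1 _).ne'
    field_simp
  unfold aB
  rw [key, h49_beta ha (by linarith), Real.Gamma_add_one ha.ne',
    show a + (a + 2) = 2 * a + 2 by ring]
  ring

theorem unitBallVol_eq {n : ℕ} (hn : n ≠ 0) :
    unitBallVol n = √Real.pi ^ n / Real.Gamma (n / 2 + 1) := by
  have : Nonempty (Fin n) := ⟨⟨0, Nat.pos_of_ne_zero hn⟩⟩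
  unfold unitBallVol
  rw [EuclideanSpace.volume_ball, ENNReal.ofReal_one, one_pow, one_mul, Fintype.card_fin,
    ENNReal.toReal_ofReal]
  have : 0 < Real.Gamma (n / 2 + 1) := Real.Gamma_pos_of_pos (by positivity)
  positivity

/-- Legendre duplication `Real.Gamma_mul_Gamma_add_half`. -/
theorem const_id {n : ℕ} {a : ℝ} (ha : 0 < a) (hn : (n : ℝ) = 2 * a + 2) :
    2 ^ a * aB a * (2 ^ (a + 2) * unitBallVol n) = sA n := by
  have hn0 : n ≠ 0 := by
    rintro rfl
    simp only [Nat.cast_zero] at hn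
    linarith
  have hdup := Real.Gamma_mul_Gamma_add_half (a + 1)
  have e1 : (n : ℝ) / 2 + 1 = a + 2 := by rw [hn]; ring
  have e2 : ((n + 1 : ℕ) : ℝ) / 2 + 1 = (a + 1 + 1 / 2) + 1 := by push_cast; rw [hn]; ring
  rw [Alm.sA_eq, unitBallVol_eq hn0, unitBallVol_eq (Nat.succ_ne_zero n), aB_eq ha, e1, e2,
    Real.Gamma_add_one (s := a + 1 + 1 / 2) (by positivity), hn, pow_succ]
  rw [show 2 * (a + 1) = 2 * a + 2 by ring] at hdup
  have g1 : 0 < Real.Gamma (a + 2) := Real.Gamma_pos_of_pos (by positivity)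
  have g2 : 0 < Real.Gamma (2 * a + 2) := Real.Gamma_pos_of_pos (by positivity)
  have g3 : 0 < Real.Gamma (a + 1 + 1 / 2) := Real.Gamma_pos_of_pos (by positivity)
  have hp : (2 : ℝ) ^ a * 2 ^ (a + 2) * 2 ^ (1 - (2 * a + 2)) = 2 := by
    rw [← Real.rpow_add two_pos, ← Real.rpow_add two_pos]
    rw [show a + (a + 2) + (1 - (2 * a + 2)) = 1 by ring, Real.rpow_one]
  have hG : Real.Gamma (a + 1) =
      Real.Gamma (2 * a + 2) * 2 ^ (1 - (2 * a + 2)) * √Real.pi / Real.Gamma (a + 1 + 1 / 2) := by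
    rw [eq_div_iff g3.ne', hdup]
  rw [hG]
  have h5 : a + 1 + 1 / 2 ≠ 0 := by positivity
  generalize (2 : ℝ) ^ a = A at hp ⊢
  generalize (2 : ℝ) ^ (a + 2) = B at hp ⊢
  generalize (2 : ℝ) ^ (1 - (2 * a + 2)) = C at hp ⊢
  generalize Real.Gamma (a + 2) = G1 at g1 ⊢
  generalize Real.Gamma (2 * a + 2) = G2 at g2 ⊢
  generalize Real.Gamma (a + 1 + 1 / 2) = G3 at g3 ⊢
  have : A * (G2 * C * √Real.pi / G3 * G1 / G2) * (B * (√Real.pi ^ n / G1)) =
      (A * B * C) * (√Real.pi ^ n * √Real.pi) / G3 := by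
    field_simp
  rw [this, hp]
  field_simp

end

end Crest.Agent.R241.Key
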