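import Crest.Agent.R241.KeyCalc

/-! Row 241, block KEY: the Sobolev constant and positive almost minimisers. -/

set_option autoImplicit false

open MeasureTheory Set Filter Topology
open scoped ENNReal NNReal

namespace Crest.Agent.R241.Key

open Crest.GeometryTopology.Submanifold

noncomputable section

universe u

variable {X : Type u} [MetricSpace X] [CompactSpace X] [MeasurableSpace X] [BorelSpace X]

omit [CompactSpace X] [BorelSpace X] in
private theorem h72_Q_nonneg (C : Cc X) {lam : ℝ} (hlam : 0 ≤ lam) {f : X → ℝ} (hf : Lip f) :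
    0 ≤ C.Q lam f f :=
  add_nonneg (integral_nonneg_of_ae (C.nonneg f hf))
    (mul_nonneg hlam (integral_nonneg fun x => mul_self_nonneg (f x)))

private theorem h72_Q_smul (C : Cc X) (lam c : ℝ) {f : X → ℝ} (hf : Lip f) :
    C.Q lam (fun x => c * f x) (fun x => c * f x) = c ^ 2 * C.Q lam f f := by
  have h1 : C.Γ (fun x => c * f x) (fun x => c * f x) =ᵐ[C.μ] fun x => c ^ 2 * C.Γ f f x := by
    filter_upwards [C.smul_left c hf (lip_const_mul c hf), C.smul_right c hf hf] with x h1 h2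
    rw [h1, h2]
    ring
  have h2 : (fun x => c * f x * (c * f x)) = fun x => c ^ 2 * (f x * f x) := by
    funext x
    ring
  unfold Cc.Q
  rw [integral_congr_ae h1, h2, integral_const_mul, integral_const_mul]
  ring

omit [CompactSpace X] [BorelSpace X] in
/-- normalisation -/
private theorem h72_norm (C : Cc X) {p : ℝ} (hp : 0 < p) {f : X → ℝ}
    (hN : 0 < ∫ x, |f x| ^ p ∂C.μ) :
    ∫ x, |(∫ x, |f x| ^ p ∂C.μ) ^ (-p⁻¹) * f x| ^ p ∂C.μ = 1 := by
  set N := ∫ x, |f x| ^ p ∂C.μ with hNd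
  have hc : 0 < N ^ (-p⁻¹) := Real.rpow_pos_of_pos hN _
  have h1 : (fun x => |N ^ (-p⁻¹) * f x| ^ p) = fun x => N⁻¹ * |f x| ^ p := by
    funext x
    rw [abs_mul, abs_of_pos hc, Real.mul_rpow hc.le (abs_nonneg _), ← Real.rpow_mul hN.le,
      neg_mul, inv_mul_cancel₀ hp.ne', Real.rpow_neg_one]
  rw [h1, integral_const_mul, ← hNd, inv_mul_cancel₀ hN.ne']

private theorem h72_pos (C : Cc X) {lam : ℝ} {f : X → ℝ} (hf : Lip f) {δ : ℝ} (hδ : 0 < δ) :
    Lip (fun x => √(f x ^ 2 + δ ^ 2)) ∧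
      C.Q lam (fun x => √(f x ^ 2 + δ ^ 2)) (fun x => √(f x ^ 2 + δ ^ 2)) ≤
        C.Q lam f f + lam * (δ ^ 2 * C.μ.real univ) := by
  set F : ℝ → ℝ := fun t => √(t ^ 2 + δ ^ 2) with hF
  have hpos : ∀ t : ℝ, 0 < t ^ 2 + δ ^ 2 := fun t => by positivity
  have hFc : ContDiff ℝ 1 F := ContDiff.sqrt (by fun_prop) fun t => (hpos t).ne'
  have hFd : ∀ t, deriv F t = t / √(t ^ 2 + δ ^ 2) := fun t => by
    have h1 : HasDerivAt (fun t : ℝ => t ^ 2 + δ ^ 2) (2 * t) t := by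
      simpa using (hasDerivAt_pow 2 t).add_const (δ ^ 2)
    rw [(h1.sqrt (hpos t).ne').deriv]
    field_simp
  have hFd2 : ∀ t, deriv F t * deriv F t ≤ 1 := fun t => by
    rw [hFd, div_mul_div_comm, Real.mul_self_sqrt (hpos t).le, div_le_one (hpos t)]
    nlinarith
  have hu : Lip (fun x => F (f x)) := lip_comp hFc hf
  refine ⟨hu, ?_⟩
  have h1 : C.Γ (fun x => F (f x)) (fun x => F (f x)) ≤ᵐ[C.μ] C.Γ f f := by
    filter_upwards [C.chain F f _ hFc hf hu, C.symm f _ hf hu, C.chain F f f hFc hf hf,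
      C.nonneg f hf] with x h1 h2 h3 h4
    rw [h1, h2, h3, ← mul_assoc]
    exact mul_le_of_le_one_left h4 (hFd2 _)
  have h2 := integral_mono_ae (C.integrable hu hu) (C.integrable hf hf) h1
  have h3 : ∫ x, F (f x) * F (f x) ∂C.μ = ∫ x, f x * f x ∂C.μ + δ ^ 2 * C.μ.real univ := by
    have e : (fun x => F (f x) * F (f x)) = fun x => f x * f x + δ ^ 2 := by
      funext x
      simp only [hF]
      rw [Real.mul_self_sqrt (hpos _).le]
      ring
    rw [e, integral_add (integrable_cont _ (lip_cont (lip_mul hf hf))) (integrable_const _),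
      integral_const, smul_eq_mul, mul_comm (δ ^ 2)]
  show ∫ x, C.Γ (fun x => F (f x)) (fun x => F (f x)) x ∂C.μ + lam * ∫ x, F (f x) * F (f x) ∂C.μ ≤ _
  rw [h3]
  unfold Cc.Q
  linarith

/-- `Y` is the infimum of `Q f f` over Lipschitz `f` with `∫ |f|^p = 1`; for positivity replace `f` by
`√(f² + δ²)` and normalise. -/
theorem exists_Y (C : Cc X) (hμ : C.μ ≠ 0) {a lam : ℝ} (ha : 0 < a) (hlam : 0 ≤ lam) :
    ∃ Y : ℝ, 0 ≤ Y ∧
      (∀ f, Lip f → Y * (∫ x, |f x| ^ ((2 * a + 2) / a) ∂C.μ) ^ (a / (a + 1)) ≤ C.Q lam f f) ∧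
      ∀ ε : ℝ, 0 < ε → ∃ w : X → ℝ, Lip w ∧ (∀ x, 0 < w x) ∧ ∫ x, w x ^ (2 * a + 2) ∂C.μ = 1 ∧
        C.Q lam (fun x => w x ^ a) (fun x => w x ^ a) ≤ Y + ε := by
  set p := (2 * a + 2) / a with hpd
  have hp : 0 < p := by positivity
  have hM : 0 < C.μ.real univ := by
    rw [Measure.real, ENNReal.toReal_pos_iff]
    exact ⟨Measure.measure_univ_pos.2 hμ, measure_lt_top _ _⟩
  set S : Set ℝ := {q | ∃ f, Lip f ∧ ∫ x, |f x| ^ p ∂C.μ = 1 ∧ q = C.Q lam f f} with hS
  have hS0 : ∀ q ∈ S, 0 ≤ q := by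
    rintro q ⟨f, hf, -, rfl⟩
    exact h72_Q_nonneg C hlam hf
  have hSb : BddBelow S := ⟨0, hS0⟩
  have hSn : S.Nonempty := by
    refine ⟨_, _, lip_const_mul _ (lip_const 1), h72_norm C hp (f := fun _ => 1) ?_, rfl⟩
    simpa using hM
  refine ⟨sInf S, le_csInf hSn hS0, fun f hf => ?_, fun ε hε => ?_⟩
  · have hN0 : 0 ≤ ∫ x, |f x| ^ p ∂C.μ :=
      integral_nonneg fun x => Real.rpow_nonneg (abs_nonneg _) _
    rcases hN0.eq_or_lt with hN | hN
    · rw [← hN, Real.zero_rpow (by positivity), mul_zero]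
      exact h72_Q_nonneg C hlam hf
    · have h1 := csInf_le hSb ⟨_, lip_const_mul _ hf, h72_norm C hp hN, rfl⟩
      rw [h72_Q_smul C lam _ hf] at h1
      set N := ∫ x, |f x| ^ p ∂C.μ
      have h2 : (N ^ (-p⁻¹)) ^ 2 * N ^ (a / (a + 1)) = 1 := by
        rw [← Real.rpow_natCast, ← Real.rpow_mul hN.le, ← Real.rpow_add hN]
        have : -p⁻¹ * ((2 : ℕ) : ℝ) + a / (a + 1) = 0 := by
          rw [hpd]
          push_cast
          field_simp
          ring
        rw [this, Real.rpow_zero]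
      have h3 : 0 ≤ N ^ (a / (a + 1)) := Real.rpow_nonneg hN.le _
      calc sInf S * N ^ (a / (a + 1)) ≤ (N ^ (-p⁻¹)) ^ 2 * C.Q lam f f * N ^ (a / (a + 1)) :=
            mul_le_mul_of_nonneg_right h1 h3
        _ = (N ^ (-p⁻¹)) ^ 2 * N ^ (a / (a + 1)) * C.Q lam f f := by ring
        _ = _ := by rw [h2, one_mul]
  · obtain ⟨q, ⟨f, hf, hN, rfl⟩, hq⟩ := exists_lt_of_csInf_lt hSn
      (show sInf S < sInf S + ε / 2 by linarith)
    obtain ⟨δ, hδ, hδ2⟩ : ∃ δ : ℝ, 0 < δ ∧ lam * (δ ^ 2 * C.μ.real univ) ≤ ε / 2 := by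
      have hA : 0 < lam * C.μ.real univ + 1 := by positivity
      refine ⟨√(ε / 2 / (lam * C.μ.real univ + 1)), by positivity, ?_⟩
      rw [Real.sq_sqrt (by positivity)]
      have e : lam * (ε / 2 / (lam * C.μ.real univ + 1) * C.μ.real univ) =
          ε / 2 * (lam * C.μ.real univ / (lam * C.μ.real univ + 1)) := by
        field_simp
      rw [e]
      exact mul_le_of_le_one_right (by positivity) ((div_le_one hA).2 (by linarith))
    obtain ⟨hu, hQ⟩ := h72_pos C (lam := lam) hf hδ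
    set u : X → ℝ := fun x => √(f x ^ 2 + δ ^ 2) with hud
    have hu0 : ∀ x, 0 < u x := fun x => Real.sqrt_pos.2 (by positivity)
    have hcont : ∀ {g : X → ℝ}, Lip g → Integrable (fun x => |g x| ^ p) C.μ := fun hg =>
      integrable_cont _ ((lip_cont hg).abs.rpow_const fun _ => Or.inr hp.le)
    have hN1 : 1 ≤ ∫ x, |u x| ^ p ∂C.μ := by
      rw [← hN]
      refine integral_mono (hcont hf) (hcont hu) fun x => ?_
      refine Real.rpow_le_rpow (abs_nonneg _) ?_ hp.le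
      rw [abs_of_pos (hu0 x)]
      exact Real.abs_le_sqrt (by nlinarith)
    have hn := h72_norm C hp (zero_lt_one.trans_le hN1)
    set c := (∫ x, |u x| ^ p ∂C.μ) ^ (-p⁻¹) with hc
    have hc0 : 0 < c := Real.rpow_pos_of_pos (zero_lt_one.trans_le hN1) _
    have hc1 : c ≤ 1 := Real.rpow_le_one_of_one_le_of_nonpos hN1 (neg_nonpos.2 (by positivity))
    have hv0 : ∀ x, 0 < c * u x := fun x => mul_pos hc0 (hu0 x)
    refine ⟨fun x => (c * u x) ^ a⁻¹, lip_rpow (lip_const_mul c hu) hv0 _,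
      fun x => Real.rpow_pos_of_pos (hv0 x) _, ?_, ?_⟩
    · rw [← hn]
      refine integral_congr_ae (Eventually.of_forall fun x => ?_)
      show ((c * u x) ^ a⁻¹) ^ (2 * a + 2) = |c * u x| ^ p
      rw [abs_of_pos (hv0 x), ← Real.rpow_mul (hv0 x).le, hpd, div_eq_inv_mul]
    · have e : (fun x => ((c * u x) ^ a⁻¹) ^ a) = fun x => c * u x := by
        funext x
        rw [← Real.rpow_mul (hv0 x).le, inv_mul_cancel₀ ha.ne', Real.rpow_one]
      rw [e, h72_Q_smul C lam c hu]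
      have h1 : c ^ 2 * C.Q lam u u ≤ C.Q lam u u :=
        mul_le_of_le_one_left (h72_Q_nonneg C hlam hu) (pow_le_one₀ hc0.le hc1)
      linarith

end

end Crest.Agent.R241.Key
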