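import Crest.Agent.R241.KeyCalc

/-! Row 241, block KEY: construction of the conformal structure. -/

set_option autoImplicit false

open MeasureTheory Set Filter Topology
open scoped ENNReal NNReal

namespace Crest.Agent.R241.Key

open Crest.GeometryTopology.Submanifold

noncomputable section

universe u

variable {X : Type u} [MetricSpace X] [CompactSpace X] [MeasurableSpace X] [BorelSpace X]

/-- ground state identity. -/
theorem ground (C : Cc X) (lam : ℝ) {u α β : X → ℝ} (hu : Lip u) (hα : Lip α) (hβ : Lip β) :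
    C.Q lam (fun x => u x * α x) (fun x => u x * β x) =
      ∫ x, u x ^ 2 * C.Γ α β x ∂C.μ + C.Q lam u (fun x => u x * (α x * β x)) := by
  have hαβ := lip_mul hα hβ
  have h1 : C.Γ (fun x => u x * α x) (fun x => u x * β x) =ᵐ[C.μ]
      fun x => u x ^ 2 * C.Γ α β x + C.Γ u (fun x => u x * (α x * β x)) x := by
    filter_upwards [C.mul u α _ hu hα (lip_mul hu hβ), C.mul_right hα hu hβ, C.mul_right hu hu hβ,
      C.mul_right hu hu hαβ, C.mul_right hu hα hβ, C.symm α u hα hu] with x e1 e2 e3 e4 e5 e6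
    rw [e1, e2, e3, e4, e5, e6]
    ring
  unfold Cc.Q
  rw [integral_congr_ae h1, integral_add (C.integrable_mul ((lip_cont hu).fun_pow 2) hα hβ)
    (C.integrable hu (lip_mul hu hαβ)), add_assoc]
  congr 3
  refine integral_congr_ae (Eventually.of_forall fun x => ?_)
  ring

theorem h57_Q_add (C : Cc X) (lam : ℝ) {u f g : X → ℝ} (hu : Lip u) (hf : Lip f) (hg : Lip g) :
    C.Q lam u (fun x => f x + g x) = C.Q lam u f + C.Q lam u g := by
  unfold Cc.Q
  rw [integral_congr_ae (C.add_right hu hf hg), integral_add (C.integrable hu hf)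
    (C.integrable hu hg)]
  simp only [mul_add (u _)]
  rw [integral_add (integrable_cont _ (lip_cont (lip_mul hu hf)))
    (integrable_cont _ (lip_cont (lip_mul hu hg)))]
  ring

theorem h57_Q_smul (C : Cc X) (lam c : ℝ) {u f : X → ℝ} (hu : Lip u) (hf : Lip f) :
    C.Q lam u (fun x => c * f x) = c * C.Q lam u f := by
  unfold Cc.Q
  rw [integral_congr_ae (C.smul_right c hu hf), integral_const_mul]
  simp only [mul_left_comm (u _) c]
  rw [integral_const_mul]
  ring

theorem h57_sq (C : Cc X) {lam c : ℝ} (hlam : 0 ≤ lam) {u γ : X → ℝ} (hu : Lip u) (hγ : Lip γ)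
    (hc : ∀ x, |γ x| ≤ c) :
    C.Q lam u (fun x => u x * (γ x * γ x)) ≤
      2 * c ^ 2 * C.Q lam u u + ∫ x, u x ^ 2 * C.Γ γ γ x ∂C.μ := by
  have hγγ := lip_mul hγ hγ
  have hc2 : ∀ x, γ x ^ 2 ≤ c ^ 2 := fun x => by
    rw [← sq_abs]; exact pow_le_pow_left₀ (abs_nonneg _) (hc x) 2
  have i1 := (C.integrable hu hu).const_mul (2 * c ^ 2)
  have i2 := C.integrable_mul ((lip_cont hu).fun_pow 2) hγ hγ
  have h1 : ∫ x, C.Γ u (fun x => u x * (γ x * γ x)) x ∂C.μ ≤
      ∫ x, (2 * c ^ 2 * C.Γ u u x + u x ^ 2 * C.Γ γ γ x) ∂C.μ := by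
    refine integral_mono_ae (C.integrable hu (lip_mul hu hγγ)) (i1.add i2) ?_
    filter_upwards [C.mul_right hu hu hγγ, C.mul_right hu hγ hγ, C.cs hu hγ, C.nonneg u hu,
      C.nonneg γ hγ] with x e1 e2 e3 e4 e5
    rw [e1, e2]
    have h2 : (2 * γ x * u x * C.Γ u γ x) ^ 2 ≤
        (γ x ^ 2 * C.Γ u u x + u x ^ 2 * C.Γ γ γ x) ^ 2 := by
      nlinarith [mul_le_mul_of_nonneg_left e3 (sq_nonneg (γ x * u x)),
        sq_nonneg (γ x ^ 2 * C.Γ u u x - u x ^ 2 * C.Γ γ γ x)]
    have h3 := (le_abs_self _).trans (abs_le_of_sq_le_sq h2 (by positivity))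
    have h4 := mul_le_mul_of_nonneg_right (hc2 x) e4
    nlinarith
  have h5 : ∫ x, u x * (u x * (γ x * γ x)) ∂C.μ ≤ ∫ x, 2 * c ^ 2 * (u x * u x) ∂C.μ := by
    refine integral_mono (integrable_cont _ (lip_cont (lip_mul hu (lip_mul hu hγγ))))
      ((integrable_cont _ (lip_cont (lip_mul hu hu))).const_mul _) fun x => ?_
    have h6 := mul_le_mul_of_nonneg_right (hc2 x) (mul_self_nonneg (u x))
    have h7 := mul_nonneg (sq_nonneg c) (mul_self_nonneg (u x))
    beta_reduce
    nlinarith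
  rw [integral_add i1 i2, integral_const_mul] at h1
  rw [integral_const_mul] at h5
  unfold Cc.Q
  nlinarith [mul_le_mul_of_nonneg_left h5 hlam]

/-- `m = w^(2a+2) μ`, `Γ' = Γ / w²`, `L φ = Q u (u φ)` with `u = w^a`. -/
theorem mkCS (C : Cc X) (P : Par) {lam ε : ℝ} (hlam : 0 ≤ lam)
    (hsob : ∀ f, Lip f → P.Y * (∫ x, |f x| ^ ((2 * P.a + 2) / P.a) ∂C.μ) ^ (P.a / (P.a + 1)) ≤
      C.Q lam f f)
    (hsup : ∀ (p : X) (s : ℝ), 0 < s → ∀ ξ : X → ℝ, Lip ξ → (∀ x, 0 ≤ ξ x) →
      P.a * (P.a + 1) * (2 * s - P.l * s ^ 2) * ∫ x, ξ x * (Dx P.l p x + s) ^ (-(P.a + 2)) ∂C.μ ≤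
        C.Q lam (fun x => (Dx P.l p x + s) ^ (-P.a)) ξ)
    (hup : Up P.a P.l P.Cu C.μ) (hlow : Low P.a P.l P.c0 C.μ)
    {w : X → ℝ} (hw : Lip w) (h0 : ∀ x, 0 < w x) (h1 : ∫ x, w x ^ (2 * P.a + 2) ∂C.μ = 1)
    (hQ : C.Q lam (fun x => w x ^ P.a) (fun x => w x ^ P.a) ≤ P.Y + ε) :
    ∃ S : CS X P ε, S.w = w ∧ S.μ0 = C.μ := by
  have ha := P.ha
  have hu : Lip fun x => w x ^ P.a := lip_rpow hw h0 _
  have hρ : Continuous fun x => w x ^ (2 * P.a + 2) := lip_cont (lip_rpow hw h0 _)
  have hρ0 : ∀ x, 0 ≤ w x ^ (2 * P.a + 2) := fun x => (Real.rpow_pos_of_pos (h0 x) _).le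
  obtain ⟨m, hm, hmw⟩ := cont_pos_bdd (lip_cont hw) h0
  obtain ⟨ν, hν⟩ : ∃ ν : Measure X,
      ν = C.μ.withDensity fun x => ENNReal.ofReal (w x ^ (2 * P.a + 2)) := ⟨_, rfl⟩
  have hac : ν ≪ C.μ := hν ▸ withDensity_absolutelyContinuous _ _
  have hint : ∀ g : X → ℝ, ∫ x, g x ∂ν = ∫ x, w x ^ (2 * P.a + 2) * g x ∂C.μ := by
    intro g
    rw [hν, integral_withDensity_eq_integral_toReal_smul hρ.measurable.ennreal_ofReal
      (Eventually.of_forall fun _ => ENNReal.ofReal_lt_top)]
    refine integral_congr_ae (Eventually.of_forall fun x => ?_)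
    beta_reduce
    rw [ENNReal.toReal_ofReal (hρ0 x), smul_eq_mul]
  have hprob : IsProbabilityMeasure ν := by
    constructor
    rw [hν, withDensity_apply _ MeasurableSet.univ, Measure.restrict_univ,
      ← ofReal_integral_eq_lintegral_ofReal (integrable_cont _ hρ) (Eventually.of_forall hρ0), h1,
      ENNReal.ofReal_one]
  have hΓ : ∀ α β : X → ℝ, ∫ x, C.Γ α β x / w x ^ 2 ∂ν =
      ∫ x, (w x ^ P.a) ^ 2 * C.Γ α β x ∂C.μ := by
    intro α β
    rw [hint]
    refine integral_congr_ae (Eventually.of_forall fun x => ?_)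
    have h2 := (h0 x).ne'
    beta_reduce
    rw [Real.rpow_add (h0 x), mul_comm 2 P.a, Real.rpow_mul (h0 x).le, Real.rpow_two,
      Real.rpow_two]
    field_simp
  have hone : C.Q lam (fun x => w x ^ P.a) (fun x => w x ^ P.a * 1) =
      C.Q lam (fun x => w x ^ P.a) (fun x => w x ^ P.a) := by simp only [mul_one]
  refine ⟨{ μ := ν
            fin := inferInstance
            Γ := fun f g x => C.Γ f g x / w x ^ 2
            meas := fun f g => (C.meas f g).div ((lip_cont hw).measurable.pow_const 2)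
            symm := fun f g hf hg => hac.ae_le ?_
            add := fun f₁ f₂ g h₁ h₂ hg => hac.ae_le ?_
            mul := fun f₁ f₂ g h₁ h₂ hg => hac.ae_le ?_
            chain := fun F f g hF hf hg => hac.ae_le ?_
            nonneg := fun f hf => hac.ae_le ?_
            bdd := fun f hf => ?_
            prob := hprob
            L := fun φ => C.Q lam (fun x => w x ^ P.a) (fun x => w x ^ P.a * φ x)
            L_add := fun f g hf hg => ?_
            L_smul := fun c f hf => ?_
            w := w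
            w_lip := hw
            w_pos := h0
            μ0 := C.μ
            fin0 := inferInstance
            dens := hν
            sob := fun α hα => ?_
            L_one := hone ▸ hQ
            L_sq := fun γ c hγ hc => ?_
            sup := fun p s hs β hβ hβ0 => ?_
            up := hup
            low := hlow }, rfl, rfl⟩
  · filter_upwards [C.symm f g hf hg] with x hx
    simp only [hx]
  · filter_upwards [C.add f₁ f₂ g h₁ h₂ hg] with x hx
    simp only [hx, add_div]
  · filter_upwards [C.mul f₁ f₂ g h₁ h₂ hg] with x hx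
    simp only [hx, add_div, mul_div_assoc]
  · filter_upwards [C.chain F f g hF hf hg] with x hx
    simp only [hx, mul_div_assoc]
  · filter_upwards [C.nonneg f hf] with x hx
    exact div_nonneg hx (sq_nonneg _)
  · obtain ⟨K, hK⟩ := C.bdd f hf
    refine ⟨max K 0 / m ^ 2, hac.ae_le ?_⟩
    filter_upwards [hK] with x hx
    exact div_le_div₀ (le_max_right _ _) (hx.trans (le_max_left _ _)) (by positivity)
      (pow_le_pow_left₀ hm.le (hmw x) 2)
  · simp only [mul_add]
    exact h57_Q_add C lam hu (lip_mul hu hf) (lip_mul hu hg)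
  · simp only [mul_left_comm _ c]
    exact h57_Q_smul C lam c hu (lip_mul hu hf)
  · beta_reduce
    rw [hΓ, ← ground C lam hu hα hα, hint]
    refine le_trans (le_of_eq ?_) (hsob _ (lip_mul hu hα))
    congr 2
    refine integral_congr_ae (Eventually.of_forall fun x => ?_)
    beta_reduce
    rw [abs_mul, Real.mul_rpow (abs_nonneg _) (abs_nonneg _),
      abs_of_pos (Real.rpow_pos_of_pos (h0 x) _), ← Real.rpow_mul (h0 x).le,
      mul_div_cancel₀ _ ha.ne']
  · beta_reduce
    rw [hΓ, hone]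
    exact h57_sq C hlam hu hγ hc
  · have hD : ∀ x, 0 < Dx P.l p x + s := fun x => Dx_add_pos P.hl p x hs
    have hα : Lip fun x => (w x * (Dx P.l p x + s)) ^ (-P.a) :=
      lip_rpow (lip_mul hw (lip_add (lip_Dx P.hl p) (lip_const s)))
        (fun x => mul_pos (h0 x) (hD x)) _
    have e : (fun x => w x ^ P.a * (w x * (Dx P.l p x + s)) ^ (-P.a)) =
        fun x => (Dx P.l p x + s) ^ (-P.a) := by
      funext x
      rw [Real.mul_rpow (h0 x).le (hD x).le, ← mul_assoc, ← Real.rpow_add (h0 x), add_neg_cancel,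
        Real.rpow_zero, one_mul]
    beta_reduce
    rw [hΓ, ← ground C lam hu hα hβ, hint, e]
    refine le_trans (le_of_eq ?_) (hsup p s hs _ (lip_mul hu hβ) fun x =>
      mul_nonneg (Real.rpow_pos_of_pos (h0 x) _).le (hβ0 x))
    congr 1
    refine integral_congr_ae (Eventually.of_forall fun x => ?_)
    beta_reduce
    have e2 : w x ^ P.a = w x ^ (2 * P.a + 2) * w x ^ (-(P.a + 2)) := by
      rw [← Real.rpow_add (h0 x)]
      congr 1
      ring
    rw [Real.mul_rpow (h0 x).le (hD x).le, e2]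
    ring

end

end Crest.Agent.R241.Key
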