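import Crest.Agent.R241.KeyFV

/-! Row 241, block KEY: upper density from the first variation inequality. -/

set_option autoImplicit false

open MeasureTheory Set Filter Topology
open scoped ENNReal NNReal

namespace Crest.Agent.R241.Key

open Crest.GeometryTopology.Submanifold

noncomputable section

universe u

variable {X : Type u} [MetricSpace X] [CompactSpace X] [MeasurableSpace X] [BorelSpace X]

private theorem h75_pt1 {a l D s : ℝ} (ha : 0 < a) (hl : 0 ≤ l) (hD : 0 ≤ D) (hs : 0 < s) :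
    2 * (D + s) ^ (-a) ≤ (2 * a + 2) * (1 * (D + s) ^ (-a) * (1 + l * D)) -
      a * (1 * (D + s) ^ (-a - 1) * (2 * D + l * D ^ 2)) := by
  have hF : 0 < D + s := by linarith
  have hp : 0 < (D + s) ^ (-a) := Real.rpow_pos_of_pos hF _
  have h1 : (D + s) ^ (-a - 1) * D ≤ (D + s) ^ (-a) := by
    rw [Real.rpow_sub_one hF.ne', div_mul_eq_mul_div, div_le_iff₀ hF]
    exact mul_le_mul_of_nonneg_left (by linarith) hp.le
  have h2 : (D + s) ^ (-a - 1) * (2 * D + l * D ^ 2) ≤ (D + s) ^ (-a) * (2 + l * D) := by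
    have : (D + s) ^ (-a - 1) * (2 * D + l * D ^ 2) = (D + s) ^ (-a - 1) * D * (2 + l * D) := by
      ring
    rw [this]
    exact mul_le_mul_of_nonneg_right h1 (by positivity)
  have h3 := mul_le_mul_of_nonneg_left h2 ha.le
  have h4 : 0 ≤ (a + 2) * (l * D) * (D + s) ^ (-a) := by positivity
  nlinarith

private theorem h75_pt2 {a k F R : ℝ} (ha : 0 < a) (hk : 0 ≤ k) (hF : 0 < F) (hR : F ≤ R) :
    k * (1 * F ^ (1 - a)) ≤ F ^ (-a) + k * R * k ^ a := by
  have hp : 0 < F ^ (-a) := Real.rpow_pos_of_pos hF _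
  have he : F ^ (1 - a) = F * F ^ (-a) := by
    rw [sub_eq_add_neg, Real.rpow_add hF, Real.rpow_one]
  have hka : 0 ≤ k ^ a := Real.rpow_nonneg hk _
  have hR0 : 0 ≤ R := hF.le.trans hR
  rw [he, one_mul]
  by_cases h : k * F ≤ 1
  · have h1 : k * F * F ^ (-a) ≤ 1 * F ^ (-a) := mul_le_mul_of_nonneg_right h hp.le
    have h2 : 0 ≤ k * R * k ^ a := by positivity
    nlinarith
  · have h1 : F⁻¹ ≤ k := by
      rw [inv_le_iff_one_le_mul₀ hF]
      linarith
    have h2 : F ^ (-a) ≤ k ^ a := by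
      rw [Real.rpow_neg hF.le, ← Real.inv_rpow hF.le]
      exact Real.rpow_le_rpow (inv_nonneg.2 hF.le) h1 ha.le
    have h3 : k * (F * F ^ (-a)) ≤ k * (R * k ^ a) :=
      mul_le_mul_of_nonneg_left (mul_le_mul hR h2 hp.le hR0) hk
    nlinarith

omit [CompactSpace X] [MeasurableSpace X] [BorelSpace X] in
private theorem h75_cont {l : ℝ} (hl : 0 ≤ l) (p : X) {s : ℝ} (hs : 0 < s) (γ : ℝ) :
    Continuous fun x => (Dx l p x + s) ^ γ :=
  ((continuous_Dx_right hl p).add continuous_const).rpow_const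
    fun x => Or.inl (Dx_add_pos hl p x hs).ne'

/-- `fv_pow` with `ξ = 1`, `γ = a`, and `F^(1-a) ≤ θ F^(-a) + C_θ`. -/
theorem int_pow_bdd (V : DV X) {n : ℕ} {a l Λ : ℝ} (ha : 0 < a) (hn : (n : ℝ) = 2 * a + 2)
    (hl : 0 ≤ l) (hV : V.FV n l Λ) : ∃ K : ℝ, ∀ (p : X) (s : ℝ), 0 < s → s ≤ 1 →
      ∫ x, (Dx l p x + s) ^ (-a) ∂V.μ ≤ K := by
  obtain ⟨R, hR0, hR⟩ := Dx_bdd (X := X) hl
  set k : ℝ := Λ ^ 2 / (4 * a) with hk
  have hk0 : 0 ≤ k := by positivity
  refine ⟨k * (R + 1) * k ^ a * V.μ.real univ, fun p s hs hs1 => ?_⟩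
  have h := fv_pow V hl hV p hs ha (lip_const (1 : ℝ)) (fun _ => zero_le_one)
  have hD := continuous_Dx_right (X := X) hl p
  have h0 : ∫ x, (Dx l p x + s) ^ (-a) * V.Γ (fun _ => 1) (Dx l p) x ∂V.μ = 0 := by
    have hc := Cc.const_left V.cc (1 : ℝ) (lip_Dx hl p)
    rw [← integral_zero X ℝ (μ := V.μ)]
    refine integral_congr_ae ?_
    filter_upwards [hc] with x hx
    have : V.Γ (fun _ => 1) (Dx l p) x = 0 := hx
    simp [this]
  rw [h0, hn] at h
  have i0 : Integrable (fun x => (Dx l p x + s) ^ (-a)) V.μ :=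
    integrable_cont _ (h75_cont hl p hs _)
  have i1 : Integrable (fun x => 1 * (Dx l p x + s) ^ (-a) * (1 + l * Dx l p x)) V.μ :=
    integrable_cont _ ((continuous_const.mul (h75_cont hl p hs _)).mul (by fun_prop))
  have i2 : Integrable (fun x => 1 * (Dx l p x + s) ^ (-a - 1) *
      (2 * Dx l p x + l * Dx l p x ^ 2)) V.μ :=
    integrable_cont _ ((continuous_const.mul (h75_cont hl p hs _)).mul (by fun_prop))
  have i3 : Integrable (fun x => 1 * (Dx l p x + s) ^ (1 - a)) V.μ :=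
    integrable_cont _ (continuous_const.mul (h75_cont hl p hs _))
  have e1 : 2 * ∫ x, (Dx l p x + s) ^ (-a) ∂V.μ ≤
      (2 * a + 2) * ∫ x, 1 * (Dx l p x + s) ^ (-a) * (1 + l * Dx l p x) ∂V.μ -
        a * ∫ x, 1 * (Dx l p x + s) ^ (-a - 1) * (2 * Dx l p x + l * Dx l p x ^ 2) ∂V.μ := by
    rw [← integral_const_mul, ← integral_const_mul, ← integral_const_mul,
      ← integral_sub (i1.const_mul _) (i2.const_mul _)]
    exact integral_mono (i0.const_mul _) ((i1.const_mul _).sub (i2.const_mul _))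
      fun x => h75_pt1 ha hl (Dx_nonneg hl p x) hs
  have e2 : k * ∫ x, 1 * (Dx l p x + s) ^ (1 - a) ∂V.μ ≤
      ∫ x, (Dx l p x + s) ^ (-a) ∂V.μ + k * (R + 1) * k ^ a * V.μ.real univ := by
    have e : k * (R + 1) * k ^ a * V.μ.real univ = ∫ _ : X, k * (R + 1) * k ^ a ∂V.μ := by
      rw [integral_const, smul_eq_mul, mul_comm]
    rw [e, ← integral_const_mul, ← integral_add i0 (integrable_const _)]
    exact integral_mono (i3.const_mul _) (i0.add (integrable_const _))
      fun x => h75_pt2 ha hk0 (Dx_add_pos hl p x hs) (by linarith [hR p x])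
  linarith

/-- `sup0` with `ξ = 1` and Markov. -/
theorem exists_up (V : DV X) {n : ℕ} {a l Λ : ℝ} (ha : 0 < a) (hn : (n : ℝ) = 2 * a + 2)
    (hl : 0 ≤ l) (hV : V.FV n l Λ) : ∃ Cu : ℝ, 0 ≤ Cu ∧ Up a l Cu V.μ := by
  obtain ⟨K, hK⟩ := int_pow_bdd V ha hn hl hV
  set c : ℝ := (Λ ^ 2 - n ^ 2 * l) / (2 * n) with hc
  set s0 : ℝ := 1 / (l + 1) with hs0
  have hs0p : 0 < s0 := by positivity
  have hs01 : s0 ≤ 1 := by
    rw [hs0, div_le_one (by linarith)]
    linarith
  have hA : 0 ≤ (2 : ℝ) ^ (a + 2) * (|c| * |K|) := by positivity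
  have hB : 0 ≤ V.μ.real univ * s0 ^ (-(a + 1)) :=
    mul_nonneg measureReal_nonneg (Real.rpow_nonneg hs0p.le _)
  refine ⟨(2 : ℝ) ^ (a + 2) * (|c| * |K|) + V.μ.real univ * s0 ^ (-(a + 1)), add_nonneg hA hB,
    fun p t ht => ?_⟩
  have htp : 0 < t ^ (a + 1) := Real.rpow_pos_of_pos ht _
  rw [add_mul]
  by_cases hts : t ≤ s0
  · have h := sup0 V ha.le hn hl hV p ht (lip_const (1 : ℝ)) (fun _ => zero_le_one)
    have h0 : ∫ x, (Dx l p x + t) ^ (-(a + 1)) * V.Γ (fun _ => 1) (Dx l p) x ∂V.μ = 0 := by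
      have hc := Cc.const_left V.cc (1 : ℝ) (lip_Dx hl p)
      rw [← integral_zero X ℝ (μ := V.μ)]
      refine integral_congr_ae ?_
      filter_upwards [hc] with x hx
      have : V.Γ (fun _ => 1) (Dx l p) x = 0 := hx
      simp [this]
    simp only [one_mul] at h
    rw [h0, ← hc] at h
    have hI0 : 0 ≤ ∫ x, (Dx l p x + t) ^ (-a) ∂V.μ :=
      integral_nonneg fun x => Real.rpow_nonneg (Dx_add_pos hl p x ht).le _
    have hI2 : 0 ≤ ∫ x, (Dx l p x + t) ^ (-(a + 2)) ∂V.μ :=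
      integral_nonneg fun x => Real.rpow_nonneg (Dx_add_pos hl p x ht).le _
    have h1 : c * ∫ x, (Dx l p x + t) ^ (-a) ∂V.μ ≤ |c| * |K| :=
      (mul_le_mul_of_nonneg_right (le_abs_self c) hI0).trans
        (mul_le_mul_of_nonneg_left ((hK p t ht (hts.trans hs01)).trans (le_abs_self K))
          (abs_nonneg c))
    have hlt : l * t ≤ 1 := by
      have : (l + 1) * t ≤ 1 := by
        rw [hs0, le_div_iff₀ (by linarith)] at hts
        linarith
      nlinarith
    have h2 : t ≤ (a + 1) * (2 * t - l * t ^ 2) := by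
      have : t ≤ 2 * t - l * t ^ 2 := by nlinarith
      nlinarith
    have h3 : t * ∫ x, (Dx l p x + t) ^ (-(a + 2)) ∂V.μ ≤ |c| * |K| := by
      have := mul_le_mul_of_nonneg_right h2 hI2
      linarith
    have hmeas : MeasurableSet {q | Dx l p q < t} :=
      (isOpen_lt (continuous_Dx_right hl p) continuous_const).measurableSet
    have i2 : Integrable (fun x => (Dx l p x + t) ^ (-(a + 2))) V.μ :=
      integrable_cont _ (h75_cont hl p ht _)
    have h4 : V.μ.real {q | Dx l p q < t} * (2 * t) ^ (-(a + 2)) ≤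
        ∫ x, (Dx l p x + t) ^ (-(a + 2)) ∂V.μ := by
      calc V.μ.real {q | Dx l p q < t} * (2 * t) ^ (-(a + 2))
          = ∫ _ in {q | Dx l p q < t}, (2 * t) ^ (-(a + 2)) ∂V.μ := by
            rw [setIntegral_const, smul_eq_mul]
        _ ≤ ∫ x in {q | Dx l p q < t}, (Dx l p x + t) ^ (-(a + 2)) ∂V.μ := by
            refine setIntegral_mono_on (integrable_const _).integrableOn i2.integrableOn hmeas
              fun x hx => ?_
            have hx' : Dx l p x < t := hx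
            exact Real.rpow_le_rpow_of_nonpos (Dx_add_pos hl p x ht) (by linarith) (by linarith)
        _ ≤ _ := setIntegral_le_integral i2
            (Eventually.of_forall fun x => Real.rpow_nonneg (Dx_add_pos hl p x ht).le _)
    have he : (2 * t) ^ (-(a + 2)) * ((2 : ℝ) ^ (a + 2) * t ^ (a + 1)) * t = 1 := by
      have e1 : t ^ (a + 1) * t = t ^ (a + 2) := by
        rw [← Real.rpow_add_one ht.ne']
        congr 1
        ring
      have e2 : (2 * t) ^ (a + 2) = (2 : ℝ) ^ (a + 2) * t ^ (a + 2) :=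
        Real.mul_rpow (by norm_num) ht.le
      have e3 : (2 * t) ^ (-(a + 2)) * (2 * t) ^ (a + 2) = 1 := by
        rw [← Real.rpow_add (by positivity)]
        simp
      calc (2 * t) ^ (-(a + 2)) * ((2 : ℝ) ^ (a + 2) * t ^ (a + 1)) * t
          = (2 * t) ^ (-(a + 2)) * ((2 : ℝ) ^ (a + 2) * (t ^ (a + 1) * t)) := by ring
        _ = 1 := by rw [e1, ← e2, e3]
    have hw : 0 ≤ (2 : ℝ) ^ (a + 2) * t ^ (a + 1) := by positivity
    have h5 : V.μ.real {q | Dx l p q < t} ≤ (2 : ℝ) ^ (a + 2) * (|c| * |K|) * t ^ (a + 1) := by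
      calc V.μ.real {q | Dx l p q < t}
          = V.μ.real {q | Dx l p q < t} *
              ((2 * t) ^ (-(a + 2)) * ((2 : ℝ) ^ (a + 2) * t ^ (a + 1)) * t) := by rw [he, mul_one]
        _ = ((2 : ℝ) ^ (a + 2) * t ^ (a + 1)) *
              (t * (V.μ.real {q | Dx l p q < t} * (2 * t) ^ (-(a + 2)))) := by ring
        _ ≤ ((2 : ℝ) ^ (a + 2) * t ^ (a + 1)) * (|c| * |K|) :=
            mul_le_mul_of_nonneg_left ((mul_le_mul_of_nonneg_left h4 ht.le).trans h3) hw
        _ = _ := by ring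
    have := mul_nonneg hB htp.le
    linarith
  · have hst : s0 ≤ t := (not_le.1 hts).le
    have h1 : V.μ.real {q | Dx l p q < t} ≤ V.μ.real univ := measureReal_mono (subset_univ _)
    have h2 : 1 ≤ s0 ^ (-(a + 1)) * t ^ (a + 1) := by
      have e : s0 ^ (-(a + 1)) * s0 ^ (a + 1) = 1 := by
        rw [← Real.rpow_add hs0p]
        simp
      exact e.symm.le.trans (mul_le_mul_of_nonneg_left
        (Real.rpow_le_rpow hs0p.le hst (by linarith : (0 : ℝ) ≤ a + 1))
        (Real.rpow_nonneg hs0p.le _))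
    have h3 : V.μ.real univ ≤ V.μ.real univ * s0 ^ (-(a + 1)) * t ^ (a + 1) := by
      rw [mul_assoc]
      exact le_mul_of_one_le_right measureReal_nonneg h2
    have := mul_nonneg hA htp.le
    linarith

end

end Crest.Agent.R241.Key
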