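import Crest.Agent.R241.KeyMain
import Crest.Agent.R241.KeyMk1
import Crest.Agent.R241.KeyMk2
import Crest.Agent.R241.KeyUp
import Crest.Agent.R241.KeyDens
import Crest.Agent.R241.KeyConst

/-! Row 241, block KEY: the mass bound for `n ≥ 3` and its equality case. -/

set_option autoImplicit false

open MeasureTheory Set Filter Topology
open scoped ENNReal NNReal

namespace Crest.Agent.R241.Key

open Crest.GeometryTopology.Submanifold

noncomputable section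

universe u

variable {X : Type u} [MetricSpace X] [CompactSpace X] [MeasurableSpace X] [BorelSpace X]

omit [CompactSpace X] [BorelSpace X] in
private theorem mass_pos (V : DV X) (hμ : V.μ ≠ 0) : 0 < V.μ.real univ :=
  ENNReal.toReal_pos (by simpa using hμ) (measure_ne_top _ _)

/-- everything about the Sobolev constant. -/
private theorem setup (V : DV X) {n : ℕ} {l Λ : ℝ} (hn : 3 ≤ n) (hl : 0 ≤ l) (hV : V.FV n l Λ)
    (hD : V.Dens n) (hX : VarIneq l X) (hμ : V.μ ≠ 0) : ∃ P : Par, P.l = l ∧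
      (n : ℝ) = 2 * P.a + 2 ∧ 2 ^ P.a * aB P.a * P.c0 = sA n ∧
      sA n ≤ (P.Y / (P.a * (P.a + 1))) ^ (P.a + 1) ∧
      P.Y ≤ P.a * (Λ ^ 2 - n ^ 2 * l) / (2 * n) * V.μ.real univ ^ (2 / (n : ℝ)) ∧
      (P.a * (Λ ^ 2 - n ^ 2 * l) / (2 * n) * V.μ.real univ ^ (2 / (n : ℝ)) ≤ P.Y →
        ∃ S : CS X P 0, (S.w = fun _ => V.μ.real univ ^ (-1 / (n : ℝ))) ∧ S.μ0 = V.μ) := by
  set a : ℝ := ((n : ℝ) - 2) / 2 with ha_def
  have hn3 : (3 : ℝ) ≤ n := by exact_mod_cast hn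
  have ha : 0 < a := by rw [ha_def]; linarith
  have hna : (n : ℝ) = 2 * a + 2 := by rw [ha_def]; ring
  have hn0 : (0 : ℝ) < n := by linarith
  set lam : ℝ := a * (Λ ^ 2 - n ^ 2 * l) / (2 * n) with hlam_def
  have hlam : 0 ≤ lam := by
    have := lam_pos V (by omega) hl hV hμ
    have : 0 ≤ Λ ^ 2 - n ^ 2 * l := by linarith
    positivity
  obtain ⟨Y, hY0, hsob, hmin⟩ := exists_Y V.cc hμ ha hlam
  obtain ⟨Cu, hCu, hup⟩ := exists_up V ha hna hl hV
  have hlow := low_of_dens V ha.le hna hl hD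
  have hc0 : 0 < 2 ^ (a + 2) * unitBallVol n := mul_pos (by positivity) (Alm.unitBallVol_pos n)
  let P : Par := ⟨a, l, Y, Cu, 2 ^ (a + 2) * unitBallVol n, ha, hl, hY0, hCu, hc0⟩
  have hsup := fun (p : X) (s : ℝ) (hs : 0 < s) (ξ : X → ℝ) (hξ : Lip ξ) (h0 : ∀ x, 0 ≤ ξ x) =>
    sup1 V ha.le hna hl hV p hs hξ h0
  have hall : ∀ ε : ℝ, 0 < ε → Nonempty (CS X P ε) := fun ε hε => by
    obtain ⟨w, hw, h0, h1, hQ⟩ := hmin ε hε
    obtain ⟨S, -⟩ := mkCS V.cc P hlam hsob hsup hup hlow hw h0 h1 hQ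
    exact ⟨S⟩
  have hM := mass_pos V hμ
  set M := V.μ.real univ with hM_def
  have hQc : ∀ c : ℝ, V.cc.Q lam (fun _ => c) (fun _ => c) = lam * (M * (c * c)) := fun c => by
    unfold Cc.Q
    rw [integral_congr_ae (V.cc.const_left c (lip_const c))]
    simp only [integral_const, smul_eq_mul, mul_zero, zero_add]
    rfl
  have hconst := const_id ha hna
  refine ⟨P, rfl, hna, hconst, hconst ▸ main P hX hall, ?_, fun h => ?_⟩
  · have h1 := hsob (fun _ => 1) (lip_const 1)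
    rw [hQc] at h1
    simp only [abs_one, Real.one_rpow, integral_const, smul_eq_mul, mul_one] at h1
    change Y * M ^ (a / (a + 1)) ≤ lam * M at h1
    change Y ≤ lam * M ^ (2 / (n : ℝ))
    have h2 : M = M ^ (2 / (n : ℝ)) * M ^ (a / (a + 1)) := by
      rw [← Real.rpow_add hM, hna]
      have : 2 / (2 * a + 2) + a / (a + 1) = 1 := by field_simp; ring
      rw [this, Real.rpow_one]
    have h3 : 0 < M ^ (a / (a + 1)) := Real.rpow_pos_of_pos hM _
    refine le_of_mul_le_mul_right (h1.trans (le_of_eq ?_)) h3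
    rw [mul_assoc, ← h2]
  · refine mkCS V.cc P hlam hsob hsup hup hlow (lip_const _) (fun _ => Real.rpow_pos_of_pos hM _) ?_ ?_
    · simp only [integral_const, smul_eq_mul]
      change M * (M ^ (-1 / (n : ℝ))) ^ (2 * a + 2) = 1
      rw [← Real.rpow_mul hM.le, ← hna, show -1 / (n : ℝ) * n = -1 by field_simp, Real.rpow_neg_one,
        mul_inv_cancel₀ hM.ne']
    · rw [hQc, add_zero]
      refine le_trans (le_of_eq ?_) h
      change lam * (M * ((M ^ (-1 / (n : ℝ))) ^ a * (M ^ (-1 / (n : ℝ))) ^ a)) = lam * M ^ (2 / (n : ℝ))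
      congr 1
      rw [← Real.rpow_mul hM.le, ← Real.rpow_add hM]
      conv_lhs => enter [1]; rw [← Real.rpow_one M]
      rw [← Real.rpow_add hM]
      congr 1
      rw [hna]; field_simp; ring

private theorem sA_rpow_le {P : Par} {n : ℕ} (hn : (n : ℝ) = 2 * P.a + 2)
    (h : sA n ≤ (P.Y / (P.a * (P.a + 1))) ^ (P.a + 1)) :
    P.a * (P.a + 1) * sA n ^ (2 / (n : ℝ)) ≤ P.Y := by
  have ha := P.ha
  have hY := P.hY
  have h1 := Real.rpow_le_rpow (Alm.sA_pos n).le h (show 0 ≤ 2 / (n : ℝ) by positivity)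
  rw [← Real.rpow_mul (by positivity), show (P.a + 1) * (2 / (n : ℝ)) = 1 by rw [hn]; field_simp,
    Real.rpow_one, le_div_iff₀ (by positivity)] at h1
  linarith

theorem key (V : DV X) {n : ℕ} {l Λ : ℝ} (hn : 3 ≤ n) (hl : 0 ≤ l) (hV : V.FV n l Λ)
    (hD : V.Dens n) (hX : VarIneq l X) (hμ : V.μ ≠ 0) :
    (n : ℝ) ^ 2 * sA n ^ (2 / (n : ℝ)) ≤ (Λ ^ 2 - n ^ 2 * l) * V.μ.real univ ^ (2 / (n : ℝ)) := by
  obtain ⟨P, -, hna, -, h1, h2, -⟩ := setup V hn hl hV hD hX hμ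
  have h3 := (sA_rpow_le hna h1).trans h2
  have ha := P.ha
  have hn0 : (0 : ℝ) < n := by linarith
  have e : P.a + 1 = n / 2 := by linarith
  rw [e] at h3
  have h4 : P.a / (2 * n) * ((n : ℝ) ^ 2 * sA n ^ (2 / (n : ℝ))) ≤
      P.a / (2 * n) * ((Λ ^ 2 - n ^ 2 * l) * V.μ.real univ ^ (2 / (n : ℝ))) := by
    refine le_trans (le_of_eq ?_) (h3.trans (le_of_eq ?_))
    · field_simp
    · ring
  exact le_of_mul_le_mul_left h4 (by positivity)

theorem key_eq (V : DV X) {n : ℕ} {l Λ : ℝ} (hn : 3 ≤ n) (hl : 0 ≤ l) (hV : V.FV n l Λ)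
    (hD : V.Dens n) (hX : VarIneq l X) (hμ : V.μ ≠ 0)
    (h : (Λ ^ 2 - n ^ 2 * l) * V.μ.real univ ^ (2 / (n : ℝ)) ≤ (n : ℝ) ^ 2 * sA n ^ (2 / (n : ℝ))) :
    ∃ (x : X) (r : ℝ), 0 < r ∧ (∀ᵐ p ∂V.μ, dist x p = r) ∧
      sn l r ^ 2 * (Λ ^ 2 - n ^ 2 * l) = n ^ 2 := by
  obtain ⟨P, hPl, hna, hc, h1, h2, h3⟩ := setup V hn hl hV hD hX hμ
  have ha := P.ha
  have hn0 : (0 : ℝ) < n := by linarith
  have e : P.a + 1 = n / 2 := by linarith
  have hM := mass_pos V hμ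
  have h4 : P.a * (Λ ^ 2 - n ^ 2 * l) / (2 * n) * V.μ.real univ ^ (2 / (n : ℝ)) ≤
      P.a * (P.a + 1) * sA n ^ (2 / (n : ℝ)) := by
    have := mul_le_mul_of_nonneg_left h (show 0 ≤ P.a / (2 * n) by positivity)
    refine le_trans (le_of_eq ?_) (this.trans (le_of_eq ?_))
    · ring
    · rw [e]; field_simp
  have h5 := sA_rpow_le hna h1
  obtain ⟨S, hw, hμ0⟩ := h3 (h4.trans h5)
  have h6 : (P.Y / (P.a * (P.a + 1))) ^ (P.a + 1) ≤ 2 ^ P.a * aB P.a * P.c0 := by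
    have hY := P.hY
    have h7 : P.Y / (P.a * (P.a + 1)) ≤ sA n ^ (2 / (n : ℝ)) := by
      rw [div_le_iff₀ (by positivity)]; linarith
    have h8 := Real.rpow_le_rpow (by positivity) h7 (show 0 ≤ P.a + 1 by positivity)
    rwa [← Real.rpow_mul (Alm.sA_pos n).le, show (2 / (n : ℝ)) * (P.a + 1) = 1 by
      rw [hna]; field_simp, Real.rpow_one, ← hc] at h8
  obtain ⟨x, v, hv, hae, heq⟩ := main_eq (hPl ▸ hX) S (fun x => congrFun hw x) h6
  rw [hPl] at hae heq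
  have hae' : ∀ᵐ p ∂V.μ, Dx l x p = v := by
    have hac : V.μ ≪ S.μ := by
      rw [S.dens, hμ0]
      refine withDensity_absolutelyContinuous' ?_ (Eventually.of_forall fun y => ?_)
      · exact (((lip_cont S.w_lip).measurable.pow_const _).ennreal_ofReal).aemeasurable
      · exact (ENNReal.ofReal_pos.2 (Real.rpow_pos_of_pos (S.w_pos y) _)).ne'
    exact hac.ae_le hae
  have : (ae V.μ).NeBot := ae_neBot.2 hμ
  obtain ⟨p₀, hp₀⟩ := hae'.exists
  have hr : 0 < dist x p₀ := by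
    refine lt_of_le_of_ne dist_nonneg fun h0 => ?_
    simp only [Dx, ← h0, Alm.md_zero] at hp₀
    exact hv.ne hp₀
  refine ⟨x, dist x p₀, hr, ?_, ?_⟩
  · filter_upwards [hae'] with p hp
    have h7 : md l (dist x p) = md l (dist x p₀) := hp.trans hp₀.symm
    exact le_antisymm (Alm.le_of_md_le hl dist_nonneg dist_nonneg h7.le)
      (Alm.le_of_md_le hl dist_nonneg dist_nonneg h7.ge)
  · have hY : P.Y = P.a * (Λ ^ 2 - n ^ 2 * l) / (2 * n) * V.μ.real univ ^ (2 / (n : ℝ)) :=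
      le_antisymm h2 (h4.trans h5)
    have hw2 : V.μ.real univ ^ (2 / (n : ℝ)) * (V.μ.real univ ^ (-1 / (n : ℝ))) ^ 2 = 1 := by
      rw [← Real.rpow_natCast, ← Real.rpow_mul hM.le, ← Real.rpow_add hM]
      rw [show 2 / (n : ℝ) + -1 / (n : ℝ) * ((2 : ℕ) : ℝ) = 0 by push_cast; ring, Real.rpow_zero]
    have hsn : sn l (dist x p₀) ^ 2 = 2 * v + l * v ^ 2 := by
      rw [Alm.sn_sq hl, ← hp₀]; rfl
    rw [hY, e] at heq
    rw [hsn]
    have h9 : P.a / (2 * n) * ((2 * v + l * v ^ 2) * (Λ ^ 2 - n ^ 2 * l)) =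
        P.a / (2 * n) * (n : ℝ) ^ 2 := by
      calc _ = P.a / (2 * n) * ((2 * v + l * v ^ 2) * (Λ ^ 2 - n ^ 2 * l)) *
            (V.μ.real univ ^ (2 / (n : ℝ)) * (V.μ.real univ ^ (-1 / (n : ℝ))) ^ 2) := by
            rw [hw2, mul_one]
        _ = P.a * (n / 2) := by rw [← heq]; ring
        _ = _ := by field_simp
    exact mul_left_cancel₀ (by positivity) h9

end

end Crest.Agent.R241.Key
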