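import Crest.Agent.R241.KeyEL

/-! Row 241, block KEY: Hardy inequality and barycentres. -/

set_option autoImplicit false

open MeasureTheory Set Filter Topology
open scoped ENNReal NNReal

namespace Crest.Agent.R241.Key

open Crest.GeometryTopology.Submanifold

noncomputable section

universe u

variable {X : Type u} [MetricSpace X] [CompactSpace X] [MeasurableSpace X] [BorelSpace X]
  {P : Par} {ε : ℝ}

/-- Picone: test the supersolution `α = (w F)^(-a)` with `β = (w F)^a`. -/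
theorem hardy (C : CS X P ε) (p : X) {s : ℝ} (hs : 0 < s) :
    P.a * (P.a + 1) * (2 * s - P.l * s ^ 2) * ∫ x, ((C.w x * (Dx P.l p x + s)) ^ 2)⁻¹ ∂C.μ ≤
      P.Y + ε := by
  have hy : Lip fun x => C.w x * (Dx P.l p x + s) :=
    lip_mul C.w_lip (lip_add (lip_Dx P.hl p) (lip_const s))
  have hpos : ∀ x, 0 < C.w x * (Dx P.l p x + s) := fun x =>
    mul_pos (C.w_pos x) (Dx_add_pos P.hl p x hs)
  have h := C.sup p s hs (fun x => (C.w x * (Dx P.l p x + s)) ^ P.a) (lip_rpow hy hpos _)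
    fun x => (Real.rpow_pos_of_pos (hpos x) _).le
  have e1 : ∀ x, (C.w x * (Dx P.l p x + s)) ^ P.a * (C.w x * (Dx P.l p x + s)) ^ (-(P.a + 2)) =
      ((C.w x * (Dx P.l p x + s)) ^ 2)⁻¹ := fun x => by
    rw [← Real.rpow_add (hpos x), show P.a + -(P.a + 2) = -2 by ring, Real.rpow_neg (hpos x).le,
      Real.rpow_two]
  have e2 : ∀ x, (C.w x * (Dx P.l p x + s)) ^ (-P.a) * (C.w x * (Dx P.l p x + s)) ^ P.a = 1 :=
    fun x => by rw [← Real.rpow_add (hpos x), neg_add_cancel, Real.rpow_zero]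
  simp only [e1, e2] at h
  have hd : ∀ γ : ℝ, ∀ x : ℝ, 0 < x → HasDerivAt (fun x : ℝ => x ^ γ) (γ * x ^ (γ - 1)) x :=
    fun γ x hx => Real.hasDerivAt_rpow_const (Or.inl hx.ne')
  have hc : ∀ γ : ℝ, ContinuousOn (fun x : ℝ => γ * x ^ (γ - 1)) (Ioi 0) := fun γ =>
    continuousOn_const.mul (continuousOn_id.rpow_const fun x hx => Or.inl (ne_of_gt hx))
  have h3 : ∫ x, C.Γ (fun x => (C.w x * (Dx P.l p x + s)) ^ (-P.a))
      (fun x => (C.w x * (Dx P.l p x + s)) ^ P.a) x ∂C.μ ≤ 0 := by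
    refine integral_nonpos_of_ae ?_
    filter_upwards [C.toCc.chain_pos₂ (hd (-P.a)) (hc _) (hd P.a) (hc _) hy hpos,
      C.nonneg _ hy] with x h1 h2
    rw [h1]
    have a1 := Real.rpow_pos_of_pos (hpos x) (-P.a - 1)
    have a2 := Real.rpow_pos_of_pos (hpos x) (P.a - 1)
    have a3 := P.ha
    have : 0 ≤ P.a * (C.w x * (Dx P.l p x + s)) ^ (-P.a - 1) *
        (P.a * (C.w x * (Dx P.l p x + s)) ^ (P.a - 1)) *
        C.Γ (fun x => C.w x * (Dx P.l p x + s)) (fun x => C.w x * (Dx P.l p x + s)) x := by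
      positivity
    simp only [Pi.zero_apply]
    linarith
  linarith [C.L_one]

theorem h37_real {K l Y A B : ℝ} (hK : 0 < K) (hl : 0 ≤ l) (hY : 0 ≤ Y) (hA : 0 < A) (hB : 0 ≤ B)
    (h : ∀ s, 0 < s → 0 ≤ 2 * s - l * s ^ 2 → K * (2 * s - l * s ^ 2) ≤ Y * (B + s * A) ^ 2) :
    K ≤ Y * (2 * A * B + l * B ^ 2) := by
  rcases hB.eq_or_lt with hB0 | hB0
  · exfalso
    subst hB0
    have hD : 0 < l * K + Y * A ^ 2 + 1 := by positivity
    set s := K / (l * K + Y * A ^ 2 + 1) with hs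
    have hs0 : 0 < s := div_pos hK hD
    have hsD : s * (l * K + Y * A ^ 2 + 1) = K := div_mul_cancel₀ _ hD.ne'
    have hYA : 0 ≤ Y * A ^ 2 := by positivity
    have hls : l * s ≤ 1 := by
      rw [hs, ← mul_div_assoc, div_le_one hD]
      linarith
    have h1 := h s hs0 (by nlinarith)
    have h2 : s * (K * (2 - l * s)) ≤ s * (s * (Y * A ^ 2)) := by nlinarith
    have h3 := le_of_mul_le_mul_left h2 hs0
    nlinarith
  · have hD : 0 < A + l * B := by positivity
    have hE : 0 < B * (2 * A + l * B) := by positivity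
    have e1 : 2 * (B / (A + l * B)) - l * (B / (A + l * B)) ^ 2 =
        B * (2 * A + l * B) / (A + l * B) ^ 2 := by
      field_simp
      ring
    have e2 : (B + B / (A + l * B) * A) ^ 2 = (B * (2 * A + l * B)) ^ 2 / (A + l * B) ^ 2 := by
      field_simp
      ring
    have h1 := h (B / (A + l * B)) (div_pos hB0 hD) (by rw [e1]; positivity)
    rw [e1, e2, ← mul_div_assoc, ← mul_div_assoc, div_le_div_iff_of_pos_right (by positivity)] at h1
    have h2 : B * (2 * A + l * B) * K ≤ B * (2 * A + l * B) * (Y * (2 * A * B + l * B ^ 2)) := by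
      nlinarith
    exact le_of_mul_le_mul_left h2 hE

theorem h37_tangent {y θ : ℝ} (hy : 0 < y) (hθ : 0 < θ) :
    3 / θ ^ 2 - 2 / θ ^ 3 * y ≤ (y ^ 2)⁻¹ := by
  have e : (y ^ 2)⁻¹ - (3 / θ ^ 2 - 2 / θ ^ 3 * y) = (y - θ) ^ 2 * (2 * y + θ) / (y ^ 2 * θ ^ 3) := by
    field_simp
    ring
  have : 0 ≤ (y - θ) ^ 2 * (2 * y + θ) / (y ^ 2 * θ ^ 3) := by positivity
  linarith

theorem h37_jensen (μ : Measure X) [IsFiniteMeasure μ] {f : X → ℝ} (hf : Continuous f)
    (h0 : ∀ x, 0 < f x) {G : Set X} (hI : 0 < ∫ x in G, f x ∂μ) (hm : 0 < μ.real G) :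
    μ.real G ^ 3 / (∫ x in G, f x ∂μ) ^ 2 ≤ ∫ x, (f x ^ 2)⁻¹ ∂μ := by
  set I := ∫ x in G, f x ∂μ with hIdef
  set m := μ.real G with hmdef
  have hθ : 0 < I / m := div_pos hI hm
  have hc : Continuous fun x => (f x ^ 2)⁻¹ := (hf.pow 2).inv₀ fun x => (pow_pos (h0 x) 2).ne'
  have hif : Integrable f (μ.restrict G) := integrable_cont _ hf
  calc m ^ 3 / I ^ 2 = m * (3 / (I / m) ^ 2) - 2 / (I / m) ^ 3 * I := by
        field_simp
        ring
    _ = ∫ x in G, (3 / (I / m) ^ 2 - 2 / (I / m) ^ 3 * f x) ∂μ := by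
        rw [integral_sub (integrable_const _) (hif.const_mul _), integral_const_mul,
          setIntegral_const, smul_eq_mul]
    _ ≤ ∫ x in G, (f x ^ 2)⁻¹ ∂μ :=
        integral_mono ((integrable_const _).sub (hif.const_mul _)) (integrable_cont _ hc)
          fun x => h37_tangent (h0 x) hθ
    _ ≤ ∫ x, (f x ^ 2)⁻¹ ∂μ :=
        setIntegral_le_integral (integrable_cont _ hc)
          (Eventually.of_forall fun x => (inv_pos.2 (pow_pos (h0 x) 2)).le)

/-- `VarIneq` for `ν = 1_G w m` (mass `A`, `∫ D dν = A v`), `s = v / (1 + l v)`, and the tangent line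
`y⁻² ≥ 3 θ⁻² - 2 θ⁻³ y`.  If `v = 0` let `s → 0` in `hardy` to get `m G = 0`. -/
theorem bary (hX : VarIneq P.l X) (C : CS X P ε) {G : Set X} (hG : MeasurableSet G) :
    P.a * (P.a + 1) * C.μ.real G ^ 3 ≤ (P.Y + ε) * ∫ p in G, ∫ q in G, C.ρ 0 p q ∂C.μ ∂C.μ := by
  have hw := lip_cont C.w_lip
  have hY : 0 ≤ P.Y + ε := by
    have h1 := C.E_nonneg (lip_const (X := X) 1)
    rw [C.E_one (lip_const 1)] at h1
    exact h1.trans C.L_one
  have haa : 0 < P.a * (P.a + 1) := mul_pos P.ha (by linarith [P.ha])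
  rcases (measureReal_nonneg (μ := C.μ) (s := G)).eq_or_lt with hm | hm
  · rw [← hm]
    have : 0 ≤ ∫ p in G, ∫ q in G, C.ρ 0 p q ∂C.μ ∂C.μ :=
      integral_nonneg fun p => integral_nonneg fun q => C.ρ_nonneg le_rfl p q
    have h3 : P.a * (P.a + 1) * (0 : ℝ) ^ 3 = 0 := by ring
    rw [h3]
    exact mul_nonneg hY this
  set ν : Measure X := (C.μ.restrict G).withDensity fun x => ENNReal.ofReal (C.w x) with hν
  have hint : ∀ g : X → ℝ, ∫ x, g x ∂ν = ∫ x in G, C.w x * g x ∂C.μ := by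
    intro g
    rw [hν, integral_withDensity_eq_integral_toReal_smul hw.measurable.ennreal_ofReal
      (Eventually.of_forall fun _ => ENNReal.ofReal_lt_top)]
    refine integral_congr_ae (Eventually.of_forall fun x => ?_)
    simp only [smul_eq_mul, ENNReal.toReal_ofReal (C.w_pos x).le]
  have hfin : IsFiniteMeasure ν :=
    isFiniteMeasure_withDensity_ofReal (integrable_cont (C.μ.restrict G) hw).2
  obtain ⟨x, hx⟩ := hX ν hfin
  have hmass : ν.real univ = ∫ p in G, C.w p ∂C.μ := by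
    have := hint fun _ => 1
    simpa using this
  have hρ : ∫ p, ∫ q, Dx P.l p q ∂ν ∂ν = ∫ p in G, ∫ q in G, C.ρ 0 p q ∂C.μ ∂C.μ := by
    rw [hint]
    refine integral_congr_ae (Eventually.of_forall fun p => ?_)
    simp only
    rw [hint, ← integral_const_mul]
    refine integral_congr_ae (Eventually.of_forall fun q => ?_)
    simp only [CS.ρ]
    ring
  rw [hmass, hρ, hint] at hx
  set A := ∫ p in G, C.w p ∂C.μ with hA
  set B := ∫ p in G, C.w p * Dx P.l x p ∂C.μ with hB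
  have hA0 : 0 < A := by
    obtain ⟨c, hc, hcw⟩ := cont_pos_bdd hw C.w_pos
    have : ∫ _ in G, c ∂C.μ ≤ A :=
      integral_mono (integrable_const _) (integrable_cont _ hw) hcw
    rw [setIntegral_const, smul_eq_mul] at this
    exact (mul_pos hm hc).trans_le this
  have hB0 : 0 ≤ B := integral_nonneg fun p => mul_nonneg (C.w_pos p).le (Dx_nonneg P.hl x p)
  refine (h37_real (mul_pos haa (pow_pos hm 3)) P.hl hY hA0 hB0 fun s hs hs2 => ?_).trans
    (mul_le_mul_of_nonneg_left hx hY)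
  have hD := continuous_Dx_right (X := X) P.hl x
  have hI : ∫ p in G, C.w p * (Dx P.l x p + s) ∂C.μ = B + s * A := by
    rw [hB, hA, ← integral_const_mul, ← integral_add (integrable_cont _ (hw.fun_mul hD))
      ((integrable_cont _ hw).const_mul s)]
    refine integral_congr_ae (Eventually.of_forall fun p => ?_)
    simp only
    ring
  have hI0 : 0 < B + s * A := by positivity
  have h1 := h37_jensen C.μ (f := fun p => C.w p * (Dx P.l x p + s))
    (hw.mul (hD.add continuous_const)) (fun p => mul_pos (C.w_pos p) (Dx_add_pos P.hl x p hs))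
    (G := G) (by rw [hI]; exact hI0) hm
  rw [hI] at h1
  have h2 := (mul_le_mul_of_nonneg_left h1 (mul_nonneg haa.le hs2)).trans (hardy C x hs)
  rw [← mul_div_assoc, div_le_iff₀ (pow_pos hI0 2)] at h2
  calc _ = P.a * (P.a + 1) * (2 * s - P.l * s ^ 2) * C.μ.real G ^ 3 := by ring
    _ ≤ _ := h2

/-- equality case (`w` constant): `y⁻² - 3 θ⁻² + 2 θ⁻³ y = (y-θ)²(2y+θ)/(y²θ³)` has integral `≤ 0`. -/
theorem bary_eq (hX : VarIneq P.l X) (C : CS X P 0) {w₀ : ℝ} (hw : ∀ x, C.w x = w₀)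
    (h : P.Y * ∫ p, ∫ q, C.ρ 0 p q ∂C.μ ∂C.μ ≤ P.a * (P.a + 1)) :
    ∃ (x : X) (v : ℝ), 0 < v ∧ (∀ᵐ p ∂C.μ, Dx P.l x p = v) ∧
      P.Y * (w₀ ^ 2 * (2 * v + P.l * v ^ 2)) = P.a * (P.a + 1) := by
  obtain ⟨x, hx⟩ := hX C.μ inferInstance
  have hw0 : 0 < w₀ := hw x ▸ C.w_pos x
  have ha := P.ha
  have hl := P.hl
  have hY := P.hY
  have haa : 0 < P.a * (P.a + 1) := by positivity
  have hDi : Integrable (Dx P.l x) C.μ := integrable_cont _ (continuous_Dx_right hl x)
  set v := ∫ p, Dx P.l x p ∂C.μ with hv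
  have hv0 : 0 ≤ v := integral_nonneg fun p => Dx_nonneg hl x p
  have e1 : ∫ p, ∫ q, C.ρ 0 p q ∂C.μ ∂C.μ = w₀ ^ 2 * ∫ p, ∫ q, Dx P.l p q ∂C.μ ∂C.μ := by
    simp only [CS.ρ, hw, add_zero, integral_const_mul, sq]
  rw [probReal_univ, mul_one] at hx
  have h1 : P.Y * (w₀ ^ 2 * (2 * v + P.l * v ^ 2)) ≤ P.a * (P.a + 1) := by
    refine le_trans ?_ h
    rw [e1]
    gcongr
  have hH := fun s (hs : 0 < s) => hardy C x hs
  simp only [hw, add_zero] at hH
  rcases hv0.eq_or_lt with hv0 | hv0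
  · exfalso
    have hD : Dx P.l x =ᵐ[C.μ] 0 :=
      (integral_eq_zero_iff_of_nonneg (fun p => Dx_nonneg hl x p) hDi).1 hv0.symm
    set M := P.l + P.Y * w₀ ^ 2 / (P.a * (P.a + 1)) with hM
    have hM0 : 0 ≤ M := by positivity
    have hs : 0 < 1 / (M + 1) := by positivity
    have h2 := hH _ hs
    have h3 : ∫ p, ((w₀ * (Dx P.l x p + 1 / (M + 1))) ^ 2)⁻¹ ∂C.μ =
        ((w₀ * (1 / (M + 1))) ^ 2)⁻¹ := by
      rw [integral_congr_ae (g := fun _ => ((w₀ * (1 / (M + 1))) ^ 2)⁻¹)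
        (hD.mono fun p hp => by simp only [hp, Pi.zero_apply, zero_add])]
      simp
    rw [h3] at h2
    have h4 : P.a * (P.a + 1) * (2 * (1 / (M + 1)) - P.l * (1 / (M + 1)) ^ 2) *
        ((w₀ * (1 / (M + 1))) ^ 2)⁻¹ = P.a * (P.a + 1) * (2 * (M + 1) - P.l) / w₀ ^ 2 := by
      field_simp
    rw [h4, div_le_iff₀ (by positivity)] at h2
    have h5 : P.Y * w₀ ^ 2 = P.a * (P.a + 1) * (M - P.l) := by
      rw [hM]; field_simp; ring
    nlinarith
  · have hs : 0 < v / (1 + P.l * v) := by positivity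
    have h2 := hH _ hs
    set s := v / (1 + P.l * v) with hs'
    set θ := w₀ * (v + s) with hθ
    have hθ0 : 0 < θ := by positivity
    have hpos : ∀ p, 0 < w₀ * (Dx P.l x p + s) := fun p => mul_pos hw0 (Dx_add_pos hl x p hs)
    have hyc : Continuous fun p => w₀ * (Dx P.l x p + s) :=
      continuous_const.mul ((continuous_Dx_right hl x).add continuous_const)
    have i1 : Integrable (fun p => ((w₀ * (Dx P.l x p + s)) ^ 2)⁻¹) C.μ :=
      integrable_cont _ ((hyc.pow 2).inv₀ fun p => (pow_pos (hpos p) 2).ne')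
    have i2 : Integrable (fun p => w₀ * (Dx P.l x p + s)) C.μ := integrable_cont _ hyc
    have e2 : ∫ p, w₀ * (Dx P.l x p + s) ∂C.μ = θ := by
      rw [integral_const_mul, integral_add hDi (integrable_const _)]
      simp [hθ, hv]
    set R : X → ℝ := fun p => ((w₀ * (Dx P.l x p + s)) ^ 2)⁻¹ - 3 * (θ ^ 2)⁻¹ +
      2 * (θ ^ 3)⁻¹ * (w₀ * (Dx P.l x p + s)) with hR
    have hRe : ∀ p, R p = (w₀ * (Dx P.l x p + s) - θ) ^ 2 * (2 * (w₀ * (Dx P.l x p + s)) + θ) /
        ((w₀ * (Dx P.l x p + s)) ^ 2 * θ ^ 3) := fun p => by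
      have := hpos p
      simp only [hR]
      generalize w₀ * (Dx P.l x p + s) = y at this ⊢
      field_simp
      ring
    have hR0 : ∀ p, 0 ≤ R p := fun p => by
      have := hpos p
      rw [hRe]
      positivity
    have i3 : Integrable (fun p => ((w₀ * (Dx P.l x p + s)) ^ 2)⁻¹ - 3 * (θ ^ 2)⁻¹) C.μ :=
      i1.sub (integrable_const _)
    have e3 : ∫ p, R p ∂C.μ = ∫ p, ((w₀ * (Dx P.l x p + s)) ^ 2)⁻¹ ∂C.μ - (θ ^ 2)⁻¹ := by
      simp only [hR]
      rw [integral_add i3 (i2.const_mul _), integral_sub i1 (integrable_const _),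
        integral_const_mul (2 * (θ ^ 3)⁻¹), e2]
      simp only [integral_const, probReal_univ, one_smul]
      field_simp
      ring
    have e4 : 0 ≤ ∫ p, R p ∂C.μ := integral_nonneg hR0
    have hq : 0 < 2 * v + P.l * v ^ 2 := by positivity
    have e5 : 2 * s - P.l * s ^ 2 = (θ ^ 2) / (w₀ ^ 2 * (2 * v + P.l * v ^ 2)) := by
      rw [hθ, hs']
      field_simp
      ring
    set J := ∫ p, ((w₀ * (Dx P.l x p + s)) ^ 2)⁻¹ ∂C.μ with hJ
    have e6 : P.a * (P.a + 1) * (θ ^ 2 * J) ≤ P.Y * (w₀ ^ 2 * (2 * v + P.l * v ^ 2)) := by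
      rw [e5] at h2
      rw [← div_le_iff₀ (by positivity)]
      refine le_trans (le_of_eq ?_) h2
      field_simp
    have e7 : 1 ≤ θ ^ 2 * J := by
      have : (θ ^ 2)⁻¹ ≤ J := by linarith
      rwa [inv_le_iff_one_le_mul₀' (by positivity)] at this
    have e8 : θ ^ 2 * J ≤ 1 := by
      have := e6.trans h1
      nlinarith
    refine ⟨x, v, hv0, ?_, le_antisymm h1 (by nlinarith)⟩
    have e9 : ∫ p, R p ∂C.μ = 0 := by
      refine le_antisymm ?_ e4
      rw [e3, sub_nonpos, inv_eq_one_div, le_div_iff₀ (by positivity)]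
      linarith
    have i4 : Integrable R C.μ := i3.add (i2.const_mul _)
    filter_upwards [(integral_eq_zero_iff_of_nonneg hR0 i4).1 e9] with p hp
    have hp' := hpos p
    rw [hRe, Pi.zero_apply, div_eq_zero_iff, mul_eq_zero] at hp
    rcases hp with (hp | hp) | hp
    · have h7 : w₀ * (Dx P.l x p + s) = w₀ * (v + s) := by
        have := pow_eq_zero_iff (two_ne_zero) |>.1 hp
        linarith
      have := mul_left_cancel₀ hw0.ne' h7
      linarith
    · exfalso; linarith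
    · exact absurd hp (by positivity)

end

end Crest.Agent.R241.Key
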