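import Crest.Agent.R241.KeyDefs

/-! Row 241, block KEY: the function `Kf`. -/

set_option autoImplicit false

open MeasureTheory Set Filter Topology
open scoped ENNReal NNReal

namespace Crest.Agent.R241.Key

open Crest.GeometryTopology.Submanifold

noncomputable section

universe u

variable {a : ℝ}

theorem h18_int (ha : 0 < a) {r z : ℝ} (hr : 0 ≤ r) (hz : 0 ≤ z) (N : ℝ) :
    IntervalIntegrable (fun t : ℝ => t ^ (a - 1) * (1 + r * t) ^ N) volume 0 z := by
  refine (intervalIntegral.intervalIntegrable_rpow' (by linarith)).mul_continuousOn ?_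
  refine ContinuousOn.rpow_const (by fun_prop) fun t ht => Or.inl ?_
  rw [uIcc_of_le hz] at ht
  have := mul_nonneg hr ht.1
  linarith

theorem h18_one (ha : 0 < a) : a * ∫ τ in (0 : ℝ)..1, τ ^ (a - 1) = 1 := by
  rw [integral_rpow (Or.inl (by linarith)), sub_add_cancel, Real.one_rpow, Real.zero_rpow ha.ne',
    sub_zero, mul_one_div_cancel ha.ne']

theorem h18_le_Kf (ha : 0 < a) {x : ℝ} (hx : 0 ≤ x) : (1 + x) ^ (-(2 * a + 2)) ≤ Kf a x := by
  have e : (1 + x) ^ (-(2 * a + 2)) =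
      a * ∫ τ in (0 : ℝ)..1, τ ^ (a - 1) * (1 + x) ^ (-(2 * a + 2)) := by
    rw [intervalIntegral.integral_mul_const, ← mul_assoc, h18_one ha, one_mul]
  rw [e, Kf]
  refine mul_le_mul_of_nonneg_left (intervalIntegral.integral_mono_on zero_le_one
    ((intervalIntegral.intervalIntegrable_rpow' (by linarith)).mul_const _)
    (h18_int ha hx zero_le_one _) fun t ht => ?_) ha.le
  refine mul_le_mul_of_nonneg_left ?_ (Real.rpow_nonneg ht.1 _)
  have h1 := mul_nonneg hx ht.1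
  have h2 := mul_le_of_le_one_right hx ht.2
  exact Real.rpow_le_rpow_of_nonpos (by linarith) (by linarith) (by linarith)

theorem Kf_zero (ha : 0 < a) : Kf a 0 = 1 := by
  simp only [Kf, zero_mul, add_zero, Real.one_rpow, mul_one]
  exact h18_one ha

theorem Kf_pos (ha : 0 < a) {x : ℝ} (hx : 0 ≤ x) : 0 < Kf a x := by
  exact (Real.rpow_pos_of_pos (by linarith) _).trans_le (h18_le_Kf ha hx)

theorem Kf_anti (ha : 0 < a) : AntitoneOn (Kf a) (Ici 0) := by
  intro x hx y hy hxy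
  refine mul_le_mul_of_nonneg_left (intervalIntegral.integral_mono_on zero_le_one
    (h18_int ha hy zero_le_one _) (h18_int ha hx zero_le_one _) fun t ht => ?_) ha.le
  refine mul_le_mul_of_nonneg_left ?_ (Real.rpow_nonneg ht.1 _)
  have h1 := mul_nonneg (mem_Ici.1 hx) ht.1
  have h2 := mul_le_mul_of_nonneg_right hxy ht.1
  exact Real.rpow_le_rpow_of_nonpos (by linarith) (by linarith) (by linarith)

theorem Kf_le_one (ha : 0 < a) {x : ℝ} (hx : 0 ≤ x) : Kf a x ≤ 1 := by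
  exact (Kf_anti ha (mem_Ici.2 le_rfl) (mem_Ici.2 hx) hx).trans_eq (Kf_zero ha)

theorem le_Kf (ha : 0 < a) {x : ℝ} (hx : 0 ≤ x) : (1 + x) ^ (-(2 * a + 2)) ≤ Kf a x := by
  exact h18_le_Kf ha hx

theorem Kf_continuousOn (ha : 0 < a) : ContinuousOn (Kf a) (Ici 0) := by
  intro x hx
  refine ContinuousWithinAt.mul continuousWithinAt_const ?_
  refine intervalIntegral.continuousWithinAt_of_dominated_interval
    (bound := fun τ => τ ^ (a - 1)) ?_ ?_
    (intervalIntegral.intervalIntegrable_rpow' (by linarith)) ?_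
  · exact Eventually.of_forall fun y => Measurable.aestronglyMeasurable (by fun_prop)
  · filter_upwards [self_mem_nhdsWithin] with y hy
    refine Eventually.of_forall fun t ht => ?_
    rw [uIoc_of_le zero_le_one] at ht
    have h1 := mul_nonneg (mem_Ici.1 hy) ht.1.le
    have h2 : 0 ≤ t ^ (a - 1) := Real.rpow_nonneg ht.1.le _
    rw [Real.norm_of_nonneg (mul_nonneg h2 (Real.rpow_nonneg (by linarith) _))]
    exact mul_le_of_le_one_right h2
      (Real.rpow_le_one_of_one_le_of_nonpos (by linarith) (by linarith))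
  · refine Eventually.of_forall fun t ht => ?_
    rw [uIoc_of_le zero_le_one] at ht
    have h1 := mul_nonneg (mem_Ici.1 hx) ht.1.le
    refine ContinuousAt.continuousWithinAt (ContinuousAt.mul continuousAt_const ?_)
    exact ContinuousAt.rpow_const (by fun_prop) (Or.inl (by linarith))

/-- substitution `t = z τ`. -/
theorem pow_mul_Kf (ha : 0 < a) {z r : ℝ} (hz : 0 < z) (hr : 0 ≤ r) :
    z ^ a * Kf a (z * r) = a * ∫ t in (0 : ℝ)..z, t ^ (a - 1) * (1 + t * r) ^ (-(2 * a + 2)) := by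
  have h := intervalIntegral.smul_integral_comp_mul_left (a := 0) (b := 1)
    (fun t : ℝ => t ^ (a - 1) * (1 + t * r) ^ (-(2 * a + 2))) z
  rw [mul_zero, mul_one] at h
  rw [← h, Kf, smul_eq_mul, mul_left_comm]
  congr 1
  rw [← intervalIntegral.integral_const_mul, ← intervalIntegral.integral_const_mul]
  refine intervalIntegral.integral_congr fun t ht => ?_
  rw [uIcc_of_le zero_le_one] at ht
  have e : z ^ a = z * z ^ (a - 1) := by
    rw [Real.rpow_sub_one hz.ne', mul_div_cancel₀ _ hz.ne']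
  rw [Real.mul_rpow hz.le ht.1, e, mul_right_comm z r t]
  ring

theorem Kf_hasDerivAt (ha : 0 < a) {x : ℝ} (hx : 0 < x) :
    HasDerivAt (Kf a) (a * ((1 + x) ^ (-(2 * a + 2)) - Kf a x) / x) x := by
  have hcont : ContinuousOn (fun t : ℝ => t ^ (a - 1) * (1 + t * 1) ^ (-(2 * a + 2))) (Ioi 0) :=
    (continuousOn_id.rpow_const fun t ht => Or.inl (ne_of_gt ht)).mul
      (ContinuousOn.rpow_const (by fun_prop) fun t ht => Or.inl (by
        have := mem_Ioi.1 ht
        linarith))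
  have hint : IntervalIntegrable (fun t : ℝ => t ^ (a - 1) * (1 + t * 1) ^ (-(2 * a + 2)))
      volume 0 x := by
    simpa only [mul_comm (1 : ℝ)] using h18_int ha zero_le_one hx.le (-(2 * a + 2))
  have h1 := intervalIntegral.integral_hasDerivAt_right hint
    (hcont.stronglyMeasurableAtFilter isOpen_Ioi x hx) (hcont.continuousAt (Ioi_mem_nhds hx))
  have h2 := (Real.hasDerivAt_rpow_const (p := -a) (Or.inl hx.ne')).mul (h1.const_mul a)
  have key : ∀ y : ℝ, 0 < y → Kf a y = y ^ (-a) *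
      (a * ∫ t in (0 : ℝ)..y, t ^ (a - 1) * (1 + t * 1) ^ (-(2 * a + 2))) := by
    intro y hy
    rw [← pow_mul_Kf ha hy zero_le_one, mul_one, ← mul_assoc, ← Real.rpow_add hy, neg_add_cancel,
      Real.rpow_zero, one_mul]
  refine (h2.congr_of_eventuallyEq ?_).congr_deriv ?_
  · filter_upwards [Ioi_mem_nhds hx] with y hy using key y hy
  · have hp : x ^ a ≠ 0 := (Real.rpow_pos_of_pos hx _).ne'
    rw [← pow_mul_Kf ha hx zero_le_one, mul_one, Real.rpow_sub_one hx.ne', Real.rpow_sub_one hx.ne',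
      Real.rpow_neg hx.le]
    field_simp
    ring

theorem h54_rpow_le {N y : ℝ} (hN : 0 ≤ N) (hy : 0 ≤ y) :
    (1 + y) ^ (-N) ≤ 1 - N * y + (N + N ^ 2) * y ^ 2 := by
  have h1 : 0 < 1 + y := by linarith
  obtain ⟨t, ht⟩ : ∃ t, t = Real.log (1 + y) := ⟨_, rfl⟩
  have t0 : 0 ≤ t := ht ▸ Real.log_nonneg (by linarith)
  have t1 : t ≤ y := by
    have := Real.log_le_sub_one_of_pos h1
    linarith
  have t2 : y - y ^ 2 ≤ t := by
    have h2 := Real.one_sub_inv_le_log_of_pos h1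
    have h3 : (1 + y)⁻¹ ≤ 1 - y + y ^ 2 := by
      rw [inv_le_iff_one_le_mul₀ h1]
      nlinarith [pow_nonneg hy 3]
    linarith
  rw [Real.rpow_def_of_pos h1, ← ht]
  have s0 : 0 ≤ N * t := mul_nonneg hN t0
  have h4 : Real.exp (t * -N) ≤ 1 - N * t + (N * t) ^ 2 := by
    rw [show t * -N = -(N * t) by ring, Real.exp_neg, inv_le_iff_one_le_mul₀ (Real.exp_pos _)]
    have h5 := Real.add_one_le_exp (N * t)
    have h6 : 0 ≤ 1 - N * t + (N * t) ^ 2 := by nlinarith
    have h7 := mul_le_mul_of_nonneg_left h5 h6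
    nlinarith [pow_nonneg s0 3]
  have h8 : (N * t) ^ 2 ≤ (N * y) ^ 2 :=
    pow_le_pow_left₀ s0 (mul_le_mul_of_nonneg_left t1 hN) 2
  have h9 := mul_le_mul_of_nonneg_left t2 hN
  nlinarith

theorem h54_le_rpow {N y : ℝ} (hN : 0 ≤ N) (hy : 0 ≤ y) : 1 - N * y ≤ (1 + y) ^ (-N) := by
  have h1 : 0 < 1 + y := by linarith
  have t1 := Real.log_le_sub_one_of_pos h1
  rw [Real.rpow_def_of_pos h1]
  have h2 := Real.add_one_le_exp (Real.log (1 + y) * -N)
  have h3 := mul_le_mul_of_nonneg_left t1 hN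
  nlinarith

theorem h54_ii (ha : 0 < a) {x z : ℝ} (hx : 0 ≤ x) (hz : 0 ≤ z) :
    IntervalIntegrable (fun τ : ℝ => τ ^ (a - 1) * (1 + x * τ) ^ (-(2 * a + 2))) volume 0 z := by
  refine (intervalIntegral.intervalIntegrable_rpow' (by linarith)).mul_continuousOn ?_
  refine ContinuousOn.rpow_const (by fun_prop) fun τ hτ => Or.inl ?_
  rw [uIcc_of_le hz] at hτ
  have := mul_nonneg hx hτ.1
  linarith

theorem h54_ii1 (ha : 0 < a) {z : ℝ} (hz : 0 ≤ z) :
    IntervalIntegrable (fun τ : ℝ => τ ^ (a - 1) * (1 + τ) ^ (-(2 * a + 2))) volume 0 z := by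
  simpa only [one_mul] using h54_ii ha zero_le_one hz

theorem h54_pow_Kf (ha : 0 < a) {x : ℝ} (hx : 0 < x) :
    x ^ a * Kf a x = a * ∫ t in (0 : ℝ)..x, t ^ (a - 1) * (1 + t) ^ (-(2 * a + 2)) := by
  simpa only [mul_one] using pow_mul_Kf ha hx zero_le_one

theorem h54_nonneg {t : ℝ} (ht : 0 ≤ t) : 0 ≤ t ^ (a - 1) * (1 + t) ^ (-(2 * a + 2)) :=
  mul_nonneg (Real.rpow_nonneg ht _) (Real.rpow_nonneg (by linarith) _)

/-- `(1+y)^(-N) ≤ 1 - N y + N (N+1) y² / 2`, and `a ∫ τ^a = a/(a+1)`. -/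
theorem Kf_le_quad (ha : 0 < a) : ∃ C : ℝ, 0 ≤ C ∧ ∀ x, 0 ≤ x → Kf a x ≤ 1 - 2 * a * x + C * x ^ 2 := by
  have hN : 0 ≤ 2 * a + 2 := by linarith
  refine ⟨(2 * a + 2) + (2 * a + 2) ^ 2, by positivity, fun x hx => ?_⟩
  obtain ⟨C, hC⟩ : ∃ C, C = (2 * a + 2) + (2 * a + 2) ^ 2 := ⟨_, rfl⟩
  have hC0 : 0 ≤ C := by rw [hC]; positivity
  rw [← hC]
  have i1 : IntervalIntegrable (fun τ : ℝ => τ ^ (a - 1)) volume 0 1 :=
    intervalIntegral.intervalIntegrable_rpow' (by linarith)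
  have i2 : IntervalIntegrable (fun τ : ℝ => τ ^ a) volume 0 1 :=
    intervalIntegral.intervalIntegrable_rpow' (by linarith)
  have h1 : ∫ τ in (0 : ℝ)..1, τ ^ (a - 1) * (1 + x * τ) ^ (-(2 * a + 2)) ≤
      ∫ τ in (0 : ℝ)..1, ((1 + C * x ^ 2) * τ ^ (a - 1) - ((2 * a + 2) * x) * τ ^ a) := by
    refine intervalIntegral.integral_mono_on zero_le_one (h54_ii ha hx zero_le_one)
      ((i1.const_mul _).sub (i2.const_mul _)) fun τ hτ => ?_
    have e : τ ^ a = τ ^ (a - 1) * τ := by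
      rw [← Real.rpow_add_one' hτ.1 (by linarith), sub_add_cancel]
    have h2 := h54_rpow_le hN (mul_nonneg hx hτ.1)
    rw [← hC] at h2
    have h3 : C * (x * τ) ^ 2 ≤ C * x ^ 2 := by
      refine mul_le_mul_of_nonneg_left (pow_le_pow_left₀ (mul_nonneg hx hτ.1) ?_ 2) hC0
      exact mul_le_of_le_one_right hx hτ.2
    have h4 := mul_le_mul_of_nonneg_left (h2.trans (add_le_add le_rfl h3))
      (Real.rpow_nonneg hτ.1 (a - 1))
    rw [e]
    linarith
  rw [intervalIntegral.integral_sub (i1.const_mul _) (i2.const_mul _),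
    intervalIntegral.integral_const_mul, intervalIntegral.integral_const_mul,
    integral_rpow (Or.inl (by linarith)), integral_rpow (Or.inl (by linarith)), sub_add_cancel,
    Real.one_rpow, Real.one_rpow, Real.zero_rpow ha.ne', Real.zero_rpow (by linarith)] at h1
  refine (mul_le_mul_of_nonneg_left h1 ha.le).trans (le_of_eq ?_)
  field_simp
  ring

theorem integrableOn_aB (ha : 0 < a) :
    IntegrableOn (fun t : ℝ => t ^ (a - 1) * (1 + t) ^ (-(2 * a + 2))) (Ioi 0) := by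
  rw [← Ioc_union_Ioi_eq_Ioi (zero_le_one' ℝ)]
  refine IntegrableOn.union (h54_ii1 ha zero_le_one).1 ?_
  refine Integrable.mono' (integrableOn_Ioi_rpow_of_lt (a := a - 1 + -(2 * a + 2)) (by linarith)
    zero_lt_one) (Measurable.aestronglyMeasurable (by fun_prop)) ?_
  refine (ae_restrict_iff' measurableSet_Ioi).2 (ae_of_all _ fun t ht => ?_)
  have ht0 : 0 < t := zero_lt_one.trans ht
  rw [Real.norm_of_nonneg (h54_nonneg ht0.le), Real.rpow_add ht0]
  exact mul_le_mul_of_nonneg_left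
    (Real.rpow_le_rpow_of_nonpos ht0 (by linarith) (by linarith)) (Real.rpow_nonneg ht0.le _)

theorem h54_pow_Kf_le (ha : 0 < a) {x : ℝ} (hx : 0 < x) : x ^ a * Kf a x ≤ aB a := by
  rw [h54_pow_Kf ha hx, aB, intervalIntegral.integral_of_le hx.le]
  refine mul_le_mul_of_nonneg_left (setIntegral_mono_set (integrableOn_aB ha) ?_
    (Ioc_subset_Ioi_self.eventuallyLE)) ha.le
  exact (ae_restrict_iff' measurableSet_Ioi).2 (ae_of_all _ fun t ht => h54_nonneg (le_of_lt ht))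

theorem aB_pos (ha : 0 < a) : 0 < aB a := by
  exact (mul_pos (Real.rpow_pos_of_pos one_pos a) (Kf_pos ha zero_le_one)).trans_le
    (h54_pow_Kf_le ha one_pos)

theorem pow_Kf_mono (ha : 0 < a) : MonotoneOn (fun x => x ^ a * Kf a x) (Ioi 0) := by
  intro x hx y hy hxy
  simp only
  rw [h54_pow_Kf ha hx, h54_pow_Kf ha hy]
  refine mul_le_mul_of_nonneg_left (intervalIntegral.integral_mono_interval le_rfl (le_of_lt hx) hxy
    ?_ (h54_ii1 ha (le_of_lt hy))) ha.le
  exact (ae_restrict_iff' measurableSet_Ioc).2 (ae_of_all _ fun t ht => h54_nonneg ht.1.le)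

theorem pow_Kf_le (ha : 0 < a) {x : ℝ} (hx : 0 < x) : x ^ a * Kf a x ≤ aB a := by
  exact h54_pow_Kf_le ha hx

theorem pow_Kf_tendsto (ha : 0 < a) : Tendsto (fun x => x ^ a * Kf a x) atTop (𝓝 (aB a)) := by
  have h := (intervalIntegral_tendsto_integral_Ioi 0 (integrableOn_aB ha) tendsto_id).const_mul a
  refine h.congr' ?_
  filter_upwards [eventually_gt_atTop 0] with x hx
  exact (h54_pow_Kf ha hx).symm

/-- for `x ≤ 1` use `0 ≤ K - (1+x)^(-N) ≤ N x`, for `x ≥ 1` use `pow_Kf_le`. -/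
theorem Kf_deriv_sq (ha : 0 < a) : ∃ C : ℝ, 0 ≤ C ∧ ∀ x, 0 < x →
    (a * ((1 + x) ^ (-(2 * a + 2)) - Kf a x) / x) ^ 2 ≤ C * (1 + x) ^ (-(2 * a + 2)) := by
  obtain ⟨N, hN⟩ : ∃ N, N = 2 * a + 2 := ⟨_, rfl⟩
  have hN0 : 0 < N := by linarith
  have h2 : (0 : ℝ) < 2 ^ N := Real.rpow_pos_of_pos two_pos N
  refine ⟨a ^ 2 * ((N ^ 2 + aB a ^ 2) * 2 ^ N), by positivity, fun x hx => ?_⟩
  have h1 : 0 < 1 + x := by linarith
  have hQ : 0 < (1 + x) ^ (-N) := Real.rpow_pos_of_pos h1 _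
  have d0 := le_Kf ha hx.le
  rw [← hN] at d0 ⊢
  have e : (a * ((1 + x) ^ (-N) - Kf a x) / x) ^ 2 = a ^ 2 * ((Kf a x - (1 + x) ^ (-N)) / x) ^ 2 := by
    ring
  rw [e, mul_assoc (a ^ 2)]
  refine mul_le_mul_of_nonneg_left ?_ (sq_nonneg a)
  have q0 : 0 ≤ (Kf a x - (1 + x) ^ (-N)) / x := div_nonneg (by linarith) hx.le
  rcases le_total x 1 with hx1 | hx1
  · have q1 : (Kf a x - (1 + x) ^ (-N)) / x ≤ N := by
      rw [div_le_iff₀ hx]
      linarith [Kf_le_one ha hx.le, h54_le_rpow hN0.le hx.le]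
    have q2 : 1 ≤ 2 ^ N * (1 + x) ^ (-N) := by
      rw [Real.rpow_neg h1.le, ← div_eq_mul_inv, one_le_div (Real.rpow_pos_of_pos h1 _)]
      exact Real.rpow_le_rpow h1.le (by linarith) hN0.le
    have q3 := pow_le_pow_left₀ q0 q1 2
    have q4 : 0 ≤ N ^ 2 + aB a ^ 2 := by positivity
    have q5 := mul_le_mul_of_nonneg_left q2 q4
    nlinarith [sq_nonneg (aB a)]
  · have hxa : 0 < x ^ a := Real.rpow_pos_of_pos hx a
    have q1 : (Kf a x - (1 + x) ^ (-N)) / x ≤ aB a / (x ^ a * x) := by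
      rw [← div_div]
      refine div_le_div_of_nonneg_right ?_ hx.le
      rw [le_div_iff₀ hxa]
      have := pow_Kf_le ha hx
      nlinarith [mul_pos hQ hxa]
    have q2 : ((x ^ a * x) ^ 2)⁻¹ ≤ 2 ^ N * (1 + x) ^ (-N) := by
      have e2 : (x ^ a * x) ^ 2 = x ^ N := by
        rw [← Real.rpow_add_one hx.ne', ← Real.rpow_natCast, ← Real.rpow_mul hx.le, hN]
        congr 1
        push_cast
        ring
      rw [e2, Real.rpow_neg h1.le, ← div_eq_mul_inv, inv_eq_one_div,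
        div_le_div_iff₀ (Real.rpow_pos_of_pos hx _) (Real.rpow_pos_of_pos h1 _), one_mul,
        ← Real.mul_rpow zero_le_two hx.le]
      exact Real.rpow_le_rpow h1.le (by linarith) hN0.le
    have q3 := pow_le_pow_left₀ q0 q1 2
    rw [div_pow (aB a), div_eq_mul_inv (aB a ^ 2)] at q3
    have q5 := mul_le_mul_of_nonneg_left q2 (sq_nonneg (aB a))
    have q6 : 0 ≤ N ^ 2 * (2 ^ N * (1 + x) ^ (-N)) := by positivity
    nlinarith

/-- `ξ = x^a (K - (1+x)^(-2a))` has derivative `a x^(a+1) (1+x)^(-(2a+2))`. -/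
theorem xi_hasDerivAt (ha : 0 < a) {x : ℝ} (hx : 0 < x) :
    HasDerivAt (fun x => x ^ a * (Kf a x - (1 + x) ^ (-(2 * a))))
      (a * x ^ (a + 1) * (1 + x) ^ (-(2 * a + 2))) x := by
  have h1 : 0 < 1 + x := by linarith
  have d1 := Real.hasDerivAt_rpow_const (x := x) (p := a) (Or.inl hx.ne')
  have d2 : HasDerivAt (fun x : ℝ => (1 + x) ^ (-(2 * a)))
      (1 * -(2 * a) * (1 + x) ^ (-(2 * a) - 1)) x :=
    ((hasDerivAt_id x).const_add 1).rpow_const (Or.inl h1.ne')
  have d3 := d1.mul ((Kf_hasDerivAt ha hx).sub d2)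
  have e1 : x ^ a = x ^ (a - 1) * x := by rw [← Real.rpow_add_one hx.ne', sub_add_cancel]
  have e2 : x ^ (a + 1) = x ^ (a - 1) * x * x := by rw [← e1, Real.rpow_add_one hx.ne']
  have e3 : (1 + x) ^ (-(2 * a) - 1) = (1 + x) ^ (-(2 * a + 2)) * (1 + x) := by
    rw [← Real.rpow_add_one h1.ne']
    congr 1
    ring
  have e4 : (1 + x) ^ (-(2 * a)) = (1 + x) ^ (-(2 * a + 2)) * (1 + x) * (1 + x) := by
    rw [← e3, ← Real.rpow_add_one h1.ne', sub_add_cancel]
  refine d3.congr_deriv ?_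
  simp only [Pi.sub_apply]
  rw [e2, e3, e4, e1]
  field_simp
  ring

/-- `ξ ≥ 0` (increasing, tends to `0` at `0+`). -/
theorem xi_nonneg (ha : 0 < a) {x : ℝ} (hx : 0 < x) : (1 + x) ^ (-(2 * a)) ≤ Kf a x := by
  have hc : ContinuousOn (fun x : ℝ => x ^ a * (Kf a x - (1 + x) ^ (-(2 * a)))) (Ici 0) := by
    refine (continuousOn_id.rpow_const fun _ _ => Or.inr ha.le).mul
      ((Kf_continuousOn ha).sub (ContinuousOn.rpow_const (by fun_prop) fun y hy => Or.inl ?_))
    have : (0 : ℝ) ≤ y := hy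
    linarith
  have hm := monotoneOn_of_deriv_nonneg (convex_Ici (0 : ℝ)) hc
    (fun y hy => by
      rw [interior_Ici] at hy
      exact (xi_hasDerivAt ha hy).differentiableAt.differentiableWithinAt)
    (fun y hy => by
      rw [interior_Ici] at hy
      have hy0 : 0 < y := hy
      rw [(xi_hasDerivAt ha hy).deriv]
      positivity)
  have h1 := hm (mem_Ici.2 le_rfl) (mem_Ici.2 hx.le) hx.le
  simp only [Real.zero_rpow ha.ne', zero_mul] at h1
  exact sub_nonneg.1 (nonneg_of_mul_nonneg_right h1 (Real.rpow_pos_of_pos hx a))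

end

end Crest.Agent.R241.Key
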