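import Crest.Agent.R241.KeyEL
import Crest.Agent.R241.KeyK

/-! Row 241, block KEY: the Sobolev inequality for conformal bubbles. -/

set_option autoImplicit false

open MeasureTheory Set Filter Topology
open scoped ENNReal NNReal

namespace Crest.Agent.R241.Key

open Crest.GeometryTopology.Submanifold

noncomputable section

universe u

variable {X : Type u} [MetricSpace X] [CompactSpace X] [MeasurableSpace X] [BorelSpace X]
  {P : Par} {ε : ℝ}

theorem h31_contOn_one_add (γ : ℝ) : ContinuousOn (fun x : ℝ => (1 + x) ^ γ) (Ioi 0) :=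
  (continuousOn_const.add continuousOn_id).rpow_const fun x hx =>
    Or.inl (add_pos one_pos hx : (0 : ℝ) < 1 + x).ne'

theorem h31_contOn_rpow (γ : ℝ) : ContinuousOn (fun x : ℝ => x ^ γ) (Ioi 0) :=
  continuousOn_id.rpow_const fun _ hx => Or.inl (ne_of_gt hx)

theorem h31_deriv_one_add (γ : ℝ) {x : ℝ} (hx : 0 < x) :
    HasDerivAt (fun x : ℝ => (1 + x) ^ γ) (γ * (1 + x) ^ (γ - 1)) x := by
  have h := ((hasDerivAt_id x).const_add 1).rpow_const (p := γ)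
    (Or.inl (by simp only [id]; linarith))
  simpa only [id, one_mul] using h

/-- energy of `F ∘ f` when `F' ^ 2 ≤ Cg * G`. -/
theorem h31_energy_le (C : Cc X) {F F' G : ℝ → ℝ} (hF : ∀ x, 0 < x → HasDerivAt F (F' x) x)
    (hF' : ContinuousOn F' (Ioi 0)) (hG : ContinuousOn G (Ioi 0)) {Cg : ℝ}
    (hle : ∀ x, 0 < x → F' x ^ 2 ≤ Cg * G x) {f : X → ℝ} (hf : Lip f) (h : ∀ q, 0 < f q) :
    ∫ q, C.Γ (fun q => F (f q)) (fun q => F (f q)) q ∂C.μ ≤
      Cg * ∫ q, G (f q) * C.Γ f f q ∂C.μ := by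
  have h1 : Continuous fun q => F' (f q) := hF'.comp_continuous (lip_cont hf) h
  have h2 : Continuous fun q => G (f q) := hG.comp_continuous (lip_cont hf) h
  rw [integral_congr_ae (C.chain_pos₂ hF hF' hF hF' hf h), ← integral_const_mul]
  refine integral_mono_ae (C.integrable_mul (h1.mul h1) hf hf)
    ((C.integrable_mul h2 hf hf).const_mul Cg) ?_
  filter_upwards [C.nonneg f hf] with q hq
  rw [← mul_assoc, ← sq]
  exact mul_le_mul_of_nonneg_right (hle _ (h q)) hq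

/-- with `x = z ρ s p ·`, `T = ∫ (1+x)^(-(2a+2)) Γ x x`: `sup_ρ` tested with `ξ(x)` gives
`a² T ≤ L (K x - (1+x)^(-2a))`, `sob` for `(1+x)^(-a)` gives `LHS ≤ a² T + L ((1+x)^(-2a)) ≤ L (K x)`,
and `test_bound` with `g = K x - (1+x)^(-2a)`, `g' = K x`, `c = 1`. -/
theorem sob_s (P : Par) : ∃ K : ℝ, 0 ≤ K ∧ ∀ {ε : ℝ}, 0 ≤ ε → ε ≤ 1 → ∀ (C : CS X P ε) (p : X)
    (z s : ℝ), 0 < z → 0 < s → 0 ≤ 2 * s - P.l * s ^ 2 →
    P.Y * (∫ q, (1 + z * C.ρ s p q) ^ (-(2 * P.a + 2)) ∂C.μ) ^ (P.a / (P.a + 1)) ≤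
      P.Y * ∫ q, Kf P.a (z * C.ρ s p q) ∂C.μ + K * √ε := by
  have ha := P.ha
  obtain ⟨CK, hCK0, hCK⟩ := Kf_deriv_sq ha
  obtain ⟨K, hK0, hK⟩ := test_bound (X := X) P (c := 1) (σ := P.a ^ 2)
    (Cg := 2 * CK + 8 * P.a ^ 2) (by positivity) (by positivity)
  refine ⟨K, hK0, fun {ε} hε0 hε1 C p z s hz hs hl => ?_⟩
  obtain ⟨f, hfe⟩ : ∃ f : X → ℝ, f = fun q => z * C.ρ s p q := ⟨_, rfl⟩
  have hfq : ∀ q, z * C.ρ s p q = f q := fun q => by rw [hfe]
  simp only [hfq]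
  have hf : Lip f := hfe ▸ lip_const_mul z (C.lip_ρ s p)
  have hpos : ∀ q, 0 < f q := fun q => hfq q ▸ mul_pos hz (C.ρ_pos hs p q)
  obtain ⟨T, hT⟩ : ∃ T : ℝ, T = ∫ q, (1 + f q) ^ (-(2 * P.a + 2)) * C.Γ f f q ∂C.μ := ⟨_, rfl⟩
  have hT0 : 0 ≤ T := by
    rw [hT]
    refine integral_nonneg_of_ae ?_
    filter_upwards [C.nonneg f hf] with q hq
    exact mul_nonneg (Real.rpow_nonneg (by linarith [hpos q]) _) hq
  -- the derivative of `K`
  have hKd : ∀ x, 0 < x → HasDerivAt (Kf P.a)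
      (P.a * ((1 + x) ^ (-(2 * P.a + 2)) - Kf P.a x) / x) x := fun x hx => Kf_hasDerivAt ha hx
  have hKc : ContinuousOn (Kf P.a) (Ioi 0) := (Kf_continuousOn ha).mono Ioi_subset_Ici_self
  have hKd' : ContinuousOn (fun x : ℝ => P.a * ((1 + x) ^ (-(2 * P.a + 2)) - Kf P.a x) / x)
      (Ioi 0) :=
    (continuousOn_const.mul ((h31_contOn_one_add _).sub hKc)).div continuousOn_id
      fun _ hx => ne_of_gt hx
  have hbd : ∀ (γ x : ℝ), 0 < x → HasDerivAt (fun x : ℝ => (1 + x) ^ γ) (γ * (1 + x) ^ (γ - 1)) x :=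
    fun γ x hx => h31_deriv_one_add γ hx
  have hbc : ∀ γ : ℝ, ContinuousOn (fun x : ℝ => γ * (1 + x) ^ (γ - 1)) (Ioi 0) :=
    fun γ => continuousOn_const.mul (h31_contOn_one_add _)
  have hLK : Lip fun q => Kf P.a (f q) := lip_comp_pos hKd hKd' hf hpos
  have hLb : ∀ γ : ℝ, Lip fun q => (1 + f q) ^ γ := fun γ =>
    lip_comp_pos (F := fun x => (1 + x) ^ γ) (hbd γ) (hbc γ) hf hpos
  have hLg : Lip fun q => Kf P.a (f q) - (1 + f q) ^ (-(2 * P.a)) := lip_sub hLK (hLb _)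
  -- step 1: the supersolution property
  have hξd : ∀ x, 0 < x → HasDerivAt (fun x => x ^ P.a * (Kf P.a x - (1 + x) ^ (-(2 * P.a))))
      (P.a * x ^ (P.a + 1) * (1 + x) ^ (-(2 * P.a + 2))) x := fun x hx => xi_hasDerivAt ha hx
  have hξc : ContinuousOn (fun x : ℝ => P.a * x ^ (P.a + 1) * (1 + x) ^ (-(2 * P.a + 2)))
      (Ioi 0) := (continuousOn_const.mul (h31_contOn_rpow _)).mul (h31_contOn_one_add _)
  have hLξ : Lip fun q => f q ^ P.a * (Kf P.a (f q) - (1 + f q) ^ (-(2 * P.a))) :=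
    lip_comp_pos hξd hξc hf hpos
  have hξ0 : ∀ q, 0 ≤ f q ^ P.a * (Kf P.a (f q) - (1 + f q) ^ (-(2 * P.a))) := fun q =>
    mul_nonneg (Real.rpow_nonneg (hpos q).le _) (sub_nonneg.2 (xi_nonneg ha (hpos q)))
  have h1 : 0 ≤ C.E (fun q => C.ρ s p q ^ (-P.a))
      fun q => f q ^ P.a * (Kf P.a (f q) - (1 + f q) ^ (-(2 * P.a))) := by
    refine le_trans ?_ (C.sup_ρ p hs hLξ hξ0)
    refine mul_nonneg (mul_nonneg (by positivity) hl) (integral_nonneg fun q => ?_)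
    exact mul_nonneg (hξ0 q) (mul_nonneg (sq_nonneg _) (Real.rpow_nonneg (C.ρ_pos hs p q).le _))
  have h2 : 0 ≤ C.E (fun q => f q ^ (-P.a))
      fun q => f q ^ P.a * (Kf P.a (f q) - (1 + f q) ^ (-(2 * P.a))) := by
    have e : (fun q => f q ^ (-P.a)) = fun q => z ^ (-P.a) * C.ρ s p q ^ (-P.a) := by
      funext q
      rw [← hfq, Real.mul_rpow hz.le (C.ρ_pos hs p q).le]
    rw [e, C.E_smul_left _ (lip_rpow (C.lip_ρ s p) (C.ρ_pos hs p) _) hLξ]
    exact mul_nonneg (Real.rpow_nonneg hz.le _) h1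
  have h3 : P.a ^ 2 * T ≤ C.L fun q => Kf P.a (f q) - (1 + f q) ^ (-(2 * P.a)) := by
    have e1 : (fun q => f q ^ (-P.a) * (f q ^ P.a * (Kf P.a (f q) - (1 + f q) ^ (-(2 * P.a))))) =
        fun q => Kf P.a (f q) - (1 + f q) ^ (-(2 * P.a)) := by
      funext q
      rw [← mul_assoc, ← Real.rpow_add (hpos q), neg_add_cancel, Real.rpow_zero, one_mul]
    have e2 := C.chain_pos₂ (F := fun x => x ^ (-P.a)) (F' := fun x => -P.a * x ^ (-P.a - 1))
      (fun x hx => Real.hasDerivAt_rpow_const (Or.inl hx.ne'))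
      (continuousOn_const.mul (h31_contOn_rpow _)) hξd hξc hf hpos
    have e3 : ∫ q, C.Γ (fun q => f q ^ (-P.a))
        (fun q => f q ^ P.a * (Kf P.a (f q) - (1 + f q) ^ (-(2 * P.a)))) q ∂C.μ =
        -(P.a ^ 2 * T) := by
      rw [integral_congr_ae e2, hT, ← neg_mul, ← integral_const_mul]
      refine integral_congr_ae (Eventually.of_forall fun q => ?_)
      have e4 : f q ^ (-P.a - 1) * f q ^ (P.a + 1) = 1 := by
        rw [← Real.rpow_add (hpos q), show -P.a - 1 + (P.a + 1) = 0 by ring, Real.rpow_zero]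
      simp only
      linear_combination (-P.a ^ 2 * (1 + f q) ^ (-(2 * P.a + 2)) * C.Γ f f q) * e4
    unfold CS.E at h2
    rw [e1, e3] at h2
    linarith
  -- step 2: the Sobolev inequality for the bubble
  have h4 := C.sob _ (hLb (-P.a))
  have e5 : ∀ q, |(1 + f q) ^ (-P.a)| ^ ((2 * P.a + 2) / P.a) = (1 + f q) ^ (-(2 * P.a + 2)) := by
    intro q
    have h0 : 0 < 1 + f q := by linarith [hpos q]
    rw [abs_of_pos (Real.rpow_pos_of_pos h0 _), ← Real.rpow_mul h0.le]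
    congr 1
    field_simp
  have e6 : ∀ q, (1 + f q) ^ (-P.a) * (1 + f q) ^ (-P.a) = (1 + f q) ^ (-(2 * P.a)) := by
    intro q
    rw [← Real.rpow_add (by linarith [hpos q])]
    congr 1
    ring
  simp only [e5, e6] at h4
  have h5 := h31_energy_le C.toCc (hbd (-P.a)) (hbc (-P.a)) (h31_contOn_one_add (-(2 * P.a + 2)))
    (Cg := P.a ^ 2) (fun x hx => le_of_eq (by
      rw [mul_pow, neg_sq, sq ((1 + x) ^ (-P.a - 1)), ← Real.rpow_add (by linarith)]
      congr 2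
      ring)) hf hpos
  rw [← hT] at h5
  have h6 := C.L_add _ _ hLg (hLb (-(2 * P.a)))
  simp only [sub_add_cancel] at h6
  -- step 3: the approximate Euler-Lagrange equation
  have hb0 : ∀ x : ℝ, 0 < x → 0 ≤ (1 + x) ^ (-(2 * P.a + 2)) := fun x hx =>
    Real.rpow_nonneg (by linarith) _
  have h7 := h31_energy_le C.toCc hKd hKd' (h31_contOn_one_add (-(2 * P.a + 2)))
    (Cg := 2 * CK + 8 * P.a ^ 2) (fun x hx => (hCK x hx).trans
      (mul_le_mul_of_nonneg_right (by nlinarith) (hb0 x hx))) hf hpos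
  have h8 := h31_energy_le C.toCc (F := fun x => Kf P.a x - (1 + x) ^ (-(2 * P.a)))
    (fun x hx => (hKd x hx).sub (hbd (-(2 * P.a)) x hx)) (hKd'.sub (hbc _))
    (h31_contOn_one_add (-(2 * P.a + 2))) (Cg := 2 * CK + 8 * P.a ^ 2) (fun x hx => by
      have h9 := hCK x hx
      have h10 : ((1 + x) ^ (-(2 * P.a) - 1)) ^ 2 ≤ (1 + x) ^ (-(2 * P.a + 2)) := by
        rw [sq, ← Real.rpow_add (by linarith)]
        exact Real.rpow_le_rpow_of_exponent_le (by linarith) (by linarith)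
      have h11 := mul_le_mul_of_nonneg_left h10 (by positivity : 0 ≤ 8 * P.a ^ 2)
      nlinarith [sq_nonneg (P.a * ((1 + x) ^ (-(2 * P.a + 2)) - Kf P.a x) / x +
        -(2 * P.a) * (1 + x) ^ (-(2 * P.a) - 1))]) hf hpos
  rw [← hT] at h7 h8
  have h9 := hK hε0 hε1 C _ _ T hLg hLK
    (fun q => by
      rw [abs_of_nonneg (sub_nonneg.2 (xi_nonneg ha (hpos q)))]
      linarith [Kf_le_one ha (hpos q).le,
        Real.rpow_nonneg (by linarith [hpos q] : 0 ≤ 1 + f q) (-(2 * P.a))])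
    (fun q => by
      rw [abs_of_pos (Kf_pos ha (hpos q).le)]
      exact Kf_le_one ha (hpos q).le) hT0 h8 h7 h3
  linarith

/-- `s → 0` (dominated convergence on the left, `Kf_anti` on the right). -/
theorem sob_c (P : Par) : ∃ K : ℝ, 0 ≤ K ∧ ∀ {ε : ℝ}, 0 ≤ ε → ε ≤ 1 → ∀ (C : CS X P ε) (p : X)
    (z : ℝ), 0 < z →
    P.Y * (∫ q, (1 + z * C.ρ 0 p q) ^ (-(2 * P.a + 2)) ∂C.μ) ^ (P.a / (P.a + 1)) ≤
      P.Y * ∫ q, Kf P.a (z * C.ρ 0 p q) ∂C.μ + K * √ε := by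
  have ha := P.ha
  obtain ⟨K, hK0, hK⟩ := sob_s (X := X) P
  refine ⟨K, hK0, fun {ε} hε0 hε1 C p z hz => ?_⟩
  have hcont : ∀ s, Continuous fun q => z * C.ρ s p q := fun s =>
    continuous_const.mul (lip_cont (C.lip_ρ s p))
  have hnn : ∀ {s : ℝ}, 0 ≤ s → ∀ q, 0 ≤ z * C.ρ s p q := fun hs q =>
    mul_nonneg hz.le (C.ρ_nonneg hs p q)
  have hlim : Tendsto (fun s => ∫ q, (1 + z * C.ρ s p q) ^ (-(2 * P.a + 2)) ∂C.μ) (𝓝[>] 0)
      (𝓝 (∫ q, (1 + z * C.ρ 0 p q) ^ (-(2 * P.a + 2)) ∂C.μ)) := by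
    refine tendsto_integral_filter_of_dominated_convergence (fun _ => 1) ?_ ?_
      (integrable_const _) (Eventually.of_forall fun q => ?_)
    · filter_upwards [self_mem_nhdsWithin] with s hs
      exact ((continuous_const.add (hcont s)).rpow_const fun q =>
        Or.inl (by linarith [hnn (le_of_lt hs) q] : 1 + z * C.ρ s p q ≠ 0)).aestronglyMeasurable
    · filter_upwards [self_mem_nhdsWithin] with s hs
      refine Eventually.of_forall fun q => ?_
      have h0 := hnn (le_of_lt hs) q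
      rw [Real.norm_of_nonneg (Real.rpow_nonneg (by linarith) _)]
      exact Real.rpow_le_one_of_one_le_of_nonpos (by linarith) (by linarith)
    · have h1 : Continuous fun s : ℝ => 1 + z * C.ρ s p q := by
        unfold CS.ρ
        fun_prop
      exact ((h1.tendsto 0).rpow_const
        (Or.inl (by linarith [hnn le_rfl q] : 1 + z * C.ρ 0 p q ≠ 0))).mono_left nhdsWithin_le_nhds
  refine le_of_tendsto ((hlim.rpow_const (Or.inr (by positivity))).const_mul P.Y) ?_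
  have hl := P.hl
  filter_upwards [Ioo_mem_nhdsGT (by positivity : (0 : ℝ) < 1 / (P.l + 1))] with s hs
  have h1 : s * (P.l + 1) < 1 := (lt_div_iff₀ (by positivity)).1 hs.2
  refine (hK hε0 hε1 C p z s hz hs.1 (by nlinarith [hs.1])).trans ?_
  have hi : ∀ {s : ℝ}, 0 ≤ s → Integrable (fun q => Kf P.a (z * C.ρ s p q)) C.μ := fun hs =>
    integrable_cont _ ((Kf_continuousOn ha).comp_continuous (hcont _) (hnn hs))
  have h2 : ∫ q, Kf P.a (z * C.ρ s p q) ∂C.μ ≤ ∫ q, Kf P.a (z * C.ρ 0 p q) ∂C.μ :=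
    integral_mono (hi hs.1.le) (hi le_rfl) fun q => Kf_anti ha (hnn le_rfl q) (hnn hs.1.le q)
      (mul_le_mul_of_nonneg_left (C.ρ_mono hs.1.le p q) hz.le)
  linarith [mul_le_mul_of_nonneg_left h2 P.hY]

end

end Crest.Agent.R241.Key
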