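import Crest.Agent.R241.KeyLip

/-! Row 241, block KEY: calculus of a carre du champ. -/

set_option autoImplicit false

open MeasureTheory Set Filter Topology
open scoped ENNReal NNReal

namespace Crest.Agent.R241.Key

open Crest.GeometryTopology.Submanifold

noncomputable section

universe u

variable {X : Type u} [MetricSpace X] [CompactSpace X] [MeasurableSpace X] [BorelSpace X]
  {f g : X → ℝ}

theorem integrable_cont (μ : Measure X) [IsFiniteMeasure μ] (hf : Continuous f) :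
    Integrable f μ := by
  obtain ⟨C, -, hC⟩ := cont_bdd hf
  exact Integrable.of_bound hf.aestronglyMeasurable C (Eventually.of_forall hC)

namespace Cc
variable (C : Cc X)

theorem const_left (c : ℝ) (hg : Lip g) : C.Γ (fun _ => c) g =ᵐ[C.μ] fun _ => 0 := by
  filter_upwards [C.chain (fun _ => c) g g contDiff_const hg hg] with x hx
  simpa using hx

theorem const_right (c : ℝ) (hf : Lip f) : C.Γ f (fun _ => c) =ᵐ[C.μ] fun _ => 0 := by
  exact (C.symm _ _ hf (lip_const c)).trans (C.const_left c hf)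

theorem smul_left (c : ℝ) (hf : Lip f) (hg : Lip g) :
    C.Γ (fun x => c * f x) g =ᵐ[C.μ] fun x => c * C.Γ f g x := by
  filter_upwards [C.mul (fun _ => c) f g (lip_const c) hf hg, C.const_left c hg] with x h1 h2
  rw [h1, h2]; ring

theorem smul_right (c : ℝ) (hf : Lip f) (hg : Lip g) :
    C.Γ f (fun x => c * g x) =ᵐ[C.μ] fun x => c * C.Γ f g x := by
  filter_upwards [C.symm _ _ hf (lip_const_mul c hg), C.smul_left c hg hf, C.symm _ _ hf hg]
    with x h1 h2 h3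
  rw [h1, h2, h3]

theorem add_right {g₁ g₂ : X → ℝ} (hf : Lip f) (h₁ : Lip g₁) (h₂ : Lip g₂) :
    C.Γ f (fun x => g₁ x + g₂ x) =ᵐ[C.μ] fun x => C.Γ f g₁ x + C.Γ f g₂ x := by
  filter_upwards [C.symm _ _ hf (lip_add h₁ h₂), C.add _ _ _ h₁ h₂ hf, C.symm _ _ hf h₁,
    C.symm _ _ hf h₂] with x h1 h2 h3 h4
  rw [h1, h2, h3, h4]

theorem mul_right {g₁ g₂ : X → ℝ} (hf : Lip f) (h₁ : Lip g₁) (h₂ : Lip g₂) :
    C.Γ f (fun x => g₁ x * g₂ x) =ᵐ[C.μ] fun x => g₁ x * C.Γ f g₂ x + g₂ x * C.Γ f g₁ x := by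
  filter_upwards [C.symm _ _ hf (lip_mul h₁ h₂), C.mul _ _ _ h₁ h₂ hf, C.symm _ _ hf h₁,
    C.symm _ _ hf h₂] with x h1 h2 h3 h4
  rw [h1, h2, h3, h4]

/-- adding a constant does not change the gradient. -/
theorem add_const_left (c : ℝ) (hf : Lip f) (hg : Lip g) :
    C.Γ (fun x => f x + c) g =ᵐ[C.μ] C.Γ f g := by
  filter_upwards [C.add f (fun _ => c) g hf (lip_const c) hg, C.const_left c hg] with x h1 h2
  rw [h1, h2, add_zero]

theorem add_const_right (c : ℝ) (hf : Lip f) (hg : Lip g) :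
    C.Γ f (fun x => g x + c) =ᵐ[C.μ] C.Γ f g := by
  filter_upwards [C.add_right hf hg (lip_const c), C.const_right c hf] with x h1 h2
  rw [h1, h2, add_zero]

/-- chain rule for functions that are `C¹` on `(0,∞)`. -/
theorem chain_pos {F F' : ℝ → ℝ} (hF : ∀ x, 0 < x → HasDerivAt F (F' x) x)
    (hF' : ContinuousOn F' (Ioi 0)) (hf : Lip f) (h : ∀ x, 0 < f x) (hg : Lip g) :
    C.Γ (fun x => F (f x)) g =ᵐ[C.μ] fun x => F' (f x) * C.Γ f g x := by
  obtain ⟨m, hm, hmf⟩ := cont_pos_bdd (lip_cont hf) h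
  obtain ⟨G, hG, hGF⟩ := ext_pos hF hF' hm
  have : (fun x => F (f x)) = fun x => G (f x) := funext fun x => ((hGF _ (hmf x)).1).symm
  rw [this]
  filter_upwards [C.chain G f g hG hf hg] with x hx
  rw [hx, (hGF _ (hmf x)).2]

theorem chain_pos_right {F F' : ℝ → ℝ} (hF : ∀ x, 0 < x → HasDerivAt F (F' x) x)
    (hF' : ContinuousOn F' (Ioi 0)) (hf : Lip f) (h : ∀ x, 0 < f x) (hg : Lip g) :
    C.Γ g (fun x => F (f x)) =ᵐ[C.μ] fun x => F' (f x) * C.Γ g f x := by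
  filter_upwards [C.symm _ _ hg (lip_comp_pos hF hF' hf h), C.chain_pos hF hF' hf h hg,
    C.symm _ _ hf hg] with x h1 h2 h3
  rw [h1, h2, h3]

theorem chain_pos₂ {F F' G G' : ℝ → ℝ} (hF : ∀ x, 0 < x → HasDerivAt F (F' x) x)
    (hF' : ContinuousOn F' (Ioi 0)) (hG : ∀ x, 0 < x → HasDerivAt G (G' x) x)
    (hG' : ContinuousOn G' (Ioi 0)) (hf : Lip f) (h : ∀ x, 0 < f x) :
    C.Γ (fun x => F (f x)) (fun x => G (f x)) =ᵐ[C.μ]
      fun x => F' (f x) * G' (f x) * C.Γ f f x := by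
  filter_upwards [C.chain_pos hF hF' hf h (lip_comp_pos hG hG' hf h),
    C.chain_pos_right hG hG' hf h hf] with x h1 h2
  rw [h1, h2]; ring

theorem rpow_left (γ : ℝ) (hf : Lip f) (h : ∀ x, 0 < f x) (hg : Lip g) :
    C.Γ (fun x => f x ^ γ) g =ᵐ[C.μ] fun x => γ * f x ^ (γ - 1) * C.Γ f g x := by
  exact C.chain_pos (F := fun t => t ^ γ) (F' := fun t => γ * t ^ (γ - 1))
    (fun x hx => Real.hasDerivAt_rpow_const (Or.inl hx.ne'))
    (continuousOn_const.mul (continuousOn_id.rpow_const fun x hx => Or.inl (ne_of_gt hx))) hf h hg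

/-- pointwise Cauchy-Schwarz. -/
theorem cs (hf : Lip f) (hg : Lip g) :
    ∀ᵐ x ∂C.μ, C.Γ f g x ^ 2 ≤ C.Γ f f x * C.Γ g g x := by
  have key : ∀ t : ℚ, ∀ᵐ x ∂C.μ,
      0 ≤ C.Γ g g x * ((t : ℝ) * t) + 2 * C.Γ f g x * t + C.Γ f f x := by
    intro t
    have h1 := lip_const_mul (t : ℝ) hg
    have h2 := lip_add hf h1
    filter_upwards [C.nonneg _ h2, C.add _ _ _ hf h1 h2, C.add_right hf hf h1, C.smul_left t hg h2,
      C.add_right hg hf h1, C.smul_right t hf hg, C.smul_right t hg hg, C.symm _ _ hf hg]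
      with x a1 a2 a3 a4 a5 a6 a7 a8
    rw [a2, a3, a4, a5, a6, a7, ← a8] at a1
    linarith
  filter_upwards [ae_all_iff.2 key] with x hx
  have : ∀ t : ℝ, 0 ≤ C.Γ g g x * (t * t) + 2 * C.Γ f g x * t + C.Γ f f x := by
    intro t
    refine Rat.denseRange_cast.induction_on t (isClosed_le continuous_const (by fun_prop)) hx
  have h := discrim_le_zero this
  rw [discrim] at h
  nlinarith

theorem abs_bdd (hf : Lip f) (hg : Lip g) : ∃ K : ℝ, ∀ᵐ x ∂C.μ, |C.Γ f g x| ≤ K := by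
  obtain ⟨A, hA⟩ := C.bdd f hf
  obtain ⟨B, hB⟩ := C.bdd g hg
  refine ⟨√(A * B), ?_⟩
  filter_upwards [hA, hB, C.cs hf hg, C.nonneg f hf, C.nonneg g hg] with x a1 a2 a3 a4 a5
  exact Real.abs_le_sqrt (a3.trans (mul_le_mul a1 a2 a5 (a4.trans a1)))

theorem integrable (hf : Lip f) (hg : Lip g) : Integrable (C.Γ f g) C.μ := by
  obtain ⟨K, hK⟩ := C.abs_bdd hf hg
  exact Integrable.of_bound (C.meas f g).aestronglyMeasurable K hK

theorem integrable_mul {φ : X → ℝ} (hφ : Continuous φ) (hf : Lip f) (hg : Lip g) :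
    Integrable (fun x => φ x * C.Γ f g x) C.μ := by
  obtain ⟨K, -, hK⟩ := cont_bdd hφ
  exact (C.integrable hf hg).bdd_mul hφ.aestronglyMeasurable (Eventually.of_forall hK)

end Cc

end

end Crest.Agent.R241.Key
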