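import Crest.Agent.R241.KeyK

/-! Row 241, block KEY: the ODE comparison at one base point. -/

set_option autoImplicit false

open MeasureTheory Set Filter Topology
open scoped ENNReal NNReal

namespace Crest.Agent.R241.Key

open Crest.GeometryTopology.Submanifold

noncomputable section

universe u



/-- `y = ν^(-1/a)`; `(y - 1 - κ)/z` is increasing on `[z₀, Z]`. -/
theorem ode_cmp {a κ z₀ Z : ℝ} (ha : 0 < a) (hκ : 0 ≤ κ) (hz₀ : 0 < z₀) (hZ : z₀ ≤ Z)
    {ν h : ℝ → ℝ} (hν : ∀ z ∈ Icc z₀ Z, 0 < ν z)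
    (hd : ∀ z ∈ Icc z₀ Z, HasDerivAt ν (a * (h z - ν z) / z) z)
    (hh : ∀ z ∈ Icc z₀ Z, h z ≤ (1 + κ) * ν z ^ ((a + 1) / a)) :
    (ν z₀ ^ (-1 / a) - 1 - κ) / z₀ ≤ ν Z ^ (-1 / a) / Z := by
  have hder : ∀ z ∈ Icc z₀ Z, HasDerivAt (fun z => (ν z ^ (-1 / a) - 1 - κ) / z)
      ((a * (h z - ν z) / z * (-1 / a) * ν z ^ (-1 / a - 1) * z - (ν z ^ (-1 / a) - 1 - κ) * 1)
        / z ^ 2) z := by
    intro z hz
    have hz0 : 0 < z := hz₀.trans_le hz.1
    exact ((((hd z hz).rpow_const (Or.inl (hν z hz).ne')).sub_const 1).sub_const κ).div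
      (hasDerivAt_id z) hz0.ne'
  have hmono : MonotoneOn (fun z => (ν z ^ (-1 / a) - 1 - κ) / z) (Icc z₀ Z) := by
    refine monotoneOn_of_deriv_nonneg (convex_Icc _ _)
      (fun z hz => (hder z hz).continuousAt.continuousWithinAt)
      (fun z hz => (hder z (interior_subset hz)).differentiableAt.differentiableWithinAt) ?_
    intro z hz
    have hz' := interior_subset hz
    have hz0 : 0 < z := hz₀.trans_le hz'.1
    have hνz := hν z hz'
    rw [(hder z hz').deriv]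
    refine div_nonneg ?_ (sq_nonneg _)
    have e1 : ν z * ν z ^ (-1 / a - 1) = ν z ^ (-1 / a) := by
      rw [Real.rpow_sub_one hνz.ne']
      field_simp
    have e2 : ν z ^ ((a + 1) / a) * ν z ^ (-1 / a - 1) = 1 := by
      rw [← Real.rpow_add hνz]
      have : (a + 1) / a + (-1 / a - 1) = 0 := by field_simp; ring
      rw [this, Real.rpow_zero]
    have hp : 0 < ν z ^ (-1 / a - 1) := Real.rpow_pos_of_pos hνz _
    have e3 : h z * ν z ^ (-1 / a - 1) ≤ 1 + κ := by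
      calc h z * ν z ^ (-1 / a - 1) ≤ (1 + κ) * ν z ^ ((a + 1) / a) * ν z ^ (-1 / a - 1) :=
            mul_le_mul_of_nonneg_right (hh z hz') hp.le
        _ = 1 + κ := by rw [mul_assoc, e2, mul_one]
    have e4 : a * (h z - ν z) / z * (-1 / a) * ν z ^ (-1 / a - 1) * z =
        ν z * ν z ^ (-1 / a - 1) - h z * ν z ^ (-1 / a - 1) := by
      field_simp
      ring
    rw [e4, e1]
    linarith
  have h1 := hmono ⟨le_rfl, hZ⟩ ⟨hZ, le_rfl⟩ hZ
  refine h1.trans ?_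
  have hZ0 : 0 < Z := hz₀.trans_le hZ
  exact div_le_div_of_nonneg_right (by linarith) hZ0.le

theorem KeyOne_meas {Ω : Type u} [MeasurableSpace Ω] {a : ℝ} (ha : 0 < a) {f : Ω → ℝ}
    (hf : Measurable f) (h0 : ∀ x, 0 ≤ f x) : Measurable fun x => Kf a (f x) := by
  have hc : Continuous fun t : ℝ => Kf a (max t 0) :=
    (Kf_continuousOn ha).comp_continuous (continuous_id.max continuous_const)
      fun t => mem_Ici.2 (le_max_right _ _)
  have := hc.measurable.comp hf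
  convert this using 2 with x
  simp [max_eq_left (h0 x)]

theorem KeyOne_int {Ω : Type u} [MeasurableSpace Ω] (m : Measure Ω) [IsFiniteMeasure m] {a : ℝ}
    (ha : 0 < a) {f : Ω → ℝ} (hf : Measurable f) (h0 : ∀ x, 0 ≤ f x) :
    Integrable (fun x => Kf a (f x)) m := by
  refine Integrable.of_bound (KeyOne_meas ha hf h0).aestronglyMeasurable 1
    (Eventually.of_forall fun x => ?_)
  rw [Real.norm_of_nonneg (Kf_pos ha (h0 x)).le]
  exact Kf_le_one ha (h0 x)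

theorem KeyOne_int_pow {Ω : Type u} [MeasurableSpace Ω] (m : Measure Ω) [IsFiniteMeasure m] {a : ℝ}
    (ha : 0 < a) {f : Ω → ℝ} (hf : Measurable f) (h0 : ∀ x, 0 ≤ f x) :
    Integrable (fun x => (1 + f x) ^ (-(2 * a + 2))) m := by
  refine Integrable.of_bound
    ((hf.const_add 1).pow_const _).aestronglyMeasurable 1 (Eventually.of_forall fun x => ?_)
  rw [Real.norm_of_nonneg (Real.rpow_nonneg (by linarith [h0 x]) _)]
  exact (le_Kf ha (h0 x)).trans (Kf_le_one ha (h0 x))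

/-- derivative of `ν z = ∫ K (z ρ)` (from `pow_mul_Kf` and Fubini, or differentiation under `∫`). -/
theorem hasDerivAt_int_Kf {Ω : Type u} [MeasurableSpace Ω] (m : Measure Ω) [IsProbabilityMeasure m]
    {a R : ℝ} (ha : 0 < a) {ρ : Ω → ℝ} (hρ : Measurable ρ) (h0 : ∀ x, 0 ≤ ρ x) (hR : ∀ x, ρ x ≤ R)
    {z : ℝ} (hz : 0 < z) :
    HasDerivAt (fun z => ∫ x, Kf a (z * ρ x) ∂m)
      (a * ((∫ x, (1 + z * ρ x) ^ (-(2 * a + 2)) ∂m) - ∫ x, Kf a (z * ρ x) ∂m) / z) z := by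
  have hm : ∀ t : ℝ, Measurable fun x => t * ρ x := fun t => hρ.const_mul t
  have hn : ∀ t : ℝ, 0 < t → ∀ x, 0 ≤ t * ρ x := fun t ht x => mul_nonneg ht.le (h0 x)
  have key := hasDerivAt_integral_of_dominated_loc_of_deriv_le (μ := m) (𝕜 := ℝ)
    (F := fun t x => Kf a (t * ρ x))
    (F' := fun t x => a * ((1 + t * ρ x) ^ (-(2 * a + 2)) - Kf a (t * ρ x)) / t)
    (x₀ := z) (s := Ioi (z / 2)) (bound := fun _ => a / (z / 2))
    (Ioi_mem_nhds (by linarith)) ?_ (KeyOne_int m ha (hm z) (hn z hz)) ?_ ?_ (integrable_const _) ?_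
  · have h2 := key.2
    rw [integral_div, integral_const_mul,
      integral_sub (KeyOne_int_pow m ha (hm z) (hn z hz)) (KeyOne_int m ha (hm z) (hn z hz))] at h2
    exact h2
  · filter_upwards [Ioi_mem_nhds hz] with t ht
    exact (KeyOne_meas ha (hm t) (hn t ht)).aestronglyMeasurable
  · exact ((((KeyOne_int_pow m ha (hm z) (hn z hz)).sub
      (KeyOne_int m ha (hm z) (hn z hz))).const_mul a).div_const z).aestronglyMeasurable
  · refine Eventually.of_forall fun x t ht => ?_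
    have ht' : z / 2 < t := ht
    have ht0 : 0 < t := by linarith
    have h1 := le_Kf ha (hn t ht0 x)
    have h2 := Kf_le_one ha (hn t ht0 x)
    have h3 : 0 ≤ (1 + t * ρ x) ^ (-(2 * a + 2)) :=
      Real.rpow_nonneg (by linarith [hn t ht0 x]) _
    rw [Real.norm_eq_abs, abs_div, abs_mul, abs_of_pos ha, abs_of_pos ht0]
    have h4 : |(1 + t * ρ x) ^ (-(2 * a + 2)) - Kf a (t * ρ x)| ≤ 1 := by
      rw [abs_le]; constructor <;> linarith
    calc a * |(1 + t * ρ x) ^ (-(2 * a + 2)) - Kf a (t * ρ x)| / t ≤ a * 1 / t := by gcongr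
      _ ≤ a / (z / 2) := by rw [mul_one]; gcongr
  · refine Eventually.of_forall fun x t ht => ?_
    have ht' : z / 2 < t := ht
    have ht0 : 0 < t := by linarith
    rcases (h0 x).eq_or_lt with hx | hx
    · simp only [← hx, mul_zero, add_zero, Real.one_rpow, Kf_zero ha, sub_self, zero_div]
      exact hasDerivAt_const _ _
    · have h1 := (Kf_hasDerivAt ha (mul_pos ht0 hx)).comp t ((hasDerivAt_id t).mul_const (ρ x))
      have h2 : a * ((1 + t * ρ x) ^ (-(2 * a + 2)) - Kf a (t * ρ x)) / (t * ρ x) * (1 * ρ x) =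
          a * ((1 + t * ρ x) ^ (-(2 * a + 2)) - Kf a (t * ρ x)) / t := by
        field_simp
      rw [← h2]
      exact h1

theorem KeyOne_bern {a v : ℝ} (ha : 0 < a) (hv : 0 < v) : 1 + (1 - v) / a ≤ v ^ (-1 / a) := by
  rw [Real.rpow_def_of_pos hv]
  have h1 := Real.add_one_le_exp (Real.log v * (-1 / a))
  have h2 := Real.log_le_sub_one_of_pos hv
  have h3 : (1 - v) / a ≤ Real.log v * (-1 / a) := by
    have : Real.log v * (-1 / a) = (-Real.log v) / a := by ring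
    rw [this]
    exact div_le_div_of_nonneg_right (by linarith) ha.le
  linarith

/-- choose `Z` with `(Zδ)^a K(Zδ) ≥ (1-τ') aB`, so `Z^a ν(Z) ≥ (1-τ') aB j`; `z₀` small with
`Kf_le_quad` applied to `min ρ T` and Bernoulli `ν^(-1/a) ≥ 1 + (1-ν)/a`; then `e` small. -/
theorem one_point {a j δ T τ : ℝ} (ha : 0 < a) (hj : 0 < j) (hδ : 0 < δ) (hT : 0 < T)
    (hτ : 0 < τ) : ∃ e : ℝ, 0 < e ∧ ∀ {Ω : Type u} [MeasurableSpace Ω] (m : Measure Ω)
      [IsProbabilityMeasure m] (ρ : Ω → ℝ) (R : ℝ), Measurable ρ → (∀ x, 0 ≤ ρ x) → (∀ x, ρ x ≤ R) →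
      (∀ z, 0 < z → (∫ x, (1 + z * ρ x) ^ (-(2 * a + 2)) ∂m) ^ (a / (a + 1)) ≤
        ∫ x, Kf a (z * ρ x) ∂m + e) →
      j ≤ ∫ x, (max (ρ x) δ) ^ (-a) ∂m →
      ∫ x, min (ρ x) T ∂m ≤ 1 / 2 * (aB a * j) ^ (-1 / a) + τ := by
  have hA := aB_pos ha
  obtain ⟨C, hC0, hC⟩ := Kf_le_quad ha
  -- the constant `b < aB`
  obtain ⟨b, hb0, hbA, hb⟩ : ∃ b, 0 < b ∧ b < aB a ∧
      (b * j) ^ (-1 / a) ≤ (aB a * j) ^ (-1 / a) + 2 * τ / 3 := by
    have hc : ContinuousAt (fun b : ℝ => (b * j) ^ (-1 / a)) (aB a) :=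
      (continuousAt_id.mul continuousAt_const).rpow_const (Or.inl (mul_pos hA hj).ne')
    have h1 : ∀ᶠ b in 𝓝 (aB a), (b * j) ^ (-1 / a) < (aB a * j) ^ (-1 / a) + 2 * τ / 3 :=
      hc.eventually (gt_mem_nhds (by simp only; linarith))
    obtain ⟨b, hb1, hb2⟩ := ((h1.filter_mono nhdsWithin_le_nhds).and (Ioo_mem_nhdsLT hA)).exists
    exact ⟨b, hb2.1, hb2.2, hb1.le⟩
  obtain ⟨X0, hX0⟩ := eventually_atTop.1 ((pow_Kf_tendsto ha).eventually (lt_mem_nhds hbA))
  -- the small parameter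
  obtain ⟨z₀, hz₀, hz₀'⟩ : ∃ z₀ : ℝ, 0 < z₀ ∧ C * z₀ * T ^ 2 / a ≤ 2 * τ / 3 := by
    refine ⟨(2 * τ / 3) * a / ((C + 1) * T ^ 2), by positivity, ?_⟩
    have : C * ((2 * τ / 3) * a / ((C + 1) * T ^ 2)) * T ^ 2 / a = (2 * τ / 3) * (C / (C + 1)) := by
      field_simp
    rw [this]
    exact mul_le_of_le_one_right (by positivity) (div_le_one_of_le₀ (by linarith) (by linarith))
  set Z := max z₀ (X0 / δ) with hZ
  have hzZ : z₀ ≤ Z := le_max_left _ _
  have hZ0 : 0 < Z := hz₀.trans_le hzZ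
  have hZδ : X0 ≤ Z * δ := (div_le_iff₀ hδ).1 (le_max_right _ _)
  set nm := b * j * Z ^ (-a) with hnm
  have hnm0 : 0 < nm := by positivity
  obtain ⟨e, he0, he⟩ : ∃ e : ℝ, 0 < e ∧
      ((1 + e / nm) ^ ((a + 1) / a) - 1) / z₀ ≤ 2 * τ / 3 := by
    have hc : ContinuousAt (fun e : ℝ => ((1 + e / nm) ^ ((a + 1) / a) - 1) / z₀) 0 := by
      refine (ContinuousAt.sub (ContinuousAt.rpow_const (by fun_prop) (Or.inl (by simp)))
        continuousAt_const).div_const _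
    have h1 : ∀ᶠ e in 𝓝 (0 : ℝ), ((1 + e / nm) ^ ((a + 1) / a) - 1) / z₀ < 2 * τ / 3 :=
      hc.eventually (gt_mem_nhds (by simp; positivity))
    obtain ⟨e, he1, he2⟩ := ((h1.filter_mono nhdsWithin_le_nhds).and
      (self_mem_nhdsWithin : Ioi (0 : ℝ) ∈ 𝓝[>] 0)).exists
    exact ⟨e, he2, he1.le⟩
  refine ⟨e, he0, fun {Ω} _ m _ ρ R hρ h0 hR hineq hjle => ?_⟩
  set κ := (1 + e / nm) ^ ((a + 1) / a) - 1 with hκ
  have hκ0 : 0 ≤ κ := by
    have : 1 ≤ (1 + e / nm) ^ ((a + 1) / a) :=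
      Real.one_le_rpow (by linarith [div_pos he0 hnm0]) (by positivity)
    linarith
  have hm : ∀ t : ℝ, Measurable fun x => t * ρ x := fun t => hρ.const_mul t
  have hn : ∀ t : ℝ, 0 < t → ∀ x, 0 ≤ t * ρ x := fun t ht x => mul_nonneg ht.le (h0 x)
  set ν : ℝ → ℝ := fun z => ∫ x, Kf a (z * ρ x) ∂m with hν
  have hνZ : nm ≤ ν Z := by
    have hint : Integrable (fun x => (max (ρ x) δ) ^ (-a)) m := by
      refine Integrable.of_bound ((hρ.max measurable_const).pow_const _).aestronglyMeasurable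
        (δ ^ (-a)) (Eventually.of_forall fun x => ?_)
      rw [Real.norm_of_nonneg (Real.rpow_nonneg (hδ.le.trans (le_max_right _ _)) _)]
      exact Real.rpow_le_rpow_of_nonpos hδ (le_max_right _ _) (by linarith)
    have hpt : ∀ x, b * Z ^ (-a) * (max (ρ x) δ) ^ (-a) ≤ Kf a (Z * ρ x) := by
      intro x
      set M := max (ρ x) δ with hM
      have hM0 : 0 < M := hδ.trans_le (le_max_right _ _)
      have hZM : 0 < Z * M := mul_pos hZ0 hM0
      have h1 : b < (Z * M) ^ a * Kf a (Z * M) :=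
        hX0 _ (hZδ.trans (mul_le_mul_of_nonneg_left (le_max_right _ _) hZ0.le))
      have h2 : Kf a (Z * M) ≤ Kf a (Z * ρ x) :=
        Kf_anti ha (hn Z hZ0 x) hZM.le (mul_le_mul_of_nonneg_left (le_max_left _ _) hZ0.le)
      refine le_trans ?_ h2
      have h3 : 0 < (Z * M) ^ a := Real.rpow_pos_of_pos hZM _
      rw [mul_assoc, ← Real.mul_rpow hZ0.le hM0.le, Real.rpow_neg hZM.le, ← div_eq_mul_inv,
        div_le_iff₀ h3]
      linarith
    calc nm = b * Z ^ (-a) * j := by rw [hnm]; ring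
      _ ≤ b * Z ^ (-a) * ∫ x, (max (ρ x) δ) ^ (-a) ∂m := by gcongr
      _ = ∫ x, b * Z ^ (-a) * (max (ρ x) δ) ^ (-a) ∂m := (integral_const_mul _ _).symm
      _ ≤ ν Z := integral_mono (hint.const_mul _) (KeyOne_int m ha (hm Z) (hn Z hZ0)) hpt
  have hνz : ∀ z ∈ Icc z₀ Z, nm ≤ ν z := by
    intro z hz
    have hz0 : 0 < z := hz₀.trans_le hz.1
    refine hνZ.trans (integral_mono (KeyOne_int m ha (hm Z) (hn Z hZ0))
      (KeyOne_int m ha (hm z) (hn z hz0)) fun x => ?_)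
    exact Kf_anti ha (hn z hz0 x) (hn Z hZ0 x) (mul_le_mul_of_nonneg_right hz.2 (h0 x))
  have hcmp := ode_cmp (ν := ν) (h := fun z => ∫ x, (1 + z * ρ x) ^ (-(2 * a + 2)) ∂m) ha hκ0 hz₀ hzZ
    (fun z hz => hnm0.trans_le (hνz z hz))
    (fun z hz => hasDerivAt_int_Kf m ha hρ h0 hR (hz₀.trans_le hz.1)) (fun z hz => by
      have hz0 : 0 < z := hz₀.trans_le hz.1
      have hh0 : 0 ≤ ∫ x, (1 + z * ρ x) ^ (-(2 * a + 2)) ∂m :=
        integral_nonneg fun x => Real.rpow_nonneg (by linarith [hn z hz0 x]) _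
      have h1 : (∫ x, (1 + z * ρ x) ^ (-(2 * a + 2)) ∂m) ^ (a / (a + 1)) ≤ (1 + e / nm) * ν z := by
        refine (hineq z hz0).trans ?_
        have : e ≤ e / nm * ν z := by
          rw [div_mul_eq_mul_div, le_div_iff₀ hnm0]
          exact mul_le_mul_of_nonneg_left (hνz z hz) he0.le
        change ν z + e ≤ _
        linarith
      have h2 := Real.rpow_le_rpow (Real.rpow_nonneg hh0 _) h1 (by positivity : 0 ≤ (a + 1) / a)
      rw [← Real.rpow_mul hh0, show a / (a + 1) * ((a + 1) / a) = 1 by field_simp, Real.rpow_one,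
        Real.mul_rpow (by positivity) (hnm0.le.trans (hνz z hz))] at h2
      simpa [hκ] using h2)
  -- the right-hand side
  have hR1 : ν Z ^ (-1 / a) / Z ≤ (b * j) ^ (-1 / a) := by
    have h1 : ν Z ^ (-1 / a) ≤ nm ^ (-1 / a) :=
      Real.rpow_le_rpow_of_nonpos hnm0 hνZ (by rw [neg_div]; exact neg_nonpos.2 (by positivity))
    have h2 : nm ^ (-1 / a) = (b * j) ^ (-1 / a) * Z := by
      rw [hnm, Real.mul_rpow (by positivity) (by positivity), ← Real.rpow_mul hZ0.le,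
        show -a * (-1 / a) = 1 by field_simp, Real.rpow_one]
    rw [div_le_iff₀ hZ0, ← h2]
    exact h1
  -- the left-hand side
  have hmin0 : ∀ x, 0 ≤ min (ρ x) T := fun x => le_min (h0 x) hT.le
  have hminI : Integrable (fun x => min (ρ x) T) m := by
    refine Integrable.of_bound (hρ.min measurable_const).aestronglyMeasurable T
      (Eventually.of_forall fun x => ?_)
    rw [Real.norm_of_nonneg (hmin0 x)]
    exact min_le_right _ _
  have hL1 : ν z₀ ≤ 1 - 2 * a * z₀ * ∫ x, min (ρ x) T ∂m + C * z₀ ^ 2 * T ^ 2 := by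
    have hpt : ∀ x, Kf a (z₀ * ρ x) ≤ (1 + C * z₀ ^ 2 * T ^ 2) - 2 * a * z₀ * min (ρ x) T := by
      intro x
      have h1 : Kf a (z₀ * ρ x) ≤ Kf a (z₀ * min (ρ x) T) :=
        Kf_anti ha (mul_nonneg hz₀.le (hmin0 x)) (hn z₀ hz₀ x)
          (mul_le_mul_of_nonneg_left (min_le_left _ _) hz₀.le)
      have h2 := hC _ (mul_nonneg hz₀.le (hmin0 x))
      have h3 : C * (z₀ * min (ρ x) T) ^ 2 ≤ C * (z₀ * T) ^ 2 := by
        have := hmin0 x
        gcongr
        exact min_le_right _ _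
      nlinarith
    have h4 : ν z₀ ≤ ∫ x, ((1 + C * z₀ ^ 2 * T ^ 2) - 2 * a * z₀ * min (ρ x) T) ∂m :=
      integral_mono (KeyOne_int m ha (hm z₀) (hn z₀ hz₀))
        ((integrable_const _).sub (hminI.const_mul _)) hpt
    rw [integral_sub (integrable_const _) (hminI.const_mul _), integral_const_mul] at h4
    simp only [integral_const, probReal_univ, one_smul] at h4
    linarith
  have hB := KeyOne_bern ha (hnm0.trans_le (hνz z₀ ⟨le_rfl, hzZ⟩))
  have hL2 : 2 * ∫ x, min (ρ x) T ∂m - C * z₀ * T ^ 2 / a - κ / z₀ ≤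
      (ν z₀ ^ (-1 / a) - 1 - κ) / z₀ := by
    rw [le_div_iff₀ hz₀]
    have h5 : (2 * a * z₀ * ∫ x, min (ρ x) T ∂m - C * z₀ ^ 2 * T ^ 2) / a ≤ (1 - ν z₀) / a :=
      div_le_div_of_nonneg_right (by linarith) ha.le
    have h6 : (2 * ∫ x, min (ρ x) T ∂m - C * z₀ * T ^ 2 / a - κ / z₀) * z₀ =
        (2 * a * z₀ * ∫ x, min (ρ x) T ∂m - C * z₀ ^ 2 * T ^ 2) / a - κ := by
      field_simp
    rw [h6]
    linarith
  linarith

end

end Crest.Agent.R241.Key
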