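import Crest.Agent.R241.KeyD
import Crest.Agent.R241.KeyC
import Crest.Agent.R241.KeyOne

/-! Row 241, block KEY: the central estimate. -/

set_option autoImplicit false

open MeasureTheory Set Filter Topology
open scoped ENNReal NNReal

namespace Crest.Agent.R241.Key

open Crest.GeometryTopology.Submanifold

noncomputable section

universe u

variable {X : Type u} [MetricSpace X] [CompactSpace X] [MeasurableSpace X] [BorelSpace X]
  {P : Par} {ε : ℝ}

/-- `d_main` with `U = univ`. -/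
theorem Y_pos (P : Par) (h : ∀ ε : ℝ, 0 < ε → Nonempty (CS X P ε)) : 0 < P.Y := by
  rcases P.hY.lt_or_eq with hY | hY
  · exact hY
  exfalso
  obtain ⟨K, -, hK⟩ := d_main (X := X) P
  have ha := P.ha
  have hc := P.hc0
  have hA : 0 < P.a * (P.a + 1) * P.c0 := by positivity
  obtain ⟨ε₀, hε₀, H⟩ := hK (P.a * (P.a + 1) * P.c0 / 2) (by positivity)
  obtain ⟨C⟩ := h ε₀ hε₀
  have := H hε₀.le le_rfl C univ isOpen_univ 1 one_pos le_rfl
  rw [← hY, zero_mul, probReal_univ] at this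
  linarith

/-- `d_main` for the open set `U = {J δ < j}`, `j = (1-τ') a (a+1) c0 / Y`; off `U` use `one_point`
with `sob_c`. -/
theorem central (P : Par) (hY : 0 < P.Y) {τ T : ℝ} (hτ : 0 < τ) (hT : 0 < T) :
    ∃ ε₀ : ℝ, 0 < ε₀ ∧ ∀ {ε : ℝ}, 0 ≤ ε → ε ≤ ε₀ → ∀ C : CS X P ε, ∃ U : Set X, IsOpen U ∧
      C.μ.real U ≤ τ ∧ ∀ p, p ∉ U → ∫ q, min (C.ρ 0 p q) T ∂C.μ ≤ P.Φ + τ := by
  have ha := P.ha
  have hc := P.hc0
  set A : ℝ := P.a * (P.a + 1) * P.c0 with hAdef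
  have hA : 0 < A := by positivity
  have hj0 : 0 < A / P.Y := by positivity
  have haB := aB_pos ha
  -- choice of `j`
  obtain ⟨j, hj, hjlt, hjΦ⟩ : ∃ j : ℝ, 0 < j ∧ j < A / P.Y ∧
      1 / 2 * (aB P.a * j) ^ (-1 / P.a) ≤ P.Φ + τ / 2 := by
    have hcont : ContinuousAt (fun j : ℝ => 1 / 2 * (aB P.a * j) ^ (-1 / P.a)) (A / P.Y) := by
      refine continuousAt_const.mul ?_
      refine ContinuousAt.rpow_const (continuousAt_const.mul continuousAt_id) (Or.inl ?_)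
      exact (mul_pos haB hj0).ne'
    have h1 : ∀ᶠ j in 𝓝 (A / P.Y), 1 / 2 * (aB P.a * j) ^ (-1 / P.a) < P.Φ + τ / 2 := by
      refine hcont.eventually (gt_mem_nhds ?_)
      show 1 / 2 * (aB P.a * (A / P.Y)) ^ (-1 / P.a) < P.Φ + τ / 2
      have : P.Φ = 1 / 2 * (aB P.a * (A / P.Y)) ^ (-1 / P.a) := rfl
      linarith
    have h2 : ∀ᶠ j in 𝓝 (A / P.Y), 0 < j := lt_mem_nhds hj0
    have h3 : ∀ᶠ j in 𝓝[<] (A / P.Y), j < A / P.Y := self_mem_nhdsWithin
    obtain ⟨j, ⟨h1, h2⟩, h3⟩ := (((h1.and h2).filter_mono nhdsWithin_le_nhds).and h3).exists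
    exact ⟨j, h2, h3, h1.le⟩
  set B : ℝ := A - P.Y * j with hBdef
  have hB : 0 < B := by
    have := (lt_div_iff₀ hY).1 hjlt
    rw [hBdef]; linarith
  obtain ⟨K, hK0, hK⟩ := d_main (X := X) P
  obtain ⟨ε₁, hε₁, H⟩ := hK (τ * B / 2) (by positivity)
  set r : ℝ := min 1 (τ * B / (2 * (P.Y * K + 1))) with hr
  have hr0 : 0 < r := lt_min one_pos (by positivity)
  have hr1 : r ≤ 1 := min_le_left _ _
  have hr2 : r ≤ τ * B / (2 * (P.Y * K + 1)) := min_le_right _ _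
  have hδ0 : 0 < r ^ 2 := by positivity
  have hδ1 : r ^ 2 ≤ 1 := pow_le_one₀ hr0.le hr1
  have hsq : √(r ^ 2) = r := Real.sqrt_sq hr0.le
  have hYK : P.Y * (K * r) ≤ τ * B / 2 := by
    have h1 : r * (2 * (P.Y * K + 1)) ≤ τ * B := (le_div_iff₀ (by positivity)).1 hr2
    nlinarith
  obtain ⟨e, he, He⟩ := one_point.{u} ha hj hδ0 hT (half_pos hτ)
  obtain ⟨K', hK'0, HK'⟩ := sob_c (X := X) P
  set r' : ℝ := e * P.Y / (K' + 1) with hr'
  have hr'0 : 0 < r' := by positivity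
  refine ⟨min ε₁ (min 1 (r' ^ 2)), lt_min hε₁ (lt_min one_pos (by positivity)), ?_⟩
  intro ε hε0 hε C
  have hεa : ε ≤ ε₁ := hε.trans (min_le_left _ _)
  have hεb : ε ≤ 1 := hε.trans ((min_le_right _ _).trans (min_le_left _ _))
  have hεc : ε ≤ r' ^ 2 := hε.trans ((min_le_right _ _).trans (min_le_right _ _))
  have hsε : √ε ≤ r' := by
    rw [← Real.sqrt_sq hr'0.le]; exact Real.sqrt_le_sqrt hεc
  have hJ := C.continuous_J hδ0
  have hU : IsOpen {p | C.J (r ^ 2) p < j} := isOpen_lt hJ continuous_const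
  refine ⟨{p | C.J (r ^ 2) p < j}, hU, ?_, ?_⟩
  · have h1 := H hε0 hεa C _ hU (r ^ 2) hδ0 hδ1
    rw [hsq] at h1
    have h2 : ∫ p in {p | C.J (r ^ 2) p < j}, C.J (r ^ 2) p ∂C.μ ≤
        ∫ _p in {p | C.J (r ^ 2) p < j}, j ∂C.μ :=
      setIntegral_mono_on (integrable_cont C.μ hJ).integrableOn (integrable_const j).integrableOn
        hU.measurableSet (fun p hp => le_of_lt hp)
    rw [setIntegral_const, smul_eq_mul] at h2
    set m := C.μ.real {p | C.J (r ^ 2) p < j}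
    have h3 : P.Y * ∫ p in {p | C.J (r ^ 2) p < j}, C.J (r ^ 2) p ∂C.μ ≤ P.Y * (m * j) :=
      mul_le_mul_of_nonneg_left h2 hY.le
    have h4 : B * m ≤ B * τ := by
      rw [hBdef]
      rw [hBdef] at hYK h1
      nlinarith
    exact le_of_mul_le_mul_left h4 hB
  · intro p hp
    have hp' : j ≤ C.J (r ^ 2) p := not_lt.1 hp
    obtain ⟨R, -, hR⟩ := C.ρ_bdd 0
    have hm : Measurable (C.ρ 0 p) :=
      ((C.continuous_ρ 0).comp (Continuous.prodMk_right p)).measurable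
    have := He C.μ (C.ρ 0 p) R hm (fun q => C.ρ_nonneg le_rfl p q) (hR p) ?_ hp'
    · linarith
    · intro z hz
      have h1 := HK' hε0 hεb C p z hz
      have h2 : K' * √ε ≤ P.Y * e := by
        have h3 : r' * (K' + 1) = e * P.Y := by rw [hr']; field_simp
        have h4 : K' * √ε ≤ K' * r' := mul_le_mul_of_nonneg_left hsε hK'0
        nlinarith
      refine le_of_mul_le_mul_left ?_ hY
      rw [mul_add]
      linarith

end

end Crest.Agent.R241.Key
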