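import Crest.Agent.R241.KeyEL

/-! Row 241, block KEY: concentration of the averaged kernels. -/

set_option autoImplicit false

open MeasureTheory Set Filter Topology
open scoped ENNReal NNReal

namespace Crest.Agent.R241.Key

open Crest.GeometryTopology.Submanifold

noncomputable section

universe u

variable {X : Type u} [MetricSpace X] [CompactSpace X] [MeasurableSpace X] [BorelSpace X]
  {P : Par} {ε : ℝ}

theorem h55_ev_pos (l : ℝ) : ∀ᶠ s in 𝓝[>] (0 : ℝ), 0 < s ∧ 0 ≤ 2 * s - l * s ^ 2 := by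
  have h : ∀ᶠ s in 𝓝 (0 : ℝ), l * s < 2 :=
    (continuous_const.mul continuous_id).continuousAt.eventually_lt continuousAt_const (by simp)
  filter_upwards [self_mem_nhdsWithin, nhdsWithin_le_nhds h] with s hs h2
  have hs' : 0 < s := hs
  exact ⟨hs', by nlinarith⟩

theorem h55_cont (C : CS X P ε) {s : ℝ} (hs : 0 < s) :
    Continuous fun z : X × X => C.w z.1 ^ 2 * C.ρ s z.1 z.2 ^ (-(P.a + 2)) :=
  (((lip_cont C.w_lip).comp continuous_fst).pow 2).mul
    ((C.continuous_ρ s).rpow_const fun z => Or.inl (C.ρ_pos hs _ _).ne')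

/-- at a point of `U` where `Low` holds; use a ball in `U` on which `w ≥ (1-η) w q`. -/
theorem d_low_point (C : CS X P ε) {U : Set X} (hU : IsOpen U) :
    ∀ᵐ q ∂C.μ, q ∈ U → ∀ c < P.c0, ∀ᶠ s in 𝓝[>] (0 : ℝ),
      c ≤ (2 * s - P.l * s ^ 2) * ∫ p in U, C.w p ^ 2 * C.ρ s p q ^ (-(P.a + 2)) ∂C.μ := by
  filter_upwards [C.ae_of_ae0 C.low] with q hq hqU c hc
  have hc0 := P.hc0
  have hw := lip_cont C.w_lip
  obtain ⟨c1, hc1⟩ : ∃ c1, c1 = max c 0 := ⟨_, rfl⟩
  have h1 : c ≤ c1 := hc1 ▸ le_max_left _ _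
  have h2 : 0 ≤ c1 := hc1 ▸ le_max_right _ _
  have h3 : c1 < P.c0 := hc1 ▸ max_lt hc hc0
  have h4 : 0 < (c1 + P.c0) / 2 := by linarith
  obtain ⟨κ, hκ⟩ : ∃ κ, κ = c1 / ((c1 + P.c0) / 2) := ⟨_, rfl⟩
  have hκ0 : 0 ≤ κ := hκ ▸ div_nonneg h2 h4.le
  have hκ1 : κ < 1 := by rw [hκ, div_lt_one h4]; linarith
  have hκ2 : κ * ((c1 + P.c0) / 2) = c1 := by rw [hκ]; exact div_mul_cancel₀ _ h4.ne'
  have hcont : Continuous fun p => (C.w p / C.w q) ^ (P.a + 2) :=
    (hw.div_const _).rpow_const fun p => Or.inl (div_pos (C.w_pos p) (C.w_pos q)).ne'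
  have hev : ∀ᶠ p in 𝓝 q, κ < (C.w p / C.w q) ^ (P.a + 2) :=
    continuousAt_const.eventually_lt hcont.continuousAt
      (by rw [div_self (C.w_pos q).ne', Real.one_rpow]; exact hκ1)
  obtain ⟨r, hr, hball⟩ := Metric.eventually_nhds_iff_ball.1 (hev.and (hU.mem_nhds hqU))
  filter_upwards [hq r hr ((c1 + P.c0) / 2) (by linarith), h55_ev_pos P.l] with s h5 h6
  obtain ⟨hs, h7⟩ := h6
  have hD : ∀ p, 0 < Dx P.l q p + s := fun p => Dx_add_pos P.hl q p hs
  have e : ∀ p, C.w p ^ (2 * P.a + 2) * (C.w p ^ 2 * C.ρ s p q ^ (-(P.a + 2))) =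
      (C.w p / C.w q) ^ (P.a + 2) * (Dx P.l q p + s) ^ (-(P.a + 2)) := by
    intro p
    have a1 := C.w_pos p
    have a2 := C.w_pos q
    have a3 := hD p
    rw [CS.ρ, Dx_comm P.l p q, Real.mul_rpow (mul_pos a1 a2).le a3.le, Real.mul_rpow a1.le a2.le,
      Real.div_rpow a1.le a2.le, Real.rpow_neg a2.le, div_eq_mul_inv]
    have a4 : C.w p ^ (2 * P.a + 2) * C.w p ^ 2 * C.w p ^ (-(P.a + 2)) = C.w p ^ (P.a + 2) := by
      rw [← Real.rpow_natCast, ← Real.rpow_add a1, ← Real.rpow_add a1]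
      congr 1
      push_cast
      ring
    rw [← a4]
    ring
  have hc2 : Continuous fun p => (Dx P.l q p + s) ^ (-(P.a + 2)) :=
    ((continuous_Dx_right P.hl q).add continuous_const).rpow_const fun p => Or.inl (hD p).ne'
  have hn2 : ∀ p, 0 ≤ (Dx P.l q p + s) ^ (-(P.a + 2)) := fun p => Real.rpow_nonneg (hD p).le _
  have hi := integrable_cont C.μ0 (hcont.mul hc2)
  have key : κ * ∫ p in Metric.ball q r, (Dx P.l q p + s) ^ (-(P.a + 2)) ∂C.μ0 ≤
      ∫ p in U, C.w p ^ 2 * C.ρ s p q ^ (-(P.a + 2)) ∂C.μ := by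
    rw [C.setIntegral_eq _ hU.measurableSet]
    simp only [e]
    rw [← integral_const_mul]
    refine le_trans (setIntegral_mono_on ((integrable_cont C.μ0 hc2).const_mul κ).integrableOn
      hi.integrableOn measurableSet_ball fun p hp =>
        mul_le_mul_of_nonneg_right (hball p hp).1.le (hn2 p)) ?_
    refine setIntegral_mono_set hi.integrableOn (Eventually.of_forall fun p => ?_)
      (HasSubset.Subset.eventuallyLE fun p hp => (hball p hp).2)
    exact mul_nonneg (Real.rpow_nonneg (div_pos (C.w_pos p) (C.w_pos q)).le _) (hn2 p)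
  have h8 := mul_le_mul_of_nonneg_left key h7
  have h9 := mul_le_mul_of_nonneg_left h5 hκ0
  nlinarith

/-- dominated convergence on `U` for the truncation at `c0`. -/
theorem d_low (C : CS X P ε) {U : Set X} (hU : IsOpen U) {η : ℝ} (hη : 0 < η) :
    ∀ᶠ s in 𝓝[>] (0 : ℝ), P.c0 * C.μ.real U - η ≤
      ∫ q, min ((2 * s - P.l * s ^ 2) * ∫ p in U, C.w p ^ 2 * C.ρ s p q ^ (-(P.a + 2)) ∂C.μ) P.c0
        ∂C.μ := by
  have hc0 := P.hc0
  obtain ⟨f, hf⟩ : ∃ f : ℝ → X → ℝ, f = fun s q => min ((2 * s - P.l * s ^ 2) *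
    ∫ p in U, C.w p ^ 2 * C.ρ s p q ^ (-(P.a + 2)) ∂C.μ) P.c0 := ⟨_, rfl⟩
  have hm : ∀ s, 0 < s → StronglyMeasurable (f s) := by
    intro s hs
    have h1 : StronglyMeasurable fun q =>
        ∫ p in U, C.w p ^ 2 * C.ρ s p q ^ (-(P.a + 2)) ∂C.μ :=
      (h55_cont C hs).stronglyMeasurable.integral_prod_left' (μ := C.μ.restrict U)
    rw [hf]
    exact ((h1.measurable.const_mul _).min measurable_const).stronglyMeasurable
  have h0 : ∀ s, 0 < s → 0 ≤ 2 * s - P.l * s ^ 2 → ∀ q, 0 ≤ f s q := by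
    intro s hs h q
    rw [hf]
    exact le_min (mul_nonneg h (integral_nonneg fun p =>
      mul_nonneg (sq_nonneg _) (Real.rpow_nonneg (C.ρ_pos hs _ _).le _))) hc0.le
  have h1 : ∀ s q, f s q ≤ P.c0 := fun s q => by rw [hf]; exact min_le_right _ _
  have hlim : Tendsto (fun s => ∫ q in U, f s q ∂C.μ) (𝓝[>] 0) (𝓝 (∫ _ in U, P.c0 ∂C.μ)) := by
    refine tendsto_integral_filter_of_dominated_convergence (fun _ => P.c0) ?_ ?_
      (integrable_const _) ?_
    · filter_upwards [h55_ev_pos P.l] with s hs using (hm s hs.1).aestronglyMeasurable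
    · filter_upwards [h55_ev_pos P.l] with s hs
      refine Eventually.of_forall fun q => ?_
      rw [Real.norm_of_nonneg (h0 s hs.1 hs.2 q)]
      exact h1 s q
    · filter_upwards [ae_restrict_of_ae (d_low_point C hU), ae_restrict_mem hU.measurableSet]
        with q hq hqU
      refine tendsto_order.2 ⟨fun c hc => ?_, fun c hc => Eventually.of_forall fun s =>
        (h1 s q).trans_lt hc⟩
      filter_upwards [hq hqU ((c + P.c0) / 2) (by linarith)] with s hs
      rw [hf]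
      exact lt_min (by linarith) hc
  rw [setIntegral_const, smul_eq_mul, mul_comm] at hlim
  filter_upwards [hlim.eventually (lt_mem_nhds (sub_lt_self _ hη)), h55_ev_pos P.l] with s h2 hs
  refine h2.le.trans ?_
  have hi : Integrable (f s) C.μ := (integrable_const P.c0).mono' (hm s hs.1).aestronglyMeasurable
    (Eventually.of_forall fun q => by
      rw [Real.norm_of_nonneg (h0 s hs.1 hs.2 q)]
      exact h1 s q)
  have h3 := setIntegral_le_integral (s := U) hi (Eventually.of_forall (h0 s hs.1 hs.2))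
  rw [hf] at h3 ⊢
  exact h3

end

end Crest.Agent.R241.Key
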