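import Crest.Agent.R241.KeyDefs

/-! Row 241, block KEY: integrals of powers under an upper density bound (dyadic decomposition). -/

set_option autoImplicit false

open MeasureTheory Set Filter Topology
open scoped ENNReal NNReal

namespace Crest.Agent.R241.Key

open Crest.GeometryTopology.Submanifold

noncomputable section

universe u

variable {Ω : Type u} [MeasurableSpace Ω]

private theorem h28_dyadic (μ : Measure Ω) [IsFiniteMeasure μ] {S : Set Ω} (hS : MeasurableSet S)
    {g : Ω → ℝ} {A : ℕ → Set Ω} (hA : ∀ j, MeasurableSet (A j)) {c : ℕ → ℝ} (hc : ∀ j, 0 ≤ c j)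
    (hg : ∀ x ∈ S, ∃ j, x ∈ A j ∧ |g x| ≤ c j) {B : ℝ} (hB : 0 ≤ B)
    (hb : ∀ j, c j * μ.real (A j) ≤ B / 2 / 2 ^ j) : ∫ x in S, g x ∂μ ≤ B := by
  refine (le_abs_self _).trans ((norm_integral_le_lintegral_norm g).trans
    (ENNReal.toReal_le_of_le_ofReal hB ?_))
  calc ∫⁻ x in S, ENNReal.ofReal ‖g x‖ ∂μ
      ≤ ∫⁻ x in S, ∑' j, (A j).indicator (fun _ => ENNReal.ofReal (c j)) x ∂μ := by
        refine setLIntegral_mono' hS fun x hx => ?_
        obtain ⟨j, h1, h2⟩ := hg x hx
        refine le_trans ?_ (ENNReal.le_tsum j)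
        rw [indicator_of_mem h1]
        exact ENNReal.ofReal_le_ofReal h2
    _ ≤ ∫⁻ x, ∑' j, (A j).indicator (fun _ => ENNReal.ofReal (c j)) x ∂μ :=
        setLIntegral_le_lintegral _ _
    _ = ∑' j, ENNReal.ofReal (c j) * μ (A j) := by
        rw [lintegral_tsum fun j => (measurable_const.indicator (hA j)).aemeasurable]
        exact tsum_congr fun j => lintegral_indicator_const (hA j) _
    _ ≤ ∑' j : ℕ, ENNReal.ofReal (B / 2 / 2 ^ j) := by
        refine ENNReal.tsum_le_tsum fun j => ?_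
        rw [← ofReal_measureReal (measure_ne_top μ _), ← ENNReal.ofReal_mul (hc j)]
        exact ENNReal.ofReal_le_ofReal (hb j)
    _ = ENNReal.ofReal B := by
        rw [← ENNReal.ofReal_tsum_of_nonneg (fun j => by positivity)
          (summable_geometric_two' B), tsum_geometric_two' B]

private theorem h28_Cu (μ : Measure Ω) {a Cu : ℝ} {F : Ω → ℝ}
    (hup : ∀ t, 0 < t → μ.real {x | F x < t} ≤ Cu * t ^ (a + 1)) : 0 ≤ Cu := by
  have h := hup 1 one_pos
  rw [Real.one_rpow, mul_one] at h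
  exact measureReal_nonneg.trans h

theorem pow_near (μ : Measure Ω) [IsFiniteMeasure μ] {a Cu s : ℝ} (ha : 0 < a) (hs : 0 < s)
    {F : Ω → ℝ} (hF : Measurable F) (hsF : ∀ x, s ≤ F x)
    (hup : ∀ t, 0 < t → μ.real {x | F x < t} ≤ Cu * t ^ (a + 1)) {t : ℝ} (ht : 0 < t) :
    ∫ x in {x | F x < t}, F x ^ (-a) ∂μ ≤ 2 ^ (a + 1) * Cu * t := by
  have hC := h28_Cu μ hup
  refine h28_dyadic μ (measurableSet_lt hF measurable_const)
    (A := fun j => {x | F x < t / 2 ^ j}) (fun j => measurableSet_lt hF measurable_const)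
    (c := fun j => (t / 2 ^ j / 2) ^ (-a)) (fun j => by positivity) (fun x hx => ?_)
    (by positivity) fun j => ?_
  · have h0 : 0 < F x := hs.trans_le (hsF x)
    obtain ⟨j, h1, h2⟩ := exists_nat_pow_near ((one_le_div h0).2 (le_of_lt hx)) one_lt_two
    by_cases he : F x < t / 2 ^ j
    · refine ⟨j, he, ?_⟩
      rw [abs_of_nonneg (Real.rpow_nonneg h0.le _)]
      refine Real.rpow_le_rpow_of_nonpos (by positivity) ?_ (by linarith)
      rw [div_div, ← pow_succ, div_le_iff₀ (by positivity), mul_comm, ← div_le_iff₀ h0]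
      exact h2.le
    · have hj : j ≠ 0 := by
        rintro rfl
        exact he (by simpa using hx)
      obtain ⟨i, rfl⟩ := Nat.exists_eq_succ_of_ne_zero hj
      refine ⟨i, ?_, ?_⟩
      · change F x < t / 2 ^ i
        rw [le_div_iff₀ h0, pow_succ] at h1
        rw [lt_div_iff₀ (by positivity)]
        have : 0 < F x * 2 ^ i := by positivity
        linarith
      · rw [abs_of_nonneg (Real.rpow_nonneg h0.le _)]
        refine Real.rpow_le_rpow_of_nonpos (by positivity) ?_ (by linarith)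
        rw [div_div, ← pow_succ]
        exact not_lt.1 he
  · have hu : 0 < t / 2 ^ j := by positivity
    refine (mul_le_mul_of_nonneg_left (hup _ hu) (by positivity)).trans (le_of_eq ?_)
    rw [Real.div_rpow hu.le zero_le_two, Real.rpow_add_one hu.ne', Real.rpow_add_one two_ne_zero,
      Real.rpow_neg hu.le, Real.rpow_neg zero_le_two]
    have h1 : 0 < (t / 2 ^ j) ^ a := by positivity
    have h2 : 0 < (2 : ℝ) ^ a := by positivity
    field_simp

theorem pow_far (μ : Measure Ω) [IsFiniteMeasure μ] {a Cu : ℝ} (ha : 0 < a)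
    {F : Ω → ℝ} (hF : Measurable F)
    (hup : ∀ t, 0 < t → μ.real {x | F x < t} ≤ Cu * t ^ (a + 1)) {t : ℝ} (ht : 0 < t) :
    ∫ x in {x | t ≤ F x}, F x ^ (-(2 * a + 2)) ∂μ ≤ 2 ^ (a + 2) * Cu * t ^ (-(a + 1)) := by
  have hC := h28_Cu μ hup
  refine h28_dyadic μ (measurableSet_le measurable_const hF)
    (A := fun j => {x | F x < t * 2 ^ j * 2}) (fun j => measurableSet_lt hF measurable_const)
    (c := fun j => (t * 2 ^ j) ^ (-(2 * a + 2))) (fun j => by positivity) (fun x hx => ?_)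
    (by positivity) fun j => ?_
  · have h0 : 0 < F x := ht.trans_le hx
    obtain ⟨j, h1, h2⟩ := exists_nat_pow_near ((one_le_div ht).2 hx) one_lt_two
    refine ⟨j, ?_, ?_⟩
    · change F x < t * 2 ^ j * 2
      rw [div_lt_iff₀ ht, pow_succ] at h2
      linarith
    · rw [abs_of_nonneg (Real.rpow_nonneg h0.le _)]
      refine Real.rpow_le_rpow_of_nonpos (by positivity) ?_ (by linarith)
      rw [le_div_iff₀ ht] at h1
      linarith
  · have hu : 0 < t * 2 ^ j := by positivity
    refine (mul_le_mul_of_nonneg_left (hup _ (by positivity)) (by positivity)).trans ?_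
    have e1 : (t * 2 ^ j) ^ (-(2 * a + 2)) * (t * 2 ^ j) ^ (a + 1) = (t * 2 ^ j) ^ (-(a + 1)) := by
      rw [← Real.rpow_add hu]
      congr 1
      ring
    have e2 : (2 : ℝ) ^ (a + 2) = 2 ^ (a + 1) * 2 := by
      rw [← Real.rpow_add_one two_ne_zero]
      congr 1
      ring
    have e3 : ((2 : ℝ) ^ j) ^ (-(a + 1)) ≤ (2 ^ j)⁻¹ := by
      rw [← Real.rpow_neg_one]
      exact Real.rpow_le_rpow_of_exponent_le (one_le_pow₀ one_le_two) (by linarith)
    calc (t * 2 ^ j) ^ (-(2 * a + 2)) * (Cu * (t * 2 ^ j * 2) ^ (a + 1))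
        = 2 ^ (a + 1) * Cu * ((t * 2 ^ j) ^ (-(2 * a + 2)) * (t * 2 ^ j) ^ (a + 1)) := by
          rw [Real.mul_rpow hu.le zero_le_two]
          ring
      _ = 2 ^ (a + 1) * Cu * t ^ (-(a + 1)) * ((2 : ℝ) ^ j) ^ (-(a + 1)) := by
          rw [e1, Real.mul_rpow ht.le (by positivity)]
          ring
      _ ≤ 2 ^ (a + 1) * Cu * t ^ (-(a + 1)) * (2 ^ j)⁻¹ :=
          mul_le_mul_of_nonneg_left e3 (by positivity)
      _ = _ := by
          rw [e2]
          ring

end

end Crest.Agent.R241.Key
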