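import Crest.Agent.R241.KeyEL
import Crest.Agent.R241.KeyPow

/-! Row 241, block KEY: the short-distance part of the Green kernel is uniformly small. -/

set_option autoImplicit false

open MeasureTheory Set Filter Topology
open scoped ENNReal NNReal

namespace Crest.Agent.R241.Key

open Crest.GeometryTopology.Submanifold

noncomputable section

universe u

variable {X : Type u} [MetricSpace X] [CompactSpace X] [MeasurableSpace X] [BorelSpace X]
  {P : Par} {ε : ℝ}

private theorem h52_key {a W v F : ℝ} (hW : 0 < W) (hv : 0 < v) (hF : 0 < F) :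
    v ^ (2 * a + 2) * (W * v * F) ^ (-a) = v ^ (a + 2) * (W * F) ^ (-a) := by
  have e : W * v * F = v * (W * F) := by ring
  rw [e, Real.mul_rpow hv.le (by positivity), ← mul_assoc, ← Real.rpow_add hv]
  congr 2
  ring

private theorem h52_near {a W v F δ : ℝ} (ha : 0 < a) (hv : 0 < v) (hvW : v ≤ W) (hF : 0 < F)
    (hδ : 0 < δ) :
    v ^ (2 * a + 2) * ((W * v * F) ^ (-a) - (max (W * v * F) δ) ^ (-a)) ≤ W ^ 2 * F ^ (-a) := by
  have hW : 0 < W := hv.trans_le hvW
  have h0 : 0 ≤ (max (W * v * F) δ) ^ (-a) := Real.rpow_nonneg (hδ.le.trans (le_max_right _ _)) _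
  have h1 : v ^ (a + 2) ≤ W ^ (a + 2) := Real.rpow_le_rpow hv.le hvW (by linarith)
  calc _ ≤ v ^ (2 * a + 2) * (W * v * F) ^ (-a) :=
        mul_le_mul_of_nonneg_left (by linarith) (by positivity)
    _ = v ^ (a + 2) * (W * F) ^ (-a) := h52_key hW hv hF
    _ ≤ W ^ (a + 2) * (W * F) ^ (-a) := mul_le_mul_of_nonneg_right h1 (by positivity)
    _ = W ^ 2 * F ^ (-a) := by
        rw [Real.mul_rpow hW.le hF.le, ← mul_assoc, ← Real.rpow_add hW, ← Real.rpow_two]
        congr 2
        ring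

private theorem h52_far {a W v F δ : ℝ} (ha : 0 < a) (hv : 0 < v) (hW : 0 < W) (hF : 0 < F)
    (hδ : 0 < δ) :
    v ^ (2 * a + 2) * ((W * v * F) ^ (-a) - (max (W * v * F) δ) ^ (-a)) ≤
      δ ^ (a + 2) * W ^ (-(2 * a + 2)) * F ^ (-(2 * a + 2)) := by
  rcases le_or_gt δ (W * v * F) with h | h
  · rw [max_eq_left h, sub_self, mul_zero]
    positivity
  · have hu : 0 < W * F := by positivity
    have h0 : 0 ≤ (max (W * v * F) δ) ^ (-a) :=
      Real.rpow_nonneg (hδ.le.trans (le_max_right _ _)) _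
    have h1 : v ^ (a + 2) ≤ (δ / (W * F)) ^ (a + 2) := by
      refine Real.rpow_le_rpow hv.le ?_ (by linarith)
      rw [le_div_iff₀ hu]
      linarith
    calc _ ≤ v ^ (2 * a + 2) * (W * v * F) ^ (-a) :=
          mul_le_mul_of_nonneg_left (by linarith) (by positivity)
      _ = v ^ (a + 2) * (W * F) ^ (-a) := h52_key hW hv hF
      _ ≤ (δ / (W * F)) ^ (a + 2) * (W * F) ^ (-a) := mul_le_mul_of_nonneg_right h1 (by positivity)
      _ = δ ^ (a + 2) * (W * F) ^ (-(2 * a + 2)) := by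
          rw [Real.div_rpow hδ.le hu.le, div_eq_mul_inv, ← Real.rpow_neg hu.le, mul_assoc,
            ← Real.rpow_add hu]
          congr 2
          ring
      _ = _ := by rw [Real.mul_rpow hW.le hF.le, mul_assoc]

private theorem h52_far_num {a W δ : ℝ} (ha : 0 < a) (hW : 0 < W) (hδ : 0 < δ) (hδ1 : δ ≤ 1) :
    δ ^ (a + 2) * W ^ (-(2 * a + 2)) * (√δ / W ^ 2) ^ (-(a + 1)) ≤ √δ := by
  have hr : 0 < √δ := Real.sqrt_pos.2 hδ
  have e1 : (√δ / W ^ 2) ^ (-(a + 1)) = δ ^ (-((a + 1) / 2)) * W ^ (2 * a + 2) := by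
    rw [Real.div_rpow hr.le (by positivity), Real.sqrt_eq_rpow, ← Real.rpow_mul hδ.le,
      ← Real.rpow_two, ← Real.rpow_mul hW.le, div_eq_mul_inv, ← Real.rpow_neg hW.le]
    congr 2 <;> ring
  have e2 : W ^ (-(2 * a + 2)) * W ^ (2 * a + 2) = 1 := by
    rw [← Real.rpow_add hW, neg_add_cancel, Real.rpow_zero]
  calc _ = δ ^ (a + 2) * δ ^ (-((a + 1) / 2)) * (W ^ (-(2 * a + 2)) * W ^ (2 * a + 2)) := by
        rw [e1]; ring
    _ = δ ^ (a + 2 + -((a + 1) / 2)) := by rw [e2, mul_one, ← Real.rpow_add hδ]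
    _ ≤ δ ^ (1 / 2 : ℝ) := Real.rpow_le_rpow_of_exponent_ge hδ hδ1 (by linarith)
    _ = √δ := (Real.sqrt_eq_rpow δ).symm

private theorem h52_cont (C : CS X P ε) {s δ : ℝ} (hs : 0 < s) :
    Continuous fun z : X × X => C.ρ s z.1 z.2 ^ (-P.a) - (max (C.ρ s z.1 z.2) δ) ^ (-P.a) :=
  ((C.continuous_ρ s).rpow_const fun z => Or.inl (C.ρ_pos hs z.1 z.2).ne').sub
    (((C.continuous_ρ s).max continuous_const).rpow_const fun z =>
      Or.inl ((C.ρ_pos hs z.1 z.2).trans_le (le_max_left _ _)).ne')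

/-- one base point `p`, the points `q` with `w q ≤ w p`; split at `D + s < √δ / (w p)²`. -/
theorem tail_point (P : Par) : ∃ K : ℝ, 0 ≤ K ∧ ∀ {ε : ℝ} (C : CS X P ε) (s δ : ℝ), 0 < s → 0 < δ →
    δ ≤ 1 → ∀ p : X, ∫ q in {q | C.w q ≤ C.w p},
      (C.ρ s p q ^ (-P.a) - (max (C.ρ s p q) δ) ^ (-P.a)) ∂C.μ ≤ K * √δ := by
  have ha := P.ha
  have hCu := P.hCu
  refine ⟨2 ^ (P.a + 1) * P.Cu + 2 ^ (P.a + 2) * P.Cu, by positivity,
    fun C s δ hs hδ hδ1 p => ?_⟩
  have hw : Continuous C.w := lip_cont C.w_lip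
  have hU : MeasurableSet {q | C.w q ≤ C.w p} := (isClosed_le hw continuous_const).measurableSet
  have hW := C.w_pos p
  set F : X → ℝ := fun q => Dx P.l p q + s with hFd
  have hF : Continuous F := (continuous_Dx_right P.hl p).add continuous_const
  have hF0 : ∀ q, 0 < F q := fun q => Dx_add_pos P.hl p q hs
  have hsF : ∀ q, s ≤ F q := fun q => le_add_of_nonneg_left (Dx_nonneg P.hl p q)
  have hup : ∀ t, 0 < t → C.μ0.real {x | F x < t} ≤ P.Cu * t ^ (P.a + 1) := fun t ht =>
    (measureReal_mono (fun x (hx : F x < t) => show Dx P.l p x < t from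
      (lt_add_of_pos_right _ hs).trans hx)).trans (C.up p t ht)
  set t : ℝ := √δ / C.w p ^ 2 with ht
  have ht0 : 0 < t := div_pos (Real.sqrt_pos.2 hδ) (by positivity)
  have hN : MeasurableSet {x | F x < t} := (isOpen_lt hF continuous_const).measurableSet
  have hM : MeasurableSet {x | t ≤ F x} := (isClosed_le continuous_const hF).measurableSet
  have i1 : Integrable (fun x => C.w p ^ 2 * F x ^ (-P.a)) C.μ0 :=
    (integrable_cont _ (hF.rpow_const fun x => Or.inl (hF0 x).ne')).const_mul _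
  have i2 : Integrable (fun x => δ ^ (P.a + 2) * C.w p ^ (-(2 * P.a + 2)) *
      F x ^ (-(2 * P.a + 2))) C.μ0 :=
    (integrable_cont _ (hF.rpow_const fun x => Or.inl (hF0 x).ne')).const_mul _
  have i0 : Integrable (fun q => C.w q ^ (2 * P.a + 2) *
      (C.ρ s p q ^ (-P.a) - (max (C.ρ s p q) δ) ^ (-P.a))) C.μ0 :=
    integrable_cont _ ((hw.rpow_const fun x => Or.inl (C.w_pos x).ne').mul
      ((h52_cont C hs).comp (Continuous.prodMk_right p)))
  rw [C.setIntegral_eq _ hU, ← integral_indicator hU]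
  have hle : ∀ q, {q | C.w q ≤ C.w p}.indicator (fun q => C.w q ^ (2 * P.a + 2) *
      (C.ρ s p q ^ (-P.a) - (max (C.ρ s p q) δ) ^ (-P.a))) q ≤
      {x | F x < t}.indicator (fun x => C.w p ^ 2 * F x ^ (-P.a)) q +
        {x | t ≤ F x}.indicator (fun x => δ ^ (P.a + 2) * C.w p ^ (-(2 * P.a + 2)) *
          F x ^ (-(2 * P.a + 2))) q := by
    intro q
    have hq := hF0 q
    rcases lt_or_ge (F q) t with h | h
    · rw [indicator_of_mem (show q ∈ {x | F x < t} from h),
        indicator_of_notMem (show q ∉ {x | t ≤ F x} from not_le.2 h), add_zero]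
      by_cases h2 : q ∈ {q | C.w q ≤ C.w p}
      · rw [indicator_of_mem h2]
        exact h52_near ha (C.w_pos q) h2 hq hδ
      · rw [indicator_of_notMem h2]
        positivity
    · rw [indicator_of_notMem (show q ∉ {x | F x < t} from not_lt.2 h),
        indicator_of_mem (show q ∈ {x | t ≤ F x} from h), zero_add]
      by_cases h2 : q ∈ {q | C.w q ≤ C.w p}
      · rw [indicator_of_mem h2]
        exact h52_far ha (C.w_pos q) hW hq hδ
      · rw [indicator_of_notMem h2]
        positivity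
  refine (integral_mono (i0.indicator hU) ((i1.indicator hN).add (i2.indicator hM)) hle).trans ?_
  rw [integral_add' (i1.indicator hN) (i2.indicator hM), integral_indicator hN,
    integral_indicator hM, integral_const_mul, integral_const_mul, add_mul]
  refine add_le_add ?_ ?_
  · refine (mul_le_mul_of_nonneg_left (pow_near C.μ0 ha hs hF.measurable hsF hup ht0)
      (by positivity)).trans_eq ?_
    rw [ht]
    field_simp
  · refine (mul_le_mul_of_nonneg_left (pow_far C.μ0 ha hF.measurable hup ht0)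
      (by positivity)).trans ?_
    have := mul_le_mul_of_nonneg_left (h52_far_num ha hW hδ hδ1)
      (show 0 ≤ 2 ^ (P.a + 2) * P.Cu by positivity)
    refine le_of_eq_of_le ?_ this
    rw [ht]
    ring

/-- symmetrise (Fubini): the kernel is symmetric, continuous and nonnegative. -/
theorem tail (P : Par) : ∃ K : ℝ, 0 ≤ K ∧ ∀ {ε : ℝ} (C : CS X P ε) (s δ : ℝ), 0 < s → 0 < δ →
    δ ≤ 1 → ∫ p, ∫ q, (C.ρ s p q ^ (-P.a) - (max (C.ρ s p q) δ) ^ (-P.a)) ∂C.μ ∂C.μ ≤ K * √δ := by
  obtain ⟨K, hK, h⟩ := tail_point (X := X) P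
  refine ⟨2 * K, by positivity, fun C s δ hs hδ hδ1 => ?_⟩
  have hw : Continuous C.w := lip_cont C.w_lip
  set k : X × X → ℝ := fun z => C.ρ s z.1 z.2 ^ (-P.a) - (max (C.ρ s z.1 z.2) δ) ^ (-P.a) with hk
  have hkc : Continuous k := h52_cont C hs
  have hk0 : ∀ z, 0 ≤ k z := fun z => sub_nonneg.2
    (Real.rpow_le_rpow_of_nonpos (C.ρ_pos hs _ _) (le_max_left _ _) (by linarith [P.ha]))
  have hks : ∀ z : X × X, k z.swap = k z := fun z => by
    simp only [hk, Prod.fst_swap, Prod.snd_swap, C.ρ_comm s z.2 z.1]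
  have hS : MeasurableSet {z : X × X | C.w z.2 ≤ C.w z.1} :=
    (isClosed_le (hw.comp continuous_snd) (hw.comp continuous_fst)).measurableSet
  have i0 : Integrable k (C.μ.prod C.μ) := integrable_cont _ hkc
  have i1 := i0.indicator hS
  have h1 : ∫ z, {z : X × X | C.w z.2 ≤ C.w z.1}.indicator k z ∂(C.μ.prod C.μ) ≤ K * √δ := by
    rw [integral_prod _ i1]
    refine (integral_mono i1.integral_prod_left (integrable_const (K * √δ)) fun p => ?_).trans_eq
      (by simp)
    have hU : MeasurableSet {q | C.w q ≤ C.w p} := (isClosed_le hw continuous_const).measurableSet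
    have := h C s δ hs hδ hδ1 p
    rw [← integral_indicator hU] at this
    exact this
  have h2 : ∫ z, k z ∂(C.μ.prod C.μ) ≤
      ∫ z, ({z : X × X | C.w z.2 ≤ C.w z.1}.indicator k z +
        {z : X × X | C.w z.2 ≤ C.w z.1}.indicator k z.swap) ∂(C.μ.prod C.μ) := by
    refine integral_mono i0 (i1.add i1.swap) fun z => ?_
    rcases le_total (C.w z.2) (C.w z.1) with h3 | h3
    · rw [indicator_of_mem (show z ∈ {z : X × X | C.w z.2 ≤ C.w z.1} from h3)]
      exact le_add_of_nonneg_right (indicator_nonneg (fun z _ => hk0 z) _)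
    · rw [indicator_of_mem (show z.swap ∈ {z : X × X | C.w z.2 ≤ C.w z.1} from h3), hks]
      exact le_add_of_nonneg_left (indicator_nonneg (fun z _ => hk0 z) _)
  have i2 : Integrable (fun z : X × X => {z : X × X | C.w z.2 ≤ C.w z.1}.indicator k z.swap)
      (C.μ.prod C.μ) := i1.swap
  rw [integral_add i1 i2, integral_prod_swap, integral_prod _ i0] at h2
  refine h2.trans ?_
  linarith

end

end Crest.Agent.R241.Key
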