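import Crest.Agent.R241.KeyD2
import Crest.Agent.R241.KeyD3
import Crest.Agent.R241.KeyTail

/-! Row 241, block KEY: lower bound for the Green potential. -/

set_option autoImplicit false

open MeasureTheory Set Filter Topology
open scoped ENNReal NNReal

namespace Crest.Agent.R241.Key

open Crest.GeometryTopology.Submanifold

noncomputable section

universe u

variable {X : Type u} [MetricSpace X] [CompactSpace X] [MeasurableSpace X] [BorelSpace X]
  {P : Par} {ε : ℝ}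

private theorem h19_par (ν : Measure X) [IsFiniteMeasure ν] {k : X → X → ℝ}
    (hk : Continuous fun z : X × X => k z.1 z.2) : Continuous fun p => ∫ q, k p q ∂ν := by
  have := continuous_parametric_integral_of_continuous (μ := ν) (f := k) hk isCompact_univ
  simpa using this

private theorem h19_rpow (C : CS X P ε) {s : ℝ} (hs : 0 < s) (γ : ℝ) :
    Continuous fun z : X × X => C.ρ s z.1 z.2 ^ γ :=
  (C.continuous_ρ s).rpow_const fun z => Or.inl (C.ρ_pos hs z.1 z.2).ne'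

private theorem h19_max (C : CS X P ε) (s : ℝ) {δ : ℝ} (hδ : 0 < δ) (γ : ℝ) :
    Continuous fun z : X × X => (max (C.ρ s z.1 z.2) δ) ^ γ :=
  ((C.continuous_ρ s).max continuous_const).rpow_const fun _ =>
    Or.inl (hδ.trans_le (le_max_right _ _)).ne'

private theorem h19_t_le (C : CS X P ε) (U : Set X) {s δ B : ℝ} (hs : 0 < s) (hδ : 0 < δ)
    (hB : ∫ p, ∫ q, (C.ρ s p q ^ (-P.a) - (max (C.ρ s p q) δ) ^ (-P.a)) ∂C.μ ∂C.μ ≤ B) :
    ∫ q, ∫ p in U, C.ρ s p q ^ (-P.a) ∂C.μ ∂C.μ ≤ ∫ p in U, C.J δ p ∂C.μ + B := by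
  have h1 := h19_rpow C hs (-P.a)
  have h2 := h19_max C s hδ (-P.a)
  have hsw : ∫ q, ∫ p in U, C.ρ s p q ^ (-P.a) ∂C.μ ∂C.μ =
      ∫ p in U, ∫ q, C.ρ s p q ^ (-P.a) ∂C.μ ∂C.μ := by
    refine (integral_integral_swap (f := fun p q => C.ρ s p q ^ (-P.a)) ?_).symm
    exact integrable_cont _ h1
  have c1 : Continuous fun p =>
      ∫ q, (C.ρ s p q ^ (-P.a) - (max (C.ρ s p q) δ) ^ (-P.a)) ∂C.μ :=
    h19_par C.μ (k := fun p q => C.ρ s p q ^ (-P.a) - (max (C.ρ s p q) δ) ^ (-P.a)) (h1.sub h2)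
  have c2 : Continuous fun p => ∫ q, C.ρ s p q ^ (-P.a) ∂C.μ :=
    h19_par C.μ (k := fun p q => C.ρ s p q ^ (-P.a)) h1
  have c3 := C.continuous_J hδ
  have hpt : ∀ p, ∫ q, C.ρ s p q ^ (-P.a) ∂C.μ ≤ C.J δ p +
      ∫ q, (C.ρ s p q ^ (-P.a) - (max (C.ρ s p q) δ) ^ (-P.a)) ∂C.μ := fun p => by
    have i1 : Integrable (fun q => C.ρ s p q ^ (-P.a)) C.μ :=
      integrable_cont _ (h1.comp (Continuous.prodMk_right p))
    have i2 : Integrable (fun q => (max (C.ρ s p q) δ) ^ (-P.a)) C.μ :=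
      integrable_cont _ (h2.comp (Continuous.prodMk_right p))
    have i3 : Integrable (fun q => (max (C.ρ 0 p q) δ) ^ (-P.a)) C.μ :=
      integrable_cont _ ((h19_max C 0 hδ (-P.a)).comp (Continuous.prodMk_right p))
    have : ∫ q, (max (C.ρ s p q) δ) ^ (-P.a) ∂C.μ ≤ C.J δ p :=
      integral_mono i2 i3 fun q =>
        Real.rpow_le_rpow_of_nonpos (hδ.trans_le (le_max_right _ _))
          (max_le_max_right _ (C.ρ_mono hs.le p q)) (neg_nonpos.2 P.ha.le)
    rw [integral_sub i1 i2]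
    linarith
  have h3 : ∫ p in U, ∫ q, (C.ρ s p q ^ (-P.a) - (max (C.ρ s p q) δ) ^ (-P.a)) ∂C.μ ∂C.μ ≤
      ∫ p, ∫ q, (C.ρ s p q ^ (-P.a) - (max (C.ρ s p q) δ) ^ (-P.a)) ∂C.μ ∂C.μ :=
    setIntegral_le_integral (integrable_cont _ c1) (Eventually.of_forall fun p =>
      integral_nonneg fun q => sub_nonneg.2 (Real.rpow_le_rpow_of_nonpos (C.ρ_pos hs p q)
        (le_max_left _ _) (neg_nonpos.2 P.ha.le)))
  have h4 := integral_mono (μ := C.μ.restrict U) (integrable_cont _ c2)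
    ((integrable_cont _ c3).add (integrable_cont _ c1)) hpt
  rw [integral_add' (integrable_cont _ c3) (integrable_cont _ c1)] at h4
  rw [hsw]
  linarith

private theorem h19_J_one (C : CS X P ε) (U : Set X) : ∫ p in U, C.J 1 p ∂C.μ ≤ 1 := by
  have h1 : ∀ p, C.J 1 p ≤ 1 := fun p => by
    have i3 : Integrable (fun q => (max (C.ρ 0 p q) 1) ^ (-P.a)) C.μ :=
      integrable_cont _ ((h19_max C 0 one_pos (-P.a)).comp (Continuous.prodMk_right p))
    have := integral_mono i3 (integrable_const (1 : ℝ)) fun q =>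
      Real.rpow_le_one_of_one_le_of_nonpos (le_max_right _ _) (neg_nonpos.2 P.ha.le)
    simpa [CS.J] using this
  have h2 := integral_mono (μ := C.μ.restrict U) (integrable_cont _ (C.continuous_J one_pos))
    (integrable_const (1 : ℝ)) h1
  have h3 : C.μ.real U ≤ 1 := measureReal_le_one
  simp only [integral_const, smul_eq_mul, mul_one, measureReal_restrict_apply MeasurableSet.univ,
    univ_inter] at h2
  linarith

/-- `d_avg` with `ν = m.restrict U`; `G / (1 + σ t) ≥ min G c0 - c0 σ t`; `∫ t ≤ 1 + K` by `tail` with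
`δ = 1`; `∫ t = ∫_U ∫ ρ^(-a) ≤ ∫_U J δ + K √δ` by Fubini, `tail`, `ρ 0 ≤ ρ s`. -/
theorem d_main (P : Par) : ∃ K : ℝ, 0 ≤ K ∧ ∀ η : ℝ, 0 < η → ∃ ε₀ : ℝ, 0 < ε₀ ∧
    ∀ {ε : ℝ}, 0 ≤ ε → ε ≤ ε₀ → ∀ (C : CS X P ε) (U : Set X), IsOpen U → ∀ δ : ℝ, 0 < δ → δ ≤ 1 →
      P.a * (P.a + 1) * P.c0 * C.μ.real U ≤ P.Y * (∫ p in U, C.J δ p ∂C.μ + K * √δ) + η := by
  obtain ⟨K, hK, hT⟩ := tail (X := X) P
  refine ⟨K, hK, fun η hη => ?_⟩
  have ha := P.ha
  have hc0 := P.hc0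
  have hA : 0 < P.a * (P.a + 1) := by positivity
  set A := P.a * (P.a + 1) with hAdef
  have hσ : 0 < η / 3 / (A * P.c0 * (1 + K)) := by positivity
  set σ := η / 3 / (A * P.c0 * (1 + K)) with hσdef
  have hσe : σ * (A * P.c0 * (1 + K)) = η / 3 := div_mul_cancel₀ _ (by positivity)
  obtain ⟨Kd, hKd, hD⟩ := d_avg (X := X) P hσ
  refine ⟨min 1 ((η / 3 / (Kd + 1)) ^ 2), lt_min one_pos (by positivity),
    fun {ε} h0 h1 C U hU δ hδ hδ1 => ?_⟩
  have hε : Kd * √ε ≤ η / 3 := by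
    have h2 : √ε ≤ η / 3 / (Kd + 1) :=
      Real.sqrt_le_iff.2 ⟨by positivity, h1.trans (min_le_right _ _)⟩
    rw [le_div_iff₀ (by positivity)] at h2
    nlinarith [Real.sqrt_nonneg ε]
  have hl := P.hl
  have hev : ∀ᶠ s in 𝓝[>] (0 : ℝ), s ∈ Ioo 0 (1 / (P.l + 1)) :=
    Ioo_mem_nhdsGT (by positivity)
  obtain ⟨s, hlow, hs, hs1⟩ :=
    ((d_low C hU (η := η / 3 / A) (by positivity)).and hev).exists
  have hs2 : 0 ≤ 2 * s - P.l * s ^ 2 := by
    rw [lt_div_iff₀ (by positivity)] at hs1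
    nlinarith
  have hmain := hD h0 (h1.trans (min_le_left _ _)) C (C.μ.restrict U) s hs hs2
  have t1 := h19_t_le C U hs hδ (hT C s δ hs hδ hδ1)
  have t2 := h19_t_le C U hs one_pos (hT C s 1 hs one_pos le_rfl)
  have t3 := h19_J_one C U
  rw [Real.sqrt_one, mul_one] at t2
  have ct : Continuous fun q => ∫ p in U, C.ρ s p q ^ (-P.a) ∂C.μ :=
    h19_par (C.μ.restrict U) (k := fun q p => C.ρ s p q ^ (-P.a))
      ((h19_rpow C hs (-P.a)).comp continuous_swap)
  have cG : Continuous fun q => ∫ p in U, C.w p ^ 2 * C.ρ s p q ^ (-(P.a + 2)) ∂C.μ :=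
    h19_par (C.μ.restrict U) (k := fun q p => C.w p ^ 2 * C.ρ s p q ^ (-(P.a + 2)))
      ((((lip_cont C.w_lip).comp continuous_snd).pow 2).mul
        ((h19_rpow C hs (-(P.a + 2))).comp continuous_swap))
  have t0 : ∀ q, 0 ≤ ∫ p in U, C.ρ s p q ^ (-P.a) ∂C.μ := fun q =>
    integral_nonneg fun p => Real.rpow_nonneg (C.ρ_nonneg hs.le p q) _
  have G0 : ∀ q, 0 ≤ ∫ p in U, C.w p ^ 2 * C.ρ s p q ^ (-(P.a + 2)) ∂C.μ := fun q =>
    integral_nonneg fun p => mul_nonneg (sq_nonneg _) (Real.rpow_nonneg (C.ρ_nonneg hs.le p q) _)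
  set t : X → ℝ := fun q => ∫ p in U, C.ρ s p q ^ (-P.a) ∂C.μ with ht
  set G : X → ℝ := fun q => ∫ p in U, C.w p ^ 2 * C.ρ s p q ^ (-(P.a + 2)) ∂C.μ with hG
  have i1 : Integrable (fun q => A * min ((2 * s - P.l * s ^ 2) * G q) P.c0) C.μ :=
    integrable_cont _ (continuous_const.mul ((continuous_const.mul cG).min continuous_const))
  have i2 : Integrable (fun q => A * P.c0 * σ * t q) C.μ :=
    integrable_cont _ (continuous_const.mul ct)
  have i3 : Integrable (fun q => A * (2 * s - P.l * s ^ 2) * G q / (1 + σ * t q)) C.μ :=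
    integrable_cont _ ((continuous_const.mul cG).div
      (continuous_const.add (continuous_const.mul ct)) fun q => by
        have := mul_nonneg hσ.le (t0 q)
        positivity)
  have hpt : ∀ q, A * min ((2 * s - P.l * s ^ 2) * G q) P.c0 - A * P.c0 * σ * t q ≤
      A * (2 * s - P.l * s ^ 2) * G q / (1 + σ * t q) := fun q => by
    have h2 : 0 ≤ σ * t q := mul_nonneg hσ.le (t0 q)
    have h3 : min ((2 * s - P.l * s ^ 2) * G q) P.c0 ≤ (2 * s - P.l * s ^ 2) * G q :=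
      min_le_left _ _
    have h4 : min ((2 * s - P.l * s ^ 2) * G q) P.c0 ≤ P.c0 := min_le_right _ _
    rw [le_div_iff₀ (by positivity)]
    have h5 : (min ((2 * s - P.l * s ^ 2) * G q) P.c0 - P.c0 * (σ * t q)) * (1 + σ * t q) ≤
        (2 * s - P.l * s ^ 2) * G q := by
      nlinarith [mul_nonneg hc0.le (mul_nonneg h2 h2), mul_le_mul_of_nonneg_right h4 h2]
    have h6 := mul_le_mul_of_nonneg_left h5 hA.le
    calc _ = A * ((min ((2 * s - P.l * s ^ 2) * G q) P.c0 - P.c0 * (σ * t q)) *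
          (1 + σ * t q)) := by ring
      _ ≤ A * ((2 * s - P.l * s ^ 2) * G q) := h6
      _ = _ := by ring
  have h7 := integral_mono (i1.sub i2) i3 hpt
  rw [integral_sub' i1 i2, integral_const_mul, integral_const_mul] at h7
  have h8 := mul_le_mul_of_nonneg_left hlow hA.le
  have h9 : A * (η / 3 / A) = η / 3 := mul_div_cancel₀ _ hA.ne'
  have h10 : A * P.c0 * σ * ∫ q, t q ∂C.μ ≤ η / 3 := by
    rw [← hσe]
    have : ∫ q, t q ∂C.μ ≤ 1 + K := by linarith
    calc _ ≤ A * P.c0 * σ * (1 + K) := mul_le_mul_of_nonneg_left this (by positivity)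
      _ = _ := by ring
  have h11 := mul_le_mul_of_nonneg_left t1 P.hY
  rw [mul_sub, h9] at h8
  have h12 : A * P.c0 * C.μ.real U = A * (P.c0 * C.μ.real U) := mul_assoc _ _ _
  linarith

end

end Crest.Agent.R241.Key
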