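import Crest.Agent.R241.KeyEL

/-! Row 241, block KEY: testing a supersolution `t` with `1 / (1 + σ t)`. -/

set_option autoImplicit false

open MeasureTheory Set Filter Topology
open scoped ENNReal NNReal

namespace Crest.Agent.R241.Key

open Crest.GeometryTopology.Submanifold

noncomputable section

universe u

variable {X : Type u} [MetricSpace X] [CompactSpace X] [MeasurableSpace X] [BorelSpace X]
  {P : Par} {ε : ℝ}

/-- `β = (1 + σ t)⁻¹`, `g = t β`, `T = ∫ β² Γ t t`: `E t β = -σ T + L g`, `Γ g g = β⁴ Γ t t`;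
apply `test_bound` with `c = 1/σ`, `Cg = 1`, `g' = g`. -/
theorem d_fin (P : Par) {σ : ℝ} (hσ : 0 < σ) : ∃ K : ℝ, 0 ≤ K ∧ ∀ {ε : ℝ}, 0 ≤ ε → ε ≤ 1 →
    ∀ (C : CS X P ε) (t G : X → ℝ), Lip t → (∀ x, 0 ≤ t x) → Continuous G → (∀ x, 0 ≤ G x) →
      (∀ β, Lip β → (∀ x, 0 ≤ β x) → ∫ x, β x * G x ∂C.μ ≤ C.E t β) →
      ∫ x, G x / (1 + σ * t x) ∂C.μ ≤ P.Y * ∫ x, t x ∂C.μ + K * √ε := by
  obtain ⟨K, hK, H⟩ := test_bound (X := X) P (c := 1 / σ) (Cg := 1) hσ zero_le_one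
  refine ⟨K, hK, fun {ε} h0 h1 C t G ht ht0 hG hG0 hsup => ?_⟩
  have hst : Lip fun x => σ * t x := lip_const_mul σ ht
  have hf : Lip fun x => σ * t x + 1 := lip_add hst (lip_const 1)
  have hf1 : ∀ x, 1 ≤ σ * t x + 1 := fun x => by nlinarith [ht0 x]
  have hf0 : ∀ x, 0 < σ * t x + 1 := fun x => one_pos.trans_le (hf1 x)
  have hF : ∀ y : ℝ, 0 < y → HasDerivAt (fun y : ℝ => y⁻¹) (-(y ^ 2)⁻¹) y :=
    fun y hy => hasDerivAt_inv hy.ne'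
  have hc : ContinuousOn (fun y : ℝ => (y ^ 2)⁻¹) (Ioi 0) :=
    (continuousOn_id.pow 2).inv₀ fun y hy => pow_ne_zero 2 (ne_of_gt hy)
  have hF2 : ∀ y : ℝ, 0 < y → HasDerivAt (fun y : ℝ => σ⁻¹ * (1 - y⁻¹)) (σ⁻¹ * (y ^ 2)⁻¹) y :=
    fun y hy => by
      have := ((hF y hy).const_sub 1).const_mul σ⁻¹
      rwa [neg_neg] at this
  have hc2 : ContinuousOn (fun y : ℝ => σ⁻¹ * (y ^ 2)⁻¹) (Ioi 0) := continuousOn_const.mul hc
  have hβ : Lip fun x => (σ * t x + 1)⁻¹ := lip_comp_pos hF hc.neg hf hf0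
  have hg : Lip fun x => t x * (σ * t x + 1)⁻¹ := lip_mul ht hβ
  have hge : (fun x => t x * (σ * t x + 1)⁻¹) = fun x => σ⁻¹ * (1 - (σ * t x + 1)⁻¹) := by
    funext x
    have h2 := mul_inv_cancel₀ (hf0 x).ne'
    have h3 := inv_mul_cancel₀ hσ.ne'
    linear_combination σ⁻¹ * h2 - t x * (σ * t x + 1)⁻¹ * h3
  have hβ0 : ∀ x, 0 < (σ * t x + 1)⁻¹ := fun x => inv_pos.2 (hf0 x)
  have hβ1 : ∀ x, (σ * t x + 1)⁻¹ ≤ 1 := fun x => inv_le_one_of_one_le₀ (hf1 x)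
  have hgc : ∀ x, |t x * (σ * t x + 1)⁻¹| ≤ 1 / σ := fun x => by
    rw [abs_of_nonneg (mul_nonneg (ht0 x) (hβ0 x).le), congrFun hge x, one_div]
    exact mul_le_of_le_one_right (inv_pos.2 hσ).le (by linarith [hβ0 x])
  have hβc : Continuous fun x => ((σ * t x + 1) ^ 2)⁻¹ :=
    ((lip_cont hf).pow 2).inv₀ fun x => pow_ne_zero 2 (hf0 x).ne'
  have hTi := C.toCc.integrable_mul hβc ht ht
  obtain ⟨T, hT⟩ : ∃ T, T = ∫ x, ((σ * t x + 1) ^ 2)⁻¹ * C.Γ t t x ∂C.μ := ⟨_, rfl⟩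
  have hT0 : 0 ≤ T := by
    rw [hT]
    refine integral_nonneg_of_ae ?_
    filter_upwards [C.nonneg t ht] with x hx
    exact mul_nonneg (inv_pos.2 (pow_pos (hf0 x) 2)).le hx
  have e1 : ∫ x, C.Γ t (fun x => (σ * t x + 1)⁻¹) x ∂C.μ = -σ * T := by
    rw [hT, ← integral_const_mul]
    refine integral_congr_ae ?_
    filter_upwards [C.toCc.chain_pos_right hF hc.neg hf hf0 ht, C.toCc.add_const_right 1 ht hst,
      C.toCc.smul_right σ ht ht] with x a b c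
    rw [a, b, c]
    ring
  have e2 : ∫ x, C.Γ (fun x => t x * (σ * t x + 1)⁻¹) (fun x => t x * (σ * t x + 1)⁻¹) x ∂C.μ ≤
      1 * T := by
    rw [one_mul, hT]
    refine integral_mono_ae (C.toCc.integrable hg hg) hTi ?_
    rw [hge]
    filter_upwards [C.toCc.chain_pos₂ hF2 hc2 hF2 hc2 hf hf0, C.toCc.add_const_left 1 hst hf,
      C.toCc.add_const_right 1 hst hst, C.toCc.smul_left σ ht hst, C.toCc.smul_right σ ht ht,
      C.nonneg t ht] with x a b c d e hx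
    rw [a, b, c, d, e]
    have h2 : ((σ * t x + 1) ^ 2)⁻¹ ≤ 1 := inv_le_one_of_one_le₀ (one_le_pow₀ (hf1 x))
    have h3 : 0 ≤ ((σ * t x + 1) ^ 2)⁻¹ * C.Γ t t x :=
      mul_nonneg (inv_pos.2 (pow_pos (hf0 x) 2)).le hx
    calc σ⁻¹ * ((σ * t x + 1) ^ 2)⁻¹ * (σ⁻¹ * ((σ * t x + 1) ^ 2)⁻¹) * (σ * (σ * C.Γ t t x))
        = ((σ * t x + 1) ^ 2)⁻¹ * (((σ * t x + 1) ^ 2)⁻¹ * C.Γ t t x) := by
          field_simp
      _ ≤ _ := mul_le_of_le_one_left h3 h2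
  have e3 := hsup _ hβ fun x => (hβ0 x).le
  unfold CS.E at e3
  rw [e1] at e3
  have e4 : 0 ≤ ∫ x, (σ * t x + 1)⁻¹ * G x ∂C.μ :=
    integral_nonneg fun x => mul_nonneg (hβ0 x).le (hG0 x)
  have e5 := H h0 h1 C _ _ T hg hg hgc hgc hT0 e2 e2 (by linarith)
  have e6 : ∫ x, t x * (σ * t x + 1)⁻¹ ∂C.μ ≤ ∫ x, t x ∂C.μ :=
    integral_mono (integrable_cont _ (lip_cont hg)) (integrable_cont _ (lip_cont ht))
      fun x => mul_le_of_le_one_right (ht0 x) (hβ1 x)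
  have e7 : ∫ x, G x / (1 + σ * t x) ∂C.μ = ∫ x, (σ * t x + 1)⁻¹ * G x ∂C.μ := by
    congr 1
    funext x
    rw [add_comm, div_eq_inv_mul]
  have e8 := mul_le_mul_of_nonneg_left e6 P.hY
  have e9 := mul_nonneg hσ.le hT0
  linarith

end

end Crest.Agent.R241.Key
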