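import Crest.Agent.R241.KeyD1

/-! Row 241, block KEY: averaging supersolutions. -/

set_option autoImplicit false

open MeasureTheory Set Filter Topology
open scoped ENNReal NNReal

namespace Crest.Agent.R241.Key

open Crest.GeometryTopology.Submanifold

noncomputable section

universe u

variable {X : Type u} [MetricSpace X] [CompactSpace X] [MeasurableSpace X] [BorelSpace X]
  {P : Par} {ε : ℝ}

omit [BorelSpace X] in
private theorem h50_retr [OpensMeasurableSpace X] [Nonempty X] {δ : ℝ} (hδ : 0 < δ) :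
    ∃ r : SimpleFunc X X, ∀ p, dist (r p) p < δ := by
  obtain ⟨t, ht⟩ := isCompact_univ.elim_finite_subcover
    (fun n : ℕ => Metric.ball (TopologicalSpace.denseSeq X n) δ) (fun _ => Metric.isOpen_ball)
    (fun p _ => by
      obtain ⟨n, hn⟩ := (TopologicalSpace.denseRange_denseSeq X).exists_dist_lt p hδ
      exact mem_iUnion.2 ⟨n, hn⟩)
  refine ⟨SimpleFunc.nearestPt (TopologicalSpace.denseSeq X) (t.sup id), fun p => ?_⟩
  obtain ⟨n, hn, hp⟩ := mem_iUnion₂.1 (ht (mem_univ p))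
  have h1 := SimpleFunc.edist_nearestPt_le (TopologicalSpace.denseSeq X) p
    (Finset.le_sup (f := id) hn)
  rw [edist_dist, edist_dist, ENNReal.ofReal_le_ofReal_iff dist_nonneg] at h1
  exact h1.trans_lt (by rw [dist_comm]; exact hp)

private theorem h50_quant (ν : Measure X) [IsFiniteMeasure ν] (r : SimpleFunc X X) {k : X → ℝ}
    (hk : Continuous k) {η : ℝ} (h : ∀ p, |k p - k (r p)| ≤ η) :
    |∫ p, k p ∂ν - ∑ x ∈ r.range, ν.real (r ⁻¹' {x}) * k x| ≤ η * ν.real univ := by
  classical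
  have e1 : ∀ p, k (r p) = ∑ x ∈ r.range, (r ⁻¹' {x}).indicator (fun _ => k x) p := by
    intro p
    rw [Finset.sum_eq_single (r p)]
    · rw [indicator_of_mem (by simp)]
    · intro x _ hx
      rw [indicator_of_notMem (by simpa using hx.symm)]
    · intro hp
      exact absurd (r.mem_range_self p) hp
  have hi : ∀ x ∈ r.range, Integrable ((r ⁻¹' {x}).indicator fun _ => k x) ν := fun x _ =>
    (integrable_const _).indicator (r.measurableSet_fiber x)
  have e2 : ∑ x ∈ r.range, ν.real (r ⁻¹' {x}) * k x = ∫ p, k (r p) ∂ν := by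
    simp only [e1]
    rw [integral_finsetSum _ hi]
    exact Finset.sum_congr rfl fun x _ => by
      rw [integral_indicator_const _ (r.measurableSet_fiber x), smul_eq_mul]
  have hi2 : Integrable (fun p => k (r p)) ν := by
    simp only [e1]
    exact integrable_finsetSum _ hi
  rw [e2, ← integral_sub (integrable_cont ν hk) hi2]
  exact norm_integral_le_of_norm_le_const (f := fun p => k p - k (r p)) (Eventually.of_forall h)

private theorem h50_cont_int (ν : Measure X) [IsFiniteMeasure ν] {k : X → X → ℝ}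
    (h : Continuous fun z : X × X => k z.1 z.2) : Continuous fun q => ∫ p, k p q ∂ν := by
  have := continuous_parametric_integral_of_continuous (μ := ν) (f := fun q p => k p q)
    (h.comp continuous_swap) isCompact_univ
  simpa only [Measure.restrict_univ] using this

omit [CompactSpace X] [MeasurableSpace X] [BorelSpace X] in
private theorem h50_lip_sum (S : Finset X) (c : X → ℝ) {k : X → X → ℝ} (hk : ∀ p, Lip (k p)) :
    Lip fun q => ∑ p ∈ S, c p * k p q := by
  classical
  induction S using Finset.induction_on with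
  | empty => simpa using lip_const (X := X) 0
  | insert x S hx ih =>
    simp only [Finset.sum_insert hx]
    exact lip_add (lip_const_mul _ (hk x)) ih

private theorem h50_E_sum (C : CS X P ε) (S : Finset X) (c : X → ℝ) {k : X → X → ℝ}
    (hk : ∀ p, Lip (k p)) {β : X → ℝ} (hβ : Lip β) :
    C.E (fun q => ∑ p ∈ S, c p * k p q) β = ∑ p ∈ S, c p * C.E (k p) β := by
  classical
  induction S using Finset.induction_on with
  | empty => simpa using C.E_smul_left 0 hβ hβ
  | insert x S hx ih =>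
    simp only [Finset.sum_insert hx]
    rw [C.E_add_left (lip_const_mul _ (hk x)) (h50_lip_sum S c hk) hβ, ih,
      C.E_smul_left _ (hk x) hβ]

private theorem h50_frac {G G' T t σ A M η : ℝ} (hσ : 0 < σ) (hT : 0 ≤ T) (ht : 0 ≤ t)
    (hη : 0 ≤ η) (hA : 0 ≤ A) (hG : G ≤ M) (hM : 0 ≤ M) (hG0 : 0 ≤ G) (h1 : G - G' ≤ A * η)
    (h2 : t - T ≤ η) : G / (1 + σ * T) ≤ G' / (1 + σ * t) + (A + M * σ) * η := by
  have a1 : 1 ≤ 1 + σ * T := by nlinarith
  have a2 : 1 ≤ 1 + σ * t := by nlinarith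
  have e : G / (1 + σ * T) = G' / (1 + σ * t) + (G - G') / (1 + σ * t) +
      G * σ * (t - T) / ((1 + σ * T) * (1 + σ * t)) := by
    field_simp
    ring
  have b1 : (G - G') / (1 + σ * t) ≤ A * η :=
    (div_le_div_of_nonneg_right h1 (by linarith)).trans (div_le_self (by positivity) a2)
  have b2 : G * σ * (t - T) / ((1 + σ * T) * (1 + σ * t)) ≤ M * σ * η := by
    have c1 : G * σ * (t - T) ≤ M * σ * η :=
      (mul_le_mul_of_nonneg_left h2 (by positivity)).trans
        (mul_le_mul_of_nonneg_right (mul_le_mul_of_nonneg_right hG hσ.le) hη)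
    exact (div_le_div_of_nonneg_right c1 (by positivity)).trans
      (div_le_self (by positivity) (one_le_mul_of_one_le_of_one_le a1 a2))
  rw [e]
  linarith

/-- a finite measure is uniformly approximated by finite sums of Dirac masses on two kernels. -/
theorem approx_fin (ν : Measure X) [IsFiniteMeasure ν] {k₁ k₂ : X → X → ℝ}
    (h₁ : Continuous fun z : X × X => k₁ z.1 z.2) (h₂ : Continuous fun z : X × X => k₂ z.1 z.2)
    {η : ℝ} (hη : 0 < η) : ∃ (S : Finset X) (c : X → ℝ), (∀ p, 0 ≤ c p) ∧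
      (∀ q, |∫ p, k₁ p q ∂ν - ∑ p ∈ S, c p * k₁ p q| ≤ η) ∧
      ∀ q, |∫ p, k₂ p q ∂ν - ∑ p ∈ S, c p * k₂ p q| ≤ η := by
  rcases isEmpty_or_nonempty X with hX | hX
  · exact ⟨∅, fun _ => 0, fun _ => le_rfl, fun q => isEmptyElim q, fun q => isEmptyElim q⟩
  have hm : 0 ≤ ν.real univ := measureReal_nonneg
  have hη' : 0 < η / (ν.real univ + 1) := by positivity
  obtain ⟨δ₁, hδ₁, H₁⟩ := Metric.uniformContinuous_iff.1
    (CompactSpace.uniformContinuous_of_continuous h₁) _ hη'
  obtain ⟨δ₂, hδ₂, H₂⟩ := Metric.uniformContinuous_iff.1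
    (CompactSpace.uniformContinuous_of_continuous h₂) _ hη'
  obtain ⟨r, hr⟩ := h50_retr (X := X) (lt_min hδ₁ hδ₂)
  have hle : η / (ν.real univ + 1) * ν.real univ ≤ η := by
    rw [div_mul_eq_mul_div, div_le_iff₀ (by positivity)]
    nlinarith
  have hd : ∀ p q, dist ((p, q) : X × X) (r p, q) < min δ₁ δ₂ := by
    intro p q
    rw [dist_prod_same_right, dist_comm]
    exact hr p
  refine ⟨r.range, fun x => ν.real (r ⁻¹' {x}), fun _ => measureReal_nonneg, fun q => ?_,
    fun q => ?_⟩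
  · exact (h50_quant ν r (k := fun p => k₁ p q) (h₁.comp (Continuous.prodMk_left q))
      fun p => (H₁ ((hd p q).trans_le (min_le_left _ _))).le).trans hle
  · exact (h50_quant ν r (k := fun p => k₂ p q) (h₂.comp (Continuous.prodMk_left q))
      fun p => (H₂ ((hd p q).trans_le (min_le_right _ _))).le).trans hle

/-- `d_fin` for finite sums of the supersolutions `sup_ρ`, then `approx_fin`. -/
theorem d_avg (P : Par) {σ : ℝ} (hσ : 0 < σ) : ∃ K : ℝ, 0 ≤ K ∧ ∀ {ε : ℝ}, 0 ≤ ε → ε ≤ 1 →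
    ∀ (C : CS X P ε) (ν : Measure X) [IsFiniteMeasure ν] (s : ℝ), 0 < s → 0 ≤ 2 * s - P.l * s ^ 2 →
      ∫ q, (P.a * (P.a + 1) * (2 * s - P.l * s ^ 2) *
          ∫ p, C.w p ^ 2 * C.ρ s p q ^ (-(P.a + 2)) ∂ν) /
          (1 + σ * ∫ p, C.ρ s p q ^ (-P.a) ∂ν) ∂C.μ ≤
        P.Y * ∫ q, ∫ p, C.ρ s p q ^ (-P.a) ∂ν ∂C.μ + K * √ε := by
  obtain ⟨K, hK, hfin⟩ := d_fin (X := X) P hσ
  refine ⟨K, hK, fun {ε} h0 h1 C ν _ s hs hs2 => ?_⟩
  set A : ℝ := P.a * (P.a + 1) * (2 * s - P.l * s ^ 2) with hAdef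
  have hA : 0 ≤ A := mul_nonneg (mul_nonneg P.ha.le (by linarith [P.ha])) hs2
  set k₁ : X → X → ℝ := fun p q => C.ρ s p q ^ (-P.a) with hk₁
  set k₂ : X → X → ℝ := fun p q => C.w p ^ 2 * C.ρ s p q ^ (-(P.a + 2)) with hk₂
  have c₁ : Continuous fun z : X × X => k₁ z.1 z.2 :=
    (C.continuous_ρ s).rpow_const fun z => Or.inl (C.ρ_pos hs _ _).ne'
  have c₂ : Continuous fun z : X × X => k₂ z.1 z.2 :=
    (((lip_cont C.w_lip).comp continuous_fst).pow 2).mul
      ((C.continuous_ρ s).rpow_const fun z => Or.inl (C.ρ_pos hs _ _).ne')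
  have n₁ : ∀ p q, 0 ≤ k₁ p q := fun p q => Real.rpow_nonneg (C.ρ_pos hs _ _).le _
  have n₂ : ∀ p q, 0 ≤ k₂ p q := fun p q =>
    mul_nonneg (sq_nonneg _) (Real.rpow_nonneg (C.ρ_pos hs _ _).le _)
  have l₁ : ∀ p, Lip (k₁ p) := fun p => lip_rpow (C.lip_ρ s p) (C.ρ_pos hs p) _
  have cT := h50_cont_int ν c₁
  have cG : Continuous fun q => A * ∫ p, k₂ p q ∂ν := continuous_const.mul (h50_cont_int ν c₂)
  have nT : ∀ q, 0 ≤ ∫ p, k₁ p q ∂ν := fun q => integral_nonneg fun p => n₁ p q
  have nG : ∀ q, 0 ≤ A * ∫ p, k₂ p q ∂ν := fun q =>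
    mul_nonneg hA (integral_nonneg fun p => n₂ p q)
  obtain ⟨M, hM, hMb⟩ := cont_bdd cG
  change ∫ q, (A * ∫ p, k₂ p q ∂ν) / (1 + σ * ∫ p, k₁ p q ∂ν) ∂C.μ ≤
    P.Y * ∫ q, ∫ p, k₁ p q ∂ν ∂C.μ + K * √ε
  have key : ∀ η : ℝ, 0 < η → ∫ q, (A * ∫ p, k₂ p q ∂ν) / (1 + σ * ∫ p, k₁ p q ∂ν) ∂C.μ ≤
      P.Y * ∫ q, ∫ p, k₁ p q ∂ν ∂C.μ + K * √ε + (A + M * σ + P.Y) * η := by
    intro η hη
    obtain ⟨S, c, hc, a₁, a₂⟩ := approx_fin ν c₁ c₂ hη
    have lt := h50_lip_sum S c l₁
    have ct := lip_cont lt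
    have nt : ∀ q, 0 ≤ ∑ p ∈ S, c p * k₁ p q := fun q =>
      Finset.sum_nonneg fun p _ => mul_nonneg (hc p) (n₁ p q)
    have c₂' : ∀ p, Continuous (k₂ p) := fun p => c₂.comp (Continuous.prodMk_right p)
    have cg : Continuous fun q => A * ∑ p ∈ S, c p * k₂ p q :=
      continuous_const.mul (continuous_finsetSum _ fun p _ => continuous_const.mul (c₂' p))
    have H := hfin h0 h1 C _ _ lt nt cg
      (fun q => mul_nonneg hA (Finset.sum_nonneg fun p _ => mul_nonneg (hc p) (n₂ p q)))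
      (fun β hβ hβ0 => by
        rw [h50_E_sum C S c l₁ hβ]
        have e : ∀ q, β q * (A * ∑ p ∈ S, c p * k₂ p q) =
            ∑ p ∈ S, c p * (A * (β q * k₂ p q)) := by
          intro q
          rw [Finset.mul_sum, Finset.mul_sum]
          exact Finset.sum_congr rfl fun p _ => by ring
        simp only [e]
        rw [integral_finsetSum (f := fun p q => c p * (A * (β q * k₂ p q))) _ fun p _ =>
          ((integrable_cont C.μ ((lip_cont hβ).mul (c₂' p))).const_mul A).const_mul (c p)]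
        refine Finset.sum_le_sum fun p _ => ?_
        rw [integral_const_mul, integral_const_mul]
        exact mul_le_mul_of_nonneg_left (C.sup_ρ p hs hβ hβ0) (hc p))
    have i1 : Integrable (fun q => (A * ∫ p, k₂ p q ∂ν) / (1 + σ * ∫ p, k₁ p q ∂ν)) C.μ :=
      integrable_cont _ (cG.div (continuous_const.add (continuous_const.mul cT)) fun q => by
        have := mul_nonneg hσ.le (nT q)
        linarith)
    have i2 : Integrable (fun q => (A * ∑ p ∈ S, c p * k₂ p q) /
        (1 + σ * ∑ p ∈ S, c p * k₁ p q)) C.μ :=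
      integrable_cont _ (cg.div (continuous_const.add (continuous_const.mul ct)) fun q => by
        have := mul_nonneg hσ.le (nt q)
        linarith)
    have b1 : ∫ q, (A * ∫ p, k₂ p q ∂ν) / (1 + σ * ∫ p, k₁ p q ∂ν) ∂C.μ ≤
        ∫ q, ((A * ∑ p ∈ S, c p * k₂ p q) / (1 + σ * ∑ p ∈ S, c p * k₁ p q) +
          (A + M * σ) * η) ∂C.μ := by
      refine integral_mono i1 (i2.add (integrable_const _)) fun q => ?_
      refine h50_frac hσ (nT q) (nt q) hη.le hA ((le_abs_self _).trans (hMb q)) hM (nG q) ?_ ?_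
      · rw [← mul_sub]
        exact mul_le_mul_of_nonneg_left (abs_le.1 (a₂ q)).2 hA
      · linarith [(abs_le.1 (a₁ q)).1]
    have b2 : ∫ q, ∑ p ∈ S, c p * k₁ p q ∂C.μ ≤ ∫ q, (∫ p, k₁ p q ∂ν + η) ∂C.μ := by
      refine integral_mono (integrable_cont _ ct) ((integrable_cont _ cT).add (integrable_const _))
        fun q => ?_
      have := (abs_le.1 (a₁ q)).1
      simp only
      linarith
    rw [integral_add i2 (integrable_const _), integral_const] at b1
    rw [integral_add (integrable_cont _ cT) (integrable_const _), integral_const] at b2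
    simp only [probReal_univ, one_smul] at b1 b2
    have b3 := mul_le_mul_of_nonneg_left b2 P.hY
    linarith
  refine le_of_forall_pos_le_add fun η hη => ?_
  have hB : 0 ≤ A + M * σ + P.Y := add_nonneg (add_nonneg hA (mul_nonneg hM hσ.le)) P.hY
  refine (key (η / (A + M * σ + P.Y + 1)) (by positivity)).trans ?_
  have : (A + M * σ + P.Y) * (η / (A + M * σ + P.Y + 1)) ≤ η := by
    rw [← mul_div_assoc, div_le_iff₀ (by positivity)]
    nlinarith
  linarith

end

end Crest.Agent.R241.Key
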