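import Crest.Agent.R241.AlmF

/-! Row 241, block KEY (helper22): definitions.

Plan.  `a = (n-2)/2`, `lam = a (Λ² - n² l) / (2n)`, `Q f g = ∫ Γ f g + lam ∫ f g`, `Y` = best Sobolev
constant of `Q`.  A positive `ε`-minimiser `u = w^a` gives a *conformal structure* `CS`: the probability
measure `m = w^n μ`, the carre du champ `Γ / w²` and the functional `L φ = Q u (u φ)`.  Everything
after that is a statement about `CS`. -/

set_option autoImplicit false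

open MeasureTheory Set Filter Topology
open scoped ENNReal NNReal

namespace Crest.Agent.R241.Key

noncomputable section

universe u

/-- a finite measure with a carre du champ whose energy densities are a.e. bounded. -/
structure Cc (X : Type u) [MetricSpace X] [MeasurableSpace X] where
  μ : Measure X
  fin : IsFiniteMeasure μ
  Γ : (X → ℝ) → (X → ℝ) → X → ℝ
  meas : ∀ f g, Measurable (Γ f g)
  symm : ∀ f g, Lip f → Lip g → Γ f g =ᵐ[μ] Γ g f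
  add : ∀ f₁ f₂ g, Lip f₁ → Lip f₂ → Lip g →
    Γ (fun x => f₁ x + f₂ x) g =ᵐ[μ] fun x => Γ f₁ g x + Γ f₂ g x
  mul : ∀ f₁ f₂ g, Lip f₁ → Lip f₂ → Lip g →
    Γ (fun x => f₁ x * f₂ x) g =ᵐ[μ] fun x => f₁ x * Γ f₂ g x + f₂ x * Γ f₁ g x
  chain : ∀ (F : ℝ → ℝ) f g, ContDiff ℝ 1 F → Lip f → Lip g →
    Γ (fun x => F (f x)) g =ᵐ[μ] fun x => deriv F (f x) * Γ f g x
  nonneg : ∀ f, Lip f → ∀ᵐ x ∂μ, 0 ≤ Γ f f x
  bdd : ∀ f, Lip f → ∃ C : ℝ, ∀ᵐ x ∂μ, Γ f f x ≤ C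

instance {X : Type u} [MetricSpace X] [MeasurableSpace X] (C : Cc X) : IsFiniteMeasure C.μ := C.fin

instance {X : Type u} [MetricSpace X] [MeasurableSpace X] (V : DV X) : IsFiniteMeasure V.μ := V.fin

/-- a `DV` is a `Cc` (same `μ`, same `Γ`, both by `rfl`). -/
def _root_.Crest.Agent.R241.DV.cc {X : Type u} [MetricSpace X] [MeasurableSpace X] (V : DV X) :
    Cc X where
  μ := V.μ
  fin := V.fin
  Γ := V.Γ
  meas := V.meas
  symm := V.symm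
  add := V.add
  mul := V.mul
  chain := V.chain
  nonneg := V.nonneg
  bdd := fun f ⟨L, hL⟩ => ⟨(L : ℝ) ^ 2, V.le_lip f L hL⟩

/-- the quadratic form `∫ Γ f g + lam ∫ f g`. -/
def Cc.Q {X : Type u} [MetricSpace X] [MeasurableSpace X] (C : Cc X) (lam : ℝ) (f g : X → ℝ) : ℝ :=
  ∫ x, C.Γ f g x ∂C.μ + lam * ∫ x, f x * g x ∂C.μ

/-- `K(x) = a ∫₀¹ τ^(a-1) (1 + x τ)^(-(2a+2)) dτ`. -/
def Kf (a x : ℝ) : ℝ := a * ∫ τ in (0 : ℝ)..1, τ ^ (a - 1) * (1 + x * τ) ^ (-(2 * a + 2))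

/-- `a · Beta(a, a+2)`. -/
def aB (a : ℝ) : ℝ := a * ∫ t in Ioi (0 : ℝ), t ^ (a - 1) * (1 + t) ^ (-(2 * a + 2))

/-- the constants shared by all conformal structures of one problem. -/
structure Par where
  a : ℝ
  l : ℝ
  Y : ℝ
  Cu : ℝ
  c0 : ℝ
  ha : 0 < a
  hl : 0 ≤ l
  hY : 0 ≤ Y
  hCu : 0 ≤ Cu
  hc0 : 0 < c0

/-- upper density bound. -/
def Up {X : Type u} [MetricSpace X] [MeasurableSpace X] (a l Cu : ℝ) (μ : Measure X) : Prop :=
  ∀ (p : X) (t : ℝ), 0 < t → μ.real {q | Dx l p q < t} ≤ Cu * t ^ (a + 1)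

/-- lower density bound, in the form of concentration of the kernels `(D + s)^(-(a+2))`. -/
def Low {X : Type u} [MetricSpace X] [MeasurableSpace X] (a l c0 : ℝ) (μ : Measure X) : Prop :=
  ∀ᵐ q ∂μ, ∀ r > (0 : ℝ), ∀ c < c0, ∀ᶠ s in 𝓝[>] (0 : ℝ),
    c ≤ (2 * s - l * s ^ 2) * ∫ p in Metric.ball q r, (Dx l q p + s) ^ (-(a + 2)) ∂μ

/-- the conformal structure given by a normalised positive `ε`-minimiser `u = w ^ a`. -/
structure CS (X : Type u) [MetricSpace X] [MeasurableSpace X] (P : Par) (ε : ℝ) extends Cc X where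
  prob : IsProbabilityMeasure μ
  L : (X → ℝ) → ℝ
  L_add : ∀ f g, Lip f → Lip g → L (fun x => f x + g x) = L f + L g
  L_smul : ∀ (c : ℝ) f, Lip f → L (fun x => c * f x) = c * L f
  w : X → ℝ
  w_lip : Lip w
  w_pos : ∀ x, 0 < w x
  μ0 : Measure X
  fin0 : IsFiniteMeasure μ0
  dens : μ = μ0.withDensity fun x => ENNReal.ofReal (w x ^ (2 * P.a + 2))
  sob : ∀ α, Lip α → P.Y * (∫ x, |α x| ^ ((2 * P.a + 2) / P.a) ∂μ) ^ (P.a / (P.a + 1)) ≤
    ∫ x, Γ α α x ∂μ + L (fun x => α x * α x)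
  L_one : L (fun _ => 1) ≤ P.Y + ε
  L_sq : ∀ (γ : X → ℝ) (c : ℝ), Lip γ → (∀ x, |γ x| ≤ c) →
    L (fun x => γ x * γ x) ≤ 2 * c ^ 2 * L (fun _ => 1) + ∫ x, Γ γ γ x ∂μ
  sup : ∀ (p : X) (s : ℝ), 0 < s → ∀ β : X → ℝ, Lip β → (∀ x, 0 ≤ β x) →
    P.a * (P.a + 1) * (2 * s - P.l * s ^ 2) *
        ∫ x, β x * (w x * (Dx P.l p x + s)) ^ (-(P.a + 2)) ∂μ ≤
      ∫ x, Γ (fun x => (w x * (Dx P.l p x + s)) ^ (-P.a)) β x ∂μ +
        L (fun x => (w x * (Dx P.l p x + s)) ^ (-P.a) * β x)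
  up : Up P.a P.l P.Cu μ0
  low : Low P.a P.l P.c0 μ0

namespace CS
variable {X : Type u} [MetricSpace X] [MeasurableSpace X] {P : Par} {ε : ℝ}

instance (C : CS X P ε) : IsProbabilityMeasure C.μ := C.prob

instance (C : CS X P ε) : IsFiniteMeasure C.μ0 := C.fin0

/-- the conformal energy `Q (u α) (u β)`. -/
def E (C : CS X P ε) (α β : X → ℝ) : ℝ := ∫ x, C.Γ α β x ∂C.μ + C.L (fun x => α x * β x)

/-- the conformal (regularised) squared distance `w(p) w(q) (D(p,q) + s)`. -/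
def ρ (C : CS X P ε) (s : ℝ) (p q : X) : ℝ := C.w p * C.w q * (Dx P.l p q + s)

/-- the truncated Green potential of the probability measure. -/
def J (C : CS X P ε) (δ : ℝ) (p : X) : ℝ := ∫ q, (max (C.ρ 0 p q) δ) ^ (-P.a) ∂C.μ

/-- an `ε`-structure is an `ε'`-structure for `ε ≤ ε'`. -/
def mono (C : CS X P ε) {ε' : ℝ} (h : ε ≤ ε') : CS X P ε' :=
  { C with L_one := C.L_one.trans (by linarith) }

end CS

/-- the bound for the mean of `ρ`: `(1/2) (aB c0 / k²)^(-1/a)` with `k² = Y / (a (a+1))`. -/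
def Par.Φ (P : Par) : ℝ := 1 / 2 * (aB P.a * (P.a * (P.a + 1) * P.c0 / P.Y)) ^ (-1 / P.a)

end

end Crest.Agent.R241.Key
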