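import Crest.Agent.R241.KeyCalc

/-! Row 241, block KEY: approximate Euler-Lagrange equation. -/

set_option autoImplicit false

open MeasureTheory Set Filter Topology
open scoped ENNReal NNReal

namespace Crest.Agent.R241.Key

open Crest.GeometryTopology.Submanifold

noncomputable section

universe u

variable {X : Type u} [MetricSpace X] [CompactSpace X] [MeasurableSpace X] [BorelSpace X]
  {P : Par} {ε : ℝ}

namespace CS
variable (C : CS X P ε)

private theorem h30_meas : Measurable fun x => ENNReal.ofReal (C.w x ^ (2 * P.a + 2)) :=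
  (lip_cont (lip_rpow C.w_lip C.w_pos _)).measurable.ennreal_ofReal

theorem integral_eq (g : X → ℝ) :
    ∫ x, g x ∂C.μ = ∫ x, C.w x ^ (2 * P.a + 2) * g x ∂C.μ0 := by
  rw [C.dens, integral_withDensity_eq_integral_toReal_smul C.h30_meas
    (Eventually.of_forall fun _ => ENNReal.ofReal_lt_top)]
  refine integral_congr_ae (Eventually.of_forall fun x => ?_)
  simp only [ENNReal.toReal_ofReal (Real.rpow_nonneg (C.w_pos x).le _), smul_eq_mul]

theorem setIntegral_eq (g : X → ℝ) {U : Set X} (hU : MeasurableSet U) :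
    ∫ x in U, g x ∂C.μ = ∫ x in U, C.w x ^ (2 * P.a + 2) * g x ∂C.μ0 := by
  rw [← integral_indicator hU, ← integral_indicator hU, C.integral_eq]
  refine integral_congr_ae (Eventually.of_forall fun x => ?_)
  by_cases hx : x ∈ U <;> simp [hx]

theorem ae_of_ae0 {p : X → Prop} (h : ∀ᵐ x ∂C.μ0, p x) : ∀ᵐ x ∂C.μ, p x := by
  rw [C.dens]
  exact (withDensity_absolutelyContinuous _ _).ae_le h

theorem ρ_nonneg {s : ℝ} (hs : 0 ≤ s) (p q : X) : 0 ≤ C.ρ s p q := by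
  exact mul_nonneg (mul_pos (C.w_pos p) (C.w_pos q)).le (add_nonneg (Dx_nonneg P.hl p q) hs)

theorem ρ_pos {s : ℝ} (hs : 0 < s) (p q : X) : 0 < C.ρ s p q := by
  exact mul_pos (mul_pos (C.w_pos p) (C.w_pos q)) (Dx_add_pos P.hl p q hs)

theorem ρ_comm (s : ℝ) (p q : X) : C.ρ s p q = C.ρ s q p := by
  unfold ρ
  rw [Dx_comm P.l p q, mul_comm (C.w p)]

theorem ρ_mono {s t : ℝ} (h : s ≤ t) (p q : X) : C.ρ s p q ≤ C.ρ t p q := by
  exact mul_le_mul_of_nonneg_left (by linarith) (mul_pos (C.w_pos p) (C.w_pos q)).le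

theorem continuous_ρ (s : ℝ) : Continuous fun z : X × X => C.ρ s z.1 z.2 := by
  have hw := lip_cont C.w_lip
  exact ((hw.comp continuous_fst).mul (hw.comp continuous_snd)).mul
    ((continuous_Dx P.hl).add continuous_const)

theorem lip_ρ (s : ℝ) (p : X) : Lip (C.ρ s p) := by
  exact lip_mul (lip_const_mul _ C.w_lip) (lip_add (lip_Dx P.hl p) (lip_const s))

theorem ρ_bdd (s : ℝ) : ∃ R : ℝ, 0 ≤ R ∧ ∀ p q, C.ρ s p q ≤ R := by
  obtain ⟨R, hR, h⟩ := cont_bdd (X := X × X) (C.continuous_ρ s)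
  exact ⟨R, hR, fun p q => (le_abs_self _).trans (h (p, q))⟩

theorem continuous_J {δ : ℝ} (hδ : 0 < δ) : Continuous (C.J δ) := by
  have hc : Continuous fun z : X × X => (max (C.ρ 0 z.1 z.2) δ) ^ (-P.a) :=
    ((C.continuous_ρ 0).max continuous_const).rpow_const fun z =>
      Or.inl (hδ.trans_le (le_max_right _ _)).ne'
  refine continuous_of_dominated (bound := fun _ => δ ^ (-P.a))
    (fun p => (hc.comp (Continuous.prodMk_right p)).aestronglyMeasurable)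
    (fun p => Eventually.of_forall fun q => ?_) (integrable_const _)
    (Eventually.of_forall fun q => hc.comp (Continuous.prodMk_left q))
  rw [Real.norm_of_nonneg (Real.rpow_nonneg (hδ.le.trans (le_max_right _ _)) _)]
  exact Real.rpow_le_rpow_of_nonpos hδ (le_max_right _ _) (by linarith [P.ha])

theorem E_nonneg {α : X → ℝ} (hα : Lip α) : 0 ≤ C.E α α := by
  refine le_trans ?_ (C.sob α hα)
  exact mul_nonneg P.hY (Real.rpow_nonneg
    (integral_nonneg fun x => Real.rpow_nonneg (abs_nonneg _) _) _)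

theorem E_add_left {α₁ α₂ β : X → ℝ} (h₁ : Lip α₁) (h₂ : Lip α₂) (hβ : Lip β) :
    C.E (fun x => α₁ x + α₂ x) β = C.E α₁ β + C.E α₂ β := by
  have h1 : (fun x => (α₁ x + α₂ x) * β x) = fun x => α₁ x * β x + α₂ x * β x := by
    funext x; ring
  simp only [CS.E]
  rw [h1, C.L_add _ _ (lip_mul h₁ hβ) (lip_mul h₂ hβ), integral_congr_ae (C.add α₁ α₂ β h₁ h₂ hβ),
    integral_add (C.toCc.integrable h₁ hβ) (C.toCc.integrable h₂ hβ)]
  ring

theorem E_smul_left (c : ℝ) {α β : X → ℝ} (hα : Lip α) (hβ : Lip β) :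
    C.E (fun x => c * α x) β = c * C.E α β := by
  have h1 : (fun x => (c * α x) * β x) = fun x => c * (α x * β x) := by
    funext x; ring
  simp only [CS.E]
  rw [h1, C.L_smul c _ (lip_mul hα hβ), integral_congr_ae (C.toCc.smul_left c hα hβ),
    integral_const_mul]
  ring

theorem E_comm {α β : X → ℝ} (hα : Lip α) (hβ : Lip β) : C.E α β = C.E β α := by
  have h1 : (fun x => α x * β x) = fun x => β x * α x := by
    funext x; ring
  simp only [CS.E]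
  rw [h1, integral_congr_ae (C.symm α β hα hβ)]

theorem E_one {φ : X → ℝ} (hφ : Lip φ) : C.E (fun _ => 1) φ = C.L φ := by
  simp only [CS.E, one_mul]
  rw [integral_congr_ae (C.toCc.const_left 1 hφ)]
  simp

theorem h95_expand {φ : X → ℝ} (hφ : Lip φ) (t : ℝ) :
    C.E (fun x => 1 + t * φ x) (fun x => 1 + t * φ x) =
      C.E φ φ * (t * t) + 2 * C.L φ * t + C.L (fun _ => 1) := by
  have h1 : Lip (fun _ : X => (1 : ℝ)) := lip_const 1
  have h2 : Lip (fun x => t * φ x) := lip_const_mul t hφ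
  have h3 : Lip (fun x => 1 + t * φ x) := lip_add h1 h2
  have e1 : C.E (fun _ => 1) (fun x => 1 + t * φ x) = C.L (fun _ => 1) + t * C.L φ := by
    rw [C.E_one h3, C.L_add _ _ h1 h2, C.L_smul t _ hφ]
  have e2 : C.E φ (fun x => 1 + t * φ x) = C.L φ + t * C.E φ φ := by
    rw [C.E_comm hφ h3, C.E_add_left h1 h2 hφ, C.E_one hφ, C.E_smul_left t hφ hφ]
  rw [C.E_add_left h1 h2 h3, e1, C.E_smul_left t hφ h3, e2]
  ring

theorem h95_jensen {α : X → ℝ} (hα : Lip α) : P.Y * (∫ x, α x ∂C.μ) ^ 2 ≤ C.E α α := by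
  refine le_trans (mul_le_mul_of_nonneg_left ?_ P.hY) (C.sob α hα)
  have ha := P.ha
  have hp : 1 ≤ (2 * P.a + 2) / P.a := by
    rw [le_div_iff₀ ha]
    linarith
  have hc : Continuous fun x => |α x| := (lip_cont hα).abs
  have hc2 : Continuous fun y : ℝ => y ^ ((2 * P.a + 2) / P.a) :=
    Real.continuous_rpow_const (by linarith)
  have h1 : (∫ x, |α x| ∂C.μ) ^ ((2 * P.a + 2) / P.a) ≤
      ∫ x, |α x| ^ ((2 * P.a + 2) / P.a) ∂C.μ :=
    (convexOn_rpow hp).map_integral_le hc2.continuousOn isClosed_Ici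
      (Eventually.of_forall fun x => Set.mem_Ici.2 (abs_nonneg (α x))) (integrable_cont _ hc)
      (integrable_cont _ (hc2.comp hc))
  have h2 : 0 ≤ ∫ x, |α x| ∂C.μ := integral_nonneg fun x => abs_nonneg _
  have h3 := Real.rpow_le_rpow (Real.rpow_nonneg h2 _) h1
    (show 0 ≤ P.a / (P.a + 1) by positivity)
  have h4 : (2 * P.a + 2) / P.a * (P.a / (P.a + 1)) = 2 := by
    field_simp
  rw [← Real.rpow_mul h2, h4, Real.rpow_two] at h3
  refine le_trans ?_ h3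
  rw [← sq_abs (∫ x, α x ∂C.μ)]
  exact pow_le_pow_left₀ (abs_nonneg _) abs_integral_le_integral_abs 2

/-- Cauchy-Schwarz for the nonnegative form `E`. -/
theorem L_sq_le {φ : X → ℝ} (hφ : Lip φ) : C.L φ ^ 2 ≤ (P.Y + ε) * C.E φ φ := by
  have h0 : ∀ t : ℝ, 0 ≤ C.E φ φ * (t * t) + 2 * C.L φ * t + C.L (fun _ => 1) := fun t => by
    rw [← C.h95_expand hφ t]
    exact C.E_nonneg (lip_add (lip_const 1) (lip_const_mul t hφ))
  have h1 := discrim_le_zero h0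
  have h2 := C.E_nonneg hφ
  have h3 := mul_le_mul_of_nonneg_right C.L_one h2
  rw [discrim] at h1
  nlinarith

/-- `E α α - Y (∫ α)²` is a nonnegative form (Jensen/Hoelder), whose value at `1` is `≤ ε`. -/
theorem el {φ : X → ℝ} (hφ : Lip φ) : (C.L φ - P.Y * ∫ x, φ x ∂C.μ) ^ 2 ≤ ε * C.E φ φ := by
  have h0 : ∀ t : ℝ, 0 ≤ (C.E φ φ - P.Y * (∫ x, φ x ∂C.μ) ^ 2) * (t * t) +
      2 * (C.L φ - P.Y * ∫ x, φ x ∂C.μ) * t + (C.L (fun _ => 1) - P.Y) := fun t => by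
    have h1 := C.h95_jensen (lip_add (lip_const 1) (lip_const_mul t hφ))
    have h2 : ∫ x, (1 + t * φ x) ∂C.μ = 1 + t * ∫ x, φ x ∂C.μ := by
      rw [integral_add (integrable_const _)
        ((integrable_cont _ (lip_cont hφ)).const_mul t), integral_const_mul]
      simp
    rw [C.h95_expand hφ t, h2] at h1
    nlinarith
  have h1 := discrim_le_zero h0
  have h2 := C.h95_jensen hφ
  have h3 := C.L_one
  have h4 := h0 0
  have h5 : 0 ≤ P.Y * (∫ x, φ x ∂C.μ) ^ 2 := mul_nonneg P.hY (sq_nonneg _)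
  have h6 : (C.E φ φ - P.Y * (∫ x, φ x ∂C.μ) ^ 2) * (C.L (fun _ => 1) - P.Y) ≤ C.E φ φ * ε :=
    mul_le_mul (by linarith) (by linarith) (by linarith) (by linarith)
  rw [discrim] at h1
  nlinarith

theorem E_le {γ : X → ℝ} {c : ℝ} (hγ : Lip γ) (hc : ∀ x, |γ x| ≤ c) :
    C.E γ γ ≤ 2 * c ^ 2 * (P.Y + ε) + 2 * ∫ x, C.Γ γ γ x ∂C.μ := by
  have h1 := C.L_sq γ c hγ hc
  have h2 := mul_le_mul_of_nonneg_left C.L_one (show 0 ≤ 2 * c ^ 2 by positivity)
  simp only [CS.E]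
  linarith

/-- the supersolution property in terms of `ρ`. -/
theorem sup_ρ (p : X) {s : ℝ} (hs : 0 < s) {β : X → ℝ} (hβ : Lip β) (h0 : ∀ x, 0 ≤ β x) :
    P.a * (P.a + 1) * (2 * s - P.l * s ^ 2) *
        ∫ x, β x * (C.w p ^ 2 * C.ρ s p x ^ (-(P.a + 2))) ∂C.μ ≤
      C.E (fun x => C.ρ s p x ^ (-P.a)) β := by
  have hp := C.w_pos p
  have hpos : ∀ x, 0 < C.w x * (Dx P.l p x + s) := fun x =>
    mul_pos (C.w_pos x) (Dx_add_pos P.hl p x hs)
  have hl : Lip fun x => (C.w x * (Dx P.l p x + s)) ^ (-P.a) :=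
    lip_rpow (lip_mul C.w_lip (lip_add (lip_Dx P.hl p) (lip_const s))) hpos _
  have e1 : (fun x => C.ρ s p x ^ (-P.a)) =
      fun x => C.w p ^ (-P.a) * (C.w x * (Dx P.l p x + s)) ^ (-P.a) := by
    funext x
    rw [ρ, mul_assoc, Real.mul_rpow hp.le (hpos x).le]
  have e2 : ∀ x, β x * (C.w p ^ 2 * C.ρ s p x ^ (-(P.a + 2))) =
      C.w p ^ (-P.a) * (β x * (C.w x * (Dx P.l p x + s)) ^ (-(P.a + 2))) := by
    intro x
    have e3 : C.w p ^ (-P.a) = C.w p ^ 2 * C.w p ^ (-(P.a + 2)) := by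
      rw [← Real.rpow_natCast, ← Real.rpow_add hp]
      congr 1
      push_cast
      ring
    rw [ρ, mul_assoc (C.w p), Real.mul_rpow hp.le (hpos x).le, e3]
    ring
  rw [e1, C.E_smul_left _ hl hβ]
  simp only [e2]
  rw [integral_const_mul, mul_left_comm]
  exact mul_le_mul_of_nonneg_left (C.sup p s hs β hβ h0) (Real.rpow_nonneg hp.le _)

end CS

/-- self-bounding test functions: `σ T ≤ L g ≤ √((Y+ε)(2c²(Y+ε) + 2 Cg T))` bounds `T`, and then
`el` applies to `g'`. -/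
theorem test_bound (P : Par) {c σ Cg : ℝ} (hσ : 0 < σ) (hCg : 0 ≤ Cg) : ∃ K : ℝ, 0 ≤ K ∧
    ∀ {ε : ℝ}, 0 ≤ ε → ε ≤ 1 → ∀ (C : CS X P ε) (g g' : X → ℝ) (T : ℝ), Lip g → Lip g' →
      (∀ x, |g x| ≤ c) → (∀ x, |g' x| ≤ c) → 0 ≤ T → ∫ x, C.Γ g g x ∂C.μ ≤ Cg * T →
      ∫ x, C.Γ g' g' x ∂C.μ ≤ Cg * T → σ * T ≤ C.L g →
      C.L g' ≤ P.Y * ∫ x, g' x ∂C.μ + K * √ε := by
  have hY := P.hY
  obtain ⟨T0, hT0⟩ : ∃ T0 : ℝ,
      T0 = 1 + (2 * c ^ 2 * (P.Y + 1) ^ 2 + 2 * Cg * (P.Y + 1)) / σ ^ 2 := ⟨_, rfl⟩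
  have hT1 : 1 ≤ T0 := by
    rw [hT0]
    exact le_add_of_nonneg_right (by positivity)
  refine ⟨√(2 * c ^ 2 * (P.Y + 1) + 2 * (Cg * T0)), Real.sqrt_nonneg _, ?_⟩
  intro ε h0 h1 C g g' T hg hg' hc hc' hT hG hG' hσT
  have hE : ∀ γ : X → ℝ, Lip γ → (∀ x, |γ x| ≤ c) → ∫ x, C.Γ γ γ x ∂C.μ ≤ Cg * T →
      C.E γ γ ≤ 2 * c ^ 2 * (P.Y + 1) + 2 * (Cg * T) := fun γ a b d => by
    have h2 := C.E_le a b
    have h3 : 2 * c ^ 2 * (P.Y + ε) ≤ 2 * c ^ 2 * (P.Y + 1) :=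
      mul_le_mul_of_nonneg_left (by linarith) (by positivity)
    linarith
  have hTT : T ≤ T0 := by
    by_contra hlt
    have hlt : T0 < T := not_le.1 hlt
    have h2 : (σ * T) ^ 2 ≤ C.L g ^ 2 := pow_le_pow_left₀ (by positivity) hσT 2
    have h3 : (P.Y + ε) * C.E g g ≤ (P.Y + 1) * (2 * c ^ 2 * (P.Y + 1) + 2 * (Cg * T)) :=
      mul_le_mul (by linarith) (hE g hg hc hG) (C.E_nonneg hg) (by linarith)
    have h4 := C.L_sq_le hg
    have h5 : 2 * c ^ 2 * (P.Y + 1) ^ 2 + 2 * Cg * (P.Y + 1) < T * σ ^ 2 := by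
      rw [← div_lt_iff₀ (by positivity)]
      linarith
    have h6 : 2 * c ^ 2 * (P.Y + 1) ^ 2 * 1 ≤ 2 * c ^ 2 * (P.Y + 1) ^ 2 * T :=
      mul_le_mul_of_nonneg_left (by linarith) (by positivity)
    have h7 := mul_lt_mul_of_pos_right h5 (show 0 < T by linarith)
    nlinarith
  have h2 : C.E g' g' ≤ 2 * c ^ 2 * (P.Y + 1) + 2 * (Cg * T0) := by
    have h3 := mul_le_mul_of_nonneg_left hTT hCg
    linarith [hE g' hg' hc' hG']
  have h3 : (C.L g' - P.Y * ∫ x, g' x ∂C.μ) ^ 2 ≤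
      (2 * c ^ 2 * (P.Y + 1) + 2 * (Cg * T0)) * ε := by
    rw [mul_comm _ ε]
    exact (C.el hg').trans (mul_le_mul_of_nonneg_left h2 h0)
  have h4 := Real.le_sqrt_of_sq_le h3
  rw [Real.sqrt_mul (by positivity)] at h4
  linarith

end

end Crest.Agent.R241.Key
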