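import Crest.Agent.R241.KeyDefs

/-! Row 241, block KEY: Lipschitz functions and the modified distance. -/

set_option autoImplicit false

open MeasureTheory Set Filter Topology
open scoped ENNReal NNReal

namespace Crest.Agent.R241.Key

open Crest.GeometryTopology.Submanifold

noncomputable section

universe u

variable {X : Type u} [MetricSpace X] {f g : X → ℝ} {l : ℝ}

theorem lip_const (c : ℝ) : Lip (fun _ : X => c) := by
  exact ⟨0, LipschitzWith.const c⟩

theorem lip_cont (hf : Lip f) : Continuous f := by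
  obtain ⟨K, hK⟩ := hf
  exact hK.continuous

theorem lip_add (hf : Lip f) (hg : Lip g) : Lip (fun x => f x + g x) := by
  obtain ⟨K, hK⟩ := hf
  obtain ⟨L, hL⟩ := hg
  exact ⟨K + L, hK.add hL⟩

theorem lip_neg (hf : Lip f) : Lip (fun x => -f x) := by
  obtain ⟨K, hK⟩ := hf
  exact ⟨K, hK.neg⟩

theorem lip_sub (hf : Lip f) (hg : Lip g) : Lip (fun x => f x - g x) := by
  obtain ⟨K, hK⟩ := hf
  obtain ⟨L, hL⟩ := hg
  exact ⟨K + L, hK.sub hL⟩

theorem lip_const_mul (c : ℝ) (hf : Lip f) : Lip (fun x => c * f x) := by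
  obtain ⟨K, hK⟩ := hf
  refine ⟨‖c‖₊ * K, LipschitzWith.of_dist_le_mul fun x y => ?_⟩
  have := hK.dist_le_mul x y
  rw [Real.dist_eq] at this ⊢
  rw [← mul_sub, abs_mul]
  push_cast
  rw [Real.norm_eq_abs, mul_assoc]
  exact mul_le_mul_of_nonneg_left this (abs_nonneg c)

theorem cont_bdd [CompactSpace X] (hf : Continuous f) : ∃ C : ℝ, 0 ≤ C ∧ ∀ x, |f x| ≤ C := by
  obtain ⟨C, hC⟩ := (isCompact_range hf).isBounded.exists_norm_le
  exact ⟨max C 0, le_max_right _ _, fun x => (hC _ ⟨x, rfl⟩).trans (le_max_left _ _)⟩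

theorem cont_pos_bdd [CompactSpace X] (hf : Continuous f) (h : ∀ x, 0 < f x) :
    ∃ m : ℝ, 0 < m ∧ ∀ x, m ≤ f x := by
  rcases isEmpty_or_nonempty X with hX | hX
  · exact ⟨1, one_pos, fun x => (hX.false x).elim⟩
  · obtain ⟨x, -, hx⟩ := isCompact_univ.exists_isMinOn univ_nonempty hf.continuousOn
    exact ⟨f x, h x, fun y => hx (mem_univ y)⟩

theorem lip_mul [CompactSpace X] (hf : Lip f) (hg : Lip g) : Lip (fun x => f x * g x) := by
  obtain ⟨A, hA0, hA⟩ := cont_bdd (lip_cont hf)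
  obtain ⟨B, hB0, hB⟩ := cont_bdd (lip_cont hg)
  obtain ⟨K, hK⟩ := hf
  obtain ⟨L, hL⟩ := hg
  refine ⟨⟨A * L + B * K, by positivity⟩, LipschitzWith.of_dist_le_mul fun x y => ?_⟩
  have h1 := hK.dist_le_mul x y
  have h2 := hL.dist_le_mul x y
  rw [Real.dist_eq] at h1 h2 ⊢
  have : f x * g x - f y * g y = f x * (g x - g y) + g y * (f x - f y) := by ring
  rw [this]
  refine (abs_add_le _ _).trans ?_
  rw [abs_mul, abs_mul]
  have h3 : |f x| * |g x - g y| ≤ A * (L * dist x y) :=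
    mul_le_mul (hA x) h2 (abs_nonneg _) hA0
  have h4 : |g y| * |f x - f y| ≤ B * (K * dist x y) :=
    mul_le_mul (hB y) h1 (abs_nonneg _) hB0
  show _ ≤ (A * L + B * K) * dist x y
  nlinarith

theorem lip_comp [CompactSpace X] {F : ℝ → ℝ} (hF : ContDiff ℝ 1 F) (hf : Lip f) :
    Lip (fun x => F (f x)) := by
  obtain ⟨A, hA0, hA⟩ := cont_bdd (lip_cont hf)
  obtain ⟨K, hK⟩ := hf
  obtain ⟨M, hM⟩ : ∃ M : ℝ≥0, LipschitzOnWith M F (Icc (-A) A) := by
    have hc : ContinuousOn (deriv F) (Icc (-A) A) := (hF.continuous_deriv le_rfl).continuousOn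
    obtain ⟨M, hM⟩ := isCompact_Icc.exists_bound_of_continuousOn hc
    refine ⟨⟨max M 0, le_max_right _ _⟩, (convex_Icc _ _).lipschitzOnWith_of_nnnorm_deriv_le
      (fun x _ => hF.differentiable one_ne_zero x) fun x hx => ?_⟩
    exact (hM x hx).trans (le_max_left _ _)
  refine ⟨M * K, ?_⟩
  rw [← lipschitzOnWith_univ]
  exact hM.comp hK.lipschitzOnWith fun x _ => abs_le.1 (hA x)

/-- a `C¹` function on `(0,∞)` agrees on `[m,∞)` with a global `C¹` function. -/
theorem ext_pos {F F' : ℝ → ℝ} (hF : ∀ x, 0 < x → HasDerivAt F (F' x) x)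
    (hF' : ContinuousOn F' (Ioi 0)) {m : ℝ} (hm : 0 < m) :
    ∃ G : ℝ → ℝ, ContDiff ℝ 1 G ∧ ∀ x, m ≤ x → G x = F x ∧ deriv G x = F' x := by
  have hc : Continuous fun t => F' (max t m) :=
    hF'.comp_continuous (continuous_id.max continuous_const) fun t =>
      lt_of_lt_of_le hm (le_max_right _ _)
  have hd : ∀ x, HasDerivAt (fun x => F m + ∫ t in m..x, F' (max t m)) (F' (max x m)) x :=
    fun x => (intervalIntegral.integral_hasDerivAt_right (hc.intervalIntegrable m x)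
        (hc.stronglyMeasurableAtFilter _ _) hc.continuousAt).const_add _
  refine ⟨fun x => F m + ∫ t in m..x, F' (max t m), ?_, fun x hx => ⟨?_, ?_⟩⟩
  · rw [contDiff_one_iff_deriv]
    refine ⟨fun x => (hd x).differentiableAt, ?_⟩
    have : deriv (fun x => F m + ∫ t in m..x, F' (max t m)) = fun x => F' (max x m) :=
      funext fun x => (hd x).deriv
    rw [this]; exact hc
  · have h1 : ∫ t in m..x, F' (max t m) = ∫ t in m..x, F' t := by
      refine intervalIntegral.integral_congr fun t ht => ?_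
      rw [uIcc_of_le hx] at ht
      simp only [max_eq_left ht.1]
    have h2 : ∫ t in m..x, F' t = F x - F m := by
      refine intervalIntegral.integral_eq_sub_of_hasDerivAt (fun t ht => ?_) ?_
      · rw [uIcc_of_le hx] at ht
        exact hF t (hm.trans_le ht.1)
      · refine (hF'.mono fun t ht => ?_).intervalIntegrable
        rw [uIcc_of_le hx] at ht
        exact hm.trans_le ht.1
    simp only [h1, h2]; ring
  · rw [(hd x).deriv, max_eq_left hx]

theorem lip_comp_pos [CompactSpace X] {F F' : ℝ → ℝ} (hF : ∀ x, 0 < x → HasDerivAt F (F' x) x)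
    (hF' : ContinuousOn F' (Ioi 0)) (hf : Lip f) (h : ∀ x, 0 < f x) : Lip (fun x => F (f x)) := by
  obtain ⟨m, hm, hmf⟩ := cont_pos_bdd (lip_cont hf) h
  obtain ⟨G, hG, hGF⟩ := ext_pos hF hF' hm
  have : (fun x => F (f x)) = fun x => G (f x) := funext fun x => ((hGF _ (hmf x)).1).symm
  rw [this]
  exact lip_comp hG hf

theorem lip_rpow [CompactSpace X] (hf : Lip f) (h : ∀ x, 0 < f x) (γ : ℝ) :
    Lip (fun x => f x ^ γ) := by
  exact lip_comp_pos (F := fun t => t ^ γ) (F' := fun t => γ * t ^ (γ - 1))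
    (fun x hx => Real.hasDerivAt_rpow_const (Or.inl hx.ne'))
    (continuousOn_const.mul (continuousOn_id.rpow_const fun x hx => Or.inl (ne_of_gt hx))) hf h

theorem contDiff_md (hl : 0 ≤ l) : ContDiff ℝ 1 (md l) := by
  rw [contDiff_one_iff_deriv]
  refine ⟨fun x => (Alm.hasDerivAt_md hl x).differentiableAt, ?_⟩
  have : deriv (md l) = sn l := funext fun x => (Alm.hasDerivAt_md hl x).deriv
  rw [this]; exact Alm.continuous_sn hl

theorem lip_Dx [CompactSpace X] (hl : 0 ≤ l) (p : X) : Lip (Dx l p) := by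
  exact lip_comp (contDiff_md hl) ⟨1, LipschitzWith.dist_right p⟩

theorem Dx_nonneg (hl : 0 ≤ l) (p q : X) : 0 ≤ Dx l p q := by
  exact Alm.md_nonneg hl _

theorem Dx_comm (l : ℝ) (p q : X) : Dx l p q = Dx l q p := by
  simp only [Dx, dist_comm]

theorem Dx_add_pos (hl : 0 ≤ l) (p q : X) {s : ℝ} (hs : 0 < s) : 0 < Dx l p q + s := by
  have := Dx_nonneg hl p q
  linarith

theorem continuous_Dx (hl : 0 ≤ l) : Continuous fun z : X × X => Dx l z.1 z.2 := by
  exact (Alm.continuous_md hl).comp continuous_dist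

theorem continuous_Dx_right (hl : 0 ≤ l) (p : X) : Continuous (Dx l p) := by
  exact (Alm.continuous_md hl).comp (continuous_const.dist continuous_id)

theorem Dx_bdd [CompactSpace X] (hl : 0 ≤ l) : ∃ R : ℝ, 0 ≤ R ∧ ∀ p q : X, Dx l p q ≤ R := by
  obtain ⟨C, hC0, hC⟩ := cont_bdd (continuous_Dx (X := X) hl)
  exact ⟨C, hC0, fun p q => (le_abs_self _).trans (hC (p, q))⟩

theorem half_sq_le_md (hl : 0 ≤ l) (r : ℝ) : r ^ 2 / 2 ≤ md l r := by
  rw [← Alm.md_abs, ← sq_abs]
  have key : ∀ r : ℝ, 0 ≤ r → r ^ 2 / 2 ≤ md l r := by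
    intro r hr
    have hd : ∀ x, HasDerivAt (fun x => md l x - x ^ 2 / 2) (sn l x - x) x := fun x => by
      refine ((Alm.hasDerivAt_md hl x).sub ((hasDerivAt_pow 2 x).div_const 2)).congr_deriv ?_
      simp
    have hm : MonotoneOn (fun x => md l x - x ^ 2 / 2) (Ici 0) := by
      refine monotoneOn_of_deriv_nonneg (convex_Ici 0) (fun x _ => (hd x).continuousAt.continuousWithinAt)
        (fun x _ => (hd x).differentiableAt.differentiableWithinAt) fun x hx => ?_
      rw [interior_Ici] at hx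
      rw [(hd x).deriv]
      linarith [Alm.le_sn hl (le_of_lt hx)]
    have := hm (mem_Ici.2 le_rfl) (mem_Ici.2 hr) hr
    simp only [Alm.md_zero] at this
    linarith
  exact key _ (abs_nonneg r)

theorem md_le_near (hl : 0 ≤ l) {η : ℝ} (hη : 0 < η) :
    ∃ r₁ : ℝ, 0 < r₁ ∧ ∀ r, 0 ≤ r → r ≤ r₁ → md l r ≤ (1 + η) * (r ^ 2 / 2) := by
  have hc : ContinuousAt (Alm.cs l) 0 := (Alm.continuous_cs l).continuousAt
  have h0 : Alm.cs l 0 = 1 := by simp [Alm.cs]
  obtain ⟨δ, hδ, hδ'⟩ := Metric.continuousAt_iff.1 hc η hη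
  refine ⟨δ / 2, half_pos hδ, fun r hr hr' => ?_⟩
  have hcs : ∀ x ∈ Icc (0 : ℝ) (δ / 2), Alm.cs l x ≤ 1 + η := fun x hx => by
    have := hδ' (x := x) (by rw [Real.dist_eq, sub_zero, abs_of_nonneg hx.1]; linarith [hx.2])
    rw [Real.dist_eq, h0] at this
    linarith [(abs_lt.1 this).2]
  have hd1 : ∀ x, HasDerivAt (fun x => (1 + η) * x - sn l x) ((1 + η) - Alm.cs l x) x := fun x => by
    refine (((hasDerivAt_id x).const_mul (1 + η)).sub (Alm.hasDerivAt_sn hl x)).congr_deriv ?_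
    simp
  have hm1 : MonotoneOn (fun x => (1 + η) * x - sn l x) (Icc 0 (δ / 2)) := by
    refine monotoneOn_of_deriv_nonneg (convex_Icc _ _)
      (fun x _ => (hd1 x).continuousAt.continuousWithinAt)
      (fun x _ => (hd1 x).differentiableAt.differentiableWithinAt) fun x hx => ?_
    rw [(hd1 x).deriv]
    linarith [hcs x (interior_subset hx)]
  have hsn : ∀ x ∈ Icc (0 : ℝ) (δ / 2), sn l x ≤ (1 + η) * x := fun x hx => by
    have := hm1 ⟨le_rfl, by linarith⟩ hx hx.1
    simp only [Alm.sn_zero] at this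
    linarith
  have hd2 : ∀ x, HasDerivAt (fun x => (1 + η) * (x ^ 2 / 2) - md l x) ((1 + η) * x - sn l x) x :=
    fun x => by
      refine ((((hasDerivAt_pow 2 x).div_const 2).const_mul (1 + η)).sub
        (Alm.hasDerivAt_md hl x)).congr_deriv ?_
      simp
  have hm2 : MonotoneOn (fun x => (1 + η) * (x ^ 2 / 2) - md l x) (Icc 0 (δ / 2)) := by
    refine monotoneOn_of_deriv_nonneg (convex_Icc _ _)
      (fun x _ => (hd2 x).continuousAt.continuousWithinAt)
      (fun x _ => (hd2 x).differentiableAt.differentiableWithinAt) fun x hx => ?_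
    rw [(hd2 x).deriv]
    linarith [hsn x (interior_subset hx)]
  have := hm2 ⟨le_rfl, by linarith⟩ ⟨hr, hr'⟩ hr
  simp only [Alm.md_zero] at this
  linarith

theorem md_two_mul (hl : 0 ≤ l) (r : ℝ) : md l (2 * r) = 2 * (2 + l * md l r) * md l r := by
  rcases hl.eq_or_lt with h | h
  · subst h; simp only [Alm.md_zero_left]; ring
  · rw [Alm.md_of_pos h, Alm.md_of_pos h, show √l * (2 * r) = 2 * (√l * r) by ring, Real.cosh_two_mul,
      Real.sinh_sq]
    field_simp
    ring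

/-- quasi-Ptolemy inequality. -/
theorem quasi_ptolemy [CompactSpace X] (hl : 0 ≤ l) : ∃ C : ℝ, 0 < C ∧ ∀ p q o₁ o₂ : X,
    Dx l p q * Dx l o₁ o₂ ≤ C * max (Dx l p o₁ * Dx l q o₂) (Dx l p o₂ * Dx l q o₁) := by
  obtain ⟨R, hR0, hR⟩ := Dx_bdd (X := X) hl
  set c : ℝ := 2 * (2 + l * R) with hc
  have hc0 : 0 < c := by positivity
  have dbl : ∀ x y u v : X, dist x y ≤ 2 * dist u v → Dx l x y ≤ c * Dx l u v := by
    intro x y u v h
    have h1 : Dx l x y ≤ md l (2 * dist u v) :=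
      Alm.md_le_of_abs_le hl (by rwa [abs_of_nonneg dist_nonneg, abs_of_nonneg (by positivity)])
    rw [md_two_mul hl] at h1
    refine h1.trans (mul_le_mul_of_nonneg_right ?_ (Dx_nonneg hl u v))
    have := mul_le_mul_of_nonneg_left (hR u v) hl
    simp only [Dx] at this
    linarith
  have fin : ∀ {x y u v x' y' u' v' : X}, dist x y ≤ 2 * dist u v → dist x' y' ≤ 2 * dist u' v' →
      Dx l x y * Dx l x' y' ≤ c ^ 2 * (Dx l u v * Dx l u' v') := by
    intro x y u v x' y' u' v' h h'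
    calc Dx l x y * Dx l x' y' ≤ (c * Dx l u v) * (c * Dx l u' v') :=
          mul_le_mul (dbl _ _ _ _ h) (dbl _ _ _ _ h') (Dx_nonneg hl _ _)
            (mul_nonneg hc0.le (Dx_nonneg hl _ _))
      _ = _ := by ring
  refine ⟨c ^ 2, by positivity, fun p q o₁ o₂ => ?_⟩
  have t1 := dist_triangle_right p q o₁
  have t2 := dist_triangle_right p q o₂
  have t3 := dist_triangle_left o₁ o₂ p
  have t4 := dist_triangle_left o₁ o₂ q
  have hA : ∀ {z : ℝ}, z ≤ c ^ 2 * (Dx l p o₁ * Dx l q o₂) →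
      z ≤ c ^ 2 * max (Dx l p o₁ * Dx l q o₂) (Dx l p o₂ * Dx l q o₁) := fun h =>
    h.trans (mul_le_mul_of_nonneg_left (le_max_left _ _) (by positivity))
  have hB : ∀ {z : ℝ}, z ≤ c ^ 2 * (Dx l p o₂ * Dx l q o₁) →
      z ≤ c ^ 2 * max (Dx l p o₁ * Dx l q o₂) (Dx l p o₂ * Dx l q o₁) := fun h =>
    h.trans (mul_le_mul_of_nonneg_left (le_max_right _ _) (by positivity))
  by_cases h1 : dist p o₁ ≤ dist q o₁ ∧ dist p o₁ ≤ dist p o₂
  · exact hB (by rw [mul_comm (Dx l p o₂)]; exact fin (by linarith [h1.1]) (by linarith [h1.2]))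
  by_cases h2 : dist q o₂ ≤ dist p o₂ ∧ dist q o₂ ≤ dist q o₁
  · exact hB (fin (by linarith [h2.1]) (by linarith [h2.2]))
  by_cases h3 : dist p o₂ ≤ dist q o₂ ∧ dist p o₂ ≤ dist p o₁
  · exact hA (by rw [mul_comm (Dx l p o₁)]; exact fin (by linarith [h3.1]) (by linarith [h3.2]))
  have h4 : dist q o₁ ≤ dist p o₁ ∧ dist q o₁ ≤ dist q o₂ := by
    simp only [not_and_or, not_le] at h1 h2 h3
    constructor <;> rcases h1 with h1 | h1 <;> rcases h2 with h2 | h2 <;>
      rcases h3 with h3 | h3 <;> linarith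
  exact hA (fin (by linarith [h4.1]) (by linarith [h4.2]))

end

end Crest.Agent.R241.Key
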