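import Crest.Agent.R241.KeyCen
import Crest.Agent.R241.KeyBary

/-! Row 241, block KEY: the sharp lower bound for the Sobolev constant. -/

set_option autoImplicit false

open MeasureTheory Set Filter Topology
open scoped ENNReal NNReal

namespace Crest.Agent.R241.Key

open Crest.GeometryTopology.Submanifold

noncomputable section

universe u

variable {X : Type u} [MetricSpace X] [CompactSpace X] [MeasurableSpace X] [BorelSpace X]
  {P : Par} {ε : ℝ}

private theorem km_id {a k M : ℝ} (ha : 0 < a) (hk : 0 < k) (hM : 0 < M) :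
    (k * (1 / 2 * (M / k) ^ (-1 / a))) ^ a = k ^ (a + 1) / (2 ^ a * M) := by
  have h1 : 0 < M / k := div_pos hM hk
  have h2 : (0 : ℝ) < 2 ^ a := by positivity
  rw [Real.mul_rpow hk.le (by positivity), Real.mul_rpow (by norm_num) (by positivity),
    ← Real.rpow_mul h1.le, show -1 / a * a = -1 by field_simp, Real.rpow_neg_one,
    Real.rpow_add_one hk.ne', Real.div_rpow (by norm_num) (by norm_num), Real.one_rpow]
  field_simp

private theorem km_Φ (P : Par) (hY : 0 < P.Y) :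
    (P.Y * P.Φ / (P.a * (P.a + 1))) ^ P.a =
      (P.Y / (P.a * (P.a + 1))) ^ (P.a + 1) / (2 ^ P.a * aB P.a * P.c0) := by
  have ha := P.ha
  have hc := P.hc0
  have hB := aB_pos ha
  have h := km_id (k := P.Y / (P.a * (P.a + 1))) (M := aB P.a * P.c0) ha (by positivity)
    (by positivity)
  rw [mul_assoc (2 ^ P.a), ← h]
  congr 1
  unfold Par.Φ
  rw [show aB P.a * P.c0 / (P.Y / (P.a * (P.a + 1))) =
    aB P.a * (P.a * (P.a + 1) * P.c0 / P.Y) by field_simp]
  ring

theorem Φ_pos (P : Par) (hY : 0 < P.Y) : 0 < P.Φ := by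
  have ha := P.ha
  have hc := P.hc0
  have hB := aB_pos ha
  unfold Par.Φ
  positivity

/-- Given `τ, T`, take `T' = max T (Cq T² / Φ)` (`Cq` from `quasi_ptolemy`) in `central`.  Either
`ρ ≤ Φ` on `Uᶜ × Uᶜ` (take `G = Uᶜ`), or `ρ o₁ o₂ > Φ` for good `o₁, o₂` and on
`G = Uᶜ ∩ {ρ o₁ ≤ T} ∩ {ρ o₂ ≤ T}` one has `ρ ≤ T'`; `m G ≥ 1 - τ - 2 (Φ+τ)/T` (Markov).  Use `bary`. -/
theorem le_Φ (P : Par) (hX : VarIneq P.l X) (h : ∀ ε : ℝ, 0 < ε → Nonempty (CS X P ε)) :
    P.a * (P.a + 1) ≤ P.Y * P.Φ := by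
  have hY := Y_pos P h
  have hΦ := Φ_pos P hY
  have ha := P.ha
  have hA : 0 < P.a * (P.a + 1) := by positivity
  obtain ⟨Cq, hCq, hq⟩ := quasi_ptolemy (X := X) P.hl
  have key : ∀ τ : ℝ, 0 < τ → P.a * (P.a + 1) * (1 - τ - 2 * ((P.Φ + τ) * τ)) ^ 3 ≤
      (P.Y + τ) * (P.Φ + τ) := by
    intro τ hτ
    set T : ℝ := τ⁻¹ with hTdef
    have hT : 0 < T := inv_pos.2 hτ
    set T' : ℝ := T + P.Φ + Cq * T ^ 2 / P.Φ with hT'def
    have h3 : 0 ≤ Cq * T ^ 2 / P.Φ := by positivity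
    have hT' : 0 < T' := by positivity
    have hTT : T ≤ T' := by linarith
    obtain ⟨ε₀, hε₀, hc⟩ := central (X := X) P hY hτ hT'
    have hε : 0 < min ε₀ τ := lt_min hε₀ hτ
    obtain ⟨C⟩ := h _ hε
    obtain ⟨U, hUo, hUm, hU⟩ := hc hε.le (min_le_left _ _) C
    have hcont : ∀ p, Continuous (C.ρ 0 p) := fun p => lip_cont (C.lip_ρ 0 p)
    have hint : ∀ p, Integrable (fun q => min (C.ρ 0 p q) T') C.μ := fun p =>
      integrable_cont _ ((hcont p).min continuous_const)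
    have hnn : ∀ p q, 0 ≤ min (C.ρ 0 p q) T' := fun p q => le_min (C.ρ_nonneg le_rfl p q) hT'.le
    -- Markov
    have markov : ∀ o, o ∉ U → C.μ.real {q | T < C.ρ 0 o q} ≤ (P.Φ + τ) * τ := by
      intro o ho
      have h1 := mul_meas_ge_le_integral_of_nonneg (ae_of_all _ (hnn o)) (hint o) T
      have h2 : C.μ.real {q | T < C.ρ 0 o q} ≤ C.μ.real {q | T ≤ min (C.ρ 0 o q) T'} :=
        measureReal_mono fun q hq' => le_min (le_of_lt hq') hTT
      have h4 : T * C.μ.real {q | T < C.ρ 0 o q} ≤ P.Φ + τ :=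
        (mul_le_mul_of_nonneg_left h2 hT.le).trans (h1.trans (hU o ho))
      have h5 := mul_le_mul_of_nonneg_right h4 hτ.le
      rw [show T * C.μ.real {q | T < C.ρ 0 o q} * τ = C.μ.real {q | T < C.ρ 0 o q} by
        rw [hTdef]; field_simp] at h5
      exact h5
    have hex : ∃ B : Set X, MeasurableSet B ∧ U ⊆ B ∧ C.μ.real B ≤ τ + 2 * ((P.Φ + τ) * τ) ∧
        ∀ p, p ∉ B → ∀ q, q ∉ B → C.ρ 0 p q ≤ T' := by
      by_cases hcase : ∀ o₁, o₁ ∉ U → ∀ o₂, o₂ ∉ U → C.ρ 0 o₁ o₂ ≤ P.Φ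
      · refine ⟨U, hUo.measurableSet, Subset.rfl, hUm.trans (le_add_of_nonneg_right (by positivity)),
          fun p hp q hq' => (hcase p hp q hq').trans (by linarith)⟩
      · push Not at hcase
        obtain ⟨o₁, h₁, o₂, h₂, ho⟩ := hcase
        refine ⟨U ∪ ({q | T < C.ρ 0 o₁ q} ∪ {q | T < C.ρ 0 o₂ q}),
          hUo.measurableSet.union
            ((isOpen_lt continuous_const (hcont o₁)).measurableSet.union
              (isOpen_lt continuous_const (hcont o₂)).measurableSet), subset_union_left, ?_, ?_⟩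
        · refine (measureReal_union_le _ _).trans (add_le_add hUm ?_)
          refine (measureReal_union_le _ _).trans ?_
          linarith [markov o₁ h₁, markov o₂ h₂]
        · intro p hp q hq'
          simp only [mem_union, mem_ofPred_eq, not_or, not_lt] at hp hq'
          have e1 : C.ρ 0 p q * C.ρ 0 o₁ o₂ ≤ Cq * T ^ 2 := by
            have hw : 0 < C.w p * C.w q * C.w o₁ * C.w o₂ := by
              have := C.w_pos p
              have := C.w_pos q
              have := C.w_pos o₁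
              have := C.w_pos o₂
              positivity
            have e2 := mul_le_mul_of_nonneg_left (hq p q o₁ o₂) hw.le
            have e3 : C.w p * C.w q * C.w o₁ * C.w o₂ *
                max (Dx P.l p o₁ * Dx P.l q o₂) (Dx P.l p o₂ * Dx P.l q o₁) ≤ T ^ 2 := by
              rw [mul_max_of_nonneg _ _ hw.le]
              refine max_le ?_ ?_
              · have := mul_le_mul hp.2.1 hq'.2.2 (C.ρ_nonneg le_rfl _ _) hT.le
                unfold CS.ρ at this
                rw [Dx_comm P.l o₁ p, Dx_comm P.l o₂ q] at this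
                nlinarith [this]
              · have := mul_le_mul hp.2.2 hq'.2.1 (C.ρ_nonneg le_rfl _ _) hT.le
                unfold CS.ρ at this
                rw [Dx_comm P.l o₂ p, Dx_comm P.l o₁ q] at this
                nlinarith [this]
            have e4 := mul_le_mul_of_nonneg_left e3 hCq.le
            unfold CS.ρ
            nlinarith [e2, e4]
          have e5 : C.ρ 0 p q * P.Φ ≤ Cq * T ^ 2 :=
            (mul_le_mul_of_nonneg_left ho.le (C.ρ_nonneg le_rfl p q)).trans e1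
          have e6 : C.ρ 0 p q ≤ Cq * T ^ 2 / P.Φ := (le_div_iff₀ hΦ).2 e5
          linarith
    obtain ⟨B, hBm, hUB, hBμ, hB⟩ := hex
    have hG := bary hX C hBm.compl
    have hGm : 1 - τ - 2 * ((P.Φ + τ) * τ) ≤ C.μ.real Bᶜ := by
      rw [measureReal_compl hBm, probReal_univ]
      linarith
    have hI : ∫ p in Bᶜ, ∫ q in Bᶜ, C.ρ 0 p q ∂C.μ ∂C.μ ≤ P.Φ + τ := by
      calc ∫ p in Bᶜ, ∫ q in Bᶜ, C.ρ 0 p q ∂C.μ ∂C.μ ≤ ∫ _p in Bᶜ, (P.Φ + τ) ∂C.μ := by
            refine integral_mono_of_nonneg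
              (ae_of_all _ fun p => integral_nonneg fun q => C.ρ_nonneg le_rfl p q)
              (integrable_const _) ((ae_restrict_iff' hBm.compl).2 (ae_of_all _ fun p hp => ?_))
            calc ∫ q in Bᶜ, C.ρ 0 p q ∂C.μ = ∫ q in Bᶜ, min (C.ρ 0 p q) T' ∂C.μ :=
                  setIntegral_congr_fun hBm.compl fun q hq' => (min_eq_left (hB p hp q hq')).symm
              _ ≤ ∫ q, min (C.ρ 0 p q) T' ∂C.μ :=
                  setIntegral_le_integral (hint p) (ae_of_all _ (hnn p))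
              _ ≤ P.Φ + τ := hU p fun hp' => hp (hUB hp')
        _ ≤ ∫ _p, (P.Φ + τ) ∂C.μ :=
            setIntegral_le_integral (integrable_const _) (ae_of_all _ fun _ => by positivity)
        _ = P.Φ + τ := by simp
    calc P.a * (P.a + 1) * (1 - τ - 2 * ((P.Φ + τ) * τ)) ^ 3
        ≤ P.a * (P.a + 1) * C.μ.real Bᶜ ^ 3 :=
          mul_le_mul_of_nonneg_left ((Odd.pow_le_pow (by decide)).2 hGm) hA.le
      _ ≤ (P.Y + min ε₀ τ) * ∫ p in Bᶜ, ∫ q in Bᶜ, C.ρ 0 p q ∂C.μ ∂C.μ := hG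
      _ ≤ (P.Y + min ε₀ τ) * (P.Φ + τ) := mul_le_mul_of_nonneg_left hI (by positivity)
      _ ≤ (P.Y + τ) * (P.Φ + τ) :=
          mul_le_mul_of_nonneg_right (by linarith [min_le_right ε₀ τ]) (by positivity)
  have t1 : Tendsto (fun τ : ℝ => P.a * (P.a + 1) * (1 - τ - 2 * ((P.Φ + τ) * τ)) ^ 3) (𝓝[>] 0)
      (𝓝 (P.a * (P.a + 1) * (1 - 0 - 2 * ((P.Φ + 0) * 0)) ^ 3)) :=
    (Continuous.tendsto (by fun_prop) 0).mono_left nhdsWithin_le_nhds
  have t2 : Tendsto (fun τ : ℝ => (P.Y + τ) * (P.Φ + τ)) (𝓝[>] 0)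
      (𝓝 ((P.Y + 0) * (P.Φ + 0))) :=
    (Continuous.tendsto (by fun_prop) 0).mono_left nhdsWithin_le_nhds
  have := le_of_tendsto_of_tendsto t1 t2 (eventually_mem_nhdsWithin.mono fun τ hτ => key τ hτ)
  simpa using this

theorem le_Φ_iff (P : Par) (hY : 0 < P.Y) : P.a * (P.a + 1) ≤ P.Y * P.Φ ↔
    2 ^ P.a * aB P.a * P.c0 ≤ (P.Y / (P.a * (P.a + 1))) ^ (P.a + 1) := by
  have ha := P.ha
  have hc := P.hc0
  have hB := aB_pos ha
  have hΦ := Φ_pos P hY
  have hA : 0 < P.a * (P.a + 1) := by positivity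
  have hM : 0 < 2 ^ P.a * aB P.a * P.c0 := by positivity
  rw [← one_le_div hA, ← one_le_div hM, ← km_Φ P hY,
    ← Real.rpow_le_rpow_iff zero_le_one (by positivity) ha, Real.one_rpow]

theorem Φ_le_iff (P : Par) (hY : 0 < P.Y) : P.Y * P.Φ ≤ P.a * (P.a + 1) ↔
    (P.Y / (P.a * (P.a + 1))) ^ (P.a + 1) ≤ 2 ^ P.a * aB P.a * P.c0 := by
  have ha := P.ha
  have hc := P.hc0
  have hB := aB_pos ha
  have hΦ := Φ_pos P hY
  have hA : 0 < P.a * (P.a + 1) := by positivity
  have hM : 0 < 2 ^ P.a * aB P.a * P.c0 := by positivity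
  rw [← div_le_one hA, ← div_le_one hM, ← km_Φ P hY,
    ← Real.rpow_le_rpow_iff (by positivity) zero_le_one ha, Real.one_rpow]

theorem main (P : Par) (hX : VarIneq P.l X) (h : ∀ ε : ℝ, 0 < ε → Nonempty (CS X P ε)) :
    2 ^ P.a * aB P.a * P.c0 ≤ (P.Y / (P.a * (P.a + 1))) ^ (P.a + 1) :=
  (le_Φ_iff P (Y_pos P h)).1 (le_Φ P hX h)

/-- for an exact minimiser the mean of `ρ` is at most `Φ` (`central` with `T ≥ sup ρ`, `τ → 0`). -/
theorem mean_le_Φ (C : CS X P 0) : ∫ p, ∫ q, C.ρ 0 p q ∂C.μ ∂C.μ ≤ P.Φ := by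
  have hY : 0 < P.Y := Y_pos P fun _ hε => ⟨C.mono hε.le⟩
  have hΦ := Φ_pos P hY
  obtain ⟨R, hR, hρ⟩ := C.ρ_bdd 0
  refine le_of_forall_pos_le_add fun η hη => ?_
  set τ : ℝ := η / (R + 1) with hτdef
  have hτ : 0 < τ := by positivity
  obtain ⟨ε₀, hε₀, hc⟩ := central (X := X) P hY hτ (show 0 < R + 1 by positivity)
  obtain ⟨U, hUo, hUm, hU⟩ := hc le_rfl hε₀.le C
  have hi : Integrable (U.indicator fun _ => R) C.μ :=
    (integrable_const R).indicator hUo.measurableSet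
  calc ∫ p, ∫ q, C.ρ 0 p q ∂C.μ ∂C.μ ≤ ∫ p, (P.Φ + τ + U.indicator (fun _ => R) p) ∂C.μ := by
        refine integral_mono_of_nonneg
          (ae_of_all _ fun p => integral_nonneg fun q => C.ρ_nonneg le_rfl p q)
          ((integrable_const _).add hi) (ae_of_all _ fun p => ?_)
        by_cases hp : p ∈ U
        · have : ∫ q, C.ρ 0 p q ∂C.μ ≤ ∫ _q, R ∂C.μ :=
            integral_mono_of_nonneg (ae_of_all _ fun q => C.ρ_nonneg le_rfl p q)
              (integrable_const _) (ae_of_all _ fun q => hρ p q)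
          simp only [integral_const, probReal_univ, one_smul] at this
          simp only [indicator_of_mem hp]
          linarith
        · have h1 := hU p hp
          have h2 : (fun q => min (C.ρ 0 p q) (R + 1)) = fun q => C.ρ 0 p q :=
            funext fun q => min_eq_left (by linarith [hρ p q])
          rw [h2] at h1
          simpa only [indicator_of_notMem hp, add_zero] using h1
    _ = P.Φ + τ + C.μ.real U * R := by
        rw [integral_add (integrable_const _) hi, integral_indicator_const _ hUo.measurableSet]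
        simp
    _ ≤ P.Φ + η := by
        have h1 := mul_le_mul_of_nonneg_right hUm hR
        have h2 : τ * (R + 1) = η := by rw [hτdef]; field_simp
        linarith

theorem main_eq (hX : VarIneq P.l X) (C : CS X P 0) {w₀ : ℝ} (hw : ∀ x, C.w x = w₀)
    (h : (P.Y / (P.a * (P.a + 1))) ^ (P.a + 1) ≤ 2 ^ P.a * aB P.a * P.c0) :
    ∃ (x : X) (v : ℝ), 0 < v ∧ (∀ᵐ p ∂C.μ, Dx P.l x p = v) ∧
      P.Y * (w₀ ^ 2 * (2 * v + P.l * v ^ 2)) = P.a * (P.a + 1) :=
  bary_eq hX C hw ((mul_le_mul_of_nonneg_left (mean_le_Φ C) P.hY).trans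
    ((Φ_le_iff P (Y_pos P fun _ hε => ⟨C.mono hε.le⟩)).2 h))

end

end Crest.Agent.R241.Key
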