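import Crest.Agent.R241.MIn
import Crest.Agent.R241.KMaj

/-! Row 241 [M] conversions, 5: chains and integral currents. -/

set_option autoImplicit false
set_option linter.unusedSectionVars false

namespace Crest.Agent.R241.Cv

open MeasureTheory Filter Topology Set
open scoped NNReal ENNReal
open Crest.GeometryTopology.Submanifold (Euc)
open Crest.GeometryTopology.MetricCurrent

noncomputable section

universe u
variable {X : Type u} [MetricSpace X] {k : ℕ}

/-- the family of a chain -/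
def toFam (C : Chain X k) : Fam X k where
  ι := C.ι
  cnt := C.cnt
  E := C.E
  φ := C.φ
  θ := C.θ
  w := fun i z => √(C.g i z).det
  mE := C.mE
  bE := C.bE
  lip := C.lip
  iθ := C.iθ
  mw := fun i => (measurable_det (C.mg i)).sqrt
  w0 := fun _ _ => Real.sqrt_nonneg _
  had := fun i _ _ hL => C.ae_abs_jdet_le i hL
  fin := C.fin

theorem act_toFam (C : Chain X k) (f : X → ℝ) (π : Fin k → X → ℝ) :
    (toFam C).act f π = C.act f π := rfl

theorem tot_toFam (C : Chain X k) : (toFam C).tot.toReal = C.mass := rfl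

/-- the family of charts with the Kirchheim Jacobian as weight -/
def ofCharts (hX : Quad X) (ι : Type) (hι : Countable ι) (E : ι → Set (Euc k))
    (φ : ι → Euc k → X) (θ : ι → Euc k → ℤ) (mE : ∀ i, MeasurableSet (E i))
    (bE : ∀ i, Bornology.IsBounded (E i)) (lip : ∀ i, ∃ L : ℝ≥0, LipschitzOnWith L (φ i) (E i))
    (iθ : ∀ i, IntegrableOn (fun z => (θ i z : ℝ)) (E i))
    (fin : ∑' i, ∫⁻ z in E i, ENNReal.ofReal (|(θ i z : ℝ)| * jac (E i) (φ i) z) ≠ ⊤) :
    Fam X k where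
  ι := ι
  cnt := hι
  E := E
  φ := φ
  θ := θ
  w := fun i => jac (E i) (φ i)
  mE := mE
  bE := bE
  lip := lip
  iθ := iθ
  mw := fun _ => measurable_jac _ _
  w0 := fun _ => jac_nonneg _ _
  had := fun i _ _ hL =>
    ae_abs_det_le hX (mE i) (lip i).choose_spec fun a => (hL a).lipschitzOnWith
  fin := fin

/-- Proof: `exists_ae_coframe`, and a surjection `ℕ → (Fin k → ℕ)` (`exists_surjective_nat`). -/
theorem sharp_jac (hX : Quad X) {E : Set (Euc k)} (hE : MeasurableSet E) {φ : Euc k → X}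
    (hφ : ∃ L : ℝ≥0, LipschitzOnWith L φ E) :
    ∃ π : ℕ → Fin k → X → ℝ, (∀ m a, LipschitzWith 1 (π m a)) ∧
      ∀ᵐ z ∂(volume.restrict E), ∀ ε > (0 : ℝ), ∃ m, (1 - ε) * jac E φ z ≤ |jp E φ (π m) z| := by
  obtain ⟨L, hL⟩ := hφ
  obtain ⟨x, hx⟩ := exists_ae_coframe hX hE hL
  obtain ⟨e, he⟩ := exists_surjective_nat (Fin k → ℕ)
  refine ⟨fun m a y => dist (x (e m a)) y, fun m a => LipschitzWith.dist_right _, ?_⟩
  filter_upwards [hx] with z hz ε hε
  obtain ⟨j, hj⟩ := hz ε hε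
  obtain ⟨m, rfl⟩ := he j
  exact ⟨m, hj⟩

/-- Proof: `sharp_jac` with `ε = 1/2` and `ae_abs_jdW_le` give `jac ≤ 2 * k! * L ^ k` a.e. on `E`. -/
theorem lintegral_jac_ne_top (hX : Quad X) {E : Set (Euc k)} (hE : MeasurableSet E)
    {φ : Euc k → X} (hφ : ∃ L : ℝ≥0, LipschitzOnWith L φ E) {θ : Euc k → ℤ}
    (hθ : IntegrableOn (fun z => (θ z : ℝ)) E) :
    ∫⁻ z in E, ENNReal.ofReal (|(θ z : ℝ)| * jac E φ z) ≠ ⊤ := by
  obtain ⟨π, hπ, h1⟩ := sharp_jac hX hE hφ
  obtain ⟨L, hL⟩ := hφ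
  have h2 : ∀ m, ∀ᵐ z ∂(volume.restrict E), |jp E φ (π m) z| ≤
      (k.factorial : ℝ) * ∏ _i : Fin k, ((1 * L : ℝ≥0) : ℝ) := fun m =>
    ae_abs_jdW_le hE (C := fun _ => 1 * L) fun a => (hπ m a).comp_lipschitzOnWith hL
  obtain ⟨C, hC⟩ : ∃ C : ℝ, C = (k.factorial : ℝ) * ∏ _i : Fin k, ((1 * L : ℝ≥0) : ℝ) := ⟨_, rfl⟩
  rw [← hC] at h2
  have h3 : ∀ᵐ z ∂(volume.restrict E),
      ENNReal.ofReal (|(θ z : ℝ)| * jac E φ z) ≤ ‖(θ z : ℝ) * (2 * C)‖ₑ := by
    filter_upwards [h1, ae_all_iff.2 h2] with z hz hz'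
    obtain ⟨m, hm⟩ := hz (1 / 2) one_half_pos
    rw [Real.enorm_eq_ofReal_abs, abs_mul]
    refine ENNReal.ofReal_le_ofReal (mul_le_mul_of_nonneg_left ?_ (abs_nonneg _))
    linarith [hz' m, le_abs_self (2 * C)]
  exact ne_top_of_le_ne_top (hθ.mul_const (2 * C)).2.ne (lintegral_mono_ae h3)

/-- a measurable modification of an integer density (`⌊mk⌋`) -/
theorem exists_measurable_int {α : Type*} [MeasurableSpace α] {ν : Measure α} {θ : α → ℤ}
    (h : AEStronglyMeasurable (fun z => (θ z : ℝ)) ν) :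
    ∃ θ' : α → ℤ, Measurable θ' ∧ θ =ᵐ[ν] θ' := by
  refine ⟨fun z => ⌊h.mk _ z⌋, h.measurable_mk.floor, ?_⟩
  filter_upwards [h.ae_eq_mk] with z hz
  rw [← hz, Int.floor_intCast]

variable [MeasurableSpace X] [BorelSpace X]

/-- One chart: apply `tot_le_mass` to `ofCharts` with `ι = Unit` (`tsum_fintype`/`tsum_unique`,
`lintegral_jac_ne_top`, `sharp_jac`); its `cur` is `chartAction E φ θ` (`chartAction_jp`). -/
theorem lintegral_jac_le_mass [SecondCountableTopology X] (hX : Quad X) {E : Set (Euc k)}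
    (hE : MeasurableSet E) (hb : Bornology.IsBounded E) {φ : Euc k → X}
    (hφ : ∃ L : ℝ≥0, LipschitzOnWith L φ E) (hi : InjOn φ E) {θ : Euc k → ℤ}
    (hθ : IntegrableOn (fun z => (θ z : ℝ)) E) :
    ∫⁻ z in E, ENNReal.ofReal (|(θ z : ℝ)| * jac E φ z) ≤
      ENNReal.ofReal (mass (chartAction E φ θ)) := by
  have hfin := lintegral_jac_ne_top hX hE hφ hθ
  obtain ⟨F, hF⟩ : ∃ F : Fam X k, F = ofCharts hX Unit inferInstance (fun _ => E) (fun _ => φ)
      (fun _ => θ) (fun _ => hE) (fun _ => hb) (fun _ => hφ) (fun _ => hθ)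
      (by rwa [tsum_fintype, Fintype.sum_unique]) := ⟨_, rfl⟩
  have hemb : F.Emb := by
    subst hF
    exact ⟨fun _ => hi, fun i j hij => absurd (Subsingleton.elim (α := Unit) i j) hij⟩
  have hsh : F.Sharp := by
    subst hF
    exact fun _ => sharp_jac hX hE hφ
  have hcur : F.cur = chartAction E φ θ := by
    funext f π
    by_cases h : IsTestPair f π
    · rw [F.cur_eq h, chartAction_jp E φ θ h]
      subst hF
      change ∑' _ : Unit, ∫ z in E, (θ z : ℝ) * f (φ z) * jp E φ π z = _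
      rw [tsum_fintype, Fintype.sum_unique]
    · rw [F.cur_zero h, chartAction, if_neg h]
  have htot : F.tot = ∫⁻ z in E, ENNReal.ofReal (|(θ z : ℝ)| * jac E φ z) := by
    subst hF
    change ∑' _ : Unit, ∫⁻ z in E, ENNReal.ofReal (|(θ z : ℝ)| * jac E φ z) = _
    rw [tsum_fintype, Fintype.sum_unique]
  have h1 := F.tot_le_mass hemb hsh
  rw [hcur, htot] at h1
  rw [← ENNReal.ofReal_toReal hfin]
  exact ENNReal.ofReal_le_ofReal h1

/-- INPUT conversion.  Proof: `F = ofCharts hX ℕ ..` for the charts of `hR` (finite by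
`lintegral_jac_le_mass`, `ENNReal.ofReal_tsum_of_nonneg`/`Summable.tsum_ofReal_ne_top`),
`F.cur = T`, `F.Emb`, `F.Sharp`; so `F.tot.toReal ≤ mass T` and `F.mu Kᶜ = 0`.  The chain has
`E' i = E i ∩ φ i ⁻¹' K`, `θ' i` from `exists_measurable_int`, `g i = gram (E i) (φ i)`
(`ae_isMD`, `IsMD.majAt`, `MajAt.mono`); its action is that of `F.restrict K`, i.e.
`F.act (K.indicator f) π` (`act_restrict`), and `F.act (Kᶜ.indicator f) π = 0` (`abs_act_le`). -/
theorem exists_chain [SecondCountableTopology X] (hX : Quad X) {T : Functional X k}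
    (hT : IsCurrent T) (hR : IsIntegerRectifiable T) {K : Set X} (hK : IsClosed K)
    (hs : IsSupportedIn K T) :
    ∃ C : Chain X k, C.In K ∧ (∀ f π, IsTestPair f π → C.act f π = T f π) ∧
      C.mass ≤ mass T := by
  obtain ⟨E, φ, θ, hE, hlip, hco, hθ, hdisj, -, hsum, hact⟩ := hR
  have hinj : ∀ i, InjOn (φ i) (E i) := by
    intro i z hz w hw he
    obtain ⟨C, hC⟩ := hco i
    have := hC z hz w hw
    rw [he, dist_self, mul_zero] at this
    exact dist_le_zero.1 this
  have hfin : ∑' i, ∫⁻ z in E i, ENNReal.ofReal (|(θ i z : ℝ)| * jac (E i) (φ i) z) ≠ ⊤ :=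
    ne_top_of_le_ne_top hsum.tsum_ofReal_ne_top (ENNReal.tsum_le_tsum fun i =>
      lintegral_jac_le_mass hX (hE i).1 (hE i).2 (hlip i) (hinj i) (hθ i))
  set F : Fam X k := ofCharts hX ℕ inferInstance E φ θ (fun i => (hE i).1) (fun i => (hE i).2)
    hlip hθ hfin with hF
  have hcur : F.cur = T := by
    funext f π
    by_cases h : IsTestPair f π
    · rw [F.cur_eq h, hact f π h]
      exact tsum_congr fun i => (chartAction_jp (E i) (φ i) (θ i) h).symm
    · rw [F.cur_zero h, hT.eq_zero_of_not_test f π h]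
  have hemb : F.Emb := ⟨hinj, hdisj⟩
  have hsh : F.Sharp := fun i => sharp_jac hX (hE i).1 (hlip i)
  have htot : F.tot.toReal ≤ mass T := hcur ▸ F.tot_le_mass hemb hsh
  have hmu : F.mu Kᶜ = 0 := F.mu_compl hemb hsh hK (hcur ▸ hs)
  have hKm := hK.measurableSet
  choose θ' hθ'm hθ'e using fun i => exists_measurable_int (hθ i).aestronglyMeasurable
  have hEm : ∀ i, MeasurableSet (E i ∩ φ i ⁻¹' K) := fun i => F.measurableSet_pre i hKm
  have hθ'' : ∀ i, ∀ᵐ z ∂(volume.restrict (E i ∩ φ i ⁻¹' K)), θ i z = θ' i z := fun i =>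
    ae_restrict_of_ae_restrict_of_subset inter_subset_left (hθ'e i)
  have hden : ∀ i, ∫⁻ z in E i ∩ φ i ⁻¹' K,
      ENNReal.ofReal (|(θ' i z : ℝ)| * √(gram (E i) (φ i) z).det) =
        ∫⁻ z in E i ∩ φ i ⁻¹' K, F.den i z := fun i =>
    lintegral_congr_ae ((hθ'' i).mono fun z hz => by
      simp only [← hz]; rfl)
  have hsum' : ∑' i, ∫⁻ z in E i ∩ φ i ⁻¹' K,
      ENNReal.ofReal (|(θ' i z : ℝ)| * √(gram (E i) (φ i) z).det) = F.mu K := by
    rw [F.mu_apply hKm]
    exact tsum_congr hden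
  let C : Chain X k :=
    { ι := ℕ
      cnt := inferInstance
      E := fun i => E i ∩ φ i ⁻¹' K
      φ := φ
      θ := θ'
      g := fun i => gram (E i) (φ i)
      mE := hEm
      bE := fun i => (hE i).2.subset inter_subset_left
      lip := fun i => ⟨_, (hlip i).choose_spec.mono inter_subset_left⟩
      mθ := hθ'm
      iθ := fun i => (IntegrableOn.mono_set (hθ i) inter_subset_left).congr
        ((hθ'' i).mono fun z hz => by simp only [hz])
      mg := fun i => measurable_gram _ _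
      psd := fun i => gram_psd _ _
      maj := fun i => by
        filter_upwards [ae_restrict_of_ae_restrict_of_subset inter_subset_left
          (ae_isMD hX (hE i).1 (hlip i).choose_spec), ae_restrict_mem (hEm i)] with z h1 h2
        exact (h1.majAt h2.1).mono inter_subset_left
      fin := hsum'.trans_ne (measure_ne_top _ _) }
  refine ⟨C, fun i z hz => hz.2, fun f π h => ?_, ?_⟩
  · have hπ : LipT π := h.2.2
    have hf := bm_of_test h
    have h1 : C.act f π = (F.restrict hKm).act f π := by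
      refine tsum_congr fun i => integral_congr_ae ((hθ'' i).mono fun z hz => ?_)
      change (θ' i z : ℝ) * f (φ i z) * jdet (E i ∩ φ i ⁻¹' K) (φ i) π z =
        (θ i z : ℝ) * f (φ i z) * jp (E i ∩ φ i ⁻¹' K) (φ i) π z
      rw [hz]; rfl
    have h2 : F.act (Kᶜ.indicator f) π = 0 := by
      choose L hL using hπ
      have h3 := F.abs_act_le (hf.indicator hKm.compl) hL
      have h4 : ∫ x, |Kᶜ.indicator f x| ∂F.mu = 0 := by
        refine integral_eq_zero_of_ae ?_
        have : ∀ᵐ x ∂F.mu, x ∈ K := hmu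
        filter_upwards [this] with x hx
        simp [hx]
      rw [h4, mul_zero] at h3
      exact abs_nonpos_iff.1 h3
    have h5 := F.act_add (hf.indicator hKm) (hf.indicator hKm.compl) hπ
    rw [indicator_self_add_compl, h2, add_zero] at h5
    rw [h1, F.act_restrict hKm f hπ, ← h5, ← F.cur_eq h, hcur]
  · refine le_trans ?_ htot
    change (∑' i, ∫⁻ z in E i ∩ φ i ⁻¹' K,
      ENNReal.ofReal (|(θ' i z : ℝ)| * √(gram (E i) (φ i) z).det)).toReal ≤ _
    rw [hsum', ← F.mu_univ]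
    exact ENNReal.toReal_mono (measure_ne_top _ _) (measure_mono (subset_univ _))

/-- OUTPUT conversion. -/
theorem exists_current [SecondCountableTopology X] [Nonempty X] (hX : Quad X) (C : Chain X k) :
    ∃ S : Functional X k, IsCurrent S ∧ IsIntegerRectifiable S ∧
      (∀ f π, IsTestPair f π → S f π = C.act f π) ∧ mass S ≤ C.mass ∧
      ∀ K, C.In K → IsSupportedIn K S :=
  ⟨(toFam C).cur, (toFam C).isCurrent, (toFam C).isIntegerRectifiable hX,
    fun _ _ h => (toFam C).cur_eq h, (toFam C).mass_cur_le,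
    fun _ hK => (toFam C).isSupportedIn hK⟩

end

end Crest.Agent.R241.Cv
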