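import Crest.Agent.R241.MFam

/-! Row 241 [M] conversions, 2: the functional of a family is a current. -/

set_option autoImplicit false
set_option linter.unusedSectionVars false

namespace Crest.Agent.R241.Cv

open MeasureTheory Filter Topology Set
open scoped NNReal ENNReal
open Crest.GeometryTopology.Submanifold (Euc)
open Crest.GeometryTopology.MetricCurrent

universe u
variable {X : Type u} [MetricSpace X] {k : ℕ}

private theorem h19_jp_update (E : Set (Euc k)) (φ : Euc k → X) (π : Fin k → X → ℝ) (i : Fin k)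
    (g : X → ℝ) (z : Euc k) :
    jp E φ (Function.update π i g) z =
      ((Matrix.of fun a => cv (fderivWithin ℝ (fun w => π a (φ w)) E z)).updateRow i
        (cv (fderivWithin ℝ (fun w => g (φ w)) E z))).det := by
  unfold jp jdW
  congr 1
  ext a b
  by_cases h : a = i
  · subst h
    simp
  · simp [Matrix.updateRow_ne h, Function.update_of_ne h]

private theorem h19_jp_self (E : Set (Euc k)) (φ : Euc k → X) (π : Fin k → X → ℝ) (i : Fin k)
    (z : Euc k) :
    jp E φ π z =
      ((Matrix.of fun a => cv (fderivWithin ℝ (fun w => π a (φ w)) E z)).updateRow i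
        (cv (fderivWithin ℝ (fun w => π i (φ w)) E z))).det := by
  rw [← h19_jp_update, Function.update_eq_self]

/-- Additivity in a coordinate.  Proof: at a.e. point `E` is uniquely differentiable
(`ae_uniqueDiffWithinAt`) and `π i ∘ φ`, `g ∘ φ` are differentiable within `E`
(`LipschitzOnWith.ae_differentiableWithinAt`), so the `i`-th row is additive
(`fderivWithin_add`); the three matrices are `Matrix.updateRow` of the matrix of `π`;
`Matrix.det_updateRow_add`. -/
theorem jp_add {E : Set (Euc k)} (hE : MeasurableSet E) {φ : Euc k → X}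
    (hφ : ∃ L : ℝ≥0, LipschitzOnWith L φ E) {π : Fin k → X → ℝ} (hπ : LipT π) (i : Fin k)
    {g : X → ℝ} (hg : ∃ K : ℝ≥0, LipschitzWith K g) :
    ∀ᵐ z ∂(volume.restrict E), jp E φ (Function.update π i (π i + g)) z =
      jp E φ π z + jp E φ (Function.update π i g) z := by
  obtain ⟨L, hL⟩ := hφ
  obtain ⟨K, hK⟩ := hg
  obtain ⟨K', hK'⟩ := hπ i
  filter_upwards [ae_uniqueDiffWithinAt E,
    (hK.comp_lipschitzOnWith hL).ae_differentiableWithinAt (μ := volume) hE,
    (hK'.comp_lipschitzOnWith hL).ae_differentiableWithinAt (μ := volume) hE] with z h1 h2 h3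
  have e : fderivWithin ℝ (fun w => (π i + g) (φ w)) E z =
      fderivWithin ℝ (fun w => π i (φ w)) E z + fderivWithin ℝ (fun w => g (φ w)) E z :=
    fderivWithin_add h1 h3 h2
  rw [h19_jp_update, h19_jp_update, h19_jp_self E φ π i, e, ← Matrix.det_updateRow_add]
  rfl

/-- Homogeneity in a coordinate (`fderivWithin_const_smul`, `Matrix.det_updateRow_smul`). -/
theorem jp_smul {E : Set (Euc k)} (hE : MeasurableSet E) {φ : Euc k → X}
    (hφ : ∃ L : ℝ≥0, LipschitzOnWith L φ E) {π : Fin k → X → ℝ} (hπ : LipT π) (i : Fin k)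
    (c : ℝ) :
    ∀ᵐ z ∂(volume.restrict E), jp E φ (Function.update π i (c • π i)) z = c * jp E φ π z := by
  obtain ⟨L, hL⟩ := hφ
  obtain ⟨K', hK'⟩ := hπ i
  filter_upwards [ae_uniqueDiffWithinAt E,
    (hK'.comp_lipschitzOnWith hL).ae_differentiableWithinAt (μ := volume) hE] with z h1 h3
  have e : fderivWithin ℝ (fun w => (c • π i) (φ w)) E z =
      c • fderivWithin ℝ (fun w => π i (φ w)) E z :=
    fderivWithin_const_smul h1 h3 c
  rw [h19_jp_update, h19_jp_self E φ π i, e, ← Matrix.det_updateRow_smul]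
  rfl

/-- Locality.  Proof: `π i ∘ φ = c` eventually in `𝓝[E] z` (continuity of `φ` within `E` at `z`), so
`Filter.EventuallyEq.fderivWithin_eq` makes the `i`-th row zero
(`Matrix.det_eq_zero_of_row_eq_zero`). -/
theorem jp_local {E : Set (Euc k)} {φ : Euc k → X} (hφ : ContinuousOn φ E) {π : Fin k → X → ℝ}
    {i : Fin k} {U : Set X} (hU : IsOpen U) {c : ℝ} (hc : ∀ x ∈ U, π i x = c) {z : Euc k}
    (hz : z ∈ E) (hzU : φ z ∈ U) : jp E φ π z = 0 := by
  have h1 : (fun w => π i (φ w)) =ᶠ[𝓝[E] z] fun _ => c := by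
    filter_upwards [(hφ z hz).preimage_mem_nhdsWithin (hU.mem_nhds hzU)] with w hw
    exact hc _ hw
  have h2 : fderivWithin ℝ (fun w => π i (φ w)) E z = 0 := by
    rw [h1.fderivWithin_eq (hc _ hzU)]
    simp
  unfold jp jdW
  refine Matrix.det_eq_zero_of_row_eq_zero i fun j => ?_
  simp only [Matrix.of_apply, h2]
  rfl

variable [MeasurableSpace X] [BorelSpace X]

namespace Fam

variable (F : Fam X k)

/-- Continuity in the coordinates.  Proof: `tendsto_tsum_of_dominated_convergence`; each term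
converges by `tendsto_integral_jdW` (with `g = θ * f ∘ φ`, `integrableOn_θf`); the bound is
`(ofReal (C ^ k) * ∫⁻ den * ‖f ∘ φ‖ₑ).toReal` (`enorm_term_le`), summable by `lintegral_mu`,
`lintegral_enorm_ne_top`, `ENNReal.summable_toReal`. -/
theorem act_tendsto {f : X → ℝ} (hf : Bm f) {π : Fin k → X → ℝ} {πs : ℕ → Fin k → X → ℝ}
    {C : ℝ≥0} (hC : ∀ j i, LipschitzWith C (πs j i))
    (hl : ∀ i x, Tendsto (fun j => πs j i x) atTop (𝓝 (π i x))) :
    Tendsto (fun j => F.act f (πs j)) atTop (𝓝 (F.act f π)) := by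
  unfold act
  refine tendsto_tsum_of_dominated_convergence
    (bound := fun i => (ENNReal.ofReal (∏ _a : Fin k, (C : ℝ)) *
      ∫⁻ z in F.E i, F.den i z * ‖f (F.φ i z)‖ₑ).toReal) ?_ (fun i => ?_)
    (Eventually.of_forall fun j i => ?_)
  · refine ENNReal.summable_toReal ?_
    rw [ENNReal.tsum_mul_left, ← F.lintegral_mu hf.1.enorm]
    exact ENNReal.mul_ne_top ENNReal.ofReal_ne_top (F.lintegral_enorm_ne_top hf)
  · obtain ⟨L, hL⟩ := F.lip i
    exact tendsto_integral_jdW (F.mE i) (F.bE i) (F.integrableOn_θf hf i)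
      (u := fun a w => π a (F.φ i w)) (us := fun j a w => πs j a (F.φ i w)) (C := C * L)
      (fun n a => (hC n a).comp_lipschitzOnWith hL) (fun a z _ => hl a _)
  · have h1 := F.enorm_term_le f (L := fun _ => C) (hC j) i subset_rfl
    rw [← toReal_enorm]
    refine ENNReal.toReal_mono (ENNReal.mul_ne_top ENNReal.ofReal_ne_top ?_) h1
    refine ne_top_of_le_ne_top (F.lintegral_enorm_ne_top hf) ?_
    rw [F.lintegral_mu hf.1.enorm]
    exact ENNReal.le_tsum (f := fun i => ∫⁻ z in F.E i, F.den i z * ‖f (F.φ i z)‖ₑ) i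

omit [MeasurableSpace X] [BorelSpace X] in
theorem h14_lip_smul (c : ℝ) {f : X → ℝ} {K : ℝ≥0} (h : LipschitzWith K f) :
    LipschitzWith (‖c‖₊ * K) (c • f) :=
  (lipschitzWith_smul c).comp h

omit [MeasurableSpace X] [BorelSpace X] in
theorem h14_lipT_update {π : Fin k → X → ℝ} (hπ : LipT π) (i : Fin k) {g : X → ℝ}
    (hg : ∃ K : ℝ≥0, LipschitzWith K g) : LipT (Function.update π i g) := by
  intro a
  by_cases h : a = i
  · subst h; simpa using hg
  · rw [Function.update_of_ne h]; exact hπ a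


/-- Proof: the eight fields; `cur_eq`, `cur_zero`, closure properties of `IsTestPair`, `act_add`,
`act_smul`, `jp_add`, `jp_smul` (with `integrableOn_itg`, `summable_term`), `act_tendsto`,
`jp_local`, `controls`. -/
theorem isCurrent : IsCurrent F.cur := by
  refine ⟨fun f π h => F.cur_zero h, fun f g π hf hg => ?_, fun c f π hf => ?_,
    fun f π i g hf hg => ?_, fun f π i c hf => ?_, fun f π πs hf hC hl => ?_,
    fun f π hf hl => ?_, ⟨F.mu, inferInstance, F.controls⟩⟩
  · have hfg : IsTestPair (f + g) π := by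
      obtain ⟨⟨K1, hK1⟩, ⟨C1, hC1⟩, hπ⟩ := hf
      obtain ⟨⟨K2, hK2⟩, ⟨C2, hC2⟩, -⟩ := hg
      exact ⟨⟨_, hK1.add hK2⟩, ⟨C1 + C2, fun x => (abs_add_le _ _).trans
        (add_le_add (hC1 x) (hC2 x))⟩, hπ⟩
    rw [F.cur_eq hfg, F.cur_eq hf, F.cur_eq hg]
    exact F.act_add (bm_of_test hf) (bm_of_test hg) hf.2.2
  · have hcf : IsTestPair (c • f) π := by
      obtain ⟨⟨K1, hK1⟩, ⟨C1, hC1⟩, hπ⟩ := hf
      refine ⟨⟨_, h14_lip_smul c hK1⟩, ⟨|c| * C1, fun x => ?_⟩, hπ⟩
      rw [Pi.smul_apply, smul_eq_mul, abs_mul]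
      exact mul_le_mul_of_nonneg_left (hC1 x) (abs_nonneg c)
    rw [F.cur_eq hcf, F.cur_eq hf, F.act_smul]
  · have h1 : LipT (Function.update π i (π i + g)) := by
      obtain ⟨K1, hK1⟩ := hf.2.2 i
      obtain ⟨K2, hK2⟩ := hg
      exact h14_lipT_update hf.2.2 i ⟨_, hK1.add hK2⟩
    have h2 : LipT (Function.update π i g) := h14_lipT_update hf.2.2 i hg
    have hb := bm_of_test hf
    rw [F.cur_eq ⟨hf.1, hf.2.1, h1⟩, F.cur_eq hf, F.cur_eq ⟨hf.1, hf.2.1, h2⟩]
    unfold act
    rw [← (F.summable_term hb hf.2.2).tsum_add (F.summable_term hb h2)]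
    refine tsum_congr fun n => ?_
    rw [← integral_add (F.integrableOn_itg hb hf.2.2 n) (F.integrableOn_itg hb h2 n)]
    refine integral_congr_ae ?_
    filter_upwards [jp_add (F.mE n) (F.lip n) hf.2.2 i hg] with z hz
    simp only [itg, hz]; ring
  · have h1 : LipT (Function.update π i (c • π i)) := by
      obtain ⟨K1, hK1⟩ := hf.2.2 i
      exact h14_lipT_update hf.2.2 i ⟨_, h14_lip_smul c hK1⟩
    rw [F.cur_eq ⟨hf.1, hf.2.1, h1⟩, F.cur_eq hf]
    unfold act
    rw [← tsum_mul_left]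
    refine tsum_congr fun n => ?_
    rw [← integral_const_mul]
    refine integral_congr_ae ?_
    filter_upwards [jp_smul (F.mE n) (F.lip n) hf.2.2 i c] with z hz
    simp only [itg, hz]; ring
  · obtain ⟨C, hC⟩ := hC
    have h1 : ∀ j, F.cur f (πs j) = F.act f (πs j) := fun j =>
      F.cur_eq ⟨hf.1, hf.2.1, fun a => ⟨C, hC j a⟩⟩
    rw [F.cur_eq hf]
    simp only [h1]
    exact F.act_tendsto (bm_of_test hf) hC hl
  · obtain ⟨i, U, c, hU, hs, hc⟩ := hl
    rw [F.cur_eq hf]
    unfold act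
    have h0 : ∀ n, ∫ z in F.E n, F.itg f π n z = 0 := fun n => by
      refine setIntegral_eq_zero_of_forall_eq_zero fun z hz => ?_
      by_cases hz0 : f (F.φ n z) = 0
      · simp [itg, hz0]
      · have := jp_local (F.lip n).choose_spec.continuousOn hU hc hz (hs hz0)
        simp [itg, this]
    simp [h0]

end Fam

end Crest.Agent.R241.Cv
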