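import Crest.Agent.R241.MDet
import Crest.Agent.R241.MCov

/-! Row 241 [M] conversions, 1: weighted families of Lipschitz charts and their currents. -/

set_option autoImplicit false
set_option linter.unusedSectionVars false

namespace Crest.Agent.R241.Cv

open MeasureTheory Filter Topology Set
open scoped NNReal ENNReal
open Crest.GeometryTopology.Submanifold (Euc)
open Crest.GeometryTopology.MetricCurrent

noncomputable section

universe u
variable {X : Type u} [MetricSpace X] {k : ℕ}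

/-- Jacobian determinant of the coordinates `π a ∘ φ` within `E`. -/
def jp (E : Set (Euc k)) (φ : Euc k → X) (π : Fin k → X → ℝ) (z : Euc k) : ℝ :=
  jdW E (fun a w => π a (φ w)) z

theorem chartAction_jp (E : Set (Euc k)) (φ : Euc k → X) (θ : Euc k → ℤ) {f : X → ℝ}
    {π : Fin k → X → ℝ} (h : IsTestPair f π) :
    chartAction E φ θ f π = ∫ z in E, (θ z : ℝ) * f (φ z) * jp E φ π z :=
  chartAction_eq E φ θ h

/-- all coordinates are Lipschitz -/
def LipT (π : Fin k → X → ℝ) : Prop := ∀ a, ∃ K : ℝ≥0, LipschitzWith K (π a)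

/-- bounded measurable -/
def Bm [MeasurableSpace X] (f : X → ℝ) : Prop := Measurable f ∧ ∃ C : ℝ, ∀ x, |f x| ≤ C

theorem bm_of_test [MeasurableSpace X] [BorelSpace X] {f : X → ℝ} {π : Fin k → X → ℝ}
    (h : IsTestPair f π) : Bm f :=
  ⟨h.1.choose_spec.continuous.measurable, h.2.1⟩

theorem Bm.indicator [MeasurableSpace X] {f : X → ℝ} (h : Bm f) {B : Set X}
    (hB : MeasurableSet B) : Bm (B.indicator f) := by
  obtain ⟨hm, C, hC⟩ := h
  refine ⟨hm.indicator hB, max C 0, fun x => ?_⟩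
  by_cases hx : x ∈ B
  · rw [indicator_of_mem hx]; exact (hC x).trans (le_max_left _ _)
  · rw [indicator_of_notMem hx, abs_zero]; exact le_max_right _ _

theorem lipOn_coord {E : Set (Euc k)} {φ : Euc k → X} (hφ : ∃ L : ℝ≥0, LipschitzOnWith L φ E)
    {π : Fin k → X → ℝ} (hπ : LipT π) (a : Fin k) :
    ∃ C, LipschitzOnWith C (fun w => π a (φ w)) E := by
  obtain ⟨L, hL⟩ := hφ
  obtain ⟨K, hK⟩ := hπ a
  exact ⟨_, hK.comp_lipschitzOnWith hL⟩

theorem jp_subset {A E : Set (Euc k)} (hA : MeasurableSet A) (hAE : A ⊆ E) {φ : Euc k → X}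
    (hφ : ∃ L : ℝ≥0, LipschitzOnWith L φ E) {π : Fin k → X → ℝ} (hπ : LipT π) :
    ∀ᵐ z ∂(volume.restrict A), jp A φ π z = jp E φ π z := by
  choose C hC using lipOn_coord hφ hπ
  rw [ae_restrict_iff' hA]
  filter_upwards [ae_all_iff.2 fun a => cov_fderiv_subset volume hA hAE (hC a)] with z hz hzA
  unfold jp jdW
  simp only [fun a => hz a hzA]

/-- A countable family of Lipschitz charts with integer densities and a weight `w` that bounds
all Jacobians. -/
structure Fam (X : Type u) [MetricSpace X] (k : ℕ) where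
  ι : Type
  cnt : Countable ι
  E : ι → Set (Euc k)
  φ : ι → Euc k → X
  θ : ι → Euc k → ℤ
  w : ι → Euc k → ℝ
  mE : ∀ i, MeasurableSet (E i)
  bE : ∀ i, Bornology.IsBounded (E i)
  lip : ∀ i, ∃ L : ℝ≥0, LipschitzOnWith L (φ i) (E i)
  iθ : ∀ i, IntegrableOn (fun z => (θ i z : ℝ)) (E i)
  mw : ∀ i, Measurable (w i)
  w0 : ∀ i z, 0 ≤ w i z
  had : ∀ i (π : Fin k → X → ℝ) (L : Fin k → ℝ≥0), (∀ a, LipschitzWith (L a) (π a)) →
    ∀ᵐ z ∂(volume.restrict (E i)), |jp (E i) (φ i) π z| ≤ (∏ a, (L a : ℝ)) * w i z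
  fin : ∑' i, ∫⁻ z in E i, ENNReal.ofReal (|(θ i z : ℝ)| * w i z) ≠ ⊤

namespace Fam

variable (F : Fam X k)

instance : Countable F.ι := F.cnt

/-- mass density -/
def den (i : F.ι) (z : Euc k) : ℝ≥0∞ := ENNReal.ofReal (|(F.θ i z : ℝ)| * F.w i z)

/-- the integrand -/
def itg (f : X → ℝ) (π : Fin k → X → ℝ) (i : F.ι) (z : Euc k) : ℝ :=
  (F.θ i z : ℝ) * f (F.φ i z) * jp (F.E i) (F.φ i) π z

/-- action on arbitrary pairs -/
def act (f : X → ℝ) (π : Fin k → X → ℝ) : ℝ := ∑' i, ∫ z in F.E i, F.itg f π i z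

open Classical in
/-- the associated functional -/
def cur : Functional X k := fun f π => if IsTestPair f π then F.act f π else 0

/-- total mass -/
def tot : ℝ≥0∞ := ∑' i, ∫⁻ z in F.E i, F.den i z

/-- the mass measure -/
def mu [MeasurableSpace X] : Measure X :=
  Measure.sum fun i => ((volume.restrict (F.E i)).withDensity (F.den i)).map (F.φ i)

/-- all charts map into `B` -/
def In (B : Set X) : Prop := ∀ i, ∀ z ∈ F.E i, F.φ i z ∈ B

/-- all charts are co-Lipschitz -/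
def CoLip : Prop :=
  ∀ i, ∃ C : ℝ, ∀ z ∈ F.E i, ∀ w ∈ F.E i, dist z w ≤ C * dist (F.φ i z) (F.φ i w)

theorem cur_eq {f : X → ℝ} {π : Fin k → X → ℝ} (h : IsTestPair f π) : F.cur f π = F.act f π :=
  if_pos h

theorem cur_zero {f : X → ℝ} {π : Fin k → X → ℝ} (h : ¬ IsTestPair f π) : F.cur f π = 0 :=
  if_neg h

theorem tot_ne_top : F.tot ≠ ⊤ := F.fin

theorem aem_den (i : F.ι) : AEMeasurable (F.den i) (volume.restrict (F.E i)) :=
  (((F.iθ i).aestronglyMeasurable.aemeasurable.abs).mul (F.mw i).aemeasurable).ennreal_ofReal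

variable [MeasurableSpace X] [BorelSpace X]

theorem aem_φ (i : F.ι) : AEMeasurable (F.φ i) (volume.restrict (F.E i)) :=
  (F.lip i).choose_spec.continuousOn.aemeasurable (F.mE i)

theorem measurableSet_pre (i : F.ι) {B : Set X} (hB : MeasurableSet B) :
    MeasurableSet (F.E i ∩ F.φ i ⁻¹' B) := by
  have h := (F.lip i).choose_spec.continuousOn.restrict.measurable hB
  have h2 := (MeasurableEmbedding.subtype_coe (F.mE i)).measurableSet_image.2 h
  convert h2 using 1
  ext z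
  simp only [mem_inter_iff, mem_preimage, mem_image, Subtype.exists, exists_and_right,
    exists_eq_right]
  exact ⟨fun h => ⟨h.1, h.2⟩, fun ⟨h1, h2⟩ => ⟨h1, h2⟩⟩

theorem lintegral_mu {G : X → ℝ≥0∞} (hG : Measurable G) :
    ∫⁻ x, G x ∂F.mu = ∑' i, ∫⁻ z in F.E i, F.den i z * G (F.φ i z) := by
  unfold mu
  rw [lintegral_sum_measure]
  refine tsum_congr fun i => ?_
  have h1 : AEMeasurable (F.φ i) ((volume.restrict (F.E i)).withDensity (F.den i)) :=
    (F.aem_φ i).mono_ac (withDensity_absolutelyContinuous _ _)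
  rw [lintegral_map' hG.aemeasurable h1]
  exact lintegral_withDensity_eq_lintegral_mul₀ (F.aem_den i) (hG.comp_aemeasurable (F.aem_φ i))

theorem mu_univ : F.mu univ = F.tot := by
  have := F.lintegral_mu (G := fun _ => 1) measurable_const
  simpa [tot] using this

instance : IsFiniteMeasure F.mu := ⟨by rw [F.mu_univ]; exact F.tot_ne_top.lt_top⟩

theorem mu_apply {B : Set X} (hB : MeasurableSet B) :
    F.mu B = ∑' i, ∫⁻ z in F.E i ∩ F.φ i ⁻¹' B, F.den i z := by
  rw [← lintegral_indicator_one hB, F.lintegral_mu (measurable_one.indicator hB)]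
  refine tsum_congr fun i => ?_
  rw [← lintegral_indicator (F.measurableSet_pre i hB), ← lintegral_indicator (F.mE i)]
  refine lintegral_congr fun z => ?_
  by_cases h1 : z ∈ F.E i <;> by_cases h2 : F.φ i z ∈ B <;> simp [indicator, h1, h2]

theorem integrableOn_θf {f : X → ℝ} (hf : Bm f) (i : F.ι) :
    IntegrableOn (fun z => (F.θ i z : ℝ) * f (F.φ i z)) (F.E i) := by
  obtain ⟨hm, C, hC⟩ := hf
  exact Integrable.mul_bdd (F.iθ i) (hm.comp_aemeasurable (F.aem_φ i)).aestronglyMeasurable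
    (c := C) (Eventually.of_forall fun z => hC _)

theorem integrableOn_itg {f : X → ℝ} (hf : Bm f) {π : Fin k → X → ℝ} (hπ : LipT π) (i : F.ι) :
    IntegrableOn (F.itg f π i) (F.E i) :=
  integrableOn_mul_jdW (F.mE i) (F.integrableOn_θf hf i) (lipOn_coord (F.lip i) hπ)

theorem enorm_itg_le (f : X → ℝ) {π : Fin k → X → ℝ} {L : Fin k → ℝ≥0}
    (hπ : ∀ a, LipschitzWith (L a) (π a)) (i : F.ι) :
    ∀ᵐ z ∂(volume.restrict (F.E i)), ‖F.itg f π i z‖ₑ ≤
      ENNReal.ofReal (∏ a, (L a : ℝ)) * (F.den i z * ‖f (F.φ i z)‖ₑ) := by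
  filter_upwards [F.had i π L hπ] with z hz
  have hp : 0 ≤ ∏ a, (L a : ℝ) := Finset.prod_nonneg fun a _ => (L a).2
  rw [← ofReal_norm_eq_enorm, ← ofReal_norm_eq_enorm, den, ← ENNReal.ofReal_mul
    (mul_nonneg (abs_nonneg _) (F.w0 i z)), ← ENNReal.ofReal_mul hp]
  refine ENNReal.ofReal_le_ofReal ?_
  unfold itg
  rw [Real.norm_eq_abs, Real.norm_eq_abs, abs_mul, abs_mul]
  calc |(F.θ i z : ℝ)| * |f (F.φ i z)| * |jp (F.E i) (F.φ i) π z|
      ≤ |(F.θ i z : ℝ)| * |f (F.φ i z)| * ((∏ a, (L a : ℝ)) * F.w i z) := by gcongr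
    _ = _ := by ring

theorem enorm_term_le (f : X → ℝ) {π : Fin k → X → ℝ} {L : Fin k → ℝ≥0}
    (hπ : ∀ a, LipschitzWith (L a) (π a)) (i : F.ι) {A : Set (Euc k)} (hA : A ⊆ F.E i) :
    ‖∫ z in A, F.itg f π i z‖ₑ ≤
      ENNReal.ofReal (∏ a, (L a : ℝ)) * ∫⁻ z in A, F.den i z * ‖f (F.φ i z)‖ₑ := by
  refine (enorm_integral_le_lintegral_enorm _).trans ?_
  rw [← lintegral_const_mul' _ _ ENNReal.ofReal_ne_top]
  exact lintegral_mono_ae (ae_restrict_of_ae_restrict_of_subset hA (F.enorm_itg_le f hπ i))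

theorem lintegral_enorm_ne_top {f : X → ℝ} (hf : Bm f) : ∫⁻ x, ‖f x‖ₑ ∂F.mu ≠ ⊤ := by
  obtain ⟨hm, C, hC⟩ := hf
  have : Integrable f F.mu := Integrable.of_bound hm.aestronglyMeasurable C
    (Eventually.of_forall hC)
  exact this.2.ne

theorem tsum_enorm_le {f : X → ℝ} (hf : Measurable f) {π : Fin k → X → ℝ} {L : Fin k → ℝ≥0}
    (hπ : ∀ a, LipschitzWith (L a) (π a)) :
    ∑' i, ‖∫ z in F.E i, F.itg f π i z‖ₑ ≤
      ENNReal.ofReal (∏ a, (L a : ℝ)) * ∫⁻ x, ‖f x‖ₑ ∂F.mu := by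
  rw [F.lintegral_mu hf.enorm, ← ENNReal.tsum_mul_left]
  exact ENNReal.tsum_le_tsum fun i => F.enorm_term_le f hπ i subset_rfl

theorem summable_term {f : X → ℝ} (hf : Bm f) {π : Fin k → X → ℝ} (hπ : LipT π) :
    Summable fun i => ∫ z in F.E i, F.itg f π i z := by
  choose L hL using hπ
  refine Summable.of_enorm (ne_top_of_le_ne_top ?_ (F.tsum_enorm_le hf.1 hL))
  exact ENNReal.mul_ne_top ENNReal.ofReal_ne_top (F.lintegral_enorm_ne_top hf)

theorem abs_act_le {f : X → ℝ} (hf : Bm f) {π : Fin k → X → ℝ} {L : Fin k → ℝ≥0}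
    (hπ : ∀ a, LipschitzWith (L a) (π a)) :
    |F.act f π| ≤ (∏ a, (L a : ℝ)) * ∫ x, |f x| ∂F.mu := by
  have hp : 0 ≤ ∏ a, (L a : ℝ) := Finset.prod_nonneg fun a _ => (L a).2
  have h1 : ‖F.act f π‖ₑ ≤ ENNReal.ofReal (∏ a, (L a : ℝ)) * ∫⁻ x, ‖f x‖ₑ ∂F.mu :=
    enorm_tsum_le_tsum_enorm.trans (F.tsum_enorm_le hf.1 hπ)
  have h2 : ∫ x, |f x| ∂F.mu = (∫⁻ x, ‖f x‖ₑ ∂F.mu).toReal :=
    integral_norm_eq_lintegral_enorm hf.1.aestronglyMeasurable
  rw [h2, ← ENNReal.toReal_ofReal hp, ← ENNReal.toReal_mul, ← Real.norm_eq_abs, ← toReal_enorm]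
  exact ENNReal.toReal_mono
    (ENNReal.mul_ne_top ENNReal.ofReal_ne_top (F.lintegral_enorm_ne_top hf)) h1

theorem act_add {f g : X → ℝ} (hf : Bm f) (hg : Bm g) {π : Fin k → X → ℝ} (hπ : LipT π) :
    F.act (f + g) π = F.act f π + F.act g π := by
  unfold act
  rw [← (F.summable_term hf hπ).tsum_add (F.summable_term hg hπ)]
  refine tsum_congr fun i => ?_
  rw [← integral_add (F.integrableOn_itg hf hπ i) (F.integrableOn_itg hg hπ i)]
  refine integral_congr_ae (Eventually.of_forall fun z => ?_)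
  simp only [itg, Pi.add_apply]; ring

omit [MeasurableSpace X] [BorelSpace X] in
theorem act_smul (c : ℝ) (f : X → ℝ) (π : Fin k → X → ℝ) : F.act (c • f) π = c * F.act f π := by
  unfold act
  rw [← tsum_mul_left]
  refine tsum_congr fun i => ?_
  rw [← integral_const_mul]
  refine integral_congr_ae (Eventually.of_forall fun z => ?_)
  simp only [itg, Pi.smul_apply, smul_eq_mul]; ring

omit [MeasurableSpace X] [BorelSpace X] in
/-- the action only sees the values on the images -/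
theorem act_congr {B : Set X} (hB : F.In B) {f g : X → ℝ} (h : EqOn f g B)
    (π : Fin k → X → ℝ) : F.act f π = F.act g π := by
  unfold act
  refine tsum_congr fun i => setIntegral_congr_fun (F.mE i) fun z hz => ?_
  simp only [itg, h (hB i z hz)]

theorem controls : Controls F.cur F.mu := by
  intro f π h h1
  rw [F.cur_eq h]
  simpa using F.abs_act_le (bm_of_test h) (L := fun _ => 1) h1

theorem mass_cur_le : mass F.cur ≤ F.tot.toReal := by
  refine csInf_le ⟨0, ?_⟩ ⟨F.mu, inferInstance, F.controls, by rw [F.mu_univ]⟩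
  rintro r ⟨μ, -, -, rfl⟩
  exact ENNReal.toReal_nonneg

omit [MeasurableSpace X] [BorelSpace X] in
theorem isSupportedIn {B : Set X} (hB : F.In B) : IsSupportedIn B F.cur := by
  intro f π h h0
  rw [F.cur_eq h, F.act_congr hB (g := (0 : ℝ) • f) (fun x hx => by simp [h0 x hx]), act_smul,
    zero_mul]

end Fam

end

end Crest.Agent.R241.Cv
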