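import Crest.Agent.R241.MRect

/-! Row 241 [M] conversions, 4: the mass measure of an embedded sharp family is the least
controlling measure. -/

set_option autoImplicit false
set_option linter.unusedSectionVars false

namespace Crest.Agent.R241.Cv

open MeasureTheory Filter Topology Set
open scoped NNReal ENNReal
open Crest.GeometryTopology.Submanifold (Euc)
open Crest.GeometryTopology.MetricCurrent

noncomputable section

universe u
variable {X : Type u} [MetricSpace X] {k : ℕ}

theorem h99_pos_mem {α : Type*} [MeasurableSpace α] {ν lam : Measure α} {f : α → ℝ}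
    (hm : Measurable f) (hi : Integrable f ν)
    (hle : ∀ A, MeasurableSet A → ENNReal.ofReal |∫ z in A, f z ∂ν| ≤ lam A) :
    (fun z => ENNReal.ofReal (f z)) ∈ Measure.LebesgueDecomposition.measurableLE ν lam := by
  refine ⟨hm.ennreal_ofReal, fun A hA => ?_⟩
  have hS : MeasurableSet {z | 0 ≤ f z} := measurableSet_le measurable_const hm
  have h1 : ∫⁻ z in A, ENNReal.ofReal (f z) ∂ν =
      ∫⁻ z in A ∩ {z | 0 ≤ f z}, ENNReal.ofReal (f z) ∂ν := by
    rw [← lintegral_inter_add_sdiff _ A hS]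
    have : ∫⁻ z in A \ {z | 0 ≤ f z}, ENNReal.ofReal (f z) ∂ν = 0 := by
      refine setLIntegral_eq_zero (hA.diff hS) fun z hz => ?_
      exact ENNReal.ofReal_eq_zero.2 (not_le.1 hz.2).le
    rw [this, add_zero]
  rw [h1, ← ofReal_integral_eq_lintegral_ofReal hi.integrableOn
    ((ae_restrict_iff' (hA.inter hS)).2 (Eventually.of_forall fun z hz => hz.2))]
  refine le_trans (ENNReal.ofReal_le_ofReal (le_abs_self _)) ?_
  exact (hle _ (hA.inter hS)).trans (measure_mono inter_subset_left)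

/-- Supremum of densities.  Proof: take measurable modifications `h' m` of `h m`; the functions
`ofReal (h' m)` and `ofReal (- h' m)` are in `LebesgueDecomposition.measurableLE ν lam` (apply `hle`
to `A ∩ {0 ≤ h' m}`, resp. `A ∩ {h' m ≤ 0}`, `ofReal_integral_eq_lintegral_ofReal`), hence so is
`ofReal |h' m|` (`sup_mem_measurableLE`), the finite suprema (`iSup_mem_measurableLE`) and the
supremum (`lintegral_iSup`, as in the proof of `haveLebesgueDecomposition_of_finiteMeasure`); finally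
`ofReal (g z) ≤ ⨆ m, ofReal |h' m z|` a.e. (let `ε → 0`: `ENNReal.le_of_forall_lt_one_mul_le` or
`le_of_forall_lt`). -/
theorem lintegral_le_of_sup {α : Type*} [MeasurableSpace α] {ν lam : Measure α} (h : ℕ → α → ℝ)
    (hi : ∀ m, Integrable (h m) ν)
    (hle : ∀ m A, MeasurableSet A → ENNReal.ofReal |∫ z in A, h m z ∂ν| ≤ lam A) {g : α → ℝ}
    (hg : ∀ᵐ z ∂ν, ∀ ε > (0 : ℝ), ∃ m, (1 - ε) * g z ≤ |h m z|) {A : Set α}
    (hA : MeasurableSet A) : ∫⁻ z in A, ENNReal.ofReal (g z) ∂ν ≤ lam A := by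
  set h' : ℕ → α → ℝ := fun m => (hi m).1.mk (h m) with hh'
  have hm : ∀ m, Measurable (h' m) := fun m => (hi m).1.stronglyMeasurable_mk.measurable
  have hae : ∀ m, h m =ᵐ[ν] h' m := fun m => (hi m).1.ae_eq_mk
  have hi' : ∀ m, Integrable (h' m) ν := fun m => (hi m).congr (hae m)
  have hle' : ∀ m A, MeasurableSet A → ENNReal.ofReal |∫ z in A, h' m z ∂ν| ≤ lam A := by
    intro m A hA
    rw [← integral_congr_ae (ae_restrict_of_ae (hae m))]
    exact hle m A hA
  set F : ℕ → α → ℝ≥0∞ := fun m z => ENNReal.ofReal (h' m z) ⊔ ENNReal.ofReal (-h' m z) with hF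
  have hFm : ∀ m, F m ∈ Measure.LebesgueDecomposition.measurableLE ν lam := by
    intro m
    refine Measure.LebesgueDecomposition.sup_mem_measurableLE
      (h99_pos_mem (hm m) (hi' m) (hle' m)) (h99_pos_mem (hm m).neg (hi' m).neg ?_)
    intro A hA
    rw [integral_neg, abs_neg]
    exact hle' m A hA
  have hFa : ∀ m z, ENNReal.ofReal |h' m z| ≤ F m z := by
    intro m z
    rcases abs_choice (h' m z) with h1 | h1 <;> rw [h1]
    · exact le_sup_left
    · exact le_sup_right
  have hsup : ∫⁻ z in A, ⨆ n, ⨆ k, ⨆ (_ : k ≤ n), F k z ∂ν ≤ lam A := by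
    rw [lintegral_iSup
      (fun n => (Measure.LebesgueDecomposition.iSup_mem_measurableLE _ hFm n).1)
      (Measure.LebesgueDecomposition.iSup_monotone _)]
    exact iSup_le fun n => (Measure.LebesgueDecomposition.iSup_mem_measurableLE _ hFm n).2 A hA
  refine le_trans (lintegral_mono_ae (ae_restrict_of_ae ?_)) hsup
  have hall : ∀ᵐ z ∂ν, ∀ m, h m z = h' m z := ae_all_iff.2 hae
  filter_upwards [hg, hall] with z hz hz'
  refine ENNReal.le_of_forall_lt_one_mul_le fun a ha => ?_
  have ha' : a ≠ ⊤ := ne_top_of_lt ha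
  have h1 : a.toReal < 1 := by
    rw [← ENNReal.toReal_one]
    exact (ENNReal.toReal_lt_toReal ha' ENNReal.one_ne_top).2 ha
  obtain ⟨m, hm'⟩ := hz (1 - a.toReal) (by linarith)
  have h2 : a * ENNReal.ofReal (g z) = ENNReal.ofReal (a.toReal * g z) := by
    rw [ENNReal.ofReal_mul ENNReal.toReal_nonneg, ENNReal.ofReal_toReal ha']
  rw [h2]
  have h3 : a.toReal * g z ≤ |h' m z| := by
    rw [← hz' m]
    have : 1 - (1 - a.toReal) = a.toReal := by ring
    rwa [this] at hm'
  refine (ENNReal.ofReal_le_ofReal h3).trans ((hFa m z).trans ?_)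
  exact le_iSup_of_le m (le_iSup_of_le m (le_iSup_of_le le_rfl le_rfl))

/-- Lipschitz approximations of the indicator of a closed set:
`χ n x = max 0 (1 - n * infDist x C)` (and `0` if `C = ∅`). -/
theorem exists_cutoff {C : Set X} (hC : IsClosed C) : ∃ χ : ℕ → X → ℝ,
    (∀ n, ∃ K : ℝ≥0, LipschitzWith K (χ n)) ∧ (∀ n x, 0 ≤ χ n x ∧ χ n x ≤ 1) ∧
      (∀ n, ∀ x ∈ C, χ n x = 1) ∧ ∀ x, x ∉ C → ∀ᶠ n in atTop, χ n x = 0 := by
  rcases C.eq_empty_or_nonempty with rfl | hne
  · exact ⟨fun _ _ => 0, fun _ => ⟨0, LipschitzWith.const 0⟩, fun _ _ => ⟨le_rfl, zero_le_one⟩,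
      fun _ x hx => absurd hx (notMem_empty x), fun _ _ => Eventually.of_forall fun _ => rfl⟩
  refine ⟨fun n x => max (1 - n * Metric.infDist x C) 0, fun n => ⟨n, ?_⟩, fun n x => ?_,
    fun n x hx => ?_, fun x hx => ?_⟩
  · refine LipschitzWith.of_dist_le_mul fun x y => ?_
    have h1 := (Metric.lipschitz_infDist_pt C).dist_le_mul x y
    rw [Real.dist_eq] at h1 ⊢
    refine (abs_max_sub_max_le_abs _ _ _).trans ?_
    have e : 1 - (n : ℝ) * Metric.infDist x C - (1 - n * Metric.infDist y C) =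
        -(n * (Metric.infDist x C - Metric.infDist y C)) := by ring
    rw [e, abs_neg, abs_mul, Nat.abs_cast]
    simp only [NNReal.coe_one, one_mul] at h1
    simpa using mul_le_mul_of_nonneg_left h1 (Nat.cast_nonneg n)
  · refine ⟨le_max_right _ _, max_le ?_ zero_le_one⟩
    have : 0 ≤ (n : ℝ) * Metric.infDist x C := mul_nonneg (Nat.cast_nonneg n) Metric.infDist_nonneg
    linarith
  · simp [Metric.infDist_zero_of_mem hx]
  · have hp : 0 < Metric.infDist x C := (hC.notMem_iff_infDist_pos hne).1 hx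
    filter_upwards [(tendsto_natCast_atTop_atTop.atTop_mul_const hp).eventually_ge_atTop 1]
      with n hn
    exact max_eq_right (by linarith)

variable [MeasurableSpace X] [BorelSpace X]

theorem h69_tendsto {μ : Measure X} [IsFiniteMeasure μ] {u : ℕ → X → ℝ} {v : X → ℝ}
    (hm : ∀ n, Measurable (u n)) (C : ℝ) (hb : ∀ n x, |u n x| ≤ C)
    (hl : ∀ x, ∀ᶠ n in atTop, u n x = v x) :
    Tendsto (fun n => ∫ x, u n x ∂μ) atTop (𝓝 (∫ x, v x ∂μ)) :=
  tendsto_integral_of_dominated_convergence (fun _ => C) (fun n => (hm n).aestronglyMeasurable)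
    (integrable_const C) (fun n => Eventually.of_forall (hb n))
    (Eventually.of_forall fun x => tendsto_const_nhds.congr' ((hl x).mono fun _ h => h.symm))

theorem h69_lip_mul {f g : X → ℝ} {K L : ℝ≥0} (hf : LipschitzWith K f) (hg : LipschitzWith L g)
    {C : ℝ} (hC : ∀ x, |f x| ≤ C) (h1 : ∀ x, |g x| ≤ 1) :
    LipschitzWith (K + C.toNNReal * L) (f * g) := by
  refine LipschitzWith.of_dist_le_mul fun x y => ?_
  have a1 := hf.dist_le_mul x y
  have a2 := hg.dist_le_mul x y
  rw [Real.dist_eq] at a1 a2 ⊢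
  have e : (f * g) x - (f * g) y = (f x - f y) * g x + f y * (g x - g y) := by
    simp only [Pi.mul_apply]; ring
  have hC0 : 0 ≤ C := (abs_nonneg _).trans (hC x)
  rw [e]
  refine (abs_add_le _ _).trans ?_
  rw [abs_mul, abs_mul]
  push_cast
  rw [Real.coe_toNNReal C hC0]
  have b1 : |f x - f y| * |g x| ≤ K * dist x y * 1 :=
    mul_le_mul a1 (h1 x) (abs_nonneg _) (by positivity)
  have b2 : |f y| * |g x - g y| ≤ C * (L * dist x y) :=
    mul_le_mul (hC y) a2 (abs_nonneg _) hC0
  linarith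

/-- Proof: `f = f * χ n + (f - f * χ n)`, both summands are bounded Lipschitz and the second one
vanishes on `K`; so `|T f π| = |T (f * χ n) π| ≤ ∫ |f * χ n| dμ → ∫_K |f| dμ` (dominated
convergence, `integral_indicator`). -/
theorem controls_restrict {T : Functional X k} (hT : IsCurrent T) {K : Set X} (hK : IsClosed K)
    (hs : IsSupportedIn K T) {μ : Measure X} [IsFiniteMeasure μ] (hμ : Controls T μ) :
    Controls T (μ.restrict K) := by
  intro f π h h1
  obtain ⟨χ, hL, h01, hin, hout⟩ := exists_cutoff hK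
  obtain ⟨⟨Kf, hKf⟩, ⟨C, hC⟩, hπ⟩ := h
  have habs : ∀ n x, |χ n x| ≤ 1 := fun n x => by rw [abs_of_nonneg (h01 n x).1]; exact (h01 n x).2
  have hb : ∀ n x, |(f * χ n) x| ≤ C := fun n x => by
    rw [Pi.mul_apply, abs_mul]
    exact (mul_le_of_le_one_right (abs_nonneg _) (habs n x)).trans (hC x)
  have hlip : ∀ n, ∃ K' : ℝ≥0, LipschitzWith K' (f * χ n) := fun n =>
    ⟨_, h69_lip_mul hKf (hL n).choose_spec hC (habs n)⟩
  have key : ∀ n, |T f π| ≤ ∫ x, |(f * χ n) x| ∂μ := by
    intro n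
    have t1 : IsTestPair (f * χ n) π := ⟨hlip n, ⟨C, hb n⟩, hπ⟩
    have t2 : IsTestPair (f - f * χ n) π := ⟨⟨_, hKf.sub (hlip n).choose_spec⟩,
      ⟨C + C, fun x => (abs_sub _ _).trans (add_le_add (hC x) (hb n x))⟩, hπ⟩
    have e := hT.add_left _ _ π t1 t2
    rw [add_sub_cancel, hs _ π t2 (fun x hx => by simp [hin n x hx]), add_zero] at e
    rw [e]
    exact hμ _ π t1 h1
  have lim := h69_tendsto (μ := μ) (u := fun n x => |(f * χ n) x|)
    (v := K.indicator fun x => |f x|)
    (fun n => (hlip n).choose_spec.continuous.measurable.abs) C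
    (fun n x => by rw [abs_abs]; exact hb n x) (fun x => by
      by_cases hx : x ∈ K
      · exact Eventually.of_forall fun n => by simp [hin n x hx, hx]
      · filter_upwards [hout x hx] with n hn
        simp [hn, hx])
  rw [integral_indicator hK.measurableSet] at lim
  exact ge_of_tendsto' lim key

namespace Fam

variable (F : Fam X k)

/-- the weights are attained by countably many `1`-Lipschitz tuples -/
def Sharp : Prop := ∀ i, ∃ π : ℕ → Fin k → X → ℝ, (∀ m a, LipschitzWith 1 (π m a)) ∧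
  ∀ᵐ z ∂(volume.restrict (F.E i)), ∀ ε > (0 : ℝ), ∃ m,
    (1 - ε) * F.w i z ≤ |jp (F.E i) (F.φ i) (π m) z|

/-- injective charts with disjoint images -/
def Emb : Prop := (∀ i, InjOn (F.φ i) (F.E i)) ∧
  ∀ i j, i ≠ j → Disjoint (F.φ i '' F.E i) (F.φ j '' F.E j)

theorem h69_act_sub {f g : X → ℝ} (hf : Bm f) (hg : Bm g) {π : Fin k → X → ℝ}
    (hπ : ∀ a, LipschitzWith 1 (π a)) :
    |F.act f π| ≤ |F.act g π| + ∫ x, |f x - g x| ∂F.mu := by
  have hd : Bm (f - g) := by
    obtain ⟨m1, C1, h1⟩ := hf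
    obtain ⟨m2, C2, h2⟩ := hg
    exact ⟨m1.sub m2, C1 + C2, fun x => (abs_sub _ _).trans (add_le_add (h1 x) (h2 x))⟩
  have e := F.act_add hg hd (π := π) fun a => ⟨1, hπ a⟩
  rw [add_sub_cancel] at e
  rw [e]
  refine (abs_add_le _ _).trans (add_le_add le_rfl ?_)
  simpa using F.abs_act_le hd (L := fun _ => 1) hπ

theorem h69_closed {μ : Measure X} [IsFiniteMeasure μ] (hμ : Controls F.cur μ) {B : Set X}
    (hB : IsClosed B) {π : Fin k → X → ℝ} (hπ : ∀ a, LipschitzWith 1 (π a)) :
    |F.act (B.indicator fun _ => 1) π| ≤ μ.real B := by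
  obtain ⟨χ, hL, h01, hin, hout⟩ := exists_cutoff hB
  have habs : ∀ n x, |χ n x| ≤ 1 := fun n x => by rw [abs_of_nonneg (h01 n x).1]; exact (h01 n x).2
  have hm : ∀ n, Measurable (χ n) := fun n => (hL n).choose_spec.continuous.measurable
  have hone : Bm (fun _ : X => (1 : ℝ)) := ⟨measurable_const, 1, fun _ => by simp⟩
  have hI := hone.indicator hB.measurableSet
  have hev : ∀ x, ∀ᶠ n in atTop, χ n x = B.indicator (fun _ => (1 : ℝ)) x := fun x => by
    by_cases hx : x ∈ B
    · exact Eventually.of_forall fun n => by simp [hin n x hx, hx]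
    · filter_upwards [hout x hx] with n hn
      simp [hn, hx]
  have key : ∀ n, |F.act (B.indicator fun _ => 1) π| ≤ ∫ x, |χ n x| ∂μ +
      ∫ x, |B.indicator (fun _ => (1 : ℝ)) x - χ n x| ∂F.mu := by
    intro n
    have t1 : IsTestPair (χ n) π := ⟨hL n, ⟨1, habs n⟩, fun a => ⟨1, hπ a⟩⟩
    refine (F.h69_act_sub hI (bm_of_test t1) hπ).trans (add_le_add ?_ le_rfl)
    rw [← F.cur_eq t1]
    exact hμ _ π t1 hπ
  have l1 := h69_tendsto (μ := μ) (u := fun n x => |χ n x|) (v := B.indicator fun _ => (1 : ℝ))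
    (fun n => (hm n).abs) 1 (fun n x => by rw [abs_abs]; exact habs n x) (fun x => by
      filter_upwards [hev x] with n hn
      rw [abs_of_nonneg (h01 n x).1, hn])
  obtain ⟨mI, CI, hCI⟩ := hI
  have l2 := h69_tendsto (μ := F.mu)
    (u := fun n x => |B.indicator (fun _ => (1 : ℝ)) x - χ n x|) (v := fun _ => 0)
    (fun n => (mI.sub (hm n)).abs) (CI + 1)
    (fun n x => by rw [abs_abs]; exact (abs_sub _ _).trans (add_le_add (hCI x) (habs n x)))
    (fun x => by
      filter_upwards [hev x] with n hn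
      rw [hn, sub_self, abs_zero])
  have l3 := l1.add l2
  rw [integral_indicator hB.measurableSet] at l3
  simp only [integral_const, smul_eq_mul, mul_one, mul_zero, add_zero,
    measureReal_restrict_apply_univ] at l3
  exact ge_of_tendsto' l3 key

/-- Proof: closed `B` first: `|act (χ n) π| ≤ ∫ χ n dμ → μ.real B` and
`|act (χ n) π - act (indicator) π| ≤ ∫ |χ n - indicator| dF.mu → 0` (`act_add`, `act_smul`,
`abs_act_le`, dominated convergence).  Borel `B`: a closed `C ⊆ B` with `F.mu (B \ C) < ε`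
(`MeasurableSet.exists_isClosed_diff_lt` or `exists_lt_isClosed_of_ne_top`). -/
theorem act_indicator_le {μ : Measure X} [IsFiniteMeasure μ] (hμ : Controls F.cur μ) {B : Set X}
    (hB : MeasurableSet B) {π : Fin k → X → ℝ} (hπ : ∀ a, LipschitzWith 1 (π a)) :
    |F.act (B.indicator fun _ => 1) π| ≤ μ.real B := by
  refine le_of_forall_pos_le_add fun ε hε => ?_
  obtain ⟨C, hCB, hC, hlt⟩ := hB.exists_isClosed_diff_lt (μ := F.mu) (measure_ne_top _ _)
    (ε := ENNReal.ofReal ε) (ENNReal.ofReal_pos.2 hε).ne'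
  have hone : Bm (fun _ : X => (1 : ℝ)) := ⟨measurable_const, 1, fun _ => by simp⟩
  refine (F.h69_act_sub (hone.indicator hB) (hone.indicator hC.measurableSet) hπ).trans
    (add_le_add ((F.h69_closed hμ hC hπ).trans (measureReal_mono hCB)) ?_)
  have e : (fun x => |B.indicator (fun _ => (1 : ℝ)) x - C.indicator (fun _ => (1 : ℝ)) x|) =
      (B \ C).indicator fun _ => (1 : ℝ) := by
    funext x
    by_cases h1 : x ∈ C
    · simp [h1, hCB h1]
    · by_cases h2 : x ∈ B <;> simp [h1, h2]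
  rw [e, integral_indicator (hB.diff hC.measurableSet)]
  simp only [integral_const, smul_eq_mul, mul_one, measureReal_restrict_apply_univ]
  exact (ENNReal.toReal_lt_of_lt_ofReal hlt).le

/-- Proof: `tsum_eq_single i`; the other charts miss `φ i '' A`; in the chart `i`,
`φ i z ∈ φ i '' A ↔ z ∈ A` for `z ∈ E i`; `setIntegral_indicator`. -/
theorem act_image (h : F.Emb) (i : F.ι) {A : Set (Euc k)} (hA : MeasurableSet A)
    (hAE : A ⊆ F.E i) (π : Fin k → X → ℝ) :
    F.act ((F.φ i '' A).indicator fun _ => 1) π =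
      ∫ z in A, (F.θ i z : ℝ) * jp (F.E i) (F.φ i) π z := by
  have e : ∫ z in A, (F.θ i z : ℝ) * jp (F.E i) (F.φ i) π z =
      ∫ z in F.E i, A.indicator (fun z => (F.θ i z : ℝ) * jp (F.E i) (F.φ i) π z) z := by
    rw [setIntegral_indicator hA, inter_eq_self_of_subset_right hAE]
  rw [e]
  unfold act
  rw [tsum_eq_single i]
  · refine setIntegral_congr_fun (F.mE i) fun z hz => ?_
    by_cases hzA : z ∈ A
    · rw [indicator_of_mem hzA, itg, indicator_of_mem (mem_image_of_mem _ hzA), mul_one]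
    · have h1 : F.φ i z ∉ F.φ i '' A := fun ⟨w, hw, e⟩ => hzA (h.1 i (hAE hw) hz e ▸ hw)
      rw [indicator_of_notMem hzA, itg, indicator_of_notMem h1, mul_zero, zero_mul]
  · intro j hj
    refine setIntegral_eq_zero_of_forall_eq_zero fun z hz => ?_
    have h1 : F.φ j z ∉ F.φ i '' A := fun hh =>
      disjoint_left.1 (h.2 j i hj) (mem_image_of_mem _ hz) (image_mono hAE hh)
    rw [itg, indicator_of_notMem h1, mul_zero, zero_mul]

/-- Proof: `lintegral_le_of_sup` with `ν = volume.restrict (E i)`, `h m = θ * jp (π m)`,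
`g = |θ| * w`, `lam = map Subtype.val (comap ((E i).restrict (φ i)) μ)`
(`ContinuousOn.measurableEmbedding`), `lam A = μ (φ i '' (A ∩ E i))`; `act_image`,
`act_indicator_le`, `cov_measurableSet_image`. -/
theorem den_le [SecondCountableTopology X] (h : F.Emb) (hs : F.Sharp) {μ : Measure X}
    [IsFiniteMeasure μ] (hμ : Controls F.cur μ) (i : F.ι) {A : Set (Euc k)} (hA : MeasurableSet A)
    (hAE : A ⊆ F.E i) : ∫⁻ z in A, F.den i z ≤ μ (F.φ i '' A) := by
  obtain ⟨π, hπ, hw⟩ := hs i
  obtain ⟨L, hL⟩ := F.lip i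
  have hemb : MeasurableEmbedding ((F.E i).domRestrict (F.φ i)) :=
    hL.continuousOn.measurableEmbedding (F.mE i) (h.1 i)
  set lam : Measure (Euc k) := (μ.comap ((F.E i).domRestrict (F.φ i))).map Subtype.val with hlam
  have hl : ∀ S : Set (Euc k), MeasurableSet S → lam S = μ (F.φ i '' (S ∩ F.E i)) := by
    intro S hS
    rw [hlam, Measure.map_apply measurable_subtype_coe hS, hemb.comap_apply]
    congr 1
    ext x
    constructor
    · rintro ⟨z, hz, rfl⟩
      exact ⟨z.1, ⟨hz, z.2⟩, rfl⟩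
    · rintro ⟨z, hz, rfl⟩
      exact ⟨⟨z, hz.2⟩, hz.1, rfl⟩
  have key := lintegral_le_of_sup (ν := volume.restrict (F.E i)) (lam := lam)
    (fun m z => (F.θ i z : ℝ) * jp (F.E i) (F.φ i) (π m) z)
    (fun m => integrableOn_mul_jdW (F.mE i) (F.iθ i)
      (lipOn_coord (F.lip i) fun a => ⟨1, hπ m a⟩))
    (fun m S hS => ?_) (g := fun z => |(F.θ i z : ℝ)| * F.w i z) ?_ hA
  · rw [hl A hA, Measure.restrict_restrict hA, inter_eq_self_of_subset_left hAE] at key
    exact key
  · have hSE := hS.inter (F.mE i)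
    rw [hl S hS, Measure.restrict_restrict hS, ← F.act_image h i hSE inter_subset_right,
      ← ofReal_measureReal (measure_ne_top μ _)]
    exact ENNReal.ofReal_le_ofReal (F.act_indicator_le hμ
      (cov_measurableSet_image hSE (hL.mono inter_subset_right)
        ((h.1 i).mono inter_subset_right)) (hπ m))
  · filter_upwards [hw] with z hz ε hε
    obtain ⟨m, hm⟩ := hz ε hε
    refine ⟨m, ?_⟩
    rw [abs_mul, mul_left_comm]
    exact mul_le_mul_of_nonneg_left hm (abs_nonneg _)

/-- Proof: `mu_apply`, `den_le`, and `∑' i, μ (φ i '' (E i ∩ φ i ⁻¹' B)) = μ (⋃ ..) ≤ μ B`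
(`measure_iUnion`). -/
theorem mu_le [SecondCountableTopology X] (h : F.Emb) (hs : F.Sharp) {μ : Measure X}
    [IsFiniteMeasure μ] (hμ : Controls F.cur μ) {B : Set X} (hB : MeasurableSet B) :
    F.mu B ≤ μ B := by
  rw [F.mu_apply hB]
  refine (ENNReal.tsum_le_tsum fun i =>
    F.den_le h hs hμ i (F.measurableSet_pre i hB) inter_subset_left).trans ?_
  rw [← measure_iUnion (fun i j hij => (h.2 i j hij).mono (image_mono inter_subset_left)
    (image_mono inter_subset_left)) fun i => cov_measurableSet_image (F.measurableSet_pre i hB)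
      ((F.lip i).choose_spec.mono inter_subset_left) ((h.1 i).mono inter_subset_left)]
  refine measure_mono (iUnion_subset fun i => ?_)
  rintro x ⟨z, hz, rfl⟩
  exact hz.2

theorem tot_le_mass [SecondCountableTopology X] (h : F.Emb) (hs : F.Sharp) :
    F.tot.toReal ≤ mass F.cur := by
  refine le_csInf ⟨_, F.mu, inferInstance, F.controls, rfl⟩ ?_
  rintro r ⟨μ, hμ, hc, rfl⟩
  rw [← F.mu_univ]
  exact ENNReal.toReal_mono (measure_ne_top _ _) (F.mu_le h hs hc MeasurableSet.univ)

theorem mu_compl [SecondCountableTopology X] (h : F.Emb) (hs : F.Sharp) {K : Set X}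
    (hK : IsClosed K) (hsup : IsSupportedIn K F.cur) : F.mu Kᶜ = 0 := by
  have h1 := F.mu_le h hs (controls_restrict F.isCurrent hK hsup F.controls)
    hK.measurableSet.compl
  rw [Measure.restrict_apply hK.measurableSet.compl, compl_inter_self, measure_empty] at h1
  exact le_antisymm h1 bot_le

end Fam

end

end Crest.Agent.R241.Cv
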