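import Crest.Agent.R241.MCur
import Crest.Agent.R241.KEucl

/-! Row 241 [M] conversions, 3: the current of a family is integer rectifiable. -/

set_option autoImplicit false
set_option linter.unusedSectionVars false

namespace Crest.Agent.R241.Cv

open MeasureTheory Filter Topology Set
open scoped NNReal ENNReal
open Crest.GeometryTopology.Submanifold (Euc)
open Crest.GeometryTopology.MetricCurrent

noncomputable section

universe u
variable {X : Type u} [MetricSpace X] {k : ℕ}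

theorem h29_det_mat (D : Euc k →L[ℝ] Euc k) :
    (Matrix.of fun i j : Fin k => D (EuclideanSpace.single j (1 : ℝ)) i).det = D.det := by
  rw [ContinuousLinearMap.det,
    ← LinearMap.det_toMatrix (EuclideanSpace.basisFun (Fin k) ℝ).toBasis]
  congr 1

/-- the tuple of the coordinates of `u` has Jacobian `det (fderivWithin u)`.  Proof: at a point of
unique differentiability where `u` is differentiable within `E`,
`fderivWithin (fun w => u w a) E z = proj a ∘ fderivWithin u E z`; `LinearMap.det_toMatrix` for the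
basis `(EuclideanSpace.basisFun _ ℝ).toBasis` (compare `det_cm` in `MNull.lean`). -/
theorem jdW_eq_det {E : Set (Euc k)} (hE : MeasurableSet E) {u : Euc k → Euc k} {L : ℝ≥0}
    (hu : LipschitzOnWith L u E) :
    ∀ᵐ z ∂(volume.restrict E), jdW E (fun a w => u w a) z = (fderivWithin ℝ u E z).det := by
  filter_upwards [ae_uniqueDiffWithinAt E, ae_restrict_mem hE,
    ae_restrict_of_ae (hu.ae_differentiableWithinAt_of_mem (μ := volume))] with z h1 h2 h3
  have hd := (h3 h2).hasFDerivWithinAt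
  have key : ∀ a : Fin k, fderivWithin ℝ (fun w => u w a) E z =
      (EuclideanSpace.proj a : Euc k →L[ℝ] ℝ).comp (fderivWithin ℝ u E z) := fun a =>
    ((EuclideanSpace.proj a : Euc k →L[ℝ] ℝ).hasFDerivAt.comp_hasFDerivWithinAt z hd).fderivWithin
      h1
  rw [← h29_det_mat, jdW]
  congr 1
  ext i j
  simp only [Matrix.of_apply, cv, key]
  rfl

/-- chain rule for Jacobians.  Proof: `cov_chain` for each coordinate; the matrix of the left side is
the product of the matrix of `u` at `ψ z` and the matrix of `fderivWithin ψ A z` (`clm_apply_eq`);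
`Matrix.det_mul`, `LinearMap.det_toMatrix`. -/
theorem jdW_comp {A B : Set (Euc k)} (hA : MeasurableSet A) {ψ : Euc k → Euc k} {L : ℝ≥0} {C : ℝ}
    (hψ : LipschitzOnWith L ψ A) (hC : ∀ z ∈ A, ∀ w ∈ A, dist z w ≤ C * dist (ψ z) (ψ w))
    (hm : MapsTo ψ A B) {u : Fin k → Euc k → ℝ} (hu : ∀ a, ∃ K, LipschitzOnWith K (u a) B) :
    ∀ᵐ z ∂(volume.restrict A),
      jdW A (fun a w => u a (ψ w)) z = jdW B u (ψ z) * (fderivWithin ℝ ψ A z).det := by
  have h : ∀ a, ∀ᵐ z ∂(volume : Measure (Euc k)), z ∈ A →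
      fderivWithin ℝ (fun w => u a (ψ w)) A z =
        (fderivWithin ℝ (u a) B (ψ z)).comp (fderivWithin ℝ ψ A z) := fun a =>
    let ⟨_, hK⟩ := hu a
    cov_chain volume hA hψ hC hm hK
  filter_upwards [ae_restrict_mem hA, ae_restrict_of_ae (ae_all_iff.2 h)] with z h1 h2
  rw [← h29_det_mat, jdW, jdW, ← Matrix.det_mul]
  congr 1
  ext i j
  rw [Matrix.mul_apply]
  simp only [Matrix.of_apply]
  rw [h2 i h1, cv, ContinuousLinearMap.comp_apply, clm_apply_eq]
  rfl

private theorem h48_inv_bound (A : Euc k →L[ℝ] Euc k) :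
    ∃ M : ℝ≥0, A.det ≠ 0 → ∀ v, ‖v‖ ≤ M * ‖A v‖ := by
  by_cases hA : A.det = 0
  · exact ⟨0, fun h => (h hA).elim⟩
  · let e := A.toContinuousLinearEquivOfDetNeZero hA
    refine ⟨‖(e.symm : Euc k →L[ℝ] Euc k)‖₊, fun _ v => ?_⟩
    have h1 : (e.symm : Euc k →L[ℝ] Euc k) (A v) = v := e.symm_apply_apply v
    have h2 := (e.symm : Euc k →L[ℝ] Euc k).le_opNorm (A v)
    rwa [h1] at h2

private theorem h48_colip_closure {Y : Type*} [PseudoMetricSpace Y] {E S : Set (Euc k)}
    {u : Euc k → Y} (hu : ContinuousOn u E) (hS : S ⊆ E) {C : ℝ}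
    (h : ∀ z ∈ S, ∀ w ∈ S, dist z w ≤ C * dist (u z) (u w)) :
    ∀ z ∈ E ∩ closure S, ∀ w ∈ E ∩ closure S, dist z w ≤ C * dist (u z) (u w) := by
  have h1 : ∀ z ∈ E ∩ closure S, ∀ w ∈ S, dist z w ≤ C * dist (u z) (u w) := by
    intro z hz w hw
    exact ContinuousWithinAt.closure_le (f := fun z => dist z w)
      (g := fun z => C * dist (u z) (u w)) hz.2
      (continuousWithinAt_id.dist continuousWithinAt_const)
      (continuousWithinAt_const.mul (((hu z hz.1).mono hS).dist continuousWithinAt_const))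
      fun y hy => h y hy w hw
  intro z hz w hw
  exact ContinuousWithinAt.closure_le (f := fun w => dist z w)
    (g := fun w => C * dist (u z) (u w)) hw.2
    (continuousWithinAt_const.dist continuousWithinAt_id)
    (continuousWithinAt_const.mul (continuousWithinAt_const.dist ((hu w hw.1).mono hS)))
    fun y hy => h1 z hz y hy

/-- Co-Lipschitz pieces of a map of `Euc k`.  Proof: `cov_good` gives `E' ⊆ E` of full measure;
apply `exists_partition_approximatesLinearOn_of_hasFDerivWithinAt` to `u` on `E'` with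
`r A = (2 * ‖A⁻¹‖ + 1)⁻¹` for invertible `A` (`1` otherwise) but keep only the indices `n` whose
`A n` has nonzero determinant: to force this apply it on
`s = E' ∩ {det (f' z) ≠ 0}` where `f'` is a measurable modification (`cov_aemeasurable`), or use
`toMeasurable`; the last clause of the lemma says `A n = f' y` for some `y ∈ s`.  On `s ∩ t n`:
`‖x - y‖ ≤ ‖A⁻¹‖ ‖A (x - y)‖ ≤ ‖A⁻¹‖ (‖u x - u y‖ + r ‖x - y‖)`. -/
theorem exists_colip_euc {E : Set (Euc k)} (hE : MeasurableSet E) {u : Euc k → Euc k} {L : ℝ≥0}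
    (hu : LipschitzOnWith L u E) :
    ∃ A : ℕ → Set (Euc k), (∀ n, MeasurableSet (A n)) ∧ (∀ n, A n ⊆ E) ∧
      (∀ n, ∃ C : ℝ, ∀ z ∈ A n, ∀ w ∈ A n, dist z w ≤ C * dist (u z) (u w)) ∧
      ∀ᵐ z ∂(volume.restrict E), (fderivWithin ℝ u E z).det ≠ 0 → z ∈ ⋃ n, A n := by
  obtain ⟨E', h1, h2, h3, h4⟩ := cov_good volume hE hu
  choose M hM using h48_inv_bound (k := k)
  set s : Set (Euc k) := E' ∩ {z | (fderivWithin ℝ u E z).det ≠ 0} with hs
  have hsE : s ⊆ E := fun z hz => h1 hz.1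
  obtain ⟨t, A, -, -, hcov, happ, hA⟩ :=
    exists_partition_approximatesLinearOn_of_hasFDerivWithinAt u s (fderivWithin ℝ u E)
      (fun z hz => (h4 z hz.1).mono hsE) (fun A => (2 * M A + 1)⁻¹) (fun A => by positivity)
  refine ⟨fun n => E ∩ closure (s ∩ t n), fun n => hE.inter isClosed_closure.measurableSet,
    fun n => inter_subset_left, fun n => ⟨2 * M (A n), ?_⟩, ?_⟩
  · refine h48_colip_closure hu.continuousOn (inter_subset_left.trans hsE) fun z hz w hw => ?_
    obtain ⟨y, hy, hAy⟩ := hA ⟨z, hz.1⟩ n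
    have hdet : (A n).det ≠ 0 := by rw [hAy]; exact hy.2
    have e1 := hM (A n) hdet (z - w)
    have e2 := happ n z hz w hw
    have e3 : ‖A n (z - w)‖ ≤ ‖u z - u w‖ + ‖u z - u w - A n (z - w)‖ := by
      have := norm_sub_le (u z - u w) (u z - u w - A n (z - w))
      rwa [sub_sub_cancel] at this
    rw [dist_eq_norm, dist_eq_norm]
    have hM0 : (0 : ℝ) ≤ M (A n) := (M (A n)).2
    have e4 : (M (A n) : ℝ) * (((2 * M (A n) + 1)⁻¹ : ℝ≥0) : ℝ) ≤ 1 / 2 := by
      push_cast
      rw [← div_eq_mul_inv, div_le_div_iff₀ (by positivity) (by positivity)]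
      linarith
    have e5 := mul_le_mul_of_nonneg_left (e3.trans (add_le_add le_rfl e2)) hM0
    have e6 := mul_le_mul_of_nonneg_right e4 (norm_nonneg (z - w))
    nlinarith
  · rw [cov_restrict_eq volume h1 h3]
    filter_upwards [ae_restrict_mem h2] with z hz hdet
    have hzs : z ∈ s := ⟨hz, hdet⟩
    obtain ⟨n, hn⟩ := mem_iUnion.1 (hcov hzs)
    exact mem_iUnion.2 ⟨n, h1 hz, subset_closure ⟨hzs, hn⟩⟩

/-- Co-Lipschitz pieces of a chart.  Proof: `x` from `exists_ae_coframe`; for `j : Fin k → ℕ` let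
`u j w = toLp 2 (fun a => dist (x (j a)) (φ w))` (Lipschitz on `E`, and
`dist (u j z) (u j w) ≤ k * dist (φ z) (φ w)`); take all the pieces of `exists_colip_euc` for all
`j`, enumerate them by `ℕ` (`exists_surjective_nat`) and take `disjointed`.  Outside all the pieces
all the determinants vanish (`jdW_eq_det`), so `jac E φ z ≤ 0` (`ε = 1/2`) and `ae_abs_det_le`
finishes. -/
theorem exists_colip (hX : Quad X) {E : Set (Euc k)} (hE : MeasurableSet E) {φ : Euc k → X}
    {L : ℝ≥0} (hφ : LipschitzOnWith L φ E) :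
    ∃ A : ℕ → Set (Euc k), (∀ n, MeasurableSet (A n)) ∧ (∀ n, A n ⊆ E) ∧
      Pairwise (fun m n => Disjoint (A m) (A n)) ∧
      (∀ n, ∃ C : ℝ, ∀ z ∈ A n, ∀ w ∈ A n, dist z w ≤ C * dist (φ z) (φ w)) ∧
      ∀ π : Fin k → X → ℝ, LipT π →
        ∀ᵐ z ∂(volume.restrict E), z ∉ ⋃ n, A n → jp E φ π z = 0 := by
  obtain ⟨x, hx⟩ := exists_ae_coframe hX hE hφ
  let u : (Fin k → ℕ) → Euc k → Euc k := fun j w => WithLp.toLp 2 fun a => dist (x (j a)) (φ w)
  have hd : ∀ j z w, dist (u j z) (u j w) ≤ √k * dist (φ z) (φ w) := by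
    intro j z w
    rw [EuclideanSpace.dist_eq, ← Real.sqrt_sq (dist_nonneg (x := φ z) (y := φ w)),
      ← Real.sqrt_mul (Nat.cast_nonneg k)]
    refine Real.sqrt_le_sqrt ?_
    calc ∑ a, dist (u j z a) (u j w a) ^ 2 ≤ ∑ _a : Fin k, dist (φ z) (φ w) ^ 2 :=
          Finset.sum_le_sum fun a _ => pow_le_pow_left₀ dist_nonneg
            (dist_dist_dist_le_right (x (j a)) (φ z) (φ w)) 2
      _ = _ := by simp
  have hu : ∀ j, LipschitzOnWith (NNReal.sqrt k * L) (u j) E := fun j =>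
    LipschitzOnWith.of_dist_le_mul fun z hz w hw => by
      refine (hd j z w).trans ?_
      have := hφ.dist_le_mul z hz w hw
      push_cast
      rw [mul_assoc]
      exact mul_le_mul_of_nonneg_left this (Real.sqrt_nonneg _)
  choose A hA1 hA2 hA3 hA4 using fun j => exists_colip_euc hE (hu j)
  obtain ⟨e, he⟩ := exists_surjective_nat ((Fin k → ℕ) × ℕ)
  let B : ℕ → Set (Euc k) := fun n => A (e n).1 (e n).2
  refine ⟨disjointed B, MeasurableSet.disjointed fun n => hA1 _ _,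
    fun n => (disjointed_subset B n).trans (hA2 _ _), disjoint_disjointed B, fun n => ?_,
    fun π hπ => ?_⟩
  · obtain ⟨C, hC⟩ := hA3 (e n).1 (e n).2
    refine ⟨max C 0 * √k, fun z hz w hw => ?_⟩
    calc dist z w ≤ C * dist (u (e n).1 z) (u (e n).1 w) :=
          hC z (disjointed_subset B n hz) w (disjointed_subset B n hw)
      _ ≤ max C 0 * dist (u (e n).1 z) (u (e n).1 w) :=
          mul_le_mul_of_nonneg_right (le_max_left _ _) dist_nonneg
      _ ≤ max C 0 * (√k * dist (φ z) (φ w)) :=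
          mul_le_mul_of_nonneg_left (hd _ z w) (le_max_right _ _)
      _ = _ := by ring
  · choose K hK using hπ
    filter_upwards [hx, ae_all_iff.2 hA4, ae_all_iff.2 fun j => jdW_eq_det hE (hu j),
      ae_abs_det_le hX hE hφ (fun a => (hK a).lipschitzOnWith)] with z h1 h2 h3 h4 hz
    rw [iUnion_disjointed] at hz
    obtain ⟨j, hj⟩ := h1 (1 / 2) (by norm_num)
    have h5 : (fderivWithin ℝ (u j) E z).det = 0 := by
      by_contra hne
      obtain ⟨n, hn⟩ := mem_iUnion.1 (h2 j hne)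
      obtain ⟨m, hm⟩ := he (j, n)
      exact hz (mem_iUnion.2 ⟨m, by simp only [B, hm]; exact hn⟩)
    have h6 : (Matrix.of fun i => dv E φ (fun y => dist (x (j i)) y) z).det = 0 :=
      (h3 j).trans h5
    rw [h6, abs_zero] at hj
    have h7 : jac E φ z = 0 := le_antisymm (by linarith) (Real.sqrt_nonneg _)
    rw [h7, mul_zero] at h4
    exact abs_nonpos_iff.1 h4

/-- Sums of integer densities.  Proof: `∫⁻ ∑' ‖g i z‖ₑ < ⊤` (`lintegral_tsum`), so for a.e. `z` the
family is summable; `θ z = ⌊∑' i, (g i z : ℝ)⌋`; the sum lies in the closed set `range Int.cast`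
(`Int.isClosedEmbedding_coe_real`, partial sums, `IsClosed.mem_of_tendsto`); integrability from
`hasSum_integral_of_summable_integral_norm` / `integrable_of_summable_norm_integrable`-type lemmas
or directly; `integral_tsum` for `g i * h`. -/
theorem exists_int_sum {α ι : Type*} [MeasurableSpace α] [Countable ι] {ν : Measure α}
    (g : ι → α → ℤ) (hg : ∀ i, AEStronglyMeasurable (fun z => (g i z : ℝ)) ν)
    (hs : ∑' i, ∫⁻ z, ‖(g i z : ℝ)‖ₑ ∂ν ≠ ⊤) :
    ∃ θ : α → ℤ, Integrable (fun z => (θ z : ℝ)) ν ∧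
      ∀ (h : α → ℝ) (C : ℝ), AEStronglyMeasurable h ν → (∀ᵐ z ∂ν, |h z| ≤ C) →
        ∫ z, (θ z : ℝ) * h z ∂ν = ∑' i, ∫ z, (g i z : ℝ) * h z ∂ν := by
  have hθ : ∀ z, ((∑' i, g i z : ℤ) : ℝ) = ∑' i, (g i z : ℝ) := fun z =>
    Topology.IsClosedEmbedding.map_tsum (fun i => g i z) (g := Int.castAddHom ℝ)
      Int.isClosedEmbedding_coe_real
  refine ⟨fun z => ∑' i, g i z, ?_, fun h C hh hC => ?_⟩
  · simp only [hθ]
    refine ⟨(AEMeasurable.tsum fun i => (hg i).aemeasurable).aestronglyMeasurable, ?_⟩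
    refine lt_of_le_of_lt (lintegral_mono fun z => enorm_tsum_le_tsum_enorm) ?_
    rw [lintegral_tsum fun i => (hg i).enorm]
    exact hs.lt_top
  · simp only [hθ, ← tsum_mul_right]
    refine integral_tsum (fun i => (hg i).mul hh) (ne_top_of_le_ne_top
      (ENNReal.mul_ne_top hs (ENNReal.ofReal_ne_top (r := C))) ?_)
    rw [← ENNReal.tsum_mul_right]
    refine ENNReal.tsum_le_tsum fun i => ?_
    rw [← lintegral_mul_const' _ _ ENNReal.ofReal_ne_top]
    refine lintegral_mono_ae ?_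
    filter_upwards [hC] with z hz
    rw [enorm_mul]
    gcongr
    rw [← ofReal_norm]
    exact ENNReal.ofReal_le_ofReal hz

private theorem h50_jdW_congr {E : Set (Euc k)} {u v : Fin k → Euc k → ℝ}
    (h : ∀ a, EqOn (u a) (v a) E) {z : Euc k} (hz : z ∈ E) : jdW E u z = jdW E v z := by
  unfold jdW
  simp only [fun a => fderivWithin_congr' (𝕜 := ℝ) (h a) hz]

private theorem h50_lip_coord {Y : Type*} [PseudoMetricSpace Y] {s : Set Y} {ψ : Y → Euc k}
    {C : ℝ≥0} (h : LipschitzOnWith C ψ s) (a : Fin k) : LipschitzOnWith C (fun x => ψ x a) s :=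
  LipschitzOnWith.of_dist_le_mul fun x hx y hy =>
    (PiLp.dist_apply_le (ψ x) (ψ y) a).trans (h.dist_le_mul x hx y hy)

/-- Transport of one density to another chart.  Proof: `χ = Function.invFunOn φ0 E0 ∘ φ` maps `E`
into `E0`, `φ0 ∘ χ = φ` on `E`, `χ` is Lipschitz (co-Lipschitz constant of `φ0`) and co-Lipschitz
(`hC`, `hL0`) on `E`; `D z = (fderivWithin χ E z).det`.  Put
`θ' y = indicator (χ '' E) (fun y => θ (χ⁻¹ y) * sign (D (χ⁻¹ y))) y` with
`χ⁻¹ = invFunOn χ E` and the integer sign `if 0 ≤ D then 1 else -1`.  `cov_integrableOn`,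
`cov_lintegral`, `cov_integral`, `jdW_comp` (and `fderivWithin_congr'` to replace `π a ∘ φ0 ∘ χ` by
`π a ∘ φ`), `|D| * sign D = D`.  The last clause: the coordinates of `invFunOn φ0 E0` are
`C0`-Lipschitz on `φ0 '' E0`; extend them (`LipschitzOnWith.extend_real`) to `ρ a : X → ℝ`, then
`D = jp E φ ρ` a.e. (`jdW_eq_det`). -/
theorem transport {E0 E : Set (Euc k)} (hE0 : MeasurableSet E0) (hE : MeasurableSet E)
    {φ0 φ : Euc k → X} {L0 L : ℝ≥0} {C0 : ℝ≥0} {C : ℝ} (hL0 : LipschitzOnWith L0 φ0 E0)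
    (hC0 : ∀ z ∈ E0, ∀ w ∈ E0, dist z w ≤ C0 * dist (φ0 z) (φ0 w))
    (hL : LipschitzOnWith L φ E) (hC : ∀ z ∈ E, ∀ w ∈ E, dist z w ≤ C * dist (φ z) (φ w))
    (hm : ∀ z ∈ E, φ z ∈ φ0 '' E0) {θ : Euc k → ℤ} (hθ : IntegrableOn (fun z => (θ z : ℝ)) E) :
    ∃ θ' : Euc k → ℤ, IntegrableOn (fun z => (θ' z : ℝ)) E0 ∧
      (∀ (f : X → ℝ) (π : Fin k → X → ℝ), LipT π →
        ∫ y in E0, (θ' y : ℝ) * (f (φ0 y) * jp E0 φ0 π y) =
          ∫ z in E, (θ z : ℝ) * f (φ z) * jp E φ π z) ∧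
      ∃ ρ : Fin k → X → ℝ, (∀ a, LipschitzWith C0 (ρ a)) ∧
        ∫⁻ y in E0, ‖(θ' y : ℝ)‖ₑ = ∫⁻ z in E, ‖(θ z : ℝ) * jp E φ ρ z‖ₑ := by
  classical
  set ψ : X → Euc k := Function.invFunOn φ0 E0 with hψdef
  have hψm : ∀ x ∈ φ0 '' E0, ψ x ∈ E0 := fun x hx => Function.invFunOn_mem hx
  have hψe : ∀ x ∈ φ0 '' E0, φ0 (ψ x) = x := fun x hx => Function.invFunOn_eq hx
  have hψl : LipschitzOnWith C0 ψ (φ0 '' E0) := LipschitzOnWith.of_dist_le_mul fun x hx y hy => by
    have := hC0 _ (hψm x hx) _ (hψm y hy)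
    rwa [hψe x hx, hψe y hy] at this
  set χ : Euc k → Euc k := fun z => ψ (φ z) with hχdef
  have hχm : MapsTo χ E E0 := fun z hz => hψm _ (hm z hz)
  have hχe : ∀ z ∈ E, φ0 (χ z) = φ z := fun z hz => hψe _ (hm z hz)
  have hχl : LipschitzOnWith (C0 * L) χ E := hψl.comp hL hm
  have hχc : ∀ z ∈ E, ∀ w ∈ E, dist z w ≤ (max C 0 * L0) * dist (χ z) (χ w) := by
    intro z hz w hw
    have e1 := hL0.dist_le_mul _ (hχm hz) _ (hχm hw)
    rw [hχe z hz, hχe w hw] at e1
    calc dist z w ≤ C * dist (φ z) (φ w) := hC z hz w hw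
      _ ≤ max C 0 * dist (φ z) (φ w) := mul_le_mul_of_nonneg_right (le_max_left _ _) dist_nonneg
      _ ≤ max C 0 * (L0 * dist (χ z) (χ w)) := mul_le_mul_of_nonneg_left e1 (le_max_right _ _)
      _ = _ := by ring
  have hχi : InjOn χ E := by
    intro z hz w hw h
    have := hχc z hz w hw
    rw [h, dist_self, mul_zero] at this
    exact dist_le_zero.1 this
  have hB : MeasurableSet (χ '' E) := cov_measurableSet_image hE hχl hχi
  have hBE : χ '' E ⊆ E0 := hχm.image_subset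
  set D : Euc k → ℝ := fun z => (fderivWithin ℝ χ E z).det with hDdef
  let σ : Euc k → ℤ := fun z => if 0 ≤ D z then 1 else -1
  let θ1 : Euc k → ℤ := fun y => θ (Function.invFunOn χ E y) * σ (Function.invFunOn χ E y)
  have hθ1 : ∀ z ∈ E, |D z| * (θ1 (χ z) : ℝ) = θ z * D z := by
    intro z hz
    have e : Function.invFunOn χ E (χ z) = z := hχi.leftInvOn_invFunOn hz
    simp only [θ1, e, σ]
    split_ifs with h
    · rw [abs_of_nonneg h]; push_cast; ring
    · rw [abs_of_neg (not_le.1 h)]; push_cast; ring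
  have hind : ∀ y, (((χ '' E).indicator θ1 y : ℤ) : ℝ) =
      (χ '' E).indicator (fun y => (θ1 y : ℝ)) y := by
    intro y
    by_cases hy : y ∈ χ '' E
    · rw [indicator_of_mem hy, indicator_of_mem hy]
    · rw [indicator_of_notMem hy, indicator_of_notMem hy, Int.cast_zero]
  have hD := jdW_eq_det hE hχl
  refine ⟨(χ '' E).indicator θ1, ?_, fun f π hπ => ?_, ?_⟩
  · have h1 : IntegrableOn (fun y => (θ1 y : ℝ)) (χ '' E) := by
      rw [cov_integrableOn volume hE hχl hχi]
      refine (integrableOn_mul_jdW hE hθ (u := fun a w => χ w a)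
        fun a => ⟨_, h50_lip_coord hχl a⟩).congr ?_
      filter_upwards [hD, ae_restrict_mem hE] with z h1 hz
      rw [h1]
      exact (hθ1 z hz).symm
    simp only [hind]
    exact (h1.integrable_indicator hB).integrableOn
  · have e1 : ∀ y, (((χ '' E).indicator θ1 y : ℤ) : ℝ) * (f (φ0 y) * jp E0 φ0 π y) =
        (χ '' E).indicator (fun y => (θ1 y : ℝ) * (f (φ0 y) * jp E0 φ0 π y)) y := by
      intro y
      rw [hind, indicator_mul_left]
    simp only [e1]
    rw [setIntegral_indicator hB, inter_eq_right.2 hBE, cov_integral volume hE hχl hχi]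
    refine integral_congr_ae ?_
    filter_upwards [jdW_comp hE hχl hχc hχm (lipOn_coord ⟨_, hL0⟩ hπ), ae_restrict_mem hE]
      with z h1 hz
    have h2 : jp E φ π z = jdW E (fun a w => π a (φ0 (χ w))) z :=
      h50_jdW_congr (fun a w hw => by simp only [hχe w hw]) hz
    rw [h2, h1, ← mul_assoc, hθ1 z hz, hχe z hz]
    unfold jp
    ring
  · choose ρ hρ hρe using fun a => (h50_lip_coord hψl a).extend_real
    refine ⟨ρ, hρ, ?_⟩
    have e1 : ∀ y, ‖(((χ '' E).indicator θ1 y : ℤ) : ℝ)‖ₑ =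
        (χ '' E).indicator (fun y => ‖(θ1 y : ℝ)‖ₑ) y := by
      intro y
      rw [hind, enorm_indicator_eq_indicator_enorm]
    simp only [e1]
    rw [setLIntegral_indicator hB, inter_eq_left.2 hBE, cov_lintegral volume hE hχl hχi]
    refine lintegral_congr_ae ?_
    filter_upwards [hD, ae_restrict_mem hE] with z h1 hz
    have h2 : jp E φ ρ z = jdW E (fun a w => χ w a) z :=
      h50_jdW_congr (fun a w hw => (hρe a (hm w hw)).symm) hz
    rw [h2, h1, ← hθ1 z hz, enorm_mul, Real.enorm_eq_ofReal (abs_nonneg _)]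

variable [MeasurableSpace X] [BorelSpace X]

namespace Fam

variable (F : Fam X k)

/-- pieces of the charts -/
def piece (κ : Type) (hκ : Countable κ) (p : κ → F.ι) (A : κ → Set (Euc k))
    (mA : ∀ n, MeasurableSet (A n)) (sA : ∀ n, A n ⊆ F.E (p n))
    (fin : ∑' n, ∫⁻ z in A n, F.den (p n) z ≠ ⊤) : Fam X k where
  ι := κ
  cnt := hκ
  E := A
  φ := fun n => F.φ (p n)
  θ := fun n => F.θ (p n)
  w := fun n => F.w (p n)
  mE := mA
  bE := fun n => (F.bE _).subset (sA n)
  lip := fun n => let ⟨L, hL⟩ := F.lip (p n); ⟨L, hL.mono (sA n)⟩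
  iθ := fun n => (F.iθ _).mono_set (sA n)
  mw := fun n => F.mw _
  w0 := fun n => F.w0 _
  had := fun n π L hL => by
    filter_upwards [jp_subset (mA n) (sA n) (F.lip _) (fun a => ⟨L a, hL a⟩),
      ae_restrict_of_ae_restrict_of_subset (sA n) (F.had (p n) π L hL)] with z h1 h2
    rwa [h1]
  fin := fin

theorem act_piece (κ : Type) (hκ : Countable κ) (p : κ → F.ι) (A : κ → Set (Euc k))
    (mA : ∀ n, MeasurableSet (A n)) (sA : ∀ n, A n ⊆ F.E (p n))
    (fin : ∑' n, ∫⁻ z in A n, F.den (p n) z ≠ ⊤) (f : X → ℝ) {π : Fin k → X → ℝ} (hπ : LipT π) :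
    (F.piece κ hκ p A mA sA fin).act f π = ∑' n, ∫ z in A n, F.itg f π (p n) z := by
  refine tsum_congr fun n => integral_congr_ae ?_
  filter_upwards [jp_subset (mA n) (sA n) (F.lip _) hπ] with z hz
  exact congrArg (fun t => (F.θ (p n) z : ℝ) * f (F.φ (p n) z) * t) hz

/-- restriction to a Borel set -/
def restrict {B : Set X} (hB : MeasurableSet B) : Fam X k :=
  F.piece F.ι F.cnt id (fun i => F.E i ∩ F.φ i ⁻¹' B) (fun i => F.measurableSet_pre i hB)
    (fun _ => inter_subset_left) ((F.mu_apply hB).symm.trans_ne (measure_ne_top _ _))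

theorem restrict_in {B : Set X} (hB : MeasurableSet B) : (F.restrict hB).In B :=
  fun _ _ hz => hz.2

theorem restrict_coLip (h : F.CoLip) {B : Set X} (hB : MeasurableSet B) :
    (F.restrict hB).CoLip := fun i =>
  let ⟨C, hC⟩ := h i; ⟨C, fun z hz w hw => hC z hz.1 w hw.1⟩

theorem tot_restrict {B : Set X} (hB : MeasurableSet B) : (F.restrict hB).tot = F.mu B :=
  (F.mu_apply hB).symm

theorem act_restrict {B : Set X} (hB : MeasurableSet B) (f : X → ℝ) {π : Fin k → X → ℝ}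
    (hπ : LipT π) : (F.restrict hB).act f π = F.act (B.indicator f) π := by
  unfold restrict
  rw [act_piece _ _ _ _ _ _ _ _ _ hπ]
  refine tsum_congr fun i => ?_
  rw [← integral_indicator (F.measurableSet_pre i hB), ← integral_indicator (F.mE i)]
  refine integral_congr_ae (Eventually.of_forall fun z => ?_)
  by_cases h1 : z ∈ F.E i <;> by_cases h2 : F.φ i z ∈ B <;> simp [indicator, itg, h1, h2]

private theorem helper40_lint (A : F.ι → ℕ → Set (Euc k)) (mA : ∀ i n, MeasurableSet (A i n))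
    (sA : ∀ i n, A i n ⊆ F.E i) (dA : ∀ i, Pairwise (fun m n => Disjoint (A i m) (A i n)))
    (G : F.ι → Euc k → ℝ≥0∞) :
    ∑' q : F.ι × ℕ, ∫⁻ z in A q.1 q.2, G q.1 z ≤ ∑' i, ∫⁻ z in F.E i, G i z := by
  rw [ENNReal.tsum_prod']
  refine ENNReal.tsum_le_tsum fun i => ?_
  exact (lintegral_iUnion (mA i) (dA i) (G i)).symm.trans_le
    (lintegral_mono_set (iUnion_subset (sA i)))

private theorem helper40_sum (A : F.ι → ℕ → Set (Euc k)) (mA : ∀ i n, MeasurableSet (A i n))
    (sA : ∀ i n, A i n ⊆ F.E i) (dA : ∀ i, Pairwise (fun m n => Disjoint (A i m) (A i n)))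
    {f : X → ℝ} (hf : Bm f) {π : Fin k → X → ℝ} (hπ : LipT π)
    (h0 : ∀ i, ∀ᵐ z ∂(volume.restrict (F.E i)), z ∉ ⋃ n, A i n → F.itg f π i z = 0) :
    Summable (fun q : F.ι × ℕ => ∫ z in A q.1 q.2, F.itg f π q.1 z) ∧
      F.act f π = ∑' i, ∑' n, ∫ z in A i n, F.itg f π i z := by
  constructor
  · choose L hL using hπ
    refine Summable.of_enorm (ne_top_of_le_ne_top (ENNReal.mul_ne_top
      (a := ENNReal.ofReal (∏ a, (L a : ℝ))) ENNReal.ofReal_ne_top
      (F.lintegral_enorm_ne_top hf)) ?_)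
    have h1 : ∑' q : F.ι × ℕ, ‖∫ z in A q.1 q.2, F.itg f π q.1 z‖ₑ ≤
        ∑' q : F.ι × ℕ, ENNReal.ofReal (∏ a, (L a : ℝ)) *
          ∫⁻ z in A q.1 q.2, F.den q.1 z * ‖f (F.φ q.1 z)‖ₑ :=
      ENNReal.tsum_le_tsum fun q => F.enorm_term_le f hL q.1 (sA q.1 q.2)
    refine h1.trans ?_
    rw [ENNReal.tsum_mul_left, F.lintegral_mu hf.1.enorm]
    have h2 := F.helper40_lint A mA sA dA fun i z => F.den i z * ‖f (F.φ i z)‖ₑ
    exact mul_le_mul_right h2 _
  · refine tsum_congr fun i => ?_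
    rw [← integral_iUnion (mA i) (dA i)
      ((F.integrableOn_itg hf hπ i).mono_set (iUnion_subset (sA i)))]
    refine setIntegral_eq_of_subset_of_ae_sdiff_eq_zero (F.mE i).nullMeasurableSet
      (iUnion_subset (sA i)) ?_
    filter_upwards [(ae_restrict_iff' (F.mE i)).1 (h0 i)] with z hz hm
    exact hz hm.1 hm.2

/-- Decomposition along a partition of the target.  Proof: the terms are bounded by
`(∏ L) * C * mu.real (B j)` (`abs_act_le`), hence summable; `HasSum` along `Finset.range n`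
(`Summable.hasSum_iff_tendsto_nat`): by `act_add` and induction the partial sum is the action of the
indicator of `⋃ j < n, B j` (`indicator_union_of_disjoint`), and by `act_congr`, `abs_act_le` the
difference to `act f π` is at most `(∏ L) * C * mu.real ((⋃ j, B j) \ ⋃ j < n, B j) → 0`.
Alternatively `tsum_comm` and `integral_iUnion` in each chart. -/
theorem act_iUnion {B : ℕ → Set X} (hB : ∀ j, MeasurableSet (B j))
    (hd : Pairwise (fun i j => Disjoint (B i) (B j))) (hin : F.In (⋃ j, B j)) {f : X → ℝ}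
    (hf : Bm f) {π : Fin k → X → ℝ} (hπ : LipT π) :
    F.act f π = ∑' j, F.act ((B j).indicator f) π := by
  obtain ⟨hs, he⟩ := F.helper40_sum (fun i j => F.E i ∩ F.φ i ⁻¹' B j)
    (fun i j => F.measurableSet_pre i (hB j)) (fun _ _ => inter_subset_left)
    (fun i m n hmn => ((hd hmn).preimage (F.φ i)).mono inter_subset_right inter_subset_right)
    hf hπ fun i => by
      filter_upwards [ae_restrict_mem (F.mE i)] with z hz hn
      obtain ⟨j, hj⟩ := mem_iUnion.1 (hin i z hz)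
      exact absurd (mem_iUnion.2 ⟨j, mem_inter hz hj⟩) hn
  rw [he, ← Summable.tsum_comm (f := fun i j => ∫ z in F.E i ∩ F.φ i ⁻¹' B j, F.itg f π i z) hs]
  refine tsum_congr fun j => ?_
  rw [← F.act_restrict (hB j) f hπ]
  unfold restrict
  rw [act_piece _ _ _ _ _ _ _ _ _ hπ]
  rfl

/-- Refinement to co-Lipschitz charts.  Proof: `A i` from `exists_colip`;
`F' = F.piece (F.ι × ℕ) _ Prod.fst (fun q => A q.1 q.2)`; finiteness by `ENNReal.tsum_prod'`,
`lintegral_iUnion`, `lintegral_mono_set`; `act_piece`, `Summable.tsum_prod` (summability is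
`F'.summable_term` transported as in `act_piece`), `integral_iUnion`, and the integrand vanishes
a.e. on `E i \ ⋃ n, A i n` (`setIntegral_eq_of_subset_of_ae_diff_eq_zero`). -/
theorem exists_refine (hX : Quad X) : ∃ F' : Fam X k, F'.CoLip ∧
    ∀ (f : X → ℝ) (π : Fin k → X → ℝ), Bm f → LipT π → F'.act f π = F.act f π := by
  choose A mA sA dA cA zA using fun i => exists_colip hX (F.mE i) (F.lip i).choose_spec
  refine ⟨F.piece (F.ι × ℕ) inferInstance Prod.fst (fun q => A q.1 q.2) (fun q => mA q.1 q.2)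
    (fun q => sA q.1 q.2) (ne_top_of_le_ne_top F.tot_ne_top (F.helper40_lint A mA sA dA F.den)),
    fun q => cA q.1 q.2, fun f π hf hπ => ?_⟩
  obtain ⟨hs, he⟩ := F.helper40_sum A mA sA dA hf hπ fun i => by
    filter_upwards [zA i π hπ] with z hz hn
    rw [itg, hz hn, mul_zero]
  rw [act_piece _ _ _ _ _ _ _ _ _ hπ, he, hs.tsum_prod]

/-- All the charts in one chart.  Proof: `θ' i` from `transport` (with `C0.toNNReal`);
`∫⁻ ‖θ' i‖ₑ ≤ ofReal (C0^k) * ∫⁻ den i` by `F.had`; `exists_int_sum` with `ν = volume.restrict E0`,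
`h y = f (φ0 y) * jp E0 φ0 π y` (`aestronglyMeasurable_jdW`, `ae_abs_jdW_le`); `chartAction_jp`;
both sides vanish off the test pairs. -/
theorem single_chart (h : F.CoLip) {E0 : Set (Euc k)} (hE0 : MeasurableSet E0) {φ0 : Euc k → X}
    (hL0 : ∃ L : ℝ≥0, LipschitzOnWith L φ0 E0)
    (hC0 : ∃ C : ℝ, ∀ z ∈ E0, ∀ w ∈ E0, dist z w ≤ C * dist (φ0 z) (φ0 w))
    (hin : F.In (φ0 '' E0)) :
    ∃ θ0 : Euc k → ℤ, IntegrableOn (fun z => (θ0 z : ℝ)) E0 ∧ chartAction E0 φ0 θ0 = F.cur := by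
  obtain ⟨L0, hL0⟩ := hL0
  obtain ⟨C0, hC0⟩ := hC0
  have hC0' : ∀ z ∈ E0, ∀ w ∈ E0, dist z w ≤ (C0.toNNReal : ℝ) * dist (φ0 z) (φ0 w) :=
    fun z hz w hw => (hC0 z hz w hw).trans
      (mul_le_mul_of_nonneg_right (Real.le_coe_toNNReal C0) dist_nonneg)
  choose θ' hint hact ρ hρ hlin using fun i => transport hE0 (F.mE i) hL0 hC0'
    (F.lip i).choose_spec (h i).choose_spec (hin i) (F.iθ i)
  have hs : ∑' i, ∫⁻ z in E0, ‖(θ' i z : ℝ)‖ₑ ≠ ⊤ := by
    refine ne_top_of_le_ne_top (ENNReal.mul_ne_top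
      (ENNReal.ofReal_ne_top (r := ∏ _a : Fin k, (C0.toNNReal : ℝ))) F.tot_ne_top) ?_
    rw [tot, ← ENNReal.tsum_mul_left]
    refine ENNReal.tsum_le_tsum fun i => ?_
    rw [hlin i, ← lintegral_const_mul' _ _ ENNReal.ofReal_ne_top]
    refine lintegral_mono_ae ?_
    filter_upwards [F.enorm_itg_le (fun _ => 1) (L := fun _ => C0.toNNReal) (hρ i) i] with z hz
    simpa only [itg, mul_one, enorm_one] using hz
  obtain ⟨θ0, hθ0, hsum⟩ := exists_int_sum (ν := volume.restrict E0) θ'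
    (fun i => (hint i).aestronglyMeasurable) hs
  refine ⟨θ0, hθ0, ?_⟩
  funext f π
  by_cases ht : IsTestPair f π
  · rw [chartAction_jp _ _ _ ht, F.cur_eq ht, act]
    obtain ⟨hm, C, hC⟩ := bm_of_test ht
    have hlip := lipOn_coord ⟨L0, hL0⟩ (π := π) ht.2.2
    choose K hK using id hlip
    have m1 : AEStronglyMeasurable (fun y => f (φ0 y)) (volume.restrict E0) :=
      (hm.comp_aemeasurable (hL0.continuousOn.aemeasurable hE0)).aestronglyMeasurable
    have m2 : AEStronglyMeasurable (jp E0 φ0 π) (volume.restrict E0) :=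
      aestronglyMeasurable_jdW hE0 hlip
    have := hsum (fun y => f (φ0 y) * jp E0 φ0 π y) (C * ((k.factorial : ℝ) * ∏ a, (K a : ℝ)))
      (m1.mul m2) (by
        filter_upwards [ae_abs_jdW_le hE0 hK] with z hz
        rw [abs_mul]
        exact mul_le_mul (hC _) hz (abs_nonneg _) ((abs_nonneg _).trans (hC (φ0 z))))
    simp only [mul_assoc]
    rw [this]
    exact tsum_congr fun i => hact i f π ht.2.2
  · rw [F.cur_zero ht]
    exact if_neg ht

/-- Proof: replace `F` by `F'` of `exists_refine` (`F'.cur = F.cur`).  `e : ℕ → Option F'.ι`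
surjective, `E j = (e j).elim ∅ F'.E`, `φ j = (e j).elim (fun _ => x0) F'.φ`, `Y j = φ j '' E j`
(Borel: `cov_measurableSet_image`), `B = disjointed Y`, `E' j = E j ∩ φ j ⁻¹' B j`, so
`φ j '' E' j = B j`.  `θ j` from `single_chart` for `F'.restrict (B j)`; `isCurrent`,
`mass_cur_le`, `tot_restrict` (masses are `≤ F'.mu.real (B j)`, summable, and `0 ≤ mass` by
`Real.sInf_nonneg`), `act_restrict`, `act_iUnion`. -/
theorem isIntegerRectifiable [SecondCountableTopology X] [Nonempty X] (hX : Quad X) :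
    IsIntegerRectifiable F.cur := by
  obtain ⟨F', hcl, hact⟩ := F.exists_refine hX
  obtain ⟨e, he⟩ := exists_surjective_nat (Option F'.ι)
  obtain ⟨x0⟩ := ‹Nonempty X›
  set Eo : Option F'.ι → Set (Euc k) := fun o => o.elim ∅ F'.E with hEo
  set φo : Option F'.ι → Euc k → X := fun o => o.elim (fun _ => x0) F'.φ with hφo
  have hP : ∀ o, MeasurableSet (Eo o) ∧ Bornology.IsBounded (Eo o) ∧
      (∃ L : ℝ≥0, LipschitzOnWith L (φo o) (Eo o)) ∧
      (∃ C : ℝ, ∀ z ∈ Eo o, ∀ w ∈ Eo o, dist z w ≤ C * dist (φo o z) (φo o w)) ∧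
      ∀ B : Set X, MeasurableSet B → MeasurableSet (Eo o ∩ φo o ⁻¹' B) := by
    rintro (_ | i)
    · refine ⟨MeasurableSet.empty, Bornology.isBounded_empty, ⟨0, lipschitzOnWith_empty _ _⟩,
        ⟨0, fun z hz => absurd hz (notMem_empty z)⟩, fun B _ => ?_⟩
      change MeasurableSet ((∅ : Set (Euc k)) ∩ _)
      rw [empty_inter]
      exact MeasurableSet.empty
    · exact ⟨F'.mE i, F'.bE i, F'.lip i, hcl i, fun B hB => F'.measurableSet_pre i hB⟩
  set Y : ℕ → Set X := fun j => φo (e j) '' Eo (e j) with hY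
  have mY : ∀ j, MeasurableSet (Y j) := by
    intro j
    obtain ⟨h1, -, ⟨L, hL⟩, ⟨C, hC⟩, -⟩ := hP (e j)
    refine cov_measurableSet_image h1 hL fun z hz w hw hzw => ?_
    have := hC z hz w hw
    rw [hzw, dist_self, mul_zero] at this
    exact dist_le_zero.1 this
  have mB : ∀ j, MeasurableSet (disjointed Y j) := MeasurableSet.disjointed mY
  have dB : Pairwise fun i j => Disjoint (disjointed Y i) (disjointed Y j) :=
    disjoint_disjointed Y
  set E' : ℕ → Set (Euc k) := fun j => Eo (e j) ∩ φo (e j) ⁻¹' disjointed Y j with hE'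
  have himg : ∀ j, φo (e j) '' E' j = disjointed Y j := fun j => by
    rw [hE', image_inter_preimage]
    exact inter_eq_right.2 (disjointed_subset Y j)
  have mE' : ∀ j, MeasurableSet (E' j) := fun j => (hP (e j)).2.2.2.2 _ (mB j)
  have lE' : ∀ j, ∃ L : ℝ≥0, LipschitzOnWith L (φo (e j)) (E' j) := fun j =>
    let ⟨L, hL⟩ := (hP (e j)).2.2.1; ⟨L, hL.mono inter_subset_left⟩
  have cE' : ∀ j, ∃ C : ℝ, ∀ z ∈ E' j, ∀ w ∈ E' j,
      dist z w ≤ C * dist (φo (e j) z) (φo (e j) w) := fun j =>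
    let ⟨C, hC⟩ := (hP (e j)).2.2.2.1; ⟨C, fun z hz w hw => hC z hz.1 w hw.1⟩
  choose θ hθ hcur using fun j => (F'.restrict (mB j)).single_chart (F'.restrict_coLip hcl (mB j))
    (mE' j) (lE' j) (cE' j) (by rw [himg j]; exact F'.restrict_in (mB j))
  refine ⟨E', fun j => φo (e j), θ, fun j => ⟨mE' j, (hP (e j)).2.1.subset inter_subset_left⟩,
    lE', cE', hθ, fun i j hij => ?_, fun j => ?_, ?_, fun f π ht => ?_⟩
  · rw [himg, himg]
    exact dB hij
  · rw [hcur]
    exact isCurrent _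
  · refine Summable.of_nonneg_of_le (fun j => ?_) (fun j => ?_)
      (summable_measure_toReal (μ := F'.mu) mB dB)
    · refine Real.sInf_nonneg ?_
      rintro r ⟨μ, -, -, rfl⟩
      exact ENNReal.toReal_nonneg
    · rw [hcur]
      refine (mass_cur_le _).trans_eq ?_
      rw [tot_restrict]
      rfl
  · have hin : F'.In (⋃ j, disjointed Y j) := by
      intro i z hz
      rw [iUnion_disjointed]
      obtain ⟨j, hj⟩ := he (some i)
      refine mem_iUnion.2 ⟨j, z, ?_, ?_⟩
      · rw [hj]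
        exact hz
      · rw [hj]
        rfl
    rw [F.cur_eq ht, ← hact f π (bm_of_test ht) ht.2.2,
      F'.act_iUnion mB dB hin (bm_of_test ht) ht.2.2]
    refine tsum_congr fun j => ?_
    rw [hcur, cur_eq _ ht, act_restrict _ _ _ ht.2.2]

end Fam

end

end Crest.Agent.R241.Cv
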