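import Crest.Agent.R241.Ops
import Crest.Agent.R241.Geo
import Crest.Agent.R241.KRadC

/-! Row 241 (Cartan-Hadamard): block P: cones and deformations.
Common construction: for `τ : X → [0,1]` Lipschitz, `h(t,p) = geo x p (τ p + t (1 - τ p))`, charts
`h(t, φ z)` on `cyl E`, majorant `dρ² + (sn ρ / sn r)² (g - dr²)`, `r = d(x, φ z)`,
`ρ = (τ + t (1 - τ)) r` (from `CatSp.cmp`; on `{r = 0}` use density points; redefine on a null set
to be PSD everywhere).  `det [[a², a w],[a w, w w + P]] = a² det P`, `det (g - dr²) = det g (1 - G)`.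
Homotopy formula: interpolate `π ∘ h` linearly in `t` on a fine partition, expand, use `Cyc`,
`act_mul_coord`, `act_perm`, and the weak continuity of the Jacobian. -/

set_option autoImplicit false

open MeasureTheory Set Filter Topology
open scoped ENNReal NNReal Matrix ContDiff

namespace Crest.Agent.R241

open Crest.GeometryTopology.Submanifold

universe u v

variable {X : Type u} [MetricSpace X] [CompactSpace X] [MeasurableSpace X] [BorelSpace X]
  {l : ℝ} {n : ℕ}

/-- the cone over a cycle. -/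
theorem cone_fill (c : CatSp l X) (hl : 0 ≤ l) (T : Chain X n) (hT : T.Cyc) (x : X) :
    ∃ S : Chain X (n + 1), S.Bd T ∧
      S.mass ≤ T.I (fun p t => coneW n l (dist x p) * √(1 - t)) (dist x) (dist x) :=
  kcone_fill c hl T hT x

/-- radial deformation `r ↦ r - s η sn r` (`τ = 1 - s η sn r / r`); AM-GM `√det ≤ (tr/n)^(n/2)`. -/
theorem deform (c : CatSp l X) (hl : 0 ≤ l) (hn : 1 ≤ n) (x : X) {η : X → ℝ} (hη : Lip η)
    (h0 : ∀ p, 0 ≤ η p) :
    ∃ C s₀ : ℝ, 0 < s₀ ∧ ∀ T : Chain X n, T.Cyc → ∀ s ∈ Ioc 0 s₀,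
      ∃ (T' : Chain X n) (S : Chain X (n + 1)), T.Hom T' S ∧
        T'.mass ≤ T.mass - s * (T.B (fun _ => 1) η (Dx l x) +
          n * ∫ p, η p * (1 + l * Dx l x p) ∂T.μ) + C * s ^ 2 * T.mass ∧
        S.mass ≤ s * T.I (fun p t => η p * sn l (dist x p) * √(1 - t)) (dist x) (dist x) :=
  kdeform c hl x hη h0

end Crest.Agent.R241
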