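import Crest.Agent.R241.OneCut
import Crest.Agent.R241.AlmFV
import Crest.Agent.R241.Ultra
import Crest.Agent.R241.KeyTwo

/-! Row 241 (Cartan-Hadamard): the equality case for one-dimensional cycles. -/

set_option autoImplicit false

open MeasureTheory Set Filter Topology
open scoped ENNReal NNReal Matrix ContDiff Real

namespace Crest.Agent.R241

open Crest.GeometryTopology.Submanifold

universe u v

theorem h9_real {M L a X₁ X₂ J I δ e m τ K C : ℝ} (hm : 0 < m) (hmL : m ≤ L) (hLM : L ≤ M)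
    (hδ : 0 < δ) (hτ : 0 < τ) (h0 : 0 ≤ a) (hK : a ≤ K) (hC : 0 ≤ C) (he : 0 ≤ e)
    (ha : a ≤ L / 4 + δ) (h1 : M ^ 2 / (4 * π) ≤ X₁ + (M - L) ^ 2 / (4 * π) + e)
    (h2 : π * a ^ 2 ≤ X₂ + 4 * δ * a) (h2' : 0 ≤ X₂) (h3 : X₁ + X₂ ≤ a * L)
    (h4 : J ≤ a * X₁ + a ^ 2 * τ / 2 * L + a / τ * (a * L - X₁ - X₂))
    (h5 : I ≤ 2 * J + C * (M - L)) (hl : 0 < M / π - 4 * (e / m) - 4 * δ) :
    I ≤ 2 * ((M / (2 * π) + √((4 * δ * K + e) / π)) * (M ^ 2 / (4 * π) + (4 * δ * K + e))) +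
      K ^ 2 * τ * M + 2 * (K / τ * (4 * δ * K + e)) +
      C * (2 * π * (4 * δ * K + e) / (M / π - 4 * (e / m) - 4 * δ)) := by
  have hp := Real.pi_pos
  have hL : 0 < L := hm.trans_le hmL
  have hu : 4 * δ * a + e ≤ 4 * δ * K + e := by gcongr
  have hu0 : 0 ≤ 4 * δ * a + e := by positivity
  generalize 4 * δ * K + e = u at hu ⊢
  have e1 : a * L - π * a ^ 2 = L ^ 2 / (4 * π) - π * (a - L / (2 * π)) ^ 2 := by
    field_simp; ring
  have e2 : M ^ 2 / (4 * π) - (M - L) ^ 2 / (4 * π) - L ^ 2 / (4 * π) = L * (M - L) / (2 * π) := by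
    field_simp; ring
  have n1 : 0 ≤ π * (a - L / (2 * π)) ^ 2 := by positivity
  have n2 : 0 ≤ L * (M - L) / (2 * π) := div_nonneg (mul_nonneg hL.le (by linarith)) (by positivity)
  have n3 : L ^ 2 / (4 * π) ≤ M ^ 2 / (4 * π) := by gcongr
  have b1 : X₁ ≤ M ^ 2 / (4 * π) + u := by linarith
  have b2 : a ≤ M / (2 * π) + √(u / π) := by
    have : a - L / (2 * π) ≤ √(u / π) :=
      Real.le_sqrt_of_sq_le (by rw [le_div_iff₀ hp]; linarith)
    have : L / (2 * π) ≤ M / (2 * π) := by gcongr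
    linarith
  have n4 : 0 ≤ M ^ 2 / (4 * π) + u := by
    have : 0 ≤ M ^ 2 / (4 * π) := by positivity
    linarith
  have b3 : a * X₁ ≤ (M / (2 * π) + √(u / π)) * (M ^ 2 / (4 * π) + u) :=
    (mul_le_mul_of_nonneg_left b1 h0).trans (mul_le_mul_of_nonneg_right b2 n4)
  have b4 : a ^ 2 * τ / 2 * L ≤ K ^ 2 * τ / 2 * M := by gcongr
  have b5 : a / τ * (a * L - X₁ - X₂) ≤ K / τ * u :=
    mul_le_mul (by gcongr) (by linarith) (by linarith) (div_nonneg (h0.trans hK) hτ.le)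
  have b6 : M / π - 4 * (e / m) - 4 * δ ≤ L := by
    have c1 : M / (4 * π) * L ≤ M ^ 2 / (4 * π) - (M - L) ^ 2 / (4 * π) := by
      rw [← sub_div, div_mul_eq_mul_div]
      gcongr
      nlinarith
    have c2 : e ≤ e / m * L := by
      rw [div_mul_eq_mul_div, le_div_iff₀ hm]; gcongr
    have c3 : M / (4 * π) * L ≤ (a + e / m) * L := by linarith
    have c4 := le_of_mul_le_mul_right c3 hL
    have c5 : M / π = 4 * (M / (4 * π)) := by field_simp
    linarith
  have b7 : M - L ≤ 2 * π * u / (M / π - 4 * (e / m) - 4 * δ) := by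
    have c1 : L * (M - L) ≤ 2 * π * u := by
      rw [mul_comm (2 * π), ← div_le_iff₀ (by positivity)]; linarith
    rw [le_div_iff₀ hl]
    nlinarith
  have b8 := mul_le_mul_of_nonneg_left b7 hC
  linarith

variable {X : Type u} [MetricSpace X] [CompactSpace X] [Nonempty X] [MeasurableSpace X]
  [BorelSpace X]

theorem h9_Phi_one {m : ℝ} (hm : 0 ≤ m) : Phi 1 0 m = m ^ 2 / (4 * π) := by
  obtain ⟨r, hr, rfl⟩ := exists_area (n := 1) le_rfl le_rfl hm
  have h := sA_eq 1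
  rw [sA_one] at h
  have hp := Real.pi_pos
  have h' : unitBallVol (1 + 1) = π := by push_cast at h; linarith
  rw [Phi_area le_rfl le_rfl hr, vol_zero_left, area_eq, sn_zero_left, sA_one, h']
  field_simp
  ring

omit [Nonempty X] in
theorem h9_one_bound (c : CatSp 0 X) (T : Chain X 1) (hT : T.Cyc) {e : ℝ}
    (hA : ∀ (T' : Chain X 1) (S : Chain X 2), T.Hom T' S →
      Phi 1 0 T.mass ≤ S.mass + Phi 1 0 T'.mass + e) (p : X) {δ D m τ : ℝ} (hδ : 0 < δ)
    (hδ1 : δ ≤ 1) (hτ : 0 < τ) (hD : ∀ q, dist p q ≤ D) (hm : 0 < m)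
    (hmL : m ≤ T.μ.real (Metric.ball p δ)) (hl : 0 < T.mass / π - 4 * (|e| / m) - 4 * δ) :
    ∫ q, Dx 0 p q ∂T.μ ≤ 2 * ((T.mass / (2 * π) + √((4 * δ * (D + 2) + |e|) / π)) *
      (T.mass ^ 2 / (4 * π) + (4 * δ * (D + 2) + |e|))) +
      (D + 2) ^ 2 * τ * T.mass + 2 * ((D + 2) / τ * (4 * δ * (D + 2) + |e|)) +
      D ^ 2 / 2 * (2 * π * (4 * δ * (D + 2) + |e|) / (T.mass / π - 4 * (|e| / m) - 4 * δ)) := by
  obtain ⟨R, L, X₁, X₂, T', S, hR, hRD, hL, hH, mT, hS, hRL, h2', h2, h3, h4⟩ :=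
    h9_one_cal c le_rfl T hT p hδ hD
  have hD0 : 0 ≤ D := by simpa using hD p
  have hR0 : 0 ≤ R := hδ.le.trans hR
  rw [Alm.integral_calib le_rfl hR0, md_zero_left, Alm.cs_zero_left] at h2
  simp only [Alm.tn_zero_left] at h2 h3 h4
  have hLM : L ≤ T.mass := by
    rw [hL, ← T.μ_real_univ]; exact measureReal_mono (subset_univ _)
  have h1 := hA T' S hH
  rw [h9_Phi_one T.mass_nonneg, h9_Phi_one T'.mass_nonneg, mT] at h1
  have mB : MeasurableSet (Metric.ball p R) := Metric.isOpen_ball.measurableSet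
  refine h9_real (a := R / 2) (X₁ := X₁) (X₂ := X₂) (L := L) hm
    (hmL.trans (hL ▸ measureReal_mono (Metric.ball_subset_ball hR))) hLM hδ hτ (by linarith)
    (by linarith) (by positivity) (abs_nonneg e) (by linarith) (by linarith [le_abs_self e])
    (by linarith) h2' h3 (h4 τ hτ) ?_ hl
  have iD : Integrable (Dx 0 p) T.μ := (BM.of_continuous (lip_Dx 0 p).continuous).integrable _
  rw [← integral_add_compl mB iD, ← integral_const_mul]
  refine add_le_add (le_of_eq (integral_congr_ae (.of_forall fun q => ?_))) ?_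
  · simp only [Dx, md_zero_left]; ring
  · refine (setIntegral_mono_on iD.integrableOn (integrable_const (D ^ 2 / 2)).integrableOn
      mB.compl fun q _ => ?_).trans (le_of_eq ?_)
    · simp only [Dx, md_zero_left]
      have := hD q
      gcongr
    · rw [setIntegral_const, measureReal_compl mB, T.μ_real_univ, ← hL, smul_eq_mul, mul_comm]

theorem eq_one' (c : CatSp 0 X) (hiso : IsoIn X 1 0) (T : ℕ → Chain X 1) (hT : ∀ j, (T j).Cyc)
    {ρ₀ : ℝ} (hρ : 0 < ρ₀)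
    (hm : Tendsto (fun j => (T j).mass) atTop (𝓝 (area 1 0 ρ₀))) {e : ℕ → ℝ}
    (he : Tendsto e atTop (𝓝 0)) (hF : ∀ j, (T j).FillGe (vol 1 0 ρ₀ - e j)) :
    ∃ x : X, ∀ δ > 0, ∀ η > 0,
      ∃ᶠ j in atTop, (T j).μ.real {p | δ ≤ |dist x p - ρ₀|} ≤ η := by
  have hn1 : 1 ≤ 1 := le_rfl
  have hp := Real.pi_pos
  have hA := amin_of_fillGe le_rfl hn1 hiso hT hF
  obtain ⟨B, hB⟩ := hm.bddAbove_range
  have he' : Tendsto (fun j => Phi 1 0 (T j).mass - (vol 1 0 ρ₀ - e j)) atTop (𝓝 0) := by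
    have := (((hasDerivAt_Phi hn1 le_rfl _).continuousAt.tendsto.comp hm).sub
      ((tendsto_const_nhds (x := vol 1 0 ρ₀)).sub he))
    rwa [Phi_area hn1 le_rfl hρ.le, sub_zero, sub_self] at this
  generalize (fun j => Phi 1 0 (T j).mass - (vol 1 0 ρ₀ - e j)) = e' at hA he'
  replace he' := he'.mono_left Nat.hyperfilter_le_atTop
  replace hm := hm.mono_left Nat.hyperfilter_le_atTop
  obtain ⟨V, h1, h2, h3⟩ := exists_ultralimit T B (fun j => hB (mem_range_self j)) (hyperfilter ℕ)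
  have hM : area 1 0 ρ₀ = 2 * π * ρ₀ := by rw [area_eq, sn_zero_left, sA_one, pow_one]
  have hFV := fv_of_amin c le_rfl hn1 hT hA _ he' (phi_pos hn1 le_rfl (hM ▸ by positivity)) hm
    (Phi_monotoneOn hn1 le_rfl)
    (continuous_iff_continuousAt.2 fun m => (hasDerivAt_Phi hn1 le_rfl m).continuousAt)
    (hasDerivAt_Phi hn1 le_rfl _) V h1 h2 h3
  have e1 : phi 1 0 (area 1 0 ρ₀) = ρ₀ := by
    rw [phi_area hn1 le_rfl hρ.le, sn_zero_left]
    simp
  have e2 : ((1 : ℕ) : ℝ) / (1 / ρ₀) = ρ₀ := by simp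
  rw [e1] at hFV
  rw [hM] at hm
  have := V.fin
  have hV : V.μ.real univ = 2 * π * ρ₀ := by
    have h4 := h1 (fun _ => 1) continuous_const
    simp only [integral_const, smul_eq_mul, mul_one, Chain.μ_real_univ] at h4
    exact tendsto_nhds_unique h4 hm
  obtain ⟨x, hx⟩ := key_eqb V (by positivity) hFV (c.varIneq le_rfl) (by
    rw [e2, hV]
    obtain ⟨D, hD0, hD⟩ := exists_diam X
    filter_upwards [V.μ.support_mem_ae] with p hp'
    set M := 2 * π * ρ₀ with hMd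
    have hM0 : 0 < M / π := by positivity
    have k1 : ∀ τ > 0, ∀ δ, 0 < δ → δ ≤ 1 → 0 < M / π - 4 * δ → ∫ q, Dx 0 p q ∂V.μ ≤
        2 * ((M / (2 * π) + √((4 * δ * (D + 2)) / π)) * (M ^ 2 / (4 * π) + (4 * δ * (D + 2)))) +
        (D + 2) ^ 2 * τ * M + 2 * ((D + 2) / τ * (4 * δ * (D + 2))) +
        D ^ 2 / 2 * (2 * π * (4 * δ * (D + 2)) / (M / π - 4 * δ)) := by
      intro τ hτ δ hδ hδ1 hl
      have hpos : 0 < V.μ.real (Metric.ball p δ) :=
        ENNReal.toReal_pos ((Measure.mem_support_iff_forall p).1 hp' _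
          (Metric.ball_mem_nhds p hδ)).ne' (measure_ne_top _ _)
      set m := V.μ.real (Metric.ball p δ) / 2 with hmd
      have l0 := he'.abs
      rw [abs_zero] at l0
      have l1 : Tendsto (fun j => (T j).mass / π - 4 * (|e' j| / m) - 4 * δ) (hyperfilter ℕ)
          (𝓝 (M / π - 4 * δ)) := by
        simpa using ((hm.div_const π).sub ((l0.div_const m).const_mul 4)).sub_const (4 * δ)
      have l2 : Tendsto (fun j => 4 * δ * (D + 2) + |e' j|) (hyperfilter ℕ)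
          (𝓝 (4 * δ * (D + 2))) := by
        simpa using l0.const_add (4 * δ * (D + 2))
      refine le_of_tendsto_of_tendsto (h1 _ (lip_Dx 0 p).continuous)
        (((((((hm.div_const _).add (l2.div_const π).sqrt).mul
          (((hm.pow 2).div_const _).add l2)).const_mul 2).add (hm.const_mul _)).add
          ((l2.const_mul _).const_mul 2)).add (((l2.const_mul _).div l1 hl.ne').const_mul _)) ?_
      filter_upwards [l1.eventually (lt_mem_nhds hl),
        KU.eventually_lt_real_open h1 Metric.isOpen_ball (half_lt_self hpos)] with j j1 j2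
      exact h9_one_bound c (T j) (hT j) (hA j) p hδ hδ1 hτ (hD p) (half_pos hpos) j2.le j1
    have k2 : ∀ τ > 0, ∫ q, Dx 0 p q ∂V.μ ≤ M * ρ₀ ^ 2 + (D + 2) ^ 2 * τ * M := by
      intro τ hτ
      have l1 : Tendsto (fun δ : ℝ =>
          2 * ((M / (2 * π) + √((4 * δ * (D + 2)) / π)) * (M ^ 2 / (4 * π) + (4 * δ * (D + 2)))) +
          (D + 2) ^ 2 * τ * M + 2 * ((D + 2) / τ * (4 * δ * (D + 2))) +
          D ^ 2 / 2 * (2 * π * (4 * δ * (D + 2)) / (M / π - 4 * δ))) (𝓝[>] 0) (𝓝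
          (2 * ((M / (2 * π) + √((4 * 0 * (D + 2)) / π)) * (M ^ 2 / (4 * π) + (4 * 0 * (D + 2)))) +
          (D + 2) ^ 2 * τ * M + 2 * ((D + 2) / τ * (4 * 0 * (D + 2))) +
          D ^ 2 / 2 * (2 * π * (4 * 0 * (D + 2)) / (M / π - 4 * 0)))) :=
        tendsto_nhdsWithin_of_tendsto_nhds (ContinuousAt.tendsto (by
          fun_prop (disch := simpa using hM0.ne')))
      refine (ge_of_tendsto l1 ?_).trans (le_of_eq ?_)
      · filter_upwards [Ioo_mem_nhdsGT (lt_min one_pos (by positivity : 0 < M / π / 4))] with δ hδ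
        have := lt_min_iff.1 hδ.2
        exact k1 τ hτ δ hδ.1 this.1.le (by linarith [this.2])
      · simp only [mul_zero, zero_mul, zero_div, Real.sqrt_zero, add_zero, hMd]
        field_simp
        ring
    have l2 : Tendsto (fun τ : ℝ => M * ρ₀ ^ 2 + (D + 2) ^ 2 * τ * M) (𝓝[>] 0)
        (𝓝 (M * ρ₀ ^ 2 + (D + 2) ^ 2 * 0 * M)) :=
      tendsto_nhdsWithin_of_tendsto_nhds (Continuous.tendsto (by fun_prop) 0)
    rw [mul_zero, zero_mul, add_zero] at l2
    exact ge_of_tendsto l2 (eventually_nhdsWithin_of_forall k2))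
  rw [e2] at hx
  exact ⟨x, conc_of_limit Nat.hyperfilter_le_atTop h1 hx⟩

end Crest.Agent.R241
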