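import Crest.Agent.R241.Move
import Crest.Agent.R241.Slice
import Crest.Agent.R241.Prof
import Crest.Agent.R241.OneEq

/-! Row 241 (Cartan-Hadamard): cycles of dimension one (note 1291 on row 241). -/

set_option autoImplicit false

open MeasureTheory Set Filter Topology
open scoped ENNReal NNReal Matrix ContDiff

namespace Crest.Agent.R241

open Crest.GeometryTopology.Submanifold

universe u v

variable {X : Type u} [MetricSpace X] [CompactSpace X] [Nonempty X] [MeasurableSpace X]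
  [BorelSpace X] {l : ℝ}

theorem iso_one (c : CatSp l X) (hl : 0 ≤ l) : IsoIn X 1 l := by
  refine isoIn_of_amin c hl le_rfl fun γ hγ T e B hT hB he hA η hη => ?_
  by_contra hcon
  push Not at hcon
  rw [Phi_eq_alm] at hA
  obtain ⟨a₀, ha₀⟩ : ∃ a₀, a₀ = Alm.Fp 1 l η / η := ⟨_, rfl⟩
  have ha0 : 0 < a₀ := ha₀ ▸ div_pos (Alm.Fp_pos one_ne_zero hl hη) hη
  obtain ⟨b, hb⟩ : ∃ b, b = (γ - 1) * a₀ / 2 := ⟨_, rfl⟩
  have hb0 : 0 < b := hb ▸ half_pos (mul_pos (sub_pos.2 hγ) ha0)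
  have hδ : 0 < min a₀ b / 4 := by positivity
  have hδ1 := min_le_left a₀ b
  have hδ2 := min_le_right a₀ b
  generalize hδe : min a₀ b / 4 = δ at hδ
  obtain ⟨t, -, ht, hcov⟩ := finite_cover_balls_of_compact (isCompact_univ (X := X)) hδ
  lift t to Finset X using ht
  have hm : 0 < η / (t.card + 1) := by positivity
  obtain ⟨j, hj⟩ := (he.eventually (gt_mem_nhds (mul_pos hb0 hm))).exists
  obtain ⟨p, hp⟩ : ∃ p, η / (t.card + 1) ≤ (T j).μ.real (Metric.ball p δ) := by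
    by_contra h
    push Not at h
    have h1 : (T j).mass ≤ ∑ p ∈ t, (T j).μ.real (Metric.ball p δ) := by
      rw [← (T j).μ_real_univ]
      exact (measureReal_mono hcov (measure_ne_top _ _)).trans (measureReal_biUnion_finset_le _ _)
    have h2 := Finset.sum_le_card_nsmul t _ _ fun p _ => (h p).le
    have h3 : (t.card : ℝ) * (η / (t.card + 1)) ≤ η := by
      rw [← mul_div_assoc, div_le_iff₀ (by positivity)]; nlinarith
    rw [nsmul_eq_mul] at h2
    linarith [hcon j]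
  obtain ⟨D, -, hD⟩ := exists_diam X
  obtain ⟨R, L, X₁, X₂, T', S, hR, -, hL, hH, mT, hS, hRL, h2', h2, h3, -⟩ :=
    h9_one_cal c hl (T j) (hT j) p hδ (hD p)
  have hR0 : 0 ≤ R := hδ.le.trans hR
  have hmL : η / (t.card + 1) ≤ L :=
    hp.trans (hL ▸ measureReal_mono (Metric.ball_subset_ball hR))
  have hL0 : 0 < L := hm.trans_le hmL
  have hLM : L ≤ (T j).mass := by
    rw [hL, ← (T j).μ_real_univ]; exact measureReal_mono (subset_univ _)
  have hM : 0 < (T j).mass := hL0.trans_le hLM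
  have h1 := hA j T' S hH
  have h4 := Alm.calib_le hl hR0 hL0.le
  have h5 := Alm.tn_le hl hR0
  have h6 := Alm.tn_nonneg hl hR0
  have c1 := Alm.Fp_chord one_ne_zero hl hη.le (hcon j).le
  have c2 := Alm.Fp_chord one_ne_zero hl hL0.le hLM
  have c3 := Alm.Fp_drop one_ne_zero hl hL0.le hLM
  simp only [mT] at h1
  obtain ⟨a, ha⟩ : ∃ a, a = Alm.Fp 1 l (T j).mass / (T j).mass := ⟨_, rfl⟩
  have d1 : a₀ ≤ a := by rw [ha₀, ha, div_le_div_iff₀ hη hM]; linarith
  have d2 : Alm.Fp 1 l L ≤ a * L := by rw [ha, div_mul_eq_mul_div, le_div_iff₀ hM]; linarith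
  have d3 : a * L ≤ Alm.Fp 1 l (T j).mass - Alm.Fp 1 l ((T j).mass - L) := by
    rw [ha, div_mul_eq_mul_div, div_le_iff₀ hM]; linarith
  have d4 := mul_le_mul_of_nonneg_left d3 (by linarith : 0 ≤ γ)
  have d5 : e j < b * L := hj.trans_le (by gcongr)
  have d6 : (γ - 1) * (a₀ * L) ≤ (γ - 1) * (a * L) := by gcongr
  have d7 : a₀ * L ≤ a * L := by gcongr
  have d8 : (γ - 1) * (a₀ * L) = 2 * (b * L) := by rw [hb]; ring
  have d9 : 0 < b * L := by positivity
  generalize Alm.tn l R = lam at *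
  have f1 : a₀ ≤ lam := le_of_mul_le_mul_right (by linarith) hL0
  have f2 : 4 * δ * lam ≤ b * L := mul_le_mul (by linarith) (by linarith) h6 hb0.le
  linarith

theorem eq_one (c : CatSp 0 X) (T : ℕ → Chain X 1) (hT : ∀ j, (T j).Cyc) {ρ₀ : ℝ} (hρ : 0 < ρ₀)
    (hm : Tendsto (fun j => (T j).mass) atTop (𝓝 (area 1 0 ρ₀))) {e : ℕ → ℝ}
    (he : Tendsto e atTop (𝓝 0)) (hF : ∀ j, (T j).FillGe (vol 1 0 ρ₀ - e j)) :
    ∃ x : X, ∀ δ > 0, ∀ η > 0,
      ∃ᶠ j in atTop, (T j).μ.real {p | δ ≤ |dist x p - ρ₀|} ≤ η :=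
  eq_one' c (iso_one c le_rfl) T hT hρ hm he hF

end Crest.Agent.R241
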