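import Crest.Agent.R241.AlmMin

/-! Row 241 (Cartan-Hadamard): cutting a one-dimensional cycle at the first radius where the slice
vanishes, and the calibration bound for the cone over the inner part. -/

set_option autoImplicit false

open MeasureTheory Set Filter Topology
open scoped ENNReal NNReal Matrix ContDiff

namespace Crest.Agent.R241

open Crest.GeometryTopology.Submanifold

universe u v

variable {X : Type u} [MetricSpace X] [CompactSpace X] [MeasurableSpace X] [BorelSpace X] {l : ℝ}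

/-- almost every slice either vanishes or has mass at least two. -/
theorem slice_one (T : Chain X 1) (hT : T.Cyc) (p : X) (r₁ : ℝ) :
    ∃ m : ℝ → ℝ, Integrable m ∧ (∀ r, 0 ≤ m r) ∧
      (∀ᵐ r : ℝ, r < r₁ → (∀ π : Fin 1 → X → ℝ, (∀ a, Lip (π a)) →
        T.act ((Metric.ball p r).indicator fun _ => 1) π = 0) ∨ 2 ≤ m r) ∧
      ∀ ψ : ℝ → ℝ, BM ψ → (∀ r, 0 ≤ ψ r) →
        ∫ r, ψ r * m r ≤ T.I (fun q t => ψ (dist p q) * √t) (dist p) (dist p) := by
  obtain ⟨m, -, hi, h0, hs, hψ⟩ := slice (k := 0) T ⟨1, lip_dist p⟩ r₁ fun π hπ _ => hT π hπ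
  refine ⟨m, hi, h0, ?_, hψ⟩
  filter_upwards [hs] with r hr hr1
  obtain ⟨σ, hm, -, hb⟩ := hr hr1
  have hB : {q | dist p q < r} = Metric.ball p r := by
    ext q; rw [Metric.mem_ball']; rfl
  rw [hB] at hb
  have mB : MeasurableSet (Metric.ball p r) := Metric.isOpen_ball.measurableSet
  have hσc : σ.Cyc := fun π hπ => by
    rw [hb _ π (Lip.const 1) hπ]
    exact T.act_local ((BM.const 1).indicator mB) (Lip.cons (Lip.const 1) hπ) 0 1 fun _ _ => rfl
  rcases σ.zero_cycle hσc with h | h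
  · refine Or.inl fun π hπ => ?_
    have e : π = Fin.cons (π 0) fun a => π a.succ := (Fin.cons_self_tail π).symm
    rw [e, ← hb _ _ (hπ 0) fun a => hπ a.succ]
    obtain ⟨C, hC⟩ := (hπ 0).bdd
    have := σ.abs_act_le_mass (hπ 0).continuous.measurable hC (π := fun a => π a.succ)
      (K := fun _ => 0) fun a => a.elim0
    rw [h] at this
    simpa using this
  · exact Or.inr (h.trans hm)

/-- the cut at (almost) the first radius `≥ δ` with vanishing slice. -/
theorem split_core (c : CatSp l X) (hl : 0 ≤ l) (T : Chain X 1) (hT : T.Cyc) (p : X) {δ : ℝ}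
    (hδ : 0 < δ) : ∃ (t : ℝ) (B : Chain X 1) (S : Chain X 2) (w : Measure (X × ℝ)),
      IsFiniteMeasure w ∧ δ ≤ t ∧ T.Hom B S ∧ B.mass = T.mass - T.μ.real (Metric.ball p t) ∧
      w.map Prod.fst = T.μ.restrict (Metric.ball p t) ∧
      (∀ᵐ q ∂w, q.2 ∈ Icc (0 : ℝ) 1 ∧ dist p q.1 < t) ∧
      S.mass ≤ ∫ q, Alm.tn l (dist p q.1) * √(1 - q.2) ∂w ∧
      ∀ ψ : ℝ → ℝ, Continuous ψ → (∀ r, 0 ≤ ψ r) →
        2 * ∫ r in δ..(t - δ), ψ r ≤ ∫ q, ψ (dist p q.1) * √q.2 ∂w := by
  obtain ⟨D, hD0, hD⟩ := exists_diam X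
  have hd : Lip (dist p) := ⟨1, lip_dist p⟩
  obtain ⟨m, hi, h0, hs, hψ⟩ := slice_one T hT p (D + δ + 1)
  let Z : Set ℝ := {r | δ ≤ r ∧ ∀ π : Fin 1 → X → ℝ, (∀ a, Lip (π a)) →
    T.act ((Metric.ball p r).indicator fun _ => 1) π = 0}
  have hZ1 : D + δ + 1 ∈ Z := by
    refine ⟨by linarith, fun π hπ => ?_⟩
    have : Metric.ball p (D + δ + 1) = univ :=
      eq_univ_of_forall fun q => Metric.mem_ball.2 (by linarith [hD q p])
    rw [this, indicator_univ]
    exact hT π hπ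
  have hZb : BddBelow Z := ⟨δ, fun r hr => hr.1⟩
  obtain ⟨t, ht, htR⟩ := exists_lt_of_csInf_lt ⟨_, hZ1⟩ (lt_add_of_pos_right (sInf Z) hδ)
  have mB : MeasurableSet (Metric.ball p t) := Metric.isOpen_ball.measurableSet
  obtain ⟨A, aA, μA, iA, -, lA⟩ := T.exists_restrict mB
  obtain ⟨B, aB, μB, -⟩ := T.exists_restrict mB.compl
  have hA : A.Cyc := fun π hπ => by
    rw [aA _ _ (BM.const 1) hπ]
    exact ht.2 π hπ
  obtain ⟨S, hS, hm⟩ := cone_fill c hl A hA p
  have hfin := T.law_fin hd hd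
  refine ⟨t, B, S, A.law (dist p) (dist p), A.law_fin hd hd, ht.1, fun f π hf hπ => ?_, ?_,
    by rw [A.law_fst hd hd, μA], ?_, ?_, fun ψ hc hp => ?_⟩
  · have bf : BM f := hf.bm
    have e := T.act_add_left (bf.indicator mB) (bf.indicator mB.compl) hπ
    simp only [indicator_self_add_compl_apply] at e
    rw [hS f π hf hπ, aA _ _ bf hπ, aB _ _ bf hπ, e]
    ring
  · rw [← B.μ_real_univ, μB, measureReal_restrict_apply_univ, measureReal_compl mB, T.μ_real_univ]
  · have h1 : ∀ᵐ q ∂A.μ, dist p q < t := by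
      rw [μA]
      filter_upwards [ae_restrict_mem mB] with q hq using Metric.mem_ball'.1 hq
    filter_upwards [A.law_ae_mem (lip_dist p), Chain.law_ae_fst hd hd h1] with q h2 h3
    exact ⟨by simpa using h2, h3⟩
  · refine hm.trans (le_of_eq ?_)
    rw [(cone_integrand hl A p).2]
    simp only [Alm.coneW_one_eq hl dist_nonneg]
  · have hI : ∀ φ : ℝ → ℝ, Measurable φ → (∃ C, ∀ q, |φ (dist p q)| ≤ C) →
        Integrable (fun q : X × ℝ => φ (dist p q.1) * √q.2) (T.law (dist p) (dist p)) ∧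
        T.I (fun q t => φ (dist p q) * √t) (dist p) (dist p) =
          ∫ q, φ (dist p q.1) * √q.2 ∂(T.law (dist p) (dist p)) := by
      rintro φ hφ ⟨C, hC⟩
      refine T.I_eq hd hd (F := fun q t => φ (dist p q) * √t)
        ((hφ.comp (by fun_prop)).mul (by fun_prop)) fun M => ⟨C * √M, fun q s hs => ?_⟩
      rw [abs_mul, abs_of_nonneg (Real.sqrt_nonneg _)]
      exact mul_le_mul (hC q) (Real.sqrt_le_sqrt ((le_abs_self s).trans hs)) (Real.sqrt_nonneg _)
        ((abs_nonneg _).trans (hC q))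
    have hnn : ∀ q : X × ℝ, 0 ≤ ψ (dist p q.1) * √q.2 := fun q =>
      mul_nonneg (hp _) (Real.sqrt_nonneg _)
    rcases le_total (t - δ) δ with h | h
    · refine le_trans ?_ (integral_nonneg hnn)
      rw [intervalIntegral.integral_symm]
      have := intervalIntegral.integral_nonneg (μ := volume) h fun u _ => hp u
      linarith
    obtain ⟨C, hC⟩ := (isCompact_Icc (a := δ) (b := t - δ)).exists_bound_of_continuousOn
      hc.continuousOn
    have hbm : BM ((Ioo δ (t - δ)).indicator ψ) := by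
      refine ⟨hc.measurable.indicator measurableSet_Ioo, max C 0, fun r => ?_⟩
      by_cases hr : r ∈ Ioo δ (t - δ)
      · rw [indicator_of_mem hr]
        exact (hC r (Ioo_subset_Icc_self hr)).trans (le_max_left _ _)
      · rw [indicator_of_notMem hr, abs_zero]
        exact le_max_right _ _
    have hnn' : ∀ r, 0 ≤ (Ioo δ (t - δ)).indicator ψ r := fun r =>
      indicator_nonneg (fun r _ => hp r) r
    have h1 := hψ _ hbm hnn'
    obtain ⟨i1, e1⟩ := hI _ hbm.1 (let ⟨C, hC⟩ := hbm.2; ⟨C, fun q => hC _⟩)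
    obtain ⟨i2, -⟩ := hI ψ hc.measurable
      (BM.of_continuous (hc.comp (continuous_const.dist continuous_id))).2
    have mU : MeasurableSet (Metric.ball p t ×ˢ (univ : Set ℝ)) := mB.prod MeasurableSet.univ
    rw [lA _ _ hd hd, ← integral_indicator mU]
    refine le_trans ?_ (h1.trans (e1.trans_le (integral_mono i1 (i2.indicator mU) fun q => ?_)))
    · rw [intervalIntegral.integral_of_le h, integral_Ioc_eq_integral_Ioo,
        ← integral_indicator measurableSet_Ioo, ← integral_const_mul]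
      have i3 : Integrable ((Ioo δ (t - δ)).indicator ψ) :=
        (integrable_indicator_iff measurableSet_Ioo).2
          (hc.continuousOn.integrableOn_Icc.mono_set Ioo_subset_Icc_self)
      obtain ⟨C', hC'⟩ := hbm.2
      refine integral_mono_ae (i3.const_mul 2)
        (hi.bdd_mul hbm.1.aestronglyMeasurable (.of_forall hC')) ?_
      filter_upwards [hs] with r hr
      by_cases hr' : r ∈ Ioo δ (t - δ)
      · have hrR : r < sInf Z := by linarith [hr'.2]
        rcases hr (hrR.trans_le (csInf_le hZb hZ1)) with h2 | h2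
        · exact absurd (csInf_le hZb (⟨hr'.1.le, h2⟩ : r ∈ Z)) (not_le.2 hrR)
        · nlinarith [hnn' r]
      · simp [indicator_of_notMem hr']
    · by_cases hq : dist p q.1 ∈ Ioo δ (t - δ)
      · have : q ∈ Metric.ball p t ×ˢ (univ : Set ℝ) :=
          ⟨Metric.mem_ball'.2 (by linarith [hq.2]), mem_univ _⟩
        simp only [indicator_of_mem hq, indicator_of_mem this, le_refl]
      · simp only [indicator_of_notMem hq, zero_mul]
        exact indicator_nonneg (fun q _ => hnn q) q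

theorem calib_pt {x y u v lam θ : ℝ} (h1 : x ^ 2 + y ^ 2 = lam ^ 2) (h2 : u ^ 2 + v ^ 2 = 1)
    (hlam : 0 < lam) (hθ : 0 < θ) :
    (1 + 1 / θ) * (y * v) + x * u / θ ≤ (lam ^ 2 - x ^ 2) / lam + lam * θ / 2 + lam / θ := by
  have h3 : (lam * u) ^ 2 + (lam * v) ^ 2 = lam ^ 2 := by
    rw [mul_pow, mul_pow, ← mul_add, h2, mul_one]
  have h4 : (θ + 1) * (y * (lam * v)) + x * (lam * u) ≤
      θ * y ^ 2 + lam ^ 2 * θ ^ 2 / 2 + lam ^ 2 := by
    generalize lam * u = a at *
    generalize lam * v = b at *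
    have h5 : θ ^ 2 * y ^ 2 ≤ lam ^ 2 * θ ^ 2 := by
      rw [← h1]; nlinarith [sq_nonneg (θ * x)]
    nlinarith [sq_nonneg (θ * y - (b - y)), sq_nonneg (x - a)]
  rw [show lam ^ 2 - x ^ 2 = y ^ 2 by linarith]
  refine le_of_mul_le_mul_left ?_ (mul_pos hlam hθ)
  have e1 : lam * θ * ((1 + 1 / θ) * (y * v) + x * u / θ) =
      (θ + 1) * (y * (lam * v)) + x * (lam * u) := by field_simp
  have e2 : lam * θ * (y ^ 2 / lam + lam * θ / 2 + lam / θ) =
      θ * y ^ 2 + lam ^ 2 * θ ^ 2 / 2 + lam ^ 2 := by field_simp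
  rwa [e1, e2]

theorem calib_pt' {x y u v lam : ℝ} (h1 : x ^ 2 + y ^ 2 = lam ^ 2) (h2 : u ^ 2 + v ^ 2 = 1)
    (hlam : 0 < lam) : x * u + y * v ≤ lam := by
  have h3 : (lam * u) ^ 2 + (lam * v) ^ 2 = lam ^ 2 := by
    rw [mul_pow, mul_pow, ← mul_add, h2, mul_one]
  refine le_of_mul_le_mul_left ?_ hlam
  nlinarith [sq_nonneg (x - lam * u), sq_nonneg (y - lam * v)]

theorem split_gen (c : CatSp l X) (hl : 0 ≤ l) (T : Chain X 1) (hT : T.Cyc) (p : X) {δ : ℝ}
    (hδ : 0 < δ) : ∃ (t L : ℝ) (B : Chain X 1) (S : Chain X 2), δ ≤ t ∧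
      L = T.μ.real (Metric.ball p t) ∧ 2 * (t - 2 * δ) ≤ L ∧ T.Hom B S ∧ B.mass = T.mass - L ∧
      S.mass ≤ Phi 1 l L + 4 * δ * L ∧
      S.mass + (2 * (∫ r in (0 : ℝ)..t, √(Alm.tn l t ^ 2 - Alm.tn l r ^ 2)) -
        4 * Alm.tn l t * δ) ≤ Alm.tn l t * L ∧
      ∀ θ > (0 : ℝ), (1 + 1 / θ) * (2 * (∫ r in (0 : ℝ)..t, √(Alm.tn l t ^ 2 - Alm.tn l r ^ 2)) -
        4 * Alm.tn l t * δ) + S.mass / θ ≤
          (Alm.tn l t ^ 2 * L - ∫ q in Metric.ball p t, Alm.tn l (dist p q) ^ 2 ∂T.μ) / Alm.tn l t +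
            Alm.tn l t * θ * L / 2 + Alm.tn l t * L / θ := by
  obtain ⟨t, B, S, w, hw, ht, hH, hB, hmap, hae, hS, hψ⟩ := split_core c hl T hT p hδ
  have ht0 : 0 < t := hδ.trans_le ht
  have hL : w.real univ = T.μ.real (Metric.ball p t) := by
    rw [← measureReal_restrict_apply_univ (μ := T.μ), ← hmap, map_measureReal_apply measurable_fst
      MeasurableSet.univ, preimage_univ]
  set L := T.μ.real (Metric.ball p t)
  have hL0 : 0 ≤ L := measureReal_nonneg
  set lam := Alm.tn l t with hlam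
  have hlam0 : 0 < lam := Alm.tn_pos hl ht0
  have hlamt : lam ≤ t := Alm.tn_le hl ht0.le
  have ctn := Alm.continuous_tn hl
  let ψ : ℝ → ℝ := fun r => √(lam ^ 2 - Alm.tn l r ^ 2)
  have cψ : Continuous ψ := by fun_prop
  have hψ0 : ∀ r, 0 ≤ ψ r := fun r => Real.sqrt_nonneg _
  have hψ1 : ∀ r, ψ r ≤ lam := fun r =>
    Real.sqrt_le_iff.2 ⟨hlam0.le, by linarith [sq_nonneg (Alm.tn l r)]⟩
  have hpt : ∀ᵐ q ∂w, 0 ≤ Alm.tn l (dist p q.1) ∧ Alm.tn l (dist p q.1) ≤ lam ∧
      √q.2 ≤ 1 ∧ √(1 - q.2) ≤ 1 ∧ Alm.tn l (dist p q.1) ^ 2 + ψ (dist p q.1) ^ 2 = lam ^ 2 ∧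
      √(1 - q.2) ^ 2 + √q.2 ^ 2 = 1 := by
    filter_upwards [hae] with q hq
    have h1 := Alm.tn_nonneg hl (dist_nonneg (x := p) (y := q.1))
    have h2 : Alm.tn l (dist p q.1) ≤ lam := Alm.tn_mono hl dist_nonneg hq.2.le
    refine ⟨h1, h2, Real.sqrt_le_one.2 hq.1.2, Real.sqrt_le_one.2 (by linarith [hq.1.1]), ?_, ?_⟩
    · rw [Real.sq_sqrt (by nlinarith)]; ring
    · rw [Real.sq_sqrt (by linarith [hq.1.2]), Real.sq_sqrt hq.1.1]; ring
  have hint : ∀ (f : X × ℝ → ℝ) (C : ℝ), Continuous f → (∀ᵐ q ∂w, 0 ≤ f q ∧ f q ≤ C) →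
      Integrable f w := fun f C hf h =>
    Integrable.of_bound hf.aestronglyMeasurable C (h.mono fun q hq => by
      rw [Real.norm_of_nonneg hq.1]; exact hq.2)
  have iU : Integrable (fun q : X × ℝ => Alm.tn l (dist p q.1) * √(1 - q.2)) w :=
    hint _ (lam * 1) (by fun_prop) (hpt.mono fun q hq => ⟨mul_nonneg hq.1 (Real.sqrt_nonneg _),
      mul_le_mul hq.2.1 hq.2.2.2.1 (Real.sqrt_nonneg _) hlam0.le⟩)
  have iV : Integrable (fun q : X × ℝ => ψ (dist p q.1) * √q.2) w :=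
    hint _ (lam * 1) (by fun_prop) (hpt.mono fun q hq => ⟨mul_nonneg (hψ0 _) (Real.sqrt_nonneg _),
      mul_le_mul (hψ1 _) hq.2.2.1 (Real.sqrt_nonneg _) hlam0.le⟩)
  have iA : Integrable (fun q : X × ℝ => Alm.tn l (dist p q.1) ^ 2) w :=
    hint _ (lam ^ 2) (by fun_prop) (hpt.mono fun q hq => ⟨sq_nonneg _,
      pow_le_pow_left₀ hq.1 hq.2.1 2⟩)
  have hconst : ∀ C : ℝ, ∫ _, C ∂w = C * L := fun C => by
    rw [integral_const, hL, smul_eq_mul, mul_comm]
  have h1 : 2 * (t - 2 * δ) ≤ L := by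
    have h := hψ (fun _ => 1) continuous_const fun _ => zero_le_one
    have h' : ∫ q, (1 : ℝ) * √q.2 ∂w ≤ ∫ _, (1 : ℝ) ∂w :=
      integral_mono_ae (hint _ 1 (by fun_prop) (hpt.mono fun q hq =>
        ⟨by positivity, by linarith [hq.2.2.1]⟩)) (integrable_const _)
        (hpt.mono fun q hq => by simpa using hq.2.2.1)
    rw [hconst] at h'
    simp only [intervalIntegral.integral_const, smul_eq_mul] at h
    linarith
  have h2 : S.mass ≤ t * L := by
    rw [← hconst]
    refine hS.trans (integral_mono_ae iU (integrable_const _) (hpt.mono fun q hq => ?_))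
    have := mul_le_mul hq.2.1 hq.2.2.2.1 (Real.sqrt_nonneg _) hlam0.le
    simp only
    linarith
  have h3 : 2 * (∫ r in (0 : ℝ)..t, ψ r) - 4 * lam * δ ≤ ∫ q, ψ (dist p q.1) * √q.2 ∂w := by
    refine le_trans ?_ (hψ ψ cψ hψ0)
    have e1 := intervalIntegral.integral_add_adjacent_intervals (μ := volume)
      (cψ.intervalIntegrable 0 δ) (cψ.intervalIntegrable δ (t - δ))
    have e2 := intervalIntegral.integral_add_adjacent_intervals (μ := volume)
      (cψ.intervalIntegrable 0 (t - δ)) (cψ.intervalIntegrable (t - δ) t)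
    have b : ∀ a b : ℝ, |b - a| = δ → ∫ r in a..b, ψ r ≤ lam * δ := fun a b hab => by
      rw [← hab]
      exact (le_abs_self _).trans (intervalIntegral.norm_integral_le_of_norm_le_const
        fun r _ => by rw [Real.norm_of_nonneg (hψ0 r)]; exact hψ1 r)
    have b1 := b 0 δ (by rw [sub_zero, abs_of_pos hδ])
    have b2 := b (t - δ) t (by rw [sub_sub_cancel, abs_of_pos hδ])
    linarith
  have h4 : S.mass + (2 * (∫ r in (0 : ℝ)..t, ψ r) - 4 * lam * δ) ≤ lam * L := by
    refine (add_le_add hS h3).trans ?_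
    rw [← integral_add iU iV, ← hconst]
    exact integral_mono_ae (iU.add iV) (integrable_const _)
      (hpt.mono fun q hq => calib_pt' hq.2.2.2.2.1 hq.2.2.2.2.2 hlam0)
  refine ⟨t, L, B, S, ht, rfl, h1, hH, hB, ?_, h4, fun θ hθ => ?_⟩
  · have hP : 0 ≤ Phi 1 l L := by
      rw [Phi_eq_alm]; exact Alm.Fp_nonneg one_ne_zero hl hL0
    rcases le_total t (4 * δ) with h | h
    · nlinarith
    · have := Alm.calib_le hl ht0.le hL0
      rw [← Phi_eq_alm] at this
      have h5 : lam * δ ≤ L * δ := mul_le_mul_of_nonneg_right (by linarith) hδ.le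
      simp only [ψ] at h4
      linarith
  · have e : ∫ q in Metric.ball p t, Alm.tn l (dist p q) ^ 2 ∂T.μ =
        ∫ q, Alm.tn l (dist p q.1) ^ 2 ∂w := by
      rw [← hmap, integral_map measurable_fst.aemeasurable
        (Continuous.aestronglyMeasurable (by fun_prop))]
    have h5 := integral_mono_ae ((iV.const_mul (1 + 1 / θ)).add (iU.div_const θ))
      (((((integrable_const (lam ^ 2)).sub iA).div_const lam).add
        (integrable_const (lam * θ / 2))).add (integrable_const (lam / θ)))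
      (hpt.mono fun q hq => calib_pt hq.2.2.2.2.1 hq.2.2.2.2.2 hlam0 hθ)
    simp only [Pi.add_apply, Pi.sub_apply] at h5
    have i1 : Integrable (fun q : X × ℝ => (lam ^ 2 - Alm.tn l (dist p q.1) ^ 2) / lam) w :=
      ((integrable_const (lam ^ 2)).sub iA).div_const lam
    have i2 : Integrable (fun q : X × ℝ =>
        (lam ^ 2 - Alm.tn l (dist p q.1) ^ 2) / lam + lam * θ / 2) w := i1.add (integrable_const _)
    rw [integral_add (iV.const_mul _) (iU.div_const θ), integral_const_mul, integral_div,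
      integral_add i2 (integrable_const _), integral_add i1 (integrable_const _),
      integral_div, integral_sub (integrable_const _) iA, hconst, hconst, hconst] at h5
    rw [e]
    have h6 := mul_le_mul_of_nonneg_left h3 (by positivity : 0 ≤ 1 + 1 / θ)
    have h7 := div_le_div_of_nonneg_right hS hθ.le
    have e2 : lam * θ / 2 * L = lam * θ * L / 2 := by ring
    have e3 : lam / θ * L = lam * L / θ := by ring
    simp only [ψ] at h6
    linarith

/-- the inner part of the cycle has mass `L` and is filled almost as well as a circle. -/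
theorem split_one (c : CatSp l X) (hl : 0 ≤ l) (T : Chain X 1) (hT : T.Cyc) (p : X) {δ : ℝ}
    (hδ : 0 < δ) : ∃ (L : ℝ) (B : Chain X 1) (S : Chain X 2),
      T.μ.real (Metric.ball p δ) ≤ L ∧ L ≤ T.mass ∧ T.Hom B S ∧ B.mass = T.mass - L ∧
        S.mass ≤ Phi 1 l L + 4 * δ * L := by
  obtain ⟨t, L, B, S, ht, hL, -, hH, hB, hS, -⟩ := split_gen c hl T hT p hδ
  exact ⟨L, B, S, hL ▸ measureReal_mono (Metric.ball_subset_ball ht),
    by linarith [B.mass_nonneg], hH, hB, hS⟩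

theorem Phi_one_zero {m : ℝ} (hm : 0 ≤ m) : Phi 1 0 m = m ^ 2 / (4 * Real.pi) := by
  rw [Phi_zero_left le_rfl hm, sA_one]
  norm_num
  ring

/-- the flat case with the quantities needed for the equality discussion. -/
theorem split_zero (c : CatSp 0 X) (T : Chain X 1) (hT : T.Cyc) (p : X) {δ D : ℝ}
    (hδ : 0 < δ) (hD : ∀ x y : X, dist x y ≤ D) :
    ∃ (lam L a : ℝ) (B : Chain X 1) (S : Chain X 2), 0 < lam ∧ 4 * (lam - δ) ≤ L ∧
      T.μ.real (Metric.ball p δ) ≤ L ∧ L ≤ T.mass ∧ T.Hom B S ∧ B.mass = T.mass - L ∧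
      S.mass ≤ L ^ 2 / (4 * Real.pi) + 4 * δ * L ∧
      S.mass + Real.pi * lam ^ 2 - 4 * lam * δ ≤ lam * L ∧
      (∀ θ > (0 : ℝ), (1 + 1 / θ) * (Real.pi * lam ^ 2 - 4 * lam * δ) + S.mass / θ ≤
        (lam ^ 2 * L - a) / lam + lam * θ * L / 2 + lam * L / θ) ∧
      ∫ q, Dx 0 p q ∂T.μ ≤ 2 * a + D ^ 2 / 2 * (T.mass - L) := by
  obtain ⟨t, L, B, S, ht, hL, h1, hH, hB, hS, h2, h3⟩ := split_gen c le_rfl T hT p hδ
  have ht0 : 0 < t := hδ.trans_le ht
  have hL0 : 0 ≤ L := hL ▸ measureReal_nonneg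
  have e : 2 * (∫ r in (0 : ℝ)..t, √(Alm.tn 0 t ^ 2 - Alm.tn 0 r ^ 2)) = Real.pi * (t / 2) ^ 2 := by
    rw [Alm.integral_calib le_rfl ht0.le, md_zero_left, Alm.cs_zero_left]
    ring
  rw [e] at h2 h3
  rw [Phi_one_zero hL0] at hS
  simp only [Alm.tn_zero_left] at h2 h3
  refine ⟨t / 2, L, _, B, S, half_pos ht0, by linarith,
    hL ▸ measureReal_mono (Metric.ball_subset_ball ht), by linarith [B.mass_nonneg], hH, hB, hS,
    by linarith, h3, ?_⟩
  have mB : MeasurableSet (Metric.ball p t) := Metric.isOpen_ball.measurableSet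
  have iD : Integrable (Dx 0 p) T.μ := (lip_Dx 0 p).bm.integrable _
  rw [← integral_add_compl mB iD, ← integral_const_mul]
  refine add_le_add (le_of_eq (integral_congr_ae (.of_forall fun q => ?_))) ?_
  · simp only [Dx, md_zero_left]
    ring
  · rw [hL, ← T.μ_real_univ, ← measureReal_compl mB, mul_comm, ← smul_eq_mul, ← setIntegral_const]
    refine integral_mono iD.restrict (integrable_const _) fun q => ?_
    simp only [Dx, md_zero_left]
    have := pow_le_pow_left₀ dist_nonneg (hD p q) 2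
    linarith

end Crest.Agent.R241
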