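import Crest.Agent.R241.AlmMin
import Crest.Agent.R241.AlmDens
import Crest.Agent.R241.AlmOneCalc

/-! Row 241 (Cartan-Hadamard): cutting a one-dimensional cycle along a sphere it misses, and the
calibration of the cone over the inner piece. -/

set_option autoImplicit false

open MeasureTheory Set Filter Topology
open scoped ENNReal NNReal Matrix ContDiff

namespace Crest.Agent.R241

open Crest.GeometryTopology.Submanifold

universe u v

variable {X : Type u} [MetricSpace X] [CompactSpace X] [MeasurableSpace X]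
  [BorelSpace X] {l : ℝ}

theorem h9_one_cut (T : Chain X 1) (hT : T.Cyc) (p : X) {δ D : ℝ} (hδ : 0 < δ)
    (hD : ∀ q, dist p q ≤ D) :
    ∃ (R : ℝ) (A T' : Chain X 1), δ ≤ R ∧ R ≤ D + 2 * δ ∧ A.Cyc ∧
      A.μ = T.μ.restrict (Metric.ball p R) ∧ T'.mass = T.mass - A.mass ∧
      (∀ S : Chain X 2, S.Bd A → T.Hom T' S) ∧
      ∀ ψ : ℝ → ℝ, BM ψ → (∀ r, 0 ≤ ψ r) →
        2 * ∫ r in δ..(R - δ), ψ r ≤ A.I (fun q t => ψ (dist p q) * √t) (dist p) (dist p) := by
  have hD0 : 0 ≤ D := by simpa using hD p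
  have mB : ∀ r, MeasurableSet (Metric.ball p r) := fun r => Metric.isOpen_ball.measurableSet
  have bm1 : BM fun _ : X => (1 : ℝ) := BM.of_continuous continuous_const
  set G : Set ℝ := {r | δ ≤ r ∧ ∀ π : Fin 1 → X → ℝ, (∀ a, Lip (π a)) →
    T.act ((Metric.ball p r).indicator fun _ => 1) π = 0} with hG
  have hDG : D + δ ∈ G := by
    refine ⟨by linarith, fun π hπ => ?_⟩
    have : Metric.ball p (D + δ) = univ :=
      eq_univ_of_forall fun q => Metric.mem_ball'.2 (by linarith [hD q])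
    rw [this, indicator_univ]
    exact hT π hπ
  have hb : BddBelow G := ⟨δ, fun r hr => hr.1⟩
  obtain ⟨R, hR, hR'⟩ := exists_lt_of_csInf_lt ⟨_, hDG⟩ (lt_add_of_pos_right (sInf G) hδ)
  have hR1 := csInf_le hb hDG
  obtain ⟨A, aA, μA, iA, -⟩ := T.exists_restrict (mB R)
  obtain ⟨T', aT, μT, -⟩ := T.exists_restrict (mB R).compl
  have hA : A.Cyc := fun π hπ => by rw [aA _ _ bm1 hπ]; exact hR.2 π hπ
  refine ⟨R, A, T', hR.1, by linarith, hA, μA, ?_, fun S hS f π hf hπ => ?_, fun ψ hψ hψ0 => ?_⟩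
  · rw [← T'.μ_real_univ, ← A.μ_real_univ, μT, μA, measureReal_restrict_apply_univ,
      measureReal_restrict_apply_univ, measureReal_compl (mB R), T.μ_real_univ]
  · have bf : BM f := BM.of_continuous hf.continuous
    have e := T.act_add_left (h9_bm_indicator bf (mB R)) (h9_bm_indicator bf (mB R).compl) hπ
    simp only [indicator_self_add_compl_apply] at e
    rw [hS f π hf hπ, aA _ _ bf hπ, aT _ _ bf hπ, e]
    ring
  have hρ : Lip (dist p) := ⟨1, lip_dist p⟩
  obtain ⟨m, hmm, hmi, hm0, hsl, hco⟩ := slice A hρ (R + 1) fun π hπ _ => hA π hπ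
  refine le_trans ?_ (hco ψ hψ hψ0)
  obtain ⟨B, hB⟩ := id hψ.2
  have hi : Integrable fun r => ψ r * m r := hmi.bdd_mul hψ.1.aestronglyMeasurable (.of_forall hB)
  have hn : ∀ r, 0 ≤ ψ r * m r := fun r => mul_nonneg (hψ0 r) (hm0 r)
  rcases le_total (R - δ) δ with h | h
  · refine le_trans ?_ (integral_nonneg hn)
    rw [intervalIntegral.integral_symm]
    have := intervalIntegral.integral_nonneg (μ := volume) h fun r _ => hψ0 r
    linarith
  have h1 : ∀ᵐ r : ℝ, r ∈ Ioc δ (R - δ) → 2 * ψ r ≤ ψ r * m r := by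
    filter_upwards [hsl] with r hr hrI
    obtain ⟨σ, hσm, -, hσ⟩ := hr (by linarith [hrI.2])
    have hB : {q | dist p q < r} = Metric.ball p r := by
      ext q; rw [Metric.mem_ball']; rfl
    rw [hB] at hσ
    have bI := h9_bm_indicator bm1 (mB r)
    have hσc : σ.Cyc := fun π hπ => by
      rw [hσ _ π (Lip.const 1) hπ]
      exact A.act_local bI (h9_lip_cons (Lip.const 1) hπ) 0 1 fun _ _ => rfl
    rcases σ.zero_cycle hσc with h0 | h0
    · exfalso
      have hrG : r ∈ G := by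
        refine ⟨hrI.1.le, fun π hπ => ?_⟩
        have e : π = Fin.cons (π 0) fun a => π a.succ := (Fin.cons_self_tail π).symm
        have e2 : (Metric.ball p R).indicator ((Metric.ball p r).indicator fun _ => (1 : ℝ)) =
            (Metric.ball p r).indicator fun _ => (1 : ℝ) := by
          rw [indicator_indicator, inter_eq_right.2 (Metric.ball_subset_ball (by linarith [hrI.2]))]
        rw [← e2, ← aA _ _ bI hπ, e, ← hσ _ _ (hπ 0) fun a => hπ a.succ]
        have bf : BM (π 0) := BM.of_continuous (hπ 0).continuous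
        obtain ⟨C, hC⟩ := bf.2
        have := σ.abs_act_le_mass bf.1 hC (π := fun a => π a.succ) (K := fun a => a.elim0)
          fun a => a.elim0
        rw [h0] at this
        simpa using this
      linarith [csInf_le hb hrG, hrI.2]
    · rw [mul_comm]
      exact mul_le_mul_of_nonneg_left (h0.trans hσm) (hψ0 r)
  rw [intervalIntegral.integral_of_le h, ← integral_const_mul]
  refine le_trans (setIntegral_mono_on_ae ?_ hi.integrableOn measurableSet_Ioc h1)
    (setIntegral_le_integral hi (.of_forall hn))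
  have : IsFiniteMeasure (volume.restrict (Ioc δ (R - δ))) := ⟨by simp⟩
  exact (hψ.integrable _).const_mul 2

theorem h9_pt {a b t τ : ℝ} (hb : 0 ≤ b) (hba : b ≤ a) (ht : t ∈ Icc (0 : ℝ) 1) (hτ : 0 < τ) :
    b * √(1 - t) + √(a ^ 2 - b ^ 2) * √t ≤ a ∧
      b ^ 2 ≤ a * (b * √(1 - t)) + a ^ 2 * τ / 2 +
        a / τ * (a - b * √(1 - t) - √(a ^ 2 - b ^ 2) * √t) := by
  have ha : 0 ≤ a := hb.trans hba
  have h1 := Real.sq_sqrt (sub_nonneg.2 ht.2)
  have h2 := Real.sq_sqrt ht.1
  have h3 := Real.sq_sqrt (show 0 ≤ a ^ 2 - b ^ 2 by nlinarith)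
  generalize √(1 - t) = c at *
  generalize √t = d at *
  generalize √(a ^ 2 - b ^ 2) = s at *
  have h4 : 2 * (a * (a - b * c - s * d)) = (b - a * c) ^ 2 + (s - a * d) ^ 2 := by
    linear_combination (-1) * h3 - a ^ 2 * h1 - a ^ 2 * h2
  constructor
  · rcases ha.eq_or_lt with rfl | ha
    · have : b = 0 := le_antisymm hba hb
      subst this
      have : s = 0 := by simpa using h3
      simp [this]
    · have : 0 ≤ a * (a - b * c - s * d) := by
        nlinarith [sq_nonneg (b - a * c), sq_nonneg (s - a * d)]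
      have := (mul_nonneg_iff_of_pos_left ha).1 this
      linarith
  · have h5 : a / τ * (a - b * c - s * d) = ((b - a * c) ^ 2 + (s - a * d) ^ 2) / (2 * τ) := by
      rw [← h4]; field_simp
    have h6 : b * (b - a * c) ≤ b ^ 2 * τ / 2 + (b - a * c) ^ 2 / (2 * τ) := by
      have : 0 ≤ (b * τ - (b - a * c)) ^ 2 / (2 * τ) := by positivity
      have e : (b * τ - (b - a * c)) ^ 2 / (2 * τ) =
          b ^ 2 * τ / 2 + (b - a * c) ^ 2 / (2 * τ) - b * (b - a * c) := by field_simp; ring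
      linarith
    have h7 : b ^ 2 * τ / 2 ≤ a ^ 2 * τ / 2 := by gcongr
    have h8 : 0 ≤ (s - a * d) ^ 2 / (2 * τ) := by positivity
    rw [h5, add_div]
    linarith

theorem h9_one_cal (c : CatSp l X) (hl : 0 ≤ l) (T : Chain X 1) (hT : T.Cyc) (p : X) {δ D : ℝ}
    (hδ : 0 < δ) (hD : ∀ q, dist p q ≤ D) :
    ∃ (R L X₁ X₂ : ℝ) (T' : Chain X 1) (S : Chain X 2), δ ≤ R ∧ R ≤ D + 2 * δ ∧
      L = T.μ.real (Metric.ball p R) ∧ T.Hom T' S ∧ T'.mass = T.mass - L ∧ S.mass ≤ X₁ ∧
      R ≤ L / 2 + 2 * δ ∧ 0 ≤ X₂ ∧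
      2 * ∫ ρ in (0 : ℝ)..R, √(Alm.tn l R ^ 2 - Alm.tn l ρ ^ 2) ≤ X₂ + 4 * δ * Alm.tn l R ∧
      X₁ + X₂ ≤ Alm.tn l R * L ∧
      ∀ τ > 0, ∫ q in Metric.ball p R, Alm.tn l (dist p q) ^ 2 ∂T.μ ≤ Alm.tn l R * X₁ +
        Alm.tn l R ^ 2 * τ / 2 * L + Alm.tn l R / τ * (Alm.tn l R * L - X₁ - X₂) := by
  obtain ⟨R, A, T', hR, hRD, hA, μA, mT, hH, hsl⟩ := h9_one_cut T hT p hδ hD
  have hR0 : 0 ≤ R := hδ.le.trans hR
  have hρ : Lip (dist p) := ⟨1, lip_dist p⟩
  obtain ⟨S, hS, hm⟩ := cone_fill c hl A hA p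
  obtain ⟨i1, e1⟩ := cone_integrand hl A p
  simp only [fun q => Alm.coneW_one_eq hl (dist_nonneg (x := p) (y := q))] at i1 e1 hm
  set a := Alm.tn l R with ha
  have ha0 : 0 ≤ a := Alm.tn_nonneg hl hR0
  have cψ : Continuous fun ρ => √(a ^ 2 - Alm.tn l ρ ^ 2) :=
    (continuous_const.sub ((Alm.continuous_tn hl).pow 2)).sqrt
  have hψa : ∀ ρ, √(a ^ 2 - Alm.tn l ρ ^ 2) ≤ a := fun ρ =>
    Real.sqrt_le_iff.2 ⟨ha0, by nlinarith [sq_nonneg (Alm.tn l ρ)]⟩
  have bψ : BM fun ρ => √(a ^ 2 - Alm.tn l ρ ^ 2) :=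
    ⟨cψ.measurable, a, fun ρ => by rw [abs_of_nonneg (Real.sqrt_nonneg _)]; exact hψa ρ⟩
  obtain ⟨i2, e2⟩ := A.I_eq hρ hρ (F := fun q t => √(a ^ 2 - Alm.tn l (dist p q) ^ 2) * √t)
    ((cψ.measurable.comp (by fun_prop)).mul (by fun_prop)) fun M => ⟨a * √M, fun q t ht => by
      rw [abs_mul, abs_of_nonneg (Real.sqrt_nonneg _), abs_of_nonneg (Real.sqrt_nonneg _)]
      exact mul_le_mul (hψa _) (Real.sqrt_le_sqrt ((le_abs_self t).trans ht)) (Real.sqrt_nonneg _)
        ha0⟩
  have hL : A.mass = T.μ.real (Metric.ball p R) := by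
    rw [← A.μ_real_univ, μA, measureReal_restrict_apply_univ]
  have := A.law_fin hρ hρ
  have hL' : (A.law (dist p) (dist p)).real univ = A.mass := by
    have := A.integral_law_fst hρ hρ (g := fun _ => 1) measurable_const
    simpa [A.μ_real_univ] using this
  have hae : ∀ᵐ q ∂(A.law (dist p) (dist p)), Alm.tn l (dist p q.1) ≤ a ∧ q.2 ∈ Icc (0 : ℝ) 1 := by
    have h1 : ∀ᵐ q ∂A.μ, dist p q < R := by
      rw [μA]
      filter_upwards [ae_restrict_mem Metric.isOpen_ball.measurableSet] with q hq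
      exact Metric.mem_ball'.1 hq
    filter_upwards [Chain.law_ae_fst hρ hρ h1, A.law_ae_mem (lip_dist p)] with q h2 h3
    exact ⟨Alm.tn_mono hl dist_nonneg h2.le, by simpa using h3⟩
  refine ⟨R, A.mass, _, _, T', S, hR, hRD, hL, hH S hS, mT, hm.trans e1.le, ?_,
    integral_nonneg (f := fun q : X × ℝ => √(a ^ 2 - Alm.tn l (dist p q.1) ^ 2) * √q.2)
      (μ := A.law (dist p) (dist p)) fun q => by positivity, ?_, ?_, fun τ hτ => ?_⟩
  · have h1 := hsl (fun _ => 1) (BM.const 1) fun _ => zero_le_one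
    have h2 := h9_I_le A (lip_dist p) (w := fun _ => 1) (BM.const 1) (.of_forall fun _ => zero_le_one)
      (ψ := fun t => √t) (by fun_prop) fun t ht => Real.sqrt_le_one.2 ht.2
    simp only [integral_const, A.μ_real_univ, smul_eq_mul, mul_one,
      intervalIntegral.integral_const] at h1 h2
    linarith
  · have h1 := hsl _ bψ fun _ => Real.sqrt_nonneg _
    rw [e2] at h1
    have ii := cψ.intervalIntegrable (μ := volume)
    have h2 : ∀ s, ∫ ρ in s..(s + δ), √(a ^ 2 - Alm.tn l ρ ^ 2) ≤ δ * a := fun s => by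
      have := intervalIntegral.integral_mono_on (by linarith : s ≤ s + δ) (ii _ _)
        (continuous_const.intervalIntegrable (μ := volume) _ _) fun ρ _ => hψa ρ
      simpa using this
    have h3 := h2 0
    have h4 := h2 (R - δ)
    rw [zero_add] at h3
    rw [sub_add_cancel] at h4
    rw [← intervalIntegral.integral_add_adjacent_intervals (ii 0 δ) (ii δ R),
      ← intervalIntegral.integral_add_adjacent_intervals (ii δ (R - δ)) (ii (R - δ) R)]
    linarith
  · rw [← integral_add i1 i2, ← hL', mul_comm, ← smul_eq_mul, ← integral_const]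
    refine integral_mono_ae (i1.add i2) (integrable_const _) ?_
    filter_upwards [hae] with q hq
    exact (h9_pt (Alm.tn_nonneg hl dist_nonneg) hq.1 hq.2 one_pos).1
  · have cf : Continuous fun q => Alm.tn l (dist p q) ^ 2 :=
      ((Alm.continuous_tn hl).comp (by fun_prop)).pow 2
    have i3 : Integrable (fun q : X × ℝ => a - Alm.tn l (dist p q.1) * √(1 - q.2))
      (A.law (dist p) (dist p)) := (integrable_const a).sub i1
    have i4 : Integrable (fun q : X × ℝ => a * (Alm.tn l (dist p q.1) * √(1 - q.2)) + a ^ 2 * τ / 2)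
      (A.law (dist p) (dist p)) := (i1.const_mul a).add (integrable_const _)
    have i5 := (i3.sub i2).const_mul (a / τ)
    obtain ⟨hm', C, hC⟩ := BM.of_continuous cf
    have h1 := integral_mono_ae (μ := A.law (dist p) (dist p))
      (BM.integrable ⟨hm'.comp measurable_fst, C, fun q => hC q.1⟩ _) (i4.add i5) (by
        filter_upwards [hae] with q hq
        exact (h9_pt (Alm.tn_nonneg hl dist_nonneg) hq.1 hq.2 hτ).2)
    rw [integral_add' i4 i5, integral_add (i1.const_mul a) (integrable_const _), integral_const_mul,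
      integral_const_mul, integral_sub' i3 i2, integral_sub (integrable_const a) i1,
      integral_const, integral_const, hL', smul_eq_mul, smul_eq_mul] at h1
    rw [← μA, ← A.integral_law_fst hρ hρ hm']
    refine h1.trans (le_of_eq ?_)
    ring

end Crest.Agent.R241
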