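import Crest.Agent.R241.A
import Crest.Agent.R241.MOps

/-! Row 241 (Cartan-Hadamard): operations on chains. -/

set_option autoImplicit false

open MeasureTheory Set Filter Topology
open scoped ENNReal NNReal Matrix ContDiff

namespace Crest.Agent.R241

open Crest.GeometryTopology.Submanifold

universe u v

variable {X : Type u} [MetricSpace X] [MeasurableSpace X] [BorelSpace X] {k : ℕ}

namespace Chain

theorem exists_zero : ∃ Z : Chain X k, (∀ f π, Z.act f π = 0) ∧ Z.mass = 0 ∧ Z.In ∅ :=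
  ⟨zero X k, zero_act, zero_mass, zero_In _⟩

theorem exists_add (S T : Chain X k) : ∃ U : Chain X k,
    (∀ f π, BM f → (∀ a, Lip (π a)) → U.act f π = S.act f π + T.act f π) ∧
      U.mass = S.mass + T.mass ∧ U.μ = S.μ + T.μ ∧ ∀ A, S.In A → T.In A → U.In A :=
  ⟨S.add T, fun _ _ hf hπ => S.add_act T hf hπ, S.add_mass T, S.add_μ T, fun _ h h' => h.add h'⟩

theorem exists_neg (T : Chain X k) : ∃ U : Chain X k,
    (∀ f π, U.act f π = -T.act f π) ∧ U.mass = T.mass ∧ U.μ = T.μ ∧ ∀ A, T.In A → U.In A :=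
  ⟨T.neg, T.neg_act, T.neg_mass, T.neg_μ, fun _ h => h.neg⟩

theorem lintegral_law (C : Chain X k) {f h : X → ℝ} (hf : Lip f) (hh : Lip h)
    {F : X × ℝ → ℝ≥0∞} (hF : Measurable F) : ∫⁻ q, F q ∂(C.law f h) =
      ∑' i, ∫⁻ z in C.E i, ENNReal.ofReal (C.wt i z) * F (C.φ i z, C.G f h i z) := by
  rw [law, lintegral_sum_measure]
  refine tsum_congr fun i => ?_
  have hm := (C.aemeasurable_φ i).prodMk (C.aemeasurable_G i hf hh)
  rw [lintegral_map' hF.aemeasurable (hm.mono_ac (withDensity_absolutelyContinuous _ _)),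
    lintegral_withDensity_eq_lintegral_mul₀ (C.measurable_wt i).ennreal_ofReal.aemeasurable
      (g := fun z => F (C.φ i z, C.G f h i z)) (hF.comp_aemeasurable hm)]
  rfl

theorem restrict_law (T : Chain X k) {A : Set X} (hA : MeasurableSet A) {f h : X → ℝ}
    (hf : Lip f) (hh : Lip h) : (T.restrict A hA).law f h = (T.law f h).restrict (A ×ˢ univ) := by
  ext B hB
  have hA' : MeasurableSet (A ×ˢ (univ : Set ℝ)) := hA.prod MeasurableSet.univ
  rw [Measure.restrict_apply hB, ← lintegral_indicator_one hB,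
    ← lintegral_indicator_one (hB.inter hA'), lintegral_law _ hf hh (measurable_one.indicator hB),
    lintegral_law _ hf hh (measurable_one.indicator (hB.inter hA'))]
  refine tsum_congr (β := T.ι) fun i => ?_
  have h1 : ∫⁻ z in (T.restrict A hA).E i, ENNReal.ofReal ((T.restrict A hA).wt i z) *
      B.indicator 1 ((T.restrict A hA).φ i z, (T.restrict A hA).G f h i z) =
      ∫⁻ z in T.E i ∩ T.φ i ⁻¹' A, ENNReal.ofReal (T.wt i z) *
        B.indicator 1 (T.φ i z, T.G f h i z) := by
    refine lintegral_congr_ae ?_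
    filter_upwards [T.restrictP_ae_dv (fun i => T.measurableSet_pre i hA)
      (fun _ => inter_subset_left) hf i, T.restrictP_ae_dv (fun i => T.measurableSet_pre i hA)
      (fun _ => inter_subset_left) hh i] with z h1 h2
    show ENNReal.ofReal (T.wt i z) * B.indicator 1 (T.φ i z, gam (T.g i z)
      (dv (T.E i ∩ T.φ i ⁻¹' A) (T.φ i) f z) (dv (T.E i ∩ T.φ i ⁻¹' A) (T.φ i) h z)) = _
    rw [h1, h2]
    rfl
  rw [h1, ← lintegral_indicator (T.measurableSet_pre i hA), ← lintegral_indicator (T.mE i)]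
  refine lintegral_congr fun z => ?_
  by_cases h1 : z ∈ T.E i <;> by_cases h2 : T.φ i z ∈ A <;>
    by_cases h3 : (T.φ i z, T.G f h i z) ∈ B <;> simp [h1, h2, h3]

theorem exists_restrict (T : Chain X k) {A : Set X} (hA : MeasurableSet A) : ∃ U : Chain X k,
    (∀ f π, BM f → (∀ a, Lip (π a)) → U.act f π = T.act (A.indicator f) π) ∧
      U.μ = T.μ.restrict A ∧ U.In A ∧ (∀ A', T.In A' → U.In A') ∧
      ∀ f h, Lip f → Lip h → U.law f h = (T.law f h).restrict (A ×ˢ univ) :=
  ⟨T.restrict A hA, fun f _ _ hπ => T.restrict_act hA f hπ, T.restrict_μ hA, T.restrict_In hA,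
    fun _ h => h.restrict hA, fun _ _ hf hh => T.restrict_law hA hf hh⟩

/-- push forward under a `1`-Lipschitz map (same majorant metric). -/
theorem exists_map {Y : Type v} [MetricSpace Y] [MeasurableSpace Y] [BorelSpace Y]
    (T : Chain X k) {P : X → Y} (hP : LipschitzWith 1 P) : ∃ U : Chain Y k,
    (∀ f π, U.act f π = T.act (fun p => f (P p)) fun a p => π a (P p)) ∧
      U.mass = T.mass ∧ U.μ = T.μ.map P ∧ ∀ A, T.In A → U.In (P '' A) := by
  have hu : T.In univ := fun _ _ _ => trivial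
  refine ⟨T.map P 1 hu hP.lipschitzOnWith, fun _ _ => rfl, ?_, ?_,
    fun A hA i z hz => mem_image_of_mem P (hA i z hz)⟩
  · rw [map_mass]; simp
  · rw [map_μ _ _ _ _ _ hP.continuous.measurable]; simp

end Chain

end Crest.Agent.R241
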