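import Crest.Agent.R241.KLin
import Crest.Agent.R241.MCov
import Crest.Agent.R241.MNull

/-! Row 241, slicing (helper42), part A1: Euclidean and matrix lemmas. -/

set_option autoImplicit false

open MeasureTheory Set Filter Topology Matrix
open scoped ENNReal NNReal
open Crest.GeometryTopology.Submanifold (Euc)

namespace Crest.Agent.R241.Sl

variable {k : ℕ}

/-! ### bi-Lipschitz pieces -/

/-- A map with injective derivative within `s` is co-Lipschitz on countably many measurable pieces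
(`exists_partition_approximatesLinearOn_of_hasFDerivWithinAt` with `r A` = half the antilipschitz
constant of `A` when `A` is injective, `1` otherwise; pieces `s ∩ t n`). -/
theorem exists_colip_partition {n : ℕ} {f : Euc n → Euc n} {s : Set (Euc n)} (hs : MeasurableSet s)
    {f' : Euc n → Euc n →L[ℝ] Euc n} (hf : ∀ x ∈ s, HasFDerivWithinAt f (f' x) s x)
    (hinj : ∀ x ∈ s, Function.Injective (f' x)) :
    ∃ t : ℕ → Set (Euc n), (∀ j, MeasurableSet (t j)) ∧ Pairwise (Function.onFun Disjoint t) ∧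
      (⋃ j, t j) = s ∧
      ∀ j, ∃ C : ℝ, ∀ z ∈ t j, ∀ w ∈ t j, dist z w ≤ C * dist (f z) (f w) := by
  have hr : ∀ A : Euc n →L[ℝ] Euc n, ∃ r : ℝ≥0, r ≠ 0 ∧
      (Function.Injective A → ∀ v, 2 * (r : ℝ) * ‖v‖ ≤ ‖A v‖) := by
    intro A
    by_cases hA : Function.Injective A
    · obtain ⟨K, K0, hK⟩ := LinearMap.exists_antilipschitzWith (A : Euc n →ₗ[ℝ] Euc n)
        (LinearMap.ker_eq_bot.2 hA)
      have K0' : (0 : ℝ) < K := K0
      refine ⟨(2 * K)⁻¹, by simpa using K0.ne', fun _ v => ?_⟩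
      have h1 := hK.le_mul_dist v 0
      simp only [map_zero, dist_zero_right, ContinuousLinearMap.coe_coe] at h1
      push_cast
      have e : 2 * (2 * (K : ℝ))⁻¹ * ‖v‖ = ‖v‖ / K := by field_simp
      rw [e, div_le_iff₀ K0', mul_comm]
      exact h1
    · exact ⟨1, one_ne_zero, fun h => absurd h hA⟩
  choose r hr0 hr using hr
  obtain ⟨t, A, hd, hm, hcov, happ, hA⟩ :=
    exists_partition_approximatesLinearOn_of_hasFDerivWithinAt f s f' hf r hr0
  refine ⟨fun j => s ∩ t j, fun j => hs.inter (hm j),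
    fun i j hij => (hd hij).mono inter_subset_right inter_subset_right, ?_, fun j => ?_⟩
  · rw [← inter_iUnion]
    exact inter_eq_left.2 hcov
  · refine ⟨(r (A j) : ℝ)⁻¹, fun z hz w hw => ?_⟩
    obtain ⟨y, hy, e⟩ := hA ⟨z, hz.1⟩ j
    have h1 := hr (A j) (e ▸ hinj y hy) (z - w)
    have h2 := happ j z hz w hw
    have h3 : ‖A j (z - w)‖ ≤ ‖f z - f w‖ + ‖f z - f w - A j (z - w)‖ := by
      simpa using norm_sub_le (f z - f w) (f z - f w - A j (z - w))
    have h0 : (0 : ℝ) < r (A j) := NNReal.coe_pos.2 (pos_iff_ne_zero.2 (hr0 _))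
    rw [dist_eq_norm, dist_eq_norm, ← div_eq_inv_mul, le_div_iff₀ h0]
    linarith

/-- the linear map that drops the coordinate `j` and prepends `0` -/
theorem sl_drop (j : Fin (k + 1)) : ∃ P : Euc (k + 1) →L[ℝ] Euc (k + 1),
    (∀ z, P z 0 = 0) ∧ ∀ z (i : Fin k), P z i.succ = z (j.succAbove i) := by
  refine ⟨∑ i : Fin k, (EuclideanSpace.proj (j.succAbove i) : Euc (k + 1) →L[ℝ] ℝ).smulRight
    (EuclideanSpace.single i.succ (1 : ℝ)), fun z => ?_, fun z i => ?_⟩
  · simp [Finset.sum_apply, Pi.single_apply, (Fin.succ_ne_zero _).symm]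
  · simp [Finset.sum_apply, Pi.single_apply]

theorem sl_drop_injective {j : Fin (k + 1)} {P : Euc (k + 1) →L[ℝ] Euc (k + 1)}
    (h0 : ∀ z, P z 0 = 0) (h1 : ∀ z (i : Fin k), P z i.succ = z (j.succAbove i))
    {a : Euc (k + 1) →L[ℝ] ℝ} (ha : a (EuclideanSpace.single j 1) ≠ 0) :
    Function.Injective (a.smulRight (EuclideanSpace.single (0 : Fin (k + 1)) (1 : ℝ)) + P :
      Euc (k + 1) →L[ℝ] Euc (k + 1)) := by
  rw [injective_iff_map_eq_zero]
  intro v hv
  have hv0 : a v = 0 := by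
    have h := congrArg (fun w : Euc (k + 1) => w 0) hv
    simpa [h0] using h
  have hv1 : ∀ i : Fin k, v (j.succAbove i) = 0 := by
    intro i
    have h := congrArg (fun w : Euc (k + 1) => w i.succ) hv
    simpa [h1, Pi.single_apply] using h
  have e : v = v j • (EuclideanSpace.single j (1 : ℝ) : Euc (k + 1)) := by
    ext i
    refine Fin.succAboveCases j ?_ (fun i => ?_) i
    · simp
    · simp [hv1, Fin.succAbove_ne]
  rw [e, map_smul, smul_eq_mul, mul_eq_zero] at hv0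
  rw [e, hv0.resolve_right ha, zero_smul]

/-- pieces on which `u` becomes the coordinate `0` of a bi-Lipschitz map: `U` = Lipschitz extension
of `u`, `Ψ j z = cn (U z) (z without the coordinate j)`, `S j` = points of `E` where `U` is
differentiable and `j` is the least index with `fderiv U z (single j 1) ≠ 0`. -/
theorem exists_pieces {E : Set (Euc (k + 1))} (hE : MeasurableSet E) {u : Euc (k + 1) → ℝ}
    {L : ℝ≥0} (hu : LipschitzOnWith L u E) :
    ∃ (A : Fin (k + 1) × ℕ → Set (Euc (k + 1))) (ψ : Fin (k + 1) × ℕ → Euc (k + 1) → Euc (k + 1)),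
      (∀ n, MeasurableSet (A n)) ∧ (∀ n, A n ⊆ E) ∧ Pairwise (Function.onFun Disjoint A) ∧
      (∀ n, ∃ K : ℝ≥0, LipschitzOnWith K (ψ n) (A n)) ∧
      (∀ n, ∃ C : ℝ, ∀ z ∈ A n, ∀ w ∈ A n, dist z w ≤ C * dist (ψ n z) (ψ n w)) ∧
      (∀ n, ∀ z ∈ A n, ψ n z 0 = u z) ∧
      ∀ᵐ z ∂(volume.restrict E), z ∉ (⋃ n, A n) → fderivWithin ℝ u E z = 0 := by
  obtain ⟨U, hU, hUu⟩ := hu.extend_real
  choose P hP0 hP1 using fun j : Fin (k + 1) => sl_drop j
  obtain ⟨Ψ, hΨ⟩ : ∃ Ψ : Fin (k + 1) → Euc (k + 1) → Euc (k + 1), Ψ = fun j z =>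
      U z • (EuclideanSpace.single (0 : Fin (k + 1)) (1 : ℝ) : Euc (k + 1)) + P j z := ⟨_, rfl⟩
  obtain ⟨S, hS⟩ : ∃ S : Fin (k + 1) → Set (Euc (k + 1)), S = fun j =>
      {z | z ∈ E ∧ DifferentiableAt ℝ U z ∧ fderiv ℝ U z (EuclideanSpace.single j 1) ≠ 0 ∧
        ∀ i, i < j → fderiv ℝ U z (EuclideanSpace.single i 1) = 0} := ⟨_, rfl⟩
  have hmem : ∀ j z, z ∈ S j ↔ z ∈ E ∧ DifferentiableAt ℝ U z ∧
      fderiv ℝ U z (EuclideanSpace.single j 1) ≠ 0 ∧
        ∀ i, i < j → fderiv ℝ U z (EuclideanSpace.single i 1) = 0 := by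
    intro j z
    rw [hS]
    rfl
  have hz : ∀ i : Fin (k + 1),
      MeasurableSet {z | fderiv ℝ U z (EuclideanSpace.single i 1) = 0} := fun i =>
    measurableSet_eq_fun (measurable_fderiv_apply_const ℝ U _) measurable_const
  have hSm : ∀ j, MeasurableSet (S j) := by
    intro j
    have e : S j = E ∩ ({z | DifferentiableAt ℝ U z} ∩
        ({z | fderiv ℝ U z (EuclideanSpace.single j 1) = 0}ᶜ ∩
          ⋂ i, ⋂ (_ : i < j), {z | fderiv ℝ U z (EuclideanSpace.single i 1) = 0})) := by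
      ext z
      simp only [hmem, mem_inter_iff, mem_setOf_eq, mem_compl_iff, mem_iInter]
    rw [e]
    exact hE.inter ((measurableSet_of_differentiableAt ℝ U).inter ((hz j).compl.inter
      (MeasurableSet.iInter fun i => MeasurableSet.iInter fun _ => hz i)))
  have hSd : ∀ j j', j ≠ j' → Disjoint (S j) (S j') := by
    intro j j' hne
    rw [Set.disjoint_left]
    intro z h1 h2
    rw [hmem] at h1 h2
    rcases lt_or_gt_of_ne hne with h | h
    · exact h1.2.2.1 (h2.2.2.2 j h)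
    · exact h2.2.2.1 (h1.2.2.2 j' h)
  have key : ∀ j, ∃ t : ℕ → Set (Euc (k + 1)), (∀ n, MeasurableSet (t n)) ∧
      Pairwise (Function.onFun Disjoint t) ∧ (⋃ n, t n) = S j ∧
      ∀ n, ∃ C : ℝ, ∀ z ∈ t n, ∀ w ∈ t n, dist z w ≤ C * dist (Ψ j z) (Ψ j w) := by
    intro j
    refine exists_colip_partition (hSm j) (f' := fun z => (fderiv ℝ U z).smulRight
      (EuclideanSpace.single (0 : Fin (k + 1)) (1 : ℝ)) + P j) (fun z hz => ?_) fun z hz => ?_
    · rw [hΨ]
      exact ((((hmem j z).1 hz).2.1.hasFDerivAt.smul_const _).add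
        (P j).hasFDerivAt).hasFDerivWithinAt
    · exact sl_drop_injective (hP0 j) (hP1 j) ((hmem j z).1 hz).2.2.1
  choose t htm htd htU htC using key
  have hts : ∀ j n, t j n ⊆ S j := fun j n => htU j ▸ subset_iUnion (t j) n
  have htE : ∀ j n, t j n ⊆ E := fun j n z hz => ((hmem j z).1 (hts j n hz)).1
  refine ⟨fun n => t n.1 n.2, fun n => Ψ n.1, fun n => htm _ _, fun n => htE _ _, ?_,
    fun n => ?_, fun n => htC _ _, fun n z hz => ?_, ?_⟩
  · rintro ⟨j, n⟩ ⟨j', n'⟩ hne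
    by_cases h : j = j'
    · subst h
      exact htd j fun e => hne (Prod.ext rfl e)
    · exact (hSd j j' h).mono (hts j n) (hts j' n')
  · rw [hΨ]
    exact ⟨_, (((ContinuousLinearMap.toSpanSingleton ℝ
      (EuclideanSpace.single (0 : Fin (k + 1)) (1 : ℝ) : Euc (k + 1))).lipschitz.comp hU).add
        (P n.1).lipschitz).lipschitzOnWith⟩
  · rw [hΨ, hUu (htE _ _ hz)]
    simp [hP0]
  · rw [ae_restrict_iff' hE]
    filter_upwards [hU.ae_differentiableAt (μ := volume), cov_uniqueDiff volume hE] with z hd hud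
      hzE hn
    have h0 : ∀ j, fderiv ℝ U z (EuclideanSpace.single j 1) = 0 := by
      by_contra hcon
      rw [not_forall] at hcon
      obtain ⟨j, hj, hmin⟩ := wellFounded_lt.has_min
        {j : Fin (k + 1) | fderiv ℝ U z (EuclideanSpace.single j 1) ≠ 0} hcon
      have h1 : z ∈ S j := (hmem j z).2 ⟨hzE, hd, hj, fun i hi => by_contra fun h => hmin i h hi⟩
      rw [← htU j] at h1
      obtain ⟨n, hn'⟩ := mem_iUnion.1 h1
      exact hn (mem_iUnion.2 ⟨(j, n), hn'⟩)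
    have h1 : fderiv ℝ U z = 0 := by
      refine ContinuousLinearMap.ext fun v => ?_
      have h2 : cv (fderiv ℝ U z) = 0 := funext h0
      rw [clm_apply_eq, h2, zero_dotProduct]
      rfl
    rw [fderivWithin_congr hUu (hUu hzE), hd.fderivWithin (hud hzE), h1]

/-- inverse of a bi-Lipschitz map on `A`, extended to a globally Lipschitz map
(`Function.invFunOn`, `LipschitzOnWith.extend_finite_dimension`). -/
theorem exists_inverse {n : ℕ} {A : Set (Euc n)} {ψ : Euc n → Euc n} {K : ℝ≥0}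
    (hψ : LipschitzOnWith K ψ A) {C : ℝ}
    (hC : ∀ z ∈ A, ∀ w ∈ A, dist z w ≤ C * dist (ψ z) (ψ w)) :
    ∃ χ : Euc n → Euc n, (∃ K' : ℝ≥0, LipschitzWith K' χ) ∧ (∀ z ∈ A, χ (ψ z) = z) ∧
      ∀ y ∈ ψ '' A, ∀ y' ∈ ψ '' A, dist y y' ≤ K * dist (χ y) (χ y') := by
  have hinj : InjOn ψ A := fun z hz w hw e => by
    have := hC z hz w hw
    rw [e, dist_self, mul_zero] at this
    exact dist_le_zero.1 this
  have hinv : ∀ z ∈ A, Function.invFunOn ψ A (ψ z) = z := hinj.leftInvOn_invFunOn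
  have hL : LipschitzOnWith C.toNNReal (Function.invFunOn ψ A) (ψ '' A) := by
    refine LipschitzOnWith.of_dist_le_mul ?_
    rintro _ ⟨z, hz, rfl⟩ _ ⟨w, hw, rfl⟩
    rw [hinv z hz, hinv w hw]
    exact (hC z hz w hw).trans (mul_le_mul_of_nonneg_right (Real.le_coe_toNNReal C) dist_nonneg)
  obtain ⟨χ, hχ, he⟩ := hL.extend_finite_dimension
  have hz : ∀ z ∈ A, χ (ψ z) = z := fun z hz => by
    rw [← he (mem_image_of_mem ψ hz), hinv z hz]
  refine ⟨χ, ⟨_, hχ⟩, hz, ?_⟩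
  rintro _ ⟨z, hzA, rfl⟩ _ ⟨w, hw, rfl⟩
  rw [hz z hzA, hz w hw]
  exact hψ.dist_le_mul z hzA w hw

/-- parametrisations of the pieces. -/
theorem exists_param {E : Set (Euc (k + 1))} (hE : MeasurableSet E) (hb : Bornology.IsBounded E)
    {u : Euc (k + 1) → ℝ} {L : ℝ≥0} (hu : LipschitzOnWith L u E) :
    ∃ (B : Fin (k + 1) × ℕ → Set (Euc (k + 1))) (χ : Fin (k + 1) × ℕ → Euc (k + 1) → Euc (k + 1)),
      (∀ n, MeasurableSet (B n)) ∧ (∀ n, Bornology.IsBounded (B n)) ∧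
      (∀ n, ∃ K : ℝ≥0, LipschitzWith K (χ n)) ∧
      (∀ n, ∃ C : ℝ, ∀ z ∈ B n, ∀ w ∈ B n, dist z w ≤ C * dist (χ n z) (χ n w)) ∧
      (∀ n, MapsTo (χ n) (B n) E) ∧ (∀ n, MeasurableSet (χ n '' B n)) ∧
      Pairwise (Function.onFun Disjoint fun n => χ n '' B n) ∧
      (∀ n, ∀ y ∈ B n, u (χ n y) = y 0) ∧
      ∀ᵐ z ∂(volume.restrict E), z ∉ (⋃ n, χ n '' B n) → fderivWithin ℝ u E z = 0 := by
  obtain ⟨A, ψ, hAm, hAE, hAd, hK, hC, h0, hae⟩ := exists_pieces hE hu
  choose K hK using hK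
  choose C hC using hC
  choose χ hχ hχψ hχC using fun n => exists_inverse (hK n) (hC n)
  have him : ∀ n, χ n '' (ψ n '' A n) = A n := by
    intro n
    rw [image_image, image_congr (hχψ n), image_id']
  refine ⟨fun n => ψ n '' A n, χ, fun n => ?_, fun n => ?_, hχ, fun n => ⟨K n, hχC n⟩,
    fun n => ?_, fun n => ?_, ?_, ?_, ?_⟩
  · refine cov_measurableSet_image (hAm n) (hK n) fun z hz w hw e => ?_
    have h1 := hC n z hz w hw
    rw [e, dist_self, mul_zero] at h1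
    exact dist_le_zero.1 h1
  · obtain ⟨R, hR⟩ := Metric.isBounded_iff.1 (hb.subset (hAE n))
    exact Metric.isBounded_image_iff.2 ⟨K n * R, fun z hz w hw =>
      ((hK n).dist_le_mul z hz w hw).trans (mul_le_mul_of_nonneg_left (hR hz hw) (K n).2)⟩
  · exact fun y hy => hAE n (him n ▸ mem_image_of_mem (χ n) hy)
  · rw [him]
    exact hAm n
  · simp only [him]
    exact hAd
  · rintro n _ ⟨z, hz, rfl⟩
    rw [hχψ n z hz, h0 n z hz]
  · simp only [him]
    exact hae

end Crest.Agent.R241.Sl
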