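import Crest.Agent.R241.KLin
import Crest.Agent.R241.MCov
import Crest.Agent.R241.MNull

/-! Row 241, slicing (helper42), part A3: Euclidean and matrix lemmas. -/

set_option autoImplicit false

open MeasureTheory Set Filter Topology Matrix
open scoped ENNReal NNReal
open Crest.GeometryTopology.Submanifold (Euc)

namespace Crest.Agent.R241.Sl

variable {k : ℕ}

/-! ### chain rule under a bi-Lipschitz parametrisation -/

private theorem sl_h38_fderiv {n : ℕ} {B : Set (Euc n)} (hB : MeasurableSet B)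
    {χ : Euc n → Euc n} {K : ℝ≥0} (hχ : LipschitzWith K χ) :
    ∀ᵐ y ∂(volume : Measure (Euc n)), y ∈ B → fderivWithin ℝ χ B y = fderiv ℝ χ y := by
  simpa only [fderivWithin_univ] using
    cov_fderiv_subset volume hB (subset_univ B) (hχ.lipschitzOnWith (s := univ))

theorem ae_cv_comp {n : ℕ} {B E : Set (Euc n)} (hB : MeasurableSet B) {χ : Euc n → Euc n}
    {K : ℝ≥0} (hχ : LipschitzWith K χ) {C : ℝ}
    (hC : ∀ z ∈ B, ∀ w ∈ B, dist z w ≤ C * dist (χ z) (χ w)) (hm : MapsTo χ B E)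
    {u : Euc n → ℝ} {L : ℝ≥0} (hu : LipschitzOnWith L u E) :
    ∀ᵐ y ∂(volume.restrict B), cv (fderivWithin ℝ (fun w => u (χ w)) B y) =
      cv (fderivWithin ℝ u E (χ y)) ᵥ* cm (fderiv ℝ χ y) := by
  rw [ae_restrict_iff' hB]
  filter_upwards [cov_chain volume hB hχ.lipschitzOnWith hC hm hu, sl_h38_fderiv hB hχ]
    with y h1 h2 hy
  rw [h1 hy, h2 hy]
  funext j
  change fderivWithin ℝ u E (χ y) (fderiv ℝ χ y (EuclideanSpace.single j 1)) = _
  rw [clm_apply_eq]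
  rfl

theorem ae_det_cm_ne_zero {n : ℕ} {B : Set (Euc n)} (hB : MeasurableSet B) {χ : Euc n → Euc n}
    {K : ℝ≥0} (hχ : LipschitzWith K χ) {C : ℝ}
    (hC : ∀ z ∈ B, ∀ w ∈ B, dist z w ≤ C * dist (χ z) (χ w)) :
    ∀ᵐ y ∂(volume.restrict B), (cm (fderiv ℝ χ y)).det ≠ 0 := by
  rw [ae_restrict_iff' hB]
  filter_upwards [cov_det_ne_zero volume hB hχ.lipschitzOnWith hC, sl_h38_fderiv hB hχ]
    with y h1 h2 hy
  rw [det_cm, ← h2 hy]
  exact h1 hy

theorem measurable_cm_fderiv {n : ℕ} (χ : Euc n → Euc n) (a b : Fin n) :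
    Measurable fun y => cm (fderiv ℝ χ y) a b := by
  exact (EuclideanSpace.proj (𝕜 := ℝ) a).continuous.measurable.comp
    (measurable_fderiv_apply_const ℝ χ (EuclideanSpace.single b 1))

theorem cm_mulVec {n : ℕ} (A : Euc n →L[ℝ] Euc n) (v : Euc n) :
    cm A *ᵥ v.ofLp = (A v).ofLp := by
  funext i
  exact (clm_apply_eq ((EuclideanSpace.proj (𝕜 := ℝ) i).comp A) v).symm

theorem sl_h58_inj {n : ℕ} {B : Set (Euc n)} {χ : Euc n → Euc n} {C : ℝ}
    (hC : ∀ z ∈ B, ∀ w ∈ B, dist z w ≤ C * dist (χ z) (χ w)) : InjOn χ B := fun z hz w hw e => by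
  have := hC z hz w hw
  rw [e, dist_self, mul_zero] at this
  exact dist_le_zero.1 this

theorem sl_h58_ae {n : ℕ} {B : Set (Euc n)} (hB : MeasurableSet B) {χ : Euc n → Euc n}
    {K : ℝ≥0} (hχ : LipschitzWith K χ) :
    ∀ᵐ y ∂(volume.restrict B), (fderivWithin ℝ χ B y).det = (cm (fderiv ℝ χ y)).det := by
  rw [ae_restrict_iff' hB]
  filter_upwards [cov_fderiv_subset volume hB (subset_univ B) hχ.lipschitzOnWith] with y hy hyB
  rw [hy hyB, fderivWithin_univ, det_cm]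

theorem lintegral_param {n : ℕ} {B : Set (Euc n)} (hB : MeasurableSet B) {χ : Euc n → Euc n}
    {K : ℝ≥0} (hχ : LipschitzWith K χ) {C : ℝ}
    (hC : ∀ z ∈ B, ∀ w ∈ B, dist z w ≤ C * dist (χ z) (χ w)) (f : Euc n → ℝ≥0∞) :
    ∫⁻ x in χ '' B, f x = ∫⁻ y in B, ENNReal.ofReal |(cm (fderiv ℝ χ y)).det| * f (χ y) := by
  rw [cov_lintegral volume hB hχ.lipschitzOnWith (sl_h58_inj hC)]
  refine lintegral_congr_ae ?_
  filter_upwards [sl_h58_ae hB hχ] with y hy
  rw [hy]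

theorem integral_param {n : ℕ} {B : Set (Euc n)} (hB : MeasurableSet B) {χ : Euc n → Euc n}
    {K : ℝ≥0} (hχ : LipschitzWith K χ) {C : ℝ}
    (hC : ∀ z ∈ B, ∀ w ∈ B, dist z w ≤ C * dist (χ z) (χ w)) (f : Euc n → ℝ) :
    ∫ x in χ '' B, f x = ∫ y in B, |(cm (fderiv ℝ χ y)).det| * f (χ y) := by
  rw [cov_integral volume hB hχ.lipschitzOnWith (sl_h58_inj hC)]
  refine integral_congr_ae ?_
  filter_upwards [sl_h58_ae hB hχ] with y hy
  rw [hy]

theorem integrableOn_param {n : ℕ} {B : Set (Euc n)} (hB : MeasurableSet B) {χ : Euc n → Euc n}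
    {K : ℝ≥0} (hχ : LipschitzWith K χ) {C : ℝ}
    (hC : ∀ z ∈ B, ∀ w ∈ B, dist z w ≤ C * dist (χ z) (χ w)) {f : Euc n → ℝ}
    (hf : IntegrableOn f (χ '' B)) : IntegrableOn (fun y => f (χ y)) B := by
  classical
  have hi := sl_h58_inj hC
  have hA : MeasurableSet (χ '' B) := cov_measurableSet_image hB hχ.lipschitzOnWith hi
  have hψ : LipschitzOnWith (Real.toNNReal C) (Function.invFunOn χ B) (χ '' B) := by
    refine LipschitzOnWith.of_dist_le' ?_
    rintro _ ⟨z, hz, rfl⟩ _ ⟨w, hw, rfl⟩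
    rw [hi.leftInvOn_invFunOn hz, hi.leftInvOn_invFunOn hw]
    exact hC z hz w hw
  obtain ⟨Ψ, hΨ, he⟩ := hψ.extend_finite_dimension
  have hl : ∀ z ∈ B, Ψ (χ z) = z := fun z hz => by
    rw [← he ⟨z, hz, rfl⟩, hi.leftInvOn_invFunOn hz]
  have himg : Ψ '' (χ '' B) = B := by
    rw [image_image]
    exact (image_congr hl).trans (image_id' B)
  have hinj : InjOn Ψ (χ '' B) := by
    rintro _ ⟨z, hz, rfl⟩ _ ⟨w, hw, rfl⟩ e
    rw [hl z hz, hl w hw] at e
    rw [e]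
  have key := (cov_integrableOn volume hA hΨ.lipschitzOnWith hinj (fun y => f (χ y))).2
  rw [himg] at key
  apply key
  obtain ⟨L, hL⟩ : ∃ L : ℝ≥0, LipschitzWith L Ψ := ⟨_, hΨ⟩
  have hb : IntegrableOn (fun x => |(cm (fderiv ℝ Ψ x)).det| * f x) (χ '' B) := by
    refine Integrable.bdd_mul (c := n.factorial * (L : ℝ) ^ n) hf ?_ (Eventually.of_forall fun x => ?_)
    · simp only [det_cm]
      exact (ContinuousLinearMap.continuous_det.measurable.comp
        (measurable_fderiv ℝ Ψ)).abs.aestronglyMeasurable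
    · rw [Real.norm_eq_abs, abs_abs]
      refine abs_det_le_of_entry fun i j => ?_
      have h1 : ‖fderiv ℝ Ψ x‖ ≤ L := norm_fderiv_le_of_lipschitz ℝ hL
      have h2 := (fderiv ℝ Ψ x).le_opNorm (EuclideanSpace.single j 1)
      simp only [PiLp.norm_single, norm_one, mul_one] at h2
      have h3 := PiLp.norm_apply_le (fderiv ℝ Ψ x (EuclideanSpace.single j 1)) i
      rw [Real.norm_eq_abs] at h3
      exact h3.trans (h2.trans h1)
  refine hb.congr ?_
  filter_upwards [sl_h58_ae hA hL, ae_restrict_mem hA] with x hx hxA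
  obtain ⟨z, hz, rfl⟩ := hxA
  rw [hx, hl z hz]

theorem ae_param {n : ℕ} {B E : Set (Euc n)} (hB : MeasurableSet B) (hE : MeasurableSet E)
    {χ : Euc n → Euc n} {C : ℝ} (hC : ∀ z ∈ B, ∀ w ∈ B, dist z w ≤ C * dist (χ z) (χ w))
    (hm : MapsTo χ B E) {P : Euc n → Prop} (h : ∀ᵐ x ∂(volume.restrict E), P x) :
    ∀ᵐ y ∂(volume.restrict B), P (χ y) := by
  rw [ae_restrict_iff' hB]
  rw [ae_restrict_iff' hE] at h
  filter_upwards [cov_ae_comp volume hC h] with y h1 hy using h1 hy (hm hy)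

end Crest.Agent.R241.Sl
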