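import Crest.Agent.R241.MBas

/-! Row 241, slicing (helper42), part B1: basic facts on the action of a chain. -/

set_option autoImplicit false
set_option linter.unusedSectionVars false

open MeasureTheory Set Filter Topology Matrix
open scoped ENNReal NNReal
open Crest.GeometryTopology.Submanifold (Euc)

namespace Crest.Agent.R241.Sl

universe u
variable {X : Type u} [MetricSpace X] [MeasurableSpace X] [BorelSpace X] {k : ℕ}

/-- the integrand of `Chain.act`. -/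
noncomputable def term (C : Chain X k) (F : X → ℝ) (π : Fin k → X → ℝ) (i : C.ι) (z : Euc k) : ℝ :=
  (C.θ i z : ℝ) * F (C.φ i z) * jdet (C.E i) (C.φ i) π z

theorem act_eq (C : Chain X k) (F : X → ℝ) (π : Fin k → X → ℝ) :
    C.act F π = ∑' i, ∫ z in C.E i, term C F π i z := rfl

/-- the co-area functional `∫ ψ(ρ) |∇ρ| dμ`. -/
noncomputable def J (C : Chain X k) (ρ : X → ℝ) (ψ : ℝ → ℝ≥0∞) : ℝ≥0∞ :=
  ∑' i, ∫⁻ z in C.E i, ψ (ρ (C.φ i z)) * ENNReal.ofReal (C.wt i z * √(C.G ρ ρ i z))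

/-- the co-area functional `∫ h |∇ρ| dμ`. -/
noncomputable def Jh (C : Chain X k) (ρ : X → ℝ) (h : X → ℝ≥0∞) : ℝ≥0∞ :=
  ∑' i, ∫⁻ z in C.E i, h (C.φ i z) * ENNReal.ofReal (C.wt i z * √(C.G ρ ρ i z))

theorem J_eq (C : Chain X k) (ρ : X → ℝ) (ψ : ℝ → ℝ≥0∞) :
    J C ρ ψ = Jh C ρ fun p => ψ (ρ p) := rfl

theorem lip_cons {f : X → ℝ} {π : Fin k → X → ℝ} (hf : Lip f) (hπ : ∀ a, Lip (π a)) :
    ∀ a, Lip ((Fin.cons f π : Fin (k + 1) → X → ℝ) a) := fun a => by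
  refine Fin.cases ?_ (fun j => ?_) a
  · simpa using hf
  · simpa using hπ j

theorem bm_of_lip [CompactSpace X] {f : X → ℝ} (hf : Lip f) : BM f := hf.bm

theorem lip_mul [CompactSpace X] {f g : X → ℝ} (hf : Lip f) (hg : Lip g) :
    Lip fun p => f p * g p := hf.mul hg

theorem aemeasurable_jdet (C : Chain X k) (i : C.ι) {π : Fin k → X → ℝ} (hπ : ∀ a, Lip (π a)) :
    AEMeasurable (jdet (C.E i) (C.φ i) π) (volume.restrict (C.E i)) :=
  C.aem_ν.1 (C.aem_jdet hπ) i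

theorem aemeasurable_term (C : Chain X k) (i : C.ι) {F : X → ℝ} (hF : Measurable F)
    {π : Fin k → X → ℝ} (hπ : ∀ a, Lip (π a)) :
    AEMeasurable (term C F π i) (volume.restrict (C.E i)) :=
  C.aem_ν.1 (C.aem_tm hF hπ) i

theorem ae_abs_term_le (C : Chain X k) (i : C.ι) {F : X → ℝ} {M : ℝ} (hF : ∀ x, |F x| ≤ M)
    {π : Fin k → X → ℝ} {K : Fin k → ℝ≥0} (hπ : ∀ a, LipschitzWith (K a) (π a)) :
    ∀ᵐ z ∂(volume.restrict (C.E i)), |term C F π i z| ≤ M * (∏ a, (K a : ℝ)) * C.wt i z := by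
  filter_upwards [C.ae_ν.1 (C.ae_abs_tm_le F hπ) i] with z hz
  refine hz.trans ?_
  have h1 : 0 ≤ ∏ a, (K a : ℝ) := by positivity
  have h2 := mul_le_mul_of_nonneg_left (hF (C.φ i z)) (mul_nonneg h1 (C.wt_nonneg i z))
  nlinarith

theorem integrableOn_wt (C : Chain X k) (i : C.ι) : IntegrableOn (C.wt i) (C.E i) :=
  C.integrableOn_of_ν C.integrable_wt i

theorem hasSum_wt (C : Chain X k) : HasSum (fun i => ∫ z in C.E i, C.wt i z) C.mass := by
  rw [C.mass_eq]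
  exact C.hasSum_ν C.integrable_wt

theorem integrableOn_term (C : Chain X k) (i : C.ι) {F : X → ℝ} (hF : BM F)
    {π : Fin k → X → ℝ} (hπ : ∀ a, Lip (π a)) : IntegrableOn (term C F π i) (C.E i) :=
  C.integrableOn_tm hF hπ i

theorem tsum_enorm_term_ne_top (C : Chain X k) {F : X → ℝ} (hF : BM F)
    {π : Fin k → X → ℝ} (hπ : ∀ a, Lip (π a)) :
    ∑' i, ∫⁻ z in C.E i, ‖term C F π i z‖ₑ ≠ ⊤ := by
  have := (C.integrable_tm hF hπ).2.ne
  rwa [C.lintegral_ν] at this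

theorem summable_term (C : Chain X k) {F : X → ℝ} (hF : BM F)
    {π : Fin k → X → ℝ} (hπ : ∀ a, Lip (π a)) :
    Summable fun i => ∫ z in C.E i, term C F π i z := (C.hasSum_act hF hπ).summable

/-- a constant coordinate kills the action. -/
theorem act_cons_const (C : Chain X (k + 1)) (F : X → ℝ) (c : ℝ) (π : Fin k → X → ℝ) :
    C.act F (Fin.cons (fun _ => c) π) = 0 :=
  C.act_eq_zero_of_const (a := 0) (Lip.const c) (c := c) fun _ _ => rfl

/-- `F ↦ C.act F π` is a difference of two finite measures: the sums over `i` of the push-forwards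
by `φ i` of `ofReal (± θ jdet) dz`. -/
theorem exists_rep (C : Chain X k) {π : Fin k → X → ℝ} (hπ : ∀ a, Lip (π a)) :
    ∃ ν₁ ν₂ : Measure X, IsFiniteMeasure ν₁ ∧ IsFiniteMeasure ν₂ ∧
      ∀ F : X → ℝ, BM F → C.act F π = ∫ p, F p ∂ν₁ - ∫ p, F p ∂ν₂ := by
  have hw : Integrable (C.tm (fun _ => 1) π) C.ν := C.integrable_tm (BM.const 1) hπ
  have key : ∀ w : C.ι × Euc k → ℝ, Integrable w C.ν → ∃ ν₁ : Measure X, IsFiniteMeasure ν₁ ∧
      ∀ F : X → ℝ, BM F → Integrable (fun p => max (w p) 0 * F (C.φ p.1 p.2)) C.ν ∧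
        ∫ p, F p ∂ν₁ = ∫ p, max (w p) 0 * F (C.φ p.1 p.2) ∂C.ν := by
    intro w hw
    have : IsFiniteMeasure (C.ν.withDensity fun p => ENNReal.ofReal (w p)) :=
      isFiniteMeasure_withDensity_ofReal hw.2
    refine ⟨(C.ν.withDensity fun p => ENNReal.ofReal (w p)).map fun p => C.φ p.1 p.2,
      inferInstance, fun F hF => ⟨?_, ?_⟩⟩
    · obtain ⟨B, hB⟩ := hF.2
      exact hw.pos_part.mul_bdd (hF.1.comp_aemeasurable C.aem_φ).aestronglyMeasurable
        (.of_forall fun p => hB _)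
    · rw [integral_map (C.aem_φ.mono_ac (withDensity_absolutelyContinuous _ _))
        hF.1.aestronglyMeasurable,
        integral_withDensity_eq_integral_toReal_smul₀ hw.1.aemeasurable.ennreal_ofReal
          (.of_forall fun _ => ENNReal.ofReal_lt_top)]
      simp only [ENNReal.toReal_ofReal', smul_eq_mul]
  obtain ⟨ν₁, h1, h1'⟩ := key _ hw
  obtain ⟨ν₂, h2, h2'⟩ := key _ hw.neg
  refine ⟨ν₁, ν₂, h1, h2, fun F hF => ?_⟩
  rw [(h1' F hF).2, (h2' F hF).2, ← integral_sub (h1' F hF).1 (h2' F hF).1, C.act_eq hF hπ]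
  refine integral_congr_ae (.of_forall fun p => ?_)
  simp only [Pi.neg_apply]
  rw [← sub_mul, max_zero_sub_max_neg_zero_eq_self]
  simp only [Chain.tm]
  ring

/-- Leibniz and chain rule in the first coordinate (`ae_dW_mul`, `ae_dW_comp`, linearity of the
determinant in the row `0`). -/
theorem act_leibniz [CompactSpace X] (C : Chain X (k + 1)) {f ρ : X → ℝ} (hf : Lip f) (hρ : Lip ρ)
    {γ γ' : ℝ → ℝ} (hγ : ∀ t, HasDerivAt γ (γ' t) t) (hγl : ∃ K : ℝ≥0, LipschitzWith K γ)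
    (hγ' : Continuous γ') {π : Fin k → X → ℝ} (hπ : ∀ a, Lip (π a)) :
    C.act (fun _ => 1) (Fin.cons (fun p => γ (ρ p) * f p) π) =
      C.act (fun p => γ (ρ p)) (Fin.cons f π) +
        C.act (fun p => γ' (ρ p) * f p) (Fin.cons ρ π) := by
  obtain ⟨K, hK⟩ := hγl
  have hγρ : Lip fun p => γ (ρ p) := ⟨_, hK.comp hρ.choose_spec⟩
  have e : ∀ u : X → ℝ, (Fin.cons u π : Fin (k + 1) → X → ℝ) =
      Function.update (Fin.cons f π : Fin (k + 1) → X → ℝ) 0 u := fun u => by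
    rw [Fin.update_cons_zero]
  have h1 := C.act_update_mul (f := fun _ => 1) (lip_cons hf hπ) 0 hγρ hf
    (by simpa using hγρ.bm) (by simpa using hf.bm)
  have h2 := C.act_update_comp f (Fin.cons f π : Fin (k + 1) → X → ℝ) 0 hρ
    (F := γ) (F' := γ') fun x => hγ _
  simp only [one_mul, ← e] at h1 h2
  rw [h1, h2]
  simp only [mul_comm]

theorem Jh_le (C : Chain X k) {ρ : X → ℝ} {K : ℝ≥0} (hρ : LipschitzWith K ρ) {h : X → ℝ≥0∞}
    (hh : Measurable h) : Jh C ρ h ≤ K * ∫⁻ p, h p ∂C.μ := by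
  rw [C.lintegral_μ hh, Jh, ← ENNReal.tsum_mul_left]
  refine ENNReal.tsum_le_tsum fun i => ?_
  rw [← lintegral_const_mul' _ _ ENNReal.coe_ne_top]
  refine lintegral_mono_ae ?_
  filter_upwards [C.ae_G_self_le i hρ] with z hz
  have h1 : √(C.G ρ ρ i z) ≤ K := Real.sqrt_le_iff.2 ⟨K.2, hz⟩
  have h2 : ENNReal.ofReal (C.wt i z * √(C.G ρ ρ i z)) ≤ K * ENNReal.ofReal (C.wt i z) := by
    rw [← ENNReal.ofReal_coe_nnreal, ← ENNReal.ofReal_mul K.coe_nonneg, mul_comm (K : ℝ)]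
    exact ENNReal.ofReal_le_ofReal (mul_le_mul_of_nonneg_left h1 (C.wt_nonneg i z))
  calc _ ≤ h (C.φ i z) * (K * ENNReal.ofReal (C.wt i z)) := by gcongr
    _ = _ := by ring

theorem J_le (C : Chain X k) {ρ : X → ℝ} {K : ℝ≥0} (hρ : LipschitzWith K ρ) {ψ : ℝ → ℝ≥0∞}
    (hψ : Measurable ψ) : J C ρ ψ ≤ K * ∫⁻ p, ψ (ρ p) ∂C.μ := by
  rw [C.lintegral_μ (F := fun p => ψ (ρ p)) (hψ.comp hρ.continuous.measurable), J, ← ENNReal.tsum_mul_left]
  refine ENNReal.tsum_le_tsum fun i => ?_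
  rw [← lintegral_const_mul' _ _ ENNReal.coe_ne_top]
  refine lintegral_mono_ae ?_
  filter_upwards [C.ae_G_self_le i hρ] with z hz
  have h1 : √(C.G ρ ρ i z) ≤ K := Real.sqrt_le_iff.2 ⟨K.2, hz⟩
  have h2 : ENNReal.ofReal (C.wt i z * √(C.G ρ ρ i z)) ≤ K * ENNReal.ofReal (C.wt i z) := by
    rw [← ENNReal.ofReal_coe_nnreal, ← ENNReal.ofReal_mul K.coe_nonneg, mul_comm (K : ℝ)]
    exact ENNReal.ofReal_le_ofReal (mul_le_mul_of_nonneg_left h1 (C.wt_nonneg i z))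
  calc _ ≤ ψ (ρ (C.φ i z)) * (K * ENNReal.ofReal (C.wt i z)) := by gcongr
    _ = _ := by ring

theorem J_one_ne_top (C : Chain X k) {ρ : X → ℝ} (hρ : Lip ρ) : J C ρ (fun _ => 1) ≠ ⊤ := by
  obtain ⟨K, hK⟩ := hρ
  refine ne_top_of_le_ne_top ?_ (J_le C hK measurable_const)
  rw [lintegral_one]
  exact ENNReal.mul_ne_top ENNReal.coe_ne_top (measure_ne_top _ _)

end Crest.Agent.R241.Sl
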