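import Crest.Agent.R241.SlB1
import Crest.Agent.R241.SlA1
import Crest.Agent.R241.SlA3
import Crest.Agent.R241.SlA4

/-! Row 241, slicing (helper42), part B2: reparametrisation making `ρ ∘ φ` the coordinate `0`. -/

set_option autoImplicit false
set_option linter.unusedSectionVars false

open MeasureTheory Set Filter Topology Matrix
open scoped ENNReal NNReal
open Crest.GeometryTopology.Submanifold (Euc)

namespace Crest.Agent.R241.Sl

universe u
variable {X : Type u} [MetricSpace X] [MeasurableSpace X] [BorelSpace X] {k : ℕ}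

/-- majorant metrics pull back: at a.e. `y ∈ B`, `χ` is differentiable,
`χ w - χ y = D (w - y) + o(w - y)`; use `sqrt_qf_add_le`, `qf_conj`, `cm_mulVec`, `ae_param`. -/
theorem ae_majAt_param {n : ℕ} {B E : Set (Euc n)} (hB : MeasurableSet B) (hE : MeasurableSet E)
    {χ : Euc n → Euc n} {K : ℝ≥0} (hχ : LipschitzWith K χ) {C : ℝ}
    (hC : ∀ z ∈ B, ∀ w ∈ B, dist z w ≤ C * dist (χ z) (χ w)) (hm : MapsTo χ B E)
    {φ : Euc n → X} {g : Euc n → Matrix (Fin n) (Fin n) ℝ} (hg : ∀ z, (g z).PosSemidef)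
    (h : ∀ᵐ z ∂(volume.restrict E), MajAt E φ (g z) z) :
    ∀ᵐ y ∂(volume.restrict B), MajAt B (fun w => φ (χ w))
      ((cm (fderiv ℝ χ y))ᵀ * g (χ y) * cm (fderiv ℝ χ y)) y := by
  filter_upwards [ae_param hB hE hC hm h, ae_restrict_of_ae (hχ.ae_differentiableAt (μ := volume))]
    with y h1 h2 ε hε
  obtain ⟨c, hc0, hc⟩ := sqrt_qf_add_le (hg (χ y))
  have hK : (0 : ℝ) ≤ K := K.coe_nonneg
  have ht : Tendsto χ (𝓝[B] y) (𝓝[E] (χ y)) :=
    (hχ.continuous.continuousWithinAt (s := B) (x := y)).tendsto_nhdsWithin hm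
  have h3 := ht.eventually (h1 (ε / 2 / (K + 1)) (by positivity))
  have h4 := (h2.hasFDerivAt.isLittleO.def
    (show 0 < ε / 2 / (c + 1) by positivity)).filter_mono (nhdsWithin_le_nhds (s := B))
  filter_upwards [h3, h4] with w h5 h6
  rw [qf_conj, cm_mulVec]
  have h7 := hc (fderiv ℝ χ y (w - y)) (χ w - χ y - fderiv ℝ χ y (w - y))
  rw [add_sub_cancel] at h7
  have h8 : ‖χ w - χ y‖ ≤ K * ‖w - y‖ := by
    simpa only [dist_eq_norm] using hχ.dist_le_mul w y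
  have hn := norm_nonneg (w - y)
  have h9 : ε / 2 / (K + 1) * ‖χ w - χ y‖ ≤ ε / 2 * ‖w - y‖ := by
    calc _ ≤ ε / 2 / (K + 1) * ((K + 1) * ‖w - y‖) :=
          mul_le_mul_of_nonneg_left (h8.trans (by nlinarith)) (by positivity)
      _ = _ := by field_simp
  have h10 : c * ‖χ w - χ y - fderiv ℝ χ y (w - y)‖ ≤ ε / 2 * ‖w - y‖ := by
    calc _ ≤ (c + 1) * (ε / 2 / (c + 1) * ‖w - y‖) :=
          mul_le_mul (by linarith) h6 (norm_nonneg _) (by linarith)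
      _ = _ := by field_simp
  linarith

/-- parametrisations of all charts of `C` adapted to `ρ`. -/
structure Par (C : Chain X (k + 1)) (ρ : X → ℝ) where
  B : C.ι → Fin (k + 1) × ℕ → Set (Euc (k + 1))
  χ : C.ι → Fin (k + 1) × ℕ → Euc (k + 1) → Euc (k + 1)
  mB : ∀ i n, MeasurableSet (B i n)
  bB : ∀ i n, Bornology.IsBounded (B i n)
  lip : ∀ i n, ∃ K : ℝ≥0, LipschitzWith K (χ i n)
  colip : ∀ i n, ∃ c : ℝ, ∀ z ∈ B i n, ∀ w ∈ B i n, dist z w ≤ c * dist (χ i n z) (χ i n w)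
  maps : ∀ i n, MapsTo (χ i n) (B i n) (C.E i)
  mA : ∀ i n, MeasurableSet (χ i n '' B i n)
  disj : ∀ i, Pairwise (Function.onFun Disjoint fun n => χ i n '' B i n)
  coord : ∀ i n, ∀ y ∈ B i n, ρ (C.φ i (χ i n y)) = y 0
  rest : ∀ i, ∀ᵐ z ∂(volume.restrict (C.E i)),
    z ∉ (⋃ n, χ i n '' B i n) → dW (C.E i) (C.φ i) ρ z = 0

theorem exists_par (C : Chain X (k + 1)) {ρ : X → ℝ} (hρ : Lip ρ) : Nonempty (Par C ρ) := by
  obtain ⟨K, hK⟩ := hρ
  have h : ∀ i, ∃ L : ℝ≥0, LipschitzOnWith L (fun w => ρ (C.φ i w)) (C.E i) := fun i => by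
    obtain ⟨L, hL⟩ := C.lip i
    exact ⟨_, hK.comp_lipschitzOnWith hL⟩
  choose L hL using h
  choose B χ h1 h2 h3 h4 h5 h6 h7 h8 h9 using fun i => exists_param (C.mE i) (C.bE i) (hL i)
  exact ⟨⟨B, χ, h1, h2, h3, h4, h5, h6, h7, h8, h9⟩⟩

/-- the sign, with values in `{1, -1}`. -/
noncomputable def sg (x : ℝ) : ℤ := if 0 ≤ x then 1 else -1

theorem measurable_sg : Measurable sg :=
  Measurable.ite measurableSet_Ici measurable_const measurable_const

theorem sg_mul_self (x : ℝ) : (sg x : ℝ) * x = |x| := by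
  unfold sg
  split_ifs with h
  · simp [abs_of_nonneg h]
  · simp [abs_of_neg (not_le.1 h)]

theorem abs_sg (x : ℝ) : |(sg x : ℝ)| = 1 := by
  unfold sg
  split_ifs <;> simp

namespace Par
variable {C : Chain X (k + 1)} {ρ : X → ℝ} (P : Par C ρ)

/-- the Jacobian matrix of the parametrisation. -/
noncomputable def M (n : C.ι × Fin (k + 1) × ℕ) (y : Euc (k + 1)) :
    Matrix (Fin (k + 1)) (Fin (k + 1)) ℝ := cm (fderiv ℝ (P.χ n.1 n.2) y)

noncomputable def θ (n : C.ι × Fin (k + 1) × ℕ) (y : Euc (k + 1)) : ℤ :=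
  C.θ n.1 (P.χ n.1 n.2 y) * sg (P.M n y).det

noncomputable def g (n : C.ι × Fin (k + 1) × ℕ) (y : Euc (k + 1)) :
    Matrix (Fin (k + 1)) (Fin (k + 1)) ℝ := (P.M n y)ᵀ * C.g n.1 (P.χ n.1 n.2 y) * P.M n y

theorem lip' (n : C.ι × Fin (k + 1) × ℕ) :
    ∃ L : ℝ≥0, LipschitzOnWith L (fun y => C.φ n.1 (P.χ n.1 n.2 y)) (P.B n.1 n.2) := by
  obtain ⟨L, hL⟩ := C.lip n.1
  obtain ⟨K, hK⟩ := P.lip n.1 n.2
  exact ⟨_, hL.comp hK.lipschitzOnWith (P.maps n.1 n.2)⟩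

theorem measurable_θ (n : C.ι × Fin (k + 1) × ℕ) : Measurable (P.θ n) := by
  obtain ⟨K, hK⟩ := P.lip n.1 n.2
  exact ((C.mθ n.1).comp hK.continuous.measurable).mul
    (measurable_sg.comp (measurable_det (measurable_cm_fderiv (P.χ n.1 n.2))))

theorem integrableOn_θ (n : C.ι × Fin (k + 1) × ℕ) :
    IntegrableOn (fun y => (P.θ n y : ℝ)) (P.B n.1 n.2) := by
  obtain ⟨K, hK⟩ := P.lip n.1 n.2
  obtain ⟨c, hc⟩ := P.colip n.1 n.2
  have h := integrableOn_param (P.mB n.1 n.2) hK hc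
    ((C.iθ n.1).mono_set (P.maps n.1 n.2).image_subset)
  refine Integrable.mono h
    ((measurable_of_countable (fun m : ℤ => (m : ℝ))).comp (P.measurable_θ n)).aestronglyMeasurable
    (.of_forall fun y => le_of_eq ?_)
  simp only [θ, Int.cast_mul, Real.norm_eq_abs, abs_mul, abs_sg, mul_one]

theorem measurable_g (n : C.ι × Fin (k + 1) × ℕ) (a b : Fin (k + 1)) :
    Measurable fun y => P.g n y a b := by
  obtain ⟨K, hK⟩ := P.lip n.1 n.2
  simp only [g, M, Matrix.mul_apply, Matrix.transpose_apply]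
  refine Finset.measurable_sum _ fun c _ => Measurable.mul (Finset.measurable_sum _ fun d _ => ?_)
    (measurable_cm_fderiv _ _ _)
  exact (measurable_cm_fderiv _ _ _).mul ((C.mg n.1 d c).comp hK.continuous.measurable)

theorem wt_eq (n : C.ι × Fin (k + 1) × ℕ) (y : Euc (k + 1)) :
    |(P.θ n y : ℝ)| * √(P.g n y).det = |(P.M n y).det| * C.wt n.1 (P.χ n.1 n.2 y) := by
  simp only [θ, g, Chain.wt, Int.cast_mul, abs_mul, abs_sg, mul_one, sqrt_det_conj]
  ring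

/-- sums over the pieces are bounded by the sums over the charts (`ENNReal.tsum_prod`,
`lintegral_iUnion`, `lintegral_mono_set`). -/
theorem tsum_pieces_le (h : C.ι → Euc (k + 1) → ℝ≥0∞) :
    ∑' n : C.ι × Fin (k + 1) × ℕ, ∫⁻ x in P.χ n.1 n.2 '' P.B n.1 n.2, h n.1 x ≤
      ∑' i, ∫⁻ x in C.E i, h i x := by
  rw [ENNReal.tsum_prod']
  refine ENNReal.tsum_le_tsum fun i => ?_
  dsimp only
  rw [← lintegral_iUnion (P.mA i) (P.disj i)]
  exact lintegral_mono_set (iUnion_subset fun n => (P.maps i n).image_subset)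

theorem fin' : ∑' n : C.ι × Fin (k + 1) × ℕ, ∫⁻ y in P.B n.1 n.2,
    ENNReal.ofReal (|(P.θ n y : ℝ)| * √(P.g n y).det) ≠ ⊤ := by
  refine ne_top_of_le_ne_top C.fin (le_trans (le_of_eq (tsum_congr fun n => ?_))
    (P.tsum_pieces_le fun i x => ENNReal.ofReal (C.wt i x)))
  obtain ⟨K, hK⟩ := P.lip n.1 n.2
  obtain ⟨c, hc⟩ := P.colip n.1 n.2
  rw [lintegral_param (P.mB n.1 n.2) hK hc]
  refine lintegral_congr fun y => ?_
  rw [P.wt_eq, ENNReal.ofReal_mul (abs_nonneg _)]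
  rfl

/-- the reparametrised chain. -/
noncomputable def chain : Chain X (k + 1) where
  ι := C.ι × Fin (k + 1) × ℕ
  cnt := by have := C.cnt; infer_instance
  E n := P.B n.1 n.2
  φ n y := C.φ n.1 (P.χ n.1 n.2 y)
  θ := P.θ
  g := P.g
  mE n := P.mB n.1 n.2
  bE n := P.bB n.1 n.2
  lip := P.lip'
  mθ := P.measurable_θ
  iθ := P.integrableOn_θ
  mg := P.measurable_g
  psd n y := psd_conj (C.psd n.1 _) _
  maj n := by
    obtain ⟨K, hK⟩ := P.lip n.1 n.2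
    obtain ⟨c, hc⟩ := P.colip n.1 n.2
    exact ae_majAt_param (P.mB n.1 n.2) (C.mE n.1) hK hc (P.maps n.1 n.2) (C.psd n.1) (C.maj n.1)
  fin := P.fin'

theorem chain_in {A : Set X} (h : C.In A) : P.chain.In A := fun n y hy =>
  h n.1 _ (P.maps n.1 n.2 hy)

/-- `ae_cv_comp` for `u = v ∘ φ`. -/
theorem ae_dv (n : C.ι × Fin (k + 1) × ℕ) {v : X → ℝ} (hv : Lip v) :
    ∀ᵐ y ∂(volume.restrict (P.B n.1 n.2)), dv (P.chain.E n) (P.chain.φ n) v y =
      dv (C.E n.1) (C.φ n.1) v (P.χ n.1 n.2 y) ᵥ* P.M n y := by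
  obtain ⟨K, hK⟩ := P.lip n.1 n.2
  obtain ⟨c, hc⟩ := P.colip n.1 n.2
  obtain ⟨Kv, hKv⟩ := hv
  obtain ⟨L, hL⟩ := C.lip n.1
  exact ae_cv_comp (P.mB n.1 n.2) hK hc (P.maps n.1 n.2) (u := fun w => v (C.φ n.1 w))
    (hKv.comp_lipschitzOnWith hL)

/-- `ae_dv`, `det_vecMul`, `sg_mul_self`, `integral_param`. -/
theorem integral_term (n : C.ι × Fin (k + 1) × ℕ) (F : X → ℝ) {τ : Fin (k + 1) → X → ℝ}
    (hτ : ∀ a, Lip (τ a)) :
    ∫ y in P.chain.E n, term P.chain F τ n y =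
      ∫ x in P.χ n.1 n.2 '' P.B n.1 n.2, term C F τ n.1 x := by
  obtain ⟨K, hK⟩ := P.lip n.1 n.2
  obtain ⟨c, hc⟩ := P.colip n.1 n.2
  rw [integral_param (P.mB n.1 n.2) hK hc]
  refine integral_congr_ae ?_
  have h := ae_all_iff.2 fun a => P.ae_dv n (hτ a)
  filter_upwards [h] with y hy
  have hj : jdet (P.chain.E n) (P.chain.φ n) τ y =
      jdet (C.E n.1) (C.φ n.1) τ (P.χ n.1 n.2 y) * (P.M n y).det := by
    unfold jdet
    rw [← det_vecMul]
    congr 1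
    ext a b
    simp only [Matrix.of_apply]
    rw [hy a]
  have hθ : (P.chain.θ n y : ℝ) = (C.θ n.1 (P.χ n.1 n.2 y) : ℝ) * (sg (P.M n y).det : ℝ) := by
    change ((C.θ n.1 (P.χ n.1 n.2 y) * sg (P.M n y).det : ℤ) : ℝ) = _
    push_cast
    rfl
  have hφ : P.chain.φ n y = C.φ n.1 (P.χ n.1 n.2 y) := rfl
  have hs := sg_mul_self (P.M n y).det
  change term P.chain F τ n y = |(P.M n y).det| * term C F τ n.1 (P.χ n.1 n.2 y)
  unfold term
  rw [hj, hθ, hφ, ← hs]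
  ring

/-- off the pieces the row `dρ` vanishes a.e.; `hasSum_integral_iUnion`, `Summable.tsum_prod`
(summability on the product index from `summable_term P.chain`). -/
theorem act_eq (hρ : Lip ρ) {F : X → ℝ} (hF : BM F) {π : Fin k → X → ℝ} (hπ : ∀ a, Lip (π a)) :
    P.chain.act F (Fin.cons ρ π) = C.act F (Fin.cons ρ π) := by
  have hτ := lip_cons hρ hπ
  have hsum := summable_term P.chain hF hτ
  rw [Sl.act_eq, Sl.act_eq]
  have hterm : ∀ n : C.ι × Fin (k + 1) × ℕ,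
      ∫ y in P.chain.E n, term P.chain F (Fin.cons ρ π) n y =
        ∫ x in P.χ n.1 n.2 '' P.B n.1 n.2, term C F (Fin.cons ρ π) n.1 x :=
    fun n => P.integral_term n F hτ
  have hi : ∀ i : C.ι, HasSum (fun m : Fin (k + 1) × ℕ =>
      ∫ x in P.χ i m '' P.B i m, term C F (Fin.cons ρ π) i x)
      (∫ z in C.E i, term C F (Fin.cons ρ π) i z) := by
    intro i
    have hsub : (⋃ m, P.χ i m '' P.B i m) ⊆ C.E i :=
      iUnion_subset fun m => (P.maps i m).image_subset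
    have hint := integrableOn_term C i hF hτ
    have h1 := hasSum_integral_iUnion (μ := volume) (f := term C F (Fin.cons ρ π) i)
      (P.mA i) (P.disj i) (hint.mono_set hsub)
    have h2 : ∫ z in C.E i, term C F (Fin.cons ρ π) i z =
        ∫ z in ⋃ m, P.χ i m '' P.B i m, term C F (Fin.cons ρ π) i z := by
      refine setIntegral_eq_of_subset_of_ae_diff_eq_zero (C.mE i).nullMeasurableSet hsub ?_
      have hr := (ae_restrict_iff' (C.mE i)).1 (P.rest i)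
      filter_upwards [hr] with z hz hzm
      have h0 : dW (C.E i) (C.φ i) ρ z = 0 := hz hzm.1 hzm.2
      have hj : jdet (C.E i) (C.φ i) (Fin.cons ρ π) z = 0 := by
        unfold jdet
        refine Matrix.det_eq_zero_of_row_eq_zero 0 fun b => ?_
        simp [dv, cv, h0]
      simp [term, hj]
    rw [h2]
    exact h1
  have hs2 : Summable fun n : C.ι × Fin (k + 1) × ℕ =>
      ∫ x in P.χ n.1 n.2 '' P.B n.1 n.2, term C F (Fin.cons ρ π) n.1 x :=
    hsum.congr hterm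
  calc ∑' n : C.ι × Fin (k + 1) × ℕ, ∫ y in P.chain.E n, term P.chain F (Fin.cons ρ π) n y
      = ∑' n : C.ι × Fin (k + 1) × ℕ,
          ∫ x in P.χ n.1 n.2 '' P.B n.1 n.2, term C F (Fin.cons ρ π) n.1 x := tsum_congr hterm
    _ = ∑' i : C.ι, ∑' m : Fin (k + 1) × ℕ,
          ∫ x in P.χ i m '' P.B i m, term C F (Fin.cons ρ π) i x :=
        hs2.tsum_prod' fun i => (hi i).summable
    _ = ∑' i, ∫ z in C.E i, term C F (Fin.cons ρ π) i z := tsum_congr fun i => (hi i).tsum_eq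

/-- `ae_dv`, `inv_form_conj`, `ae_det_cm_ne_zero`, `wt_eq`, `lintegral_param`, `tsum_pieces_le`. -/
theorem Jh_le (hρ : Lip ρ) (h : X → ℝ≥0∞) : Jh P.chain ρ h ≤ Jh C ρ h := by
  refine le_trans (le_of_eq ?_) (P.tsum_pieces_le fun i z =>
    h (C.φ i z) * ENNReal.ofReal (C.wt i z * √(C.G ρ ρ i z)))
  unfold Jh
  refine tsum_congr fun n => ?_
  obtain ⟨K, hK⟩ := P.lip n.1 n.2
  obtain ⟨c, hc⟩ := P.colip n.1 n.2
  rw [lintegral_param (P.mB n.1 n.2) hK hc]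
  refine lintegral_congr_ae ?_
  filter_upwards [P.ae_dv n hρ, ae_det_cm_ne_zero (P.mB n.1 n.2) hK hc] with y h1 h2
  have hw : P.chain.wt n y = |(P.M n y).det| * C.wt n.1 (P.χ n.1 n.2 y) := P.wt_eq n y
  have hG : P.chain.G ρ ρ n y = C.G ρ ρ n.1 (P.χ n.1 n.2 y) := by
    unfold Chain.G gam
    rw [h1]
    exact inv_form_conj (C.g n.1 (P.χ n.1 n.2 y)) h2 _ _
  rw [hw, hG, mul_assoc, ENNReal.ofReal_mul (abs_nonneg _)]
  exact mul_left_comm _ _ _

theorem J_le (hρ : Lip ρ) (ψ : ℝ → ℝ≥0∞) : J P.chain ρ ψ ≤ J C ρ ψ :=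
  P.Jh_le hρ fun p => ψ (ρ p)

end Par

end Crest.Agent.R241.Sl
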